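import Vale.Agent.P157.Low.ParisiX

/-!
Gaussian smoothing of bounded Borel functions: derivatives, bounds, Parisi's recursion at the smoothed
potential, and convergence in mean.
-/

namespace Vale.Agent.P157.Low

open MeasureTheory ProbabilityTheory Filter Polynomial
open scoped Topology

/-- Continuous and bounded, with `n` derivatives of the same kind. -/
def BD : ℕ → (ℝ → ℝ) → Prop
  | 0, g => Continuous g ∧ ∃ C, ∀ x, |g x| ≤ C
  | n + 1, g => Differentiable ℝ g ∧ (∃ C, ∀ x, |g x| ≤ C) ∧ BD n (deriv g)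

namespace BD

variable {g h : ℝ → ℝ}

lemma bdd : ∀ {n : ℕ}, BD n g → ∃ C, ∀ x, |g x| ≤ C
  | 0, hg => hg.2
  | _ + 1, hg => hg.2.1

lemma continuous : ∀ {n : ℕ}, BD n g → Continuous g
  | 0, hg => hg.1
  | _ + 1, hg => hg.1.continuous

lemma pred : ∀ {n : ℕ} {g : ℝ → ℝ}, BD (n + 1) g → BD n g
  | 0, _, hg => ⟨hg.1.continuous, hg.2.1⟩
  | _ + 1, _, hg => ⟨hg.1, hg.2.1, pred hg.2.2⟩

lemma add : ∀ {n : ℕ} {g h : ℝ → ℝ}, BD n g → BD n h → BD n fun x => g x + h x
  | 0, _, _, hg, hh => by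
    obtain ⟨C, hC⟩ := hg.2
    obtain ⟨C', hC'⟩ := hh.2
    exact ⟨hg.1.add hh.1, C + C', fun x => (abs_add_le _ _).trans (add_le_add (hC x) (hC' x))⟩
  | n + 1, g, h, hg, hh => by
    obtain ⟨C, hC⟩ := hg.2.1
    obtain ⟨C', hC'⟩ := hh.2.1
    refine ⟨hg.1.add hh.1, ⟨C + C', fun x => (abs_add_le _ _).trans (add_le_add (hC x) (hC' x))⟩, ?_⟩
    rw [show deriv (fun x => g x + h x) = fun x => deriv g x + deriv h x from
      funext fun x => ((hg.1 x).hasDerivAt.add (hh.1 x).hasDerivAt).deriv]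
    exact add hg.2.2 hh.2.2

lemma mul : ∀ {n : ℕ} {g h : ℝ → ℝ}, BD n g → BD n h → BD n fun x => g x * h x
  | 0, _, _, hg, hh => by
    obtain ⟨C, hC⟩ := hg.2
    obtain ⟨C', hC'⟩ := hh.2
    exact ⟨hg.1.mul hh.1, C * C', fun x => by
      rw [abs_mul]; exact mul_le_mul (hC x) (hC' x) (abs_nonneg _) ((abs_nonneg _).trans (hC x))⟩
  | n + 1, g, h, hg, hh => by
    obtain ⟨C, hC⟩ := hg.2.1
    obtain ⟨C', hC'⟩ := hh.2.1
    refine ⟨hg.1.mul hh.1, ⟨C * C', fun x => by
      rw [abs_mul]; exact mul_le_mul (hC x) (hC' x) (abs_nonneg _) ((abs_nonneg _).trans (hC x))⟩, ?_⟩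
    rw [show deriv (fun x => g x * h x) = fun x => deriv g x * h x + g x * deriv h x from
      funext fun x => ((hg.1 x).hasDerivAt.mul (hh.1 x).hasDerivAt).deriv]
    exact add (mul hg.2.2 hh.pred) (mul hg.pred hh.2.2)

lemma const : ∀ {n : ℕ} (c : ℝ), BD n fun _ => c
  | 0, c => ⟨continuous_const, |c|, fun _ => le_rfl⟩
  | n + 1, c => ⟨differentiable_const c, ⟨|c|, fun _ => le_rfl⟩, by rw [deriv_const']; exact const 0⟩

lemma inv : ∀ {n : ℕ} {g : ℝ → ℝ} {δ : ℝ}, BD n g → 0 < δ → (∀ x, δ ≤ g x) → BD n fun x => (g x)⁻¹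
  | 0, g, δ, hg, hδ, hb => ⟨hg.1.inv₀ fun x => (hδ.trans_le (hb x)).ne', δ⁻¹, fun x => by
      rw [abs_inv, abs_of_pos (hδ.trans_le (hb x))]; exact inv_anti₀ hδ (hb x)⟩
  | n + 1, g, δ, hg, hδ, hb => by
    have hne : ∀ x, g x ≠ 0 := fun x => (hδ.trans_le (hb x)).ne'
    refine ⟨hg.1.inv hne, ⟨δ⁻¹, fun x => by
      rw [abs_inv, abs_of_pos (hδ.trans_le (hb x))]; exact inv_anti₀ hδ (hb x)⟩, ?_⟩
    rw [show deriv (fun x => (g x)⁻¹) = fun x => -1 * (deriv g x * ((g x)⁻¹ * (g x)⁻¹)) from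
      funext fun x => ((hg.1 x).hasDerivAt.inv (hne x)).deriv.trans (by
        simp [div_eq_mul_inv, sq, mul_inv])]
    have hi := inv hg.pred hδ hb
    exact mul (const _) (mul hg.2.2 (mul hi hi))

lemma comp_mul : ∀ {n : ℕ} {g : ℝ → ℝ} (a : ℝ), BD n g → BD n fun x => g (a * x)
  | 0, g, a, hg => by
    obtain ⟨C, hC⟩ := hg.2
    exact ⟨hg.1.comp (by fun_prop), C, fun x => hC _⟩
  | n + 1, g, a, hg => by
    obtain ⟨C, hC⟩ := hg.2.1
    refine ⟨hg.1.comp (by fun_prop), ⟨C, fun x => hC _⟩, ?_⟩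
    rw [show deriv (fun x => g (a * x)) = fun x => deriv g (a * x) * a from funext fun x =>
      HasDerivAt.deriv ((hg.1 (a * x)).hasDerivAt.comp x (by simpa using (hasDerivAt_id x).const_mul a))]
    exact mul (comp_mul a hg.2.2) (const a)

lemma contDiff : ∀ {n : ℕ} {g : ℝ → ℝ}, BD n g → ContDiff ℝ n g
  | 0, g, hg => contDiff_zero.2 hg.1
  | n + 1, g, hg => by
    rw [show ((n + 1 : ℕ) : WithTop ℕ∞) = (n : WithTop ℕ∞) + 1 by push_cast; rfl, contDiff_succ_iff_deriv]
    exact ⟨hg.1, fun h => absurd h (by simp), contDiff hg.2.2⟩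

lemma iteratedDeriv_bdd : ∀ {n : ℕ} {g : ℝ → ℝ}, BD n g → ∀ k ≤ n, ∃ C, ∀ x, |iteratedDeriv k g x| ≤ C
  | _, g, hg, 0, _ => by
    obtain ⟨C, hC⟩ := hg.bdd
    exact ⟨C, fun x => by simpa using hC x⟩
  | 0, _, _, k + 1, hk => absurd hk (by omega)
  | n + 1, g, hg, k + 1, hk => by
    rw [iteratedDeriv_succ']
    exact iteratedDeriv_bdd hg.2.2 k (by omega)

lemma smf {g : ℝ → ℝ} (hg : BD 5 g) : Smf g := by
  refine ⟨by simpa using hg.contDiff, ?_⟩
  choose C hC using fun k : Fin 6 => hg.iteratedDeriv_bdd k (by omega)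
  refine ⟨∑ k, |C k|, fun k hk x => ?_⟩
  exact ((hC ⟨k, by omega⟩ x).trans (le_abs_self _)).trans
    (Finset.single_le_sum (f := fun k => |C k|) (fun _ _ => abs_nonneg _) (Finset.mem_univ _))

end BD

lemma integrable_exp_abs (c : ℝ) : Integrable (fun z => Real.exp (c * |z|)) (gaussianReal 0 1) := by
  refine Integrable.mono' ((integrable_exp_mul_gaussianReal c).add (integrable_exp_mul_gaussianReal (-c)))
    (Continuous.aestronglyMeasurable (by fun_prop)) (Eventually.of_forall fun z => ?_)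
  rw [Real.norm_eq_abs, Real.abs_exp, Pi.add_apply]
  rcases abs_cases z with ⟨h, _⟩ | ⟨h, _⟩ <;> rw [h]
  · linarith [Real.exp_pos (-c * z)]
  · rw [mul_neg, ← neg_mul]; linarith [Real.exp_pos (c * z)]

lemma abs_eval_le (p : ℝ[X]) : ∃ C, 0 ≤ C ∧ ∀ z, |p.eval z| ≤ C * Real.exp |z| := by
  induction p using Polynomial.induction_on' with
  | add p q hp hq =>
    obtain ⟨C, hC0, hC⟩ := hp
    obtain ⟨C', hC0', hC'⟩ := hq
    exact ⟨C + C', add_nonneg hC0 hC0', fun z => by
      rw [eval_add, add_mul]; exact (abs_add_le _ _).trans (add_le_add (hC z) (hC' z))⟩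
  | monomial i a =>
    refine ⟨|a| * (Nat.factorial i : ℝ), by positivity, fun z => ?_⟩
    rw [eval_monomial, abs_mul, abs_pow, mul_assoc]
    refine mul_le_mul_of_nonneg_left ?_ (abs_nonneg a)
    rw [← div_le_iff₀' (by positivity)]
    exact Real.pow_div_factorial_le_exp _ (abs_nonneg z) i

lemma integrable_eval_gauss (p : ℝ[X]) : Integrable (fun z => p.eval z) (gaussianReal 0 1) := by
  obtain ⟨C, -, hC⟩ := abs_eval_le p
  exact Integrable.mono' ((integrable_exp_abs 1).const_mul C) p.continuous.aestronglyMeasurable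
    (Eventually.of_forall fun z => by simpa using hC z)

/-- A Gaussian average of `W` at scale `σ` against a polynomial. -/
noncomputable def gsm (W : ℝ → ℝ) (σ : ℝ) (p : ℝ[X]) (x : ℝ) : ℝ :=
  ∫ z, W (x + σ * z) * p.eval z ∂gaussianReal 0 1

section gsm

variable {W : ℝ → ℝ} {C : ℝ}

lemma integrable_gsm (hW : Measurable W) (hC : ∀ x, |W x| ≤ C) (σ x : ℝ) (p : ℝ[X]) :
    Integrable (fun z => W (x + σ * z) * p.eval z) (gaussianReal 0 1) := by
  refine (((integrable_eval_gauss p).norm).const_mul C).mono'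
    ((hW.comp (by fun_prop)).mul p.continuous.measurable).aestronglyMeasurable (Eventually.of_forall fun z => ?_)
  rw [norm_mul]
  exact mul_le_mul_of_nonneg_right ((Real.norm_eq_abs _).le.trans (hC _)) (norm_nonneg _)

lemma abs_gsm_le (hC : ∀ x, |W x| ≤ C) (σ x : ℝ) (p : ℝ[X]) :
    |gsm W σ p x| ≤ C * ∫ z, |p.eval z| ∂gaussianReal 0 1 := by
  rw [← integral_const_mul, ← Real.norm_eq_abs]
  refine norm_integral_le_of_norm_le (((integrable_eval_gauss p).abs).const_mul C)
    (Eventually.of_forall fun z => ?_)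
  rw [Real.norm_eq_abs, abs_mul]
  exact mul_le_mul_of_nonneg_right (hC _) (abs_nonneg _)

lemma hasDerivAt_gsm (hW : Measurable W) (hC : ∀ x, |W x| ≤ C) {σ : ℝ} (hσ : σ ≠ 0) (p : ℝ[X]) (x : ℝ) :
    HasDerivAt (gsm W σ p) (σ⁻¹ * gsm W σ (X * p - derivative p) x) x := by
  set q := X * p - derivative p with hq
  set k := σ⁻¹ with hk
  have hσk : σ * k = 1 := mul_inv_cancel₀ hσ
  set E : ℝ → ℝ → ℝ := fun h z => Real.exp ((h * k) * z - (h * k) ^ 2 / 2) with hE
  have hshift : ∀ h, gsm W σ p (x + h) =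
      ∫ z, W (x + σ * z) * E h z * p.eval (z - h * k) ∂gaussianReal 0 1 := fun h => by
    have e : ∀ z, W (x + σ * z) * E h z * p.eval (z - h * k) =
        Real.exp (-((h * k) ^ 2 / 2)) *
          (Real.exp ((h * k) * z) * (W (x + σ * z) * p.eval (z - h * k))) := fun z => by
      simp only [hE, sub_eq_add_neg _ ((h * k) ^ 2 / 2), Real.exp_add]; ring
    simp only [e]
    rw [integral_const_mul, gauss_tilt (fun z => W (x + σ * z) * p.eval (z - h * k)), ← mul_assoc,
      ← Real.exp_add, neg_add_cancel, Real.exp_zero, one_mul, gsm]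
    refine integral_congr_ae (Eventually.of_forall fun z => ?_)
    simp only [add_sub_cancel_right]
    rw [mul_add σ, mul_left_comm σ h k, hσk, mul_one, add_comm (σ * z) h, ← add_assoc]
  obtain ⟨D, hD0, hD⟩ := abs_eval_le q
  have hC0 : 0 ≤ C := (abs_nonneg _).trans (hC 0)
  have hWm : Measurable fun z => W (x + σ * z) := hW.comp (by fun_prop)
  have hd := (hasDerivAt_integral_of_dominated_loc_of_deriv_le (μ := gaussianReal 0 1)
    (F := fun h z => W (x + σ * z) * E h z * p.eval (z - h * k))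
    (F' := fun h z => W (x + σ * z) * (k * (E h z * q.eval (z - h * k))))
    (x₀ := 0) (s := Metric.ball 0 1)
    (bound := fun z => C * (|k| * D * Real.exp |k|) * Real.exp ((|k| + 1) * |z|))
    (Metric.ball_mem_nhds _ one_pos)
    (Eventually.of_forall fun h => ((hWm.mul (by fun_prop)).mul
      (p.continuous.measurable.comp (by fun_prop))).aestronglyMeasurable)
    (by simpa [hE] using integrable_gsm hW hC σ x p)
    ((hWm.mul (((by fun_prop : Measurable fun z => E 0 z).mul
      (q.continuous.measurable.comp (by fun_prop))).const_mul k)).aestronglyMeasurable)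
    (Eventually.of_forall fun z h hh => ?_) ((integrable_exp_abs _).const_mul _)
    (Eventually.of_forall fun z h _ => ?_)).2
  · have e0 : ∫ z, W (x + σ * z) * (k * (E 0 z * q.eval (z - 0 * k))) ∂gaussianReal 0 1 = k * gsm W σ q x := by
      rw [gsm, ← integral_const_mul]
      refine integral_congr_ae (Eventually.of_forall fun z => ?_)
      simp [hE]
      ring
    rw [e0, show (fun h => ∫ z, W (x + σ * z) * E h z * p.eval (z - h * k) ∂gaussianReal 0 1) =
      fun h => gsm W σ p (x + h) from funext fun h => (hshift h).symm] at hd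
    have := HasDerivAt.comp x (h := fun y => y - x) (h₂ := fun h => gsm W σ p (x + h)) (by simpa using hd)
      ((hasDerivAt_id x).sub_const x)
    simpa [Function.comp_def] using this
  · have hh1 : |h| ≤ 1 := by
      rw [Metric.mem_ball, dist_zero_right, Real.norm_eq_abs] at hh; exact hh.le
    have hhk : |h * k| ≤ |k| := by
      rw [abs_mul]; exact mul_le_of_le_one_left (abs_nonneg k) hh1
    have hEb : E h z ≤ Real.exp (|k| * |z|) := Real.exp_le_exp.2 (by
      have := (le_abs_self ((h * k) * z)).trans_eq (abs_mul _ _)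
      nlinarith [sq_nonneg (h * k), mul_le_mul_of_nonneg_right hhk (abs_nonneg z)])
    have hqb : |q.eval (z - h * k)| ≤ D * (Real.exp |z| * Real.exp |k|) := by
      refine (hD _).trans (mul_le_mul_of_nonneg_left ?_ hD0)
      rw [← Real.exp_add]
      exact Real.exp_le_exp.2 ((abs_sub _ _).trans (by linarith))
    rw [Real.norm_eq_abs, abs_mul, abs_mul, abs_mul, Real.abs_exp]
    calc |W (x + σ * z)| * (|k| * (E h z * |q.eval (z - h * k)|))
        ≤ C * (|k| * (Real.exp (|k| * |z|) * (D * (Real.exp |z| * Real.exp |k|)))) := by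
          gcongr
          exact hC _
      _ = _ := by rw [add_mul, one_mul, Real.exp_add]; ring
  · have h1 : HasDerivAt (fun h => E h z) (E h z * (k * (z - h * k))) h := by
      have := (((hasDerivAt_id h).mul_const k).mul_const z).sub
        ((((hasDerivAt_id h).mul_const k).pow 2).div_const 2)
      refine (this.exp).congr_deriv ?_
      simp [hE]
      ring
    have h2 : HasDerivAt (fun h => p.eval (z - h * k)) (-k * (derivative p).eval (z - h * k)) h := by
      have := (p.hasDerivAt (z - h * k)).comp h (((hasDerivAt_id h).mul_const k).const_sub z)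
      simpa [mul_comm, Function.comp_def] using this
    refine (((h1.mul h2).const_mul (W (x + σ * z))).congr_of_eventuallyEq
      (Eventually.of_forall fun h => by simp only [Pi.mul_apply]; ring)).congr_deriv ?_
    simp only [hq, eval_sub, eval_mul, eval_X]
    ring

lemma bd_gsm (hW : Measurable W) (hC : ∀ x, |W x| ≤ C) {σ : ℝ} (hσ : σ ≠ 0) :
    ∀ (n : ℕ) (p : ℝ[X]), BD n (gsm W σ p) := by
  intro n
  induction n with
  | zero =>
    exact fun p => ⟨continuous_iff_continuousAt.2 fun x => (hasDerivAt_gsm hW hC hσ p x).continuousAt,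
      _, fun x => abs_gsm_le hC σ x p⟩
  | succ n ih =>
    intro p
    refine ⟨fun x => (hasDerivAt_gsm hW hC hσ p x).differentiableAt, ⟨_, fun x => abs_gsm_le hC σ x p⟩, ?_⟩
    rw [show deriv (gsm W σ p) = fun x => σ⁻¹ * gsm W σ (X * p - derivative p) x from
      funext fun x => (hasDerivAt_gsm hW hC hσ p x).deriv]
    exact BD.mul (BD.const _) (ih _)

lemma gsm_one (W : ℝ → ℝ) (σ x : ℝ) : gsm W σ 1 x = ∫ z, W (x + σ * z) ∂gaussianReal 0 1 := by
  simp [gsm]

lemma gsm_X (W : ℝ → ℝ) (σ x : ℝ) : gsm W σ X x = ∫ z, z * W (x + σ * z) ∂gaussianReal 0 1 := by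
  simp [gsm, mul_comm]

lemma hasDerivAt_gsm_one (hW : Measurable W) (hC : ∀ x, |W x| ≤ C) {σ : ℝ} (hσ : σ ≠ 0) (x : ℝ) :
    HasDerivAt (gsm W σ 1) (σ⁻¹ * gsm W σ X x) x := by
  simpa using hasDerivAt_gsm hW hC hσ 1 x

end gsm

/-- The sum of two independent Gaussian variables. -/
lemma gauss_merge {H : ℝ → ℝ} (hH : Measurable H) {a b c : ℝ} (habc : a ^ 2 + b ^ 2 = c ^ 2)
    (hi : Integrable (fun u => H (c * u)) (gaussianReal 0 1)) :
    Integrable (fun z => ∫ w, H (a * z + b * w) ∂gaussianReal 0 1) (gaussianReal 0 1) ∧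
      ∫ z, ∫ w, H (a * z + b * w) ∂gaussianReal 0 1 ∂gaussianReal 0 1 =
        ∫ u, H (c * u) ∂gaussianReal 0 1 := by
  have hg := gauss_add (E := ℝ) habc
  simp only [smul_eq_mul, RSB.stdGaussian_real] at hg
  have hm : Measurable fun p : ℝ × ℝ => a * p.1 + b * p.2 := by fun_prop
  have hc : Measurable fun u : ℝ => c * u := by fun_prop
  have hi1 : Integrable H ((gaussianReal 0 1).map fun u => c * u) :=
    (integrable_map_measure hH.aestronglyMeasurable hc.aemeasurable).2 hi
  rw [← hg] at hi1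
  have hi2 := hi1.comp_measurable hm
  refine ⟨hi2.integral_prod_left, ?_⟩
  rw [← integral_map hc.aemeasurable hH.aestronglyMeasurable, ← hg,
    integral_map hm.aemeasurable hH.aestronglyMeasurable]
  exact (integral_prod _ hi2).symm

/-- The smoothed potential. -/
noncomputable def fsm (f : ℝ → ℝ) (e : ℝ) (y : ℝ) : ℝ :=
  Real.log (gsm (fun x => Real.exp (f x)) (Real.sqrt e) 1 (Real.sqrt (1 - e) * y))

section fsm

variable {f : ℝ → ℝ} {B : ℝ}

lemma exp_f_bdd (hB : ∀ x, |f x| ≤ B) (x : ℝ) :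
    Real.exp (-B) ≤ Real.exp (f x) ∧ |Real.exp (f x)| ≤ Real.exp B :=
  ⟨Real.exp_le_exp.2 (abs_le.1 (hB x)).1, by
    rw [Real.abs_exp]; exact Real.exp_le_exp.2 (abs_le.1 (hB x)).2⟩

lemma gsm_exp_mem (hf : Measurable f) (hB : ∀ x, |f x| ≤ B) (σ x : ℝ) :
    Real.exp (-B) ≤ gsm (fun x => Real.exp (f x)) σ 1 x ∧
      gsm (fun x => Real.exp (f x)) σ 1 x ≤ Real.exp B := by
  have hi := integrable_gsm hf.exp (fun x => (exp_f_bdd hB x).2) σ x 1
  simp only [eval_one, mul_one] at hi
  rw [gsm_one]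
  constructor
  · refine le_trans (le_of_eq ?_) (integral_mono (integrable_const (Real.exp (-B))) hi
      fun z => (exp_f_bdd hB _).1)
    simp
  · refine (integral_mono hi (integrable_const (Real.exp B))
      fun z => (le_abs_self _).trans (exp_f_bdd hB _).2).trans (le_of_eq ?_)
    simp

lemma exp_fsm (hf : Measurable f) (hB : ∀ x, |f x| ≤ B) (e y : ℝ) :
    Real.exp (fsm f e y) = gsm (fun x => Real.exp (f x)) (Real.sqrt e) 1 (Real.sqrt (1 - e) * y) :=
  Real.exp_log ((Real.exp_pos _).trans_le (gsm_exp_mem hf hB _ _).1)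

lemma abs_fsm_le (hf : Measurable f) (hB : ∀ x, |f x| ≤ B) (e y : ℝ) : |fsm f e y| ≤ B := by
  obtain ⟨h1, h2⟩ := gsm_exp_mem hf hB (Real.sqrt e) (Real.sqrt (1 - e) * y)
  rw [abs_le, fsm, Real.le_log_iff_exp_le ((Real.exp_pos _).trans_le h1),
    Real.log_le_iff_le_exp ((Real.exp_pos _).trans_le h1)]
  exact ⟨h1, h2⟩

lemma smf_fsm (hf : Measurable f) (hB : ∀ x, |f x| ≤ B) {e : ℝ} (he : 0 < e) : Smf (fsm f e) := by
  have hσ : Real.sqrt e ≠ 0 := Real.sqrt_ne_zero'.2 he
  have hC : ∀ x, |Real.exp (f x)| ≤ Real.exp B := fun x => (exp_f_bdd hB x).2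
  set G := gsm (fun x => Real.exp (f x)) (Real.sqrt e) 1 with hG
  have hGpos : ∀ x, 0 < G x := fun x => (Real.exp_pos _).trans_le (gsm_exp_mem hf hB _ _).1
  have hGb : BD 5 fun y => G (Real.sqrt (1 - e) * y) := BD.comp_mul _ (bd_gsm hf.exp hC hσ 5 1)
  refine BD.smf ⟨fun y => (hGb.1 y).log (hGpos _).ne', ⟨B, abs_fsm_le hf hB e⟩, ?_⟩
  rw [show deriv (fsm f e) = fun y =>
      deriv (fun y => G (Real.sqrt (1 - e) * y)) y * (G (Real.sqrt (1 - e) * y))⁻¹ from
    funext fun y => ((hGb.1 y).hasDerivAt.log (hGpos _).ne').deriv.trans (div_eq_mul_inv _ _)]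
  exact BD.mul hGb.2.2 (BD.inv hGb.pred (Real.exp_pos (-B)) fun x => (gsm_exp_mem hf hB _ _).1)

/-! ### The recursion at the smoothed potential -/

/-- The levels seen by the original potential. -/
noncomputable def shrink (e : ℝ) (ls : List (ℝ × ℝ)) : List (ℝ × ℝ) :=
  ls.map fun p => (p.1, (1 - e) * p.2)

/-- Both smoothings together have scale `√((1 - e) S + e)`. -/
lemma gsm_merge (hf : Measurable f) (hB : ∀ x, |f x| ≤ B) {e S : ℝ} (he : 0 ≤ e) (he1 : e ≤ 1)
    (hS : 0 ≤ S) (x : ℝ) :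
    gsm (gsm (fun x => Real.exp (f x)) (Real.sqrt e) 1) (Real.sqrt (1 - e) * Real.sqrt S) 1 x =
      gsm (fun x => Real.exp (f x)) (Real.sqrt ((1 - e) * S + e)) 1 x := by
  have hsq : (Real.sqrt (1 - e) * Real.sqrt S) ^ 2 + Real.sqrt e ^ 2 = Real.sqrt ((1 - e) * S + e) ^ 2 := by
    rw [mul_pow, Real.sq_sqrt (by linarith), Real.sq_sqrt hS, Real.sq_sqrt he, Real.sq_sqrt (by nlinarith)]
  have hi := integrable_gsm hf.exp (fun x => (exp_f_bdd hB x).2) (Real.sqrt ((1 - e) * S + e)) x 1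
  simp only [eval_one, mul_one] at hi
  simp only [gsm_one]
  have h := (gauss_merge (H := fun t => Real.exp (f (x + t))) (hf.comp (by fun_prop)).exp hsq hi).2
  rw [← h]
  exact integral_congr_ae (Eventually.of_forall fun z => by simp only [add_assoc])

lemma rsbPot_fsm (hf : Measurable f) (hB : ∀ x, |f x| ≤ B) {e : ℝ} (he : 0 < e) (he1 : e < 1) {S : ℝ}
    (hS : 0 ≤ S) : ∀ (ls : List (ℝ × ℝ)) (y : ℝ),
    rsbPot (fsm f e) ls S y = rsbPot f (shrink e ls) ((1 - e) * S + e) (Real.sqrt (1 - e) * y)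
  | [], y => by
    have h := gsm_merge hf hB he.le he1.le hS (Real.sqrt (1 - e) * y)
    rw [gsm_one, gsm_one] at h
    simp only [shrink, List.map_nil, rsbPot, exp_fsm hf hB, ← h]
    congr 1
    exact integral_congr_ae (Eventually.of_forall fun z => by ring_nf)
  | (m, d) :: ls, y => by
    simp only [shrink, List.map_cons, rsbPot, rsbPot_fsm hf hB he he1 hS ls]
    rw [Real.sqrt_mul (by linarith : (0 : ℝ) ≤ 1 - e)]
    congr 2
    exact integral_congr_ae (Eventually.of_forall fun z => by simp only [shrink]; ring_nf)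

lemma rsbSlope_fsm (hf : Measurable f) (hB : ∀ x, |f x| ≤ B) {e : ℝ} (he : 0 < e) (he1 : e < 1) {S : ℝ}
    (hS : 0 < S) : ∀ (ls : List (ℝ × ℝ)) (y : ℝ), rsbSlope (fsm f e) ls S y =
      Real.sqrt (1 - e) * rsbSlope f (shrink e ls) ((1 - e) * S + e) (Real.sqrt (1 - e) * y)
  | [], y => by
    have hC : ∀ x, |Real.exp (f x)| ≤ Real.exp B := fun x => (exp_f_bdd hB x).2
    have hσ : Real.sqrt e ≠ 0 := Real.sqrt_ne_zero'.2 he
    have ha : Real.sqrt (1 - e) ≠ 0 := Real.sqrt_ne_zero'.2 (by linarith)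
    have hs : Real.sqrt S ≠ 0 := Real.sqrt_ne_zero'.2 hS
    have hρ : Real.sqrt ((1 - e) * S + e) ≠ 0 := Real.sqrt_ne_zero'.2 (by nlinarith)
    set G := gsm (fun x => Real.exp (f x)) (Real.sqrt e) 1 with hG
    have hGd := bd_gsm hf.exp hC hσ 1 1
    obtain ⟨CG, hCG⟩ := hGd.bdd
    have e1 : gsm G (Real.sqrt (1 - e) * Real.sqrt S) 1 =
        gsm (fun x => Real.exp (f x)) (Real.sqrt ((1 - e) * S + e)) 1 :=
      funext fun x => gsm_merge hf hB he.le he1.le hS.le x
    have d1 := hasDerivAt_gsm_one hGd.continuous.measurable hCG (mul_ne_zero ha hs) (Real.sqrt (1 - e) * y)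
    rw [e1] at d1
    have d2 := d1.unique (hasDerivAt_gsm_one hf.exp hC hρ (Real.sqrt (1 - e) * y))
    have h := gsm_merge hf hB he.le he1.le hS.le (Real.sqrt (1 - e) * y)
    rw [gsm_one, gsm_one] at h
    rw [gsm_X, gsm_X] at d2
    have eN : ∫ z, z * Real.exp (fsm f e (y + Real.sqrt S * z)) ∂gaussianReal 0 1 =
        ∫ z, z * G (Real.sqrt (1 - e) * y + Real.sqrt (1 - e) * Real.sqrt S * z) ∂gaussianReal 0 1 := by
      refine integral_congr_ae (Eventually.of_forall fun z => ?_)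
      simp only [exp_fsm hf hB, hG, mul_add, mul_assoc]
    have eD : ∫ z, Real.exp (fsm f e (y + Real.sqrt S * z)) ∂gaussianReal 0 1 =
        ∫ z, Real.exp (f (Real.sqrt (1 - e) * y + Real.sqrt ((1 - e) * S + e) * z)) ∂gaussianReal 0 1 := by
      rw [← h]
      refine integral_congr_ae (Eventually.of_forall fun z => ?_)
      simp only [exp_fsm hf hB]; ring_nf
    have alg : ∀ N1 N2 Z : ℝ, (Real.sqrt (1 - e) * Real.sqrt S)⁻¹ * N1 =
        (Real.sqrt ((1 - e) * S + e))⁻¹ * N2 →
        N1 / Real.sqrt S / Z = Real.sqrt (1 - e) * (N2 / Real.sqrt ((1 - e) * S + e) / Z) :=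
      fun N1 N2 Z h12 => by
        rw [div_eq_inv_mul N2, ← h12]
        field_simp
    simp only [shrink, List.map_nil, rsbSlope, eN, eD, hG]
    exact alg _ _ _ d2
  | (m, d) :: ls, y => by
    simp only [shrink, List.map_cons, rsbSlope, rsbPot_fsm hf hB he he1 hS.le ls,
      rsbSlope_fsm hf hB he he1 hS ls]
    rw [Real.sqrt_mul (by linarith : (0 : ℝ) ≤ 1 - e), mul_div_assoc', ← integral_const_mul]
    congr 1 <;> exact integral_congr_ae (Eventually.of_forall fun z => by ring_nf)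

lemma rsbSq_fsm (hf : Measurable f) (hB : ∀ x, |f x| ≤ B) {e : ℝ} (he : 0 < e) (he1 : e < 1) {S : ℝ}
    (hS : 0 < S) : ∀ (ls : List (ℝ × ℝ)) (j : ℕ) (y : ℝ), rsbSq (fsm f e) ls S j y =
      (1 - e) * rsbSq f (shrink e ls) ((1 - e) * S + e) j (Real.sqrt (1 - e) * y)
  | ls, 0, y => by
    simp only [rsbSq]
    rw [rsbSlope_fsm hf hB he he1 hS, mul_pow, Real.sq_sqrt (by linarith : (0 : ℝ) ≤ 1 - e)]
  | [], _ + 1, _ => by simp [shrink, rsbSq]
  | (m, d) :: ls, j + 1, y => by
    simp only [shrink, List.map_cons, rsbSq, rsbPot_fsm hf hB he he1 hS.le ls,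
      rsbSq_fsm hf hB he he1 hS ls j]
    rw [Real.sqrt_mul (by linarith : (0 : ℝ) ≤ 1 - e), mul_div_assoc', ← integral_const_mul]
    congr 1 <;> exact integral_congr_ae (Eventually.of_forall fun z => by ring_nf)

lemma shrink_param {q0 : ℝ} {ls : List (ℝ × ℝ)} {e : ℝ} (he : 0 < e) (he1 : e < 1) (h : RsbParam q0 ls) :
    RsbParam ((1 - e) * q0) (shrink e ls) ∧
      rsbRest ((1 - e) * q0) (shrink e ls) = (1 - e) * rsbRest q0 ls + e := by
  have hs : ((shrink e ls).map Prod.snd).sum = (1 - e) * (ls.map Prod.snd).sum := by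
    rw [shrink, List.map_map, ← List.sum_map_mul_left]
    rfl
  refine ⟨⟨mul_nonneg (by linarith) h.1, ?_, fun p hp => ?_, ?_⟩, ?_⟩
  · rw [shrink, List.map_map]; exact h.2.1
  · obtain ⟨p', hp', rfl⟩ := List.mem_map.1 hp
    exact ⟨(h.2.2.1 p' hp').1, (h.2.2.1 p' hp').2.1, mul_nonneg (by linarith) (h.2.2.1 p' hp').2.2⟩
  · rw [hs, ← mul_add]
    nlinarith [h.2.2.2]
  · rw [rsbRest, rsbRest, hs]; ring

lemma rsbEnergy_fsm (hf : Measurable f) (hB : ∀ x, |f x| ≤ B) {e : ℝ} (he : 0 < e) (he1 : e < 1)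
    {q0 : ℝ} {ls : List (ℝ × ℝ)} (h : RsbParam q0 ls) :
    rsbEnergy (fsm f e) q0 ls = rsbEnergy f ((1 - e) * q0) (shrink e ls) := by
  have hS : 0 ≤ rsbRest q0 ls := by unfold rsbRest; linarith [h.2.2.2]
  simp only [rsbEnergy, (shrink_param he he1 h).2, rsbPot_fsm hf hB he he1 hS,
    Real.sqrt_mul (by linarith : (0 : ℝ) ≤ 1 - e), mul_assoc]

lemma rsbOverlap_fsm (hf : Measurable f) (hB : ∀ x, |f x| ≤ B) {e : ℝ} (he : 0 < e) (he1 : e < 1)
    {q0 : ℝ} {ls : List (ℝ × ℝ)} (h : RsbParam q0 ls) :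
    rsbOverlap (fsm f e) q0 ls = fun j => (1 - e) * rsbOverlap f ((1 - e) * q0) (shrink e ls) j := by
  have hS : 0 < rsbRest q0 ls := by unfold rsbRest; linarith [h.2.2.2]
  funext j
  simp only [rsbOverlap, (shrink_param he he1 h).2, rsbSq_fsm hf hB he he1 hS,
    Real.sqrt_mul (by linarith : (0 : ℝ) ≤ 1 - e), mul_assoc, integral_const_mul]

lemma rsbPair_shrink (e : ℝ) : ∀ (ls : List (ℝ × ℝ)) (q : ℝ) (R : ℕ → ℝ),
    rsbPair ls q (fun j => (1 - e) * R j) =
      rsbPair (shrink e ls) ((1 - e) * q) R - e * R ls.length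
  | [], q, R => by simp only [shrink, List.map_nil, rsbPair, List.length_nil]; ring
  | (m, d) :: ls, q, R => by
    simp only [shrink, List.map_cons, rsbPair, List.length_cons]
    have ih := rsbPair_shrink e ls (q + d) fun j => R (j + 1)
    simp only [shrink] at ih
    rw [ih, mul_add]
    ring

/-- The conjugate overlaps of a bounded Borel potential are nonnegative and increase. -/
lemma overlap_props (hf : Measurable f) (hB : ∀ x, |f x| ≤ B) {q0 : ℝ} {ls : List (ℝ × ℝ)}
    (h : RsbParam q0 ls) :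
    0 ≤ rsbOverlap f q0 ls 0 ∧
      ∀ j < ls.length, rsbOverlap f q0 ls j ≤ rsbOverlap f q0 ls (j + 1) := by
  have hC : ∀ x, |Real.exp (f x)| ≤ Real.exp B := fun x => (exp_f_bdd hB x).2
  set S := rsbRest q0 ls with hSdef
  have hS : 0 < S := by rw [hSdef, rsbRest]; linarith [h.2.2.2]
  have hs : Real.sqrt S ≠ 0 := Real.sqrt_ne_zero'.2 hS
  set G := gsm (fun x => Real.exp (f x)) (Real.sqrt S) 1 with hG
  set N := gsm (fun x => Real.exp (f x)) (Real.sqrt S) X with hN
  have hGpos : ∀ x, 0 < G x := fun x => (Real.exp_pos _).trans_le (gsm_exp_mem hf hB _ _).1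
  have hslope : rsbSlope f [] S = fun y => (Real.sqrt S)⁻¹ * N y / G y := funext fun y => by
    simp only [rsbSlope, hN, hG, gsm_X, gsm_one, inv_mul_eq_div]
  set D := |(Real.sqrt S)⁻¹| * (Real.exp B * ∫ z, |(X : ℝ[X]).eval z| ∂gaussianReal 0 1) / Real.exp (-B)
    with hD
  have hb : ∀ y, |(Real.sqrt S)⁻¹ * N y / G y| ≤ D := fun y => by
    rw [abs_div, abs_mul, abs_of_pos (hGpos y)]
    have hn := abs_gsm_le hC (Real.sqrt S) y X
    exact div_le_div₀ (mul_nonneg (abs_nonneg _) ((abs_nonneg _).trans hn))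
      (mul_le_mul_of_nonneg_left hn (abs_nonneg _)) (Real.exp_pos _) (gsm_exp_mem hf hB _ y).1
  have hlip : RSB.Lip D (rsbPot f [] S) := by
    have e : rsbPot f [] S = fun y => Real.log (G y) := funext fun y => by simp only [rsbPot, hG, gsm_one]
    rw [e]
    exact lip_of_hasDerivAt (fun y => (hasDerivAt_gsm_one hf.exp hC hs y).log (hGpos y).ne') hb
  have hsm : Measurable (rsbSlope f [] S) := by
    rw [hslope]
    exact ((bd_gsm hf.exp hC hs 0 X).continuous.measurable.const_mul _).div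
      (bd_gsm hf.exp hC hs 0 1).continuous.measurable
  have hsb : ∀ y, ‖rsbSlope f [] S y‖ ≤ D := fun y => by rw [hslope, Real.norm_eq_abs]; exact hb y
  have hg : RSB.Good (gaussianReal 0 1) Prod.fst (sigd Prod.snd) ls :=
    fun i hi => ⟨(h.2.2.1 i hi).1, shift_sigd _ i⟩
  have hsq : ∀ j y, rsbSq f ls S j y = RSB.csq (gaussianReal 0 1) Prod.fst (sigd Prod.snd) ls
      (rsbPot f [] S) (rsbSlope f [] S) j y := fun j y => by
    simpa using rsbSq_eq (m := Prod.fst) (d := Prod.snd) (f := f) (s := S) ls j y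
  constructor
  · exact integral_nonneg fun y => by
      simp only [rsbSq]
      exact sq_nonneg _
  · intro j hj
    simp only [rsbOverlap, ← hSdef, hsq]
    have hint : ∀ j, Integrable (fun z => RSB.csq (gaussianReal 0 1) Prod.fst (sigd Prod.snd) ls
        (rsbPot f [] S) (rsbSlope f [] S) j (Real.sqrt q0 * z)) (gaussianReal 0 1) := fun j =>
      Integrable.mono' (integrable_const (D ^ 2))
        ((RSB.measurable_csq hlip hsm hg j).comp (by fun_prop)).aestronglyMeasurable
        (Eventually.of_forall fun z => (Real.norm_eq_abs _).le.trans (RSB.abs_csq_le hlip hsb hg j _))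
    exact integral_mono (hint j) (hint (j + 1)) fun z => RSB.csq_le_succ hlip hsm hsb hg j hj _

/-! ### Convergence in mean -/

lemma tendsto_fsm (hf : Measurable f) (hB : ∀ x, |f x| ≤ B) {δ : ℝ} (hδ : 0 < δ) :
    ∃ e, 0 < e ∧ e < 1 ∧ ∫ x, |f x - fsm f e x| ∂gaussianReal 0 1 ≤ δ := by
  set W : ℝ → ℝ := fun x => Real.exp (f x) with hWdef
  have hWb : ∀ x, |W x| ≤ Real.exp B := fun x => (exp_f_bdd hB x).2
  have hWi : Integrable W (gaussianReal 0 1) :=
    Integrable.mono' (integrable_const (Real.exp B)) hf.exp.aestronglyMeasurable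
      (Eventually.of_forall fun x => (Real.norm_eq_abs _).le.trans (hWb x))
  set δ' := δ / Real.exp B / 4 with hδ'
  have hδ'0 : 0 < δ' := by positivity
  obtain ⟨V, hV, -⟩ := hWi.exists_boundedContinuous_integral_sub_le hδ'0
  simp only [Real.norm_eq_abs] at hV
  -- the continuous part
  have hcont : Tendsto (fun e => ∫ p : ℝ × ℝ, |V (Real.sqrt (1 - e) * p.1 + Real.sqrt e * p.2) - V p.1|
      ∂(gaussianReal 0 1).prod (gaussianReal 0 1)) (𝓝 0) (𝓝 0) := by
    have hc : ContinuousAt (fun e => ∫ p : ℝ × ℝ,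
        |V (Real.sqrt (1 - e) * p.1 + Real.sqrt e * p.2) - V p.1|
        ∂(gaussianReal 0 1).prod (gaussianReal 0 1)) 0 := by
      refine (continuous_of_dominated (bound := fun _ => 2 * ‖V‖) (fun e => ?_) (fun e => ?_)
        (integrable_const _) (Eventually.of_forall fun p => ?_)).continuousAt
      · exact (((V.continuous.comp (by fun_prop)).sub (V.continuous.comp continuous_fst)).abs
          ).aestronglyMeasurable
      · refine Eventually.of_forall fun p => ?_
        rw [Real.norm_eq_abs, abs_abs]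
        refine (abs_sub _ _).trans ?_
        rw [two_mul]
        exact add_le_add (V.norm_coe_le_norm _) (V.norm_coe_le_norm _)
      · exact ((V.continuous.comp (by fun_prop)).sub continuous_const).abs
    simpa [ContinuousAt] using hc
  have h2 := ((hcont.mono_left (nhdsWithin_le_nhds (s := Set.Ioi 0))).eventually (gt_mem_nhds hδ'0)).and
    (Ioo_mem_nhdsGT (show (0 : ℝ) < 1 by norm_num))
  obtain ⟨e, he, he0, he1⟩ := h2.exists
  refine ⟨e, he0, he1, ?_⟩
  set a := Real.sqrt (1 - e) with ha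
  set b := Real.sqrt e with hb'
  have hab : a ^ 2 + b ^ 2 = (1 : ℝ) ^ 2 := by
    rw [ha, hb', Real.sq_sqrt (by linarith), Real.sq_sqrt he0.le]; ring
  set γ2 := (gaussianReal 0 1).prod (gaussianReal 0 1) with hγ2
  -- the part moved to the law
  have hdiff : Measurable fun x => |W x - V x| := (hf.exp.sub V.continuous.measurable).abs
  have hdi : Integrable (fun x => |W x - V x|) (gaussianReal 0 1) := (hWi.sub (V.integrable _)).abs
  have hlaw := gauss_add (E := ℝ) hab
  simp only [smul_eq_mul, one_mul, RSB.stdGaussian_real, Measure.map_id'] at hlaw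
  have hm : Measurable fun p : ℝ × ℝ => a * p.1 + b * p.2 := by fun_prop
  have i1 : Integrable (fun p : ℝ × ℝ => |W (a * p.1 + b * p.2) - V (a * p.1 + b * p.2)|) γ2 := by
    have := hdi
    rw [← hlaw] at this
    exact this.comp_measurable hm
  have i3 : Integrable (fun p : ℝ × ℝ => |V p.1 - W p.1|) γ2 := by
    simpa only [abs_sub_comm] using hdi.comp_fst _
  have i2 : Integrable (fun p : ℝ × ℝ => |V (a * p.1 + b * p.2) - V p.1|) γ2 :=
    Integrable.mono' (integrable_const (2 * ‖V‖))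
      ((((V.continuous.comp (by fun_prop)).sub (V.continuous.comp continuous_fst)).abs)).aestronglyMeasurable
      (Eventually.of_forall fun p => by
        rw [Real.norm_eq_abs, abs_abs, two_mul]
        exact (abs_sub _ _).trans (add_le_add (V.norm_coe_le_norm _) (V.norm_coe_le_norm _)))
  have v1 : ∫ p, |W (a * p.1 + b * p.2) - V (a * p.1 + b * p.2)| ∂γ2 ≤ δ' := by
    rw [← integral_map hm.aemeasurable hdiff.aestronglyMeasurable, hlaw]
    exact hV
  have v3 : ∫ p, |V p.1 - W p.1| ∂γ2 ≤ δ' := by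
    rw [hγ2, integral_fun_fst (fun x => |V x - W x|), probReal_univ, one_smul]
    simpa only [abs_sub_comm] using hV
  have i0 : Integrable (fun p : ℝ × ℝ => |W (a * p.1 + b * p.2) - W p.1|) γ2 :=
    Integrable.mono' (integrable_const (2 * Real.exp B))
      ((hf.exp.comp hm).sub (hf.exp.comp measurable_fst)).abs.aestronglyMeasurable
      (Eventually.of_forall fun p => by
        rw [Real.norm_eq_abs, abs_abs, two_mul]
        exact (abs_sub _ _).trans (add_le_add (hWb _) (hWb _)))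
  have v0 : ∫ p, |W (a * p.1 + b * p.2) - W p.1| ∂γ2 ≤ 4 * δ' := by
    refine (integral_mono i0 ((i1.add i2).add i3) fun p => ?_).trans ?_
    · simp only [Pi.add_apply]
      exact (abs_sub_le _ (V p.1) _).trans (add_le_add_left
        (abs_sub_le _ (V (a * p.1 + b * p.2)) _) _)
    · rw [integral_add' (i1.add i2) i3, integral_add' i1 i2]
      linarith [he.le]
  -- pointwise comparison
  have hsmf := smf_fsm hf hB he0
  have il : Integrable (fun x => |f x - fsm f e x|) (gaussianReal 0 1) :=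
    Integrable.mono' (integrable_const (2 * B))
      (hf.sub hsmf.smooth.continuous.measurable).abs.aestronglyMeasurable
      (Eventually.of_forall fun x => by
        rw [Real.norm_eq_abs, abs_abs, two_mul]
        exact (abs_sub _ _).trans (add_le_add (hB x) (abs_fsm_le hf hB e x)))
  calc ∫ x, |f x - fsm f e x| ∂gaussianReal 0 1
      ≤ ∫ x, Real.exp B * ∫ z, |W (a * x + b * z) - W x| ∂gaussianReal 0 1 ∂gaussianReal 0 1 := by
        refine integral_mono il (i0.integral_prod_left.const_mul _) fun x => ?_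
        obtain ⟨h1, -⟩ := gsm_exp_mem hf hB b (a * x)
        have h2 := (exp_f_bdd hB x).1
        set Gx := gsm W b 1 (a * x) with hGx
        have hlog : ∀ p q : ℝ, Real.exp (-B) ≤ p → Real.exp (-B) ≤ q →
            Real.log p - Real.log q ≤ Real.exp B * |p - q| := fun p q hp hq => by
          have hq0 := (Real.exp_pos _).trans_le hq
          have hp0 := (Real.exp_pos _).trans_le hp
          rw [← Real.log_div hp0.ne' hq0.ne']
          refine (Real.log_le_sub_one_of_pos (div_pos hp0 hq0)).trans ?_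
          rw [div_sub_one hq0.ne', div_le_iff₀ hq0]
          refine (le_abs_self _).trans ?_
          have h0 : 1 ≤ Real.exp B * q := by
            have := mul_le_mul_of_nonneg_left hq (Real.exp_pos B).le
            rwa [← Real.exp_add, add_neg_cancel, Real.exp_zero] at this
          calc |p - q| ≤ |p - q| * (Real.exp B * q) := le_mul_of_one_le_right (abs_nonneg _) h0
            _ = _ := by ring
        have hmain : |f x - fsm f e x| ≤ Real.exp B * |Gx - W x| := by
          rw [abs_le, show f x = Real.log (W x) from (Real.log_exp _).symm, show fsm f e x = Real.log Gx from rfl]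
          constructor
          · linarith [hlog Gx (W x) h1 h2]
          · rw [abs_sub_comm]; exact hlog (W x) Gx h2 h1
        refine hmain.trans (mul_le_mul_of_nonneg_left ?_ (Real.exp_pos _).le)
        have hiz : Integrable (fun z => W (a * x + b * z)) (gaussianReal 0 1) := by
          simpa using integrable_gsm hf.exp hWb b (a * x) 1
        have hGe : Gx - W x = ∫ z, (W (a * x + b * z) - W x) ∂gaussianReal 0 1 := by
          rw [integral_sub hiz (integrable_const _), hGx, gsm_one]; simp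
        rw [hGe]
        exact abs_integral_le_integral_abs
    _ = Real.exp B * ∫ p, |W (a * p.1 + b * p.2) - W p.1| ∂γ2 := by
        rw [integral_const_mul, hγ2, integral_prod _ i0]
    _ ≤ Real.exp B * (4 * δ') := mul_le_mul_of_nonneg_left v0 (Real.exp_pos _).le
    _ = δ := by rw [hδ']; field_simp

end fsm

end Vale.Agent.P157.Low
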