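import Vale.Agent.P157.Low.ParisiX
import Vale.Agent.P157.Low.BorelX

/-!
The nested spin entropy loses at most half of the variance taken away from its fields.
-/

namespace Vale.Agent.P157.Low

open MeasureTheory ProbabilityTheory

/-- A level of exponent `m` preserves Lipschitz bounds. -/
lemma lip_level {G : ℝ → ℝ} {K m : ℝ} (hG : RSB.Lip K G) (hm : 0 < m) (s : ℝ) :
    RSB.Lip K fun y => RSB.lexp (gaussianReal 0 1) m fun z => G (y + Real.sqrt s * z) :=
  RSB.Lip.casc (m := fun _ : Unit => m) (σ := sigd fun _ => s) (ls := [()])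
    (fun _ _ => ⟨hm, shift_sigd _ _⟩) hG

lemma lip_exp_int {G : ℝ → ℝ} {K : ℝ} (hG : RSB.Lip K G) (k x c : ℝ) :
    Integrable (fun z => Real.exp (k * G (x + c * z))) (gaussianReal 0 1) := by
  refine (hG.wgt (s := fun z => c * z) ⟨by fun_prop, fun t => ?_⟩ x k).int
  simpa [abs_mul, mul_assoc] using integrable_exp_abs (t * |c|)

/-- The exponential grows under a Gaussian shift no faster than the exponential of half its variance. -/
def Sub1 (U : ℝ → ℝ) : Prop :=
  ∀ x b : ℝ, ∫ z, Real.exp (U (x + b * z)) ∂gaussianReal 0 1 ≤ Real.exp (b ^ 2 / 2 + U x)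

lemma sub1_logCosh : Sub1 fun x => Real.log (Real.cosh x) := fun x b => by
  have e : ∀ z, Real.exp (Real.log (Real.cosh (x + b * z))) =
      Real.exp x / 2 * Real.exp (b * z) + Real.exp (-x) / 2 * Real.exp (-b * z) := fun z => by
    rw [Real.exp_log (Real.cosh_pos _), Real.cosh_eq, div_mul_eq_mul_div, div_mul_eq_mul_div,
      ← Real.exp_add, ← Real.exp_add, ← add_div]
    ring_nf
  simp only [e]
  rw [integral_add ((integrable_exp_mul_gaussianReal _).const_mul _)
    ((integrable_exp_mul_gaussianReal _).const_mul _), integral_const_mul, integral_const_mul,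
    integral_exp_gauss, integral_exp_gauss, neg_sq, Real.exp_add,
    Real.exp_log (Real.cosh_pos _), Real.cosh_eq]
  exact le_of_eq (by ring)

section levels

variable {U : ℝ → ℝ}

/-- A smaller exponent keeps the bound. -/
lemma sub1_pow (hU : RSB.Lip 1 U) (h : Sub1 U) {m : ℝ} (hm : 0 < m) (hm1 : m ≤ 1) (y b : ℝ) :
    ∫ z, Real.exp (m * U (y + b * z)) ∂gaussianReal 0 1 ≤ Real.exp (m * (b ^ 2 / 2 + U y)) := by
  set L := b ^ 2 / 2 + U y with hL
  have i1 : Integrable (fun z => Real.exp (U (y + b * z))) (gaussianReal 0 1) := by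
    simpa using lip_exp_int hU 1 y b
  have hp : ∀ z, Real.exp ((1 - m) * L) * Real.exp (m * U (y + b * z)) ≤
      m * Real.exp (U (y + b * z)) + (1 - m) * Real.exp L := fun z => by
    have h2 := convexOn_exp.2 (Set.mem_univ L) (Set.mem_univ (U (y + b * z)))
      (by linarith : 0 ≤ 1 - m) hm.le (by ring)
    simp only [smul_eq_mul] at h2
    rw [← Real.exp_add]
    linarith
  have hi := integral_mono ((lip_exp_int hU m y b).const_mul _) ((i1.const_mul m).add (integrable_const _)) hp
  simp only [Pi.add_apply] at hi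
  rw [integral_const_mul, integral_add (i1.const_mul m) (integrable_const _), integral_const_mul] at hi
  simp only [integral_const, probReal_univ, one_smul] at hi
  have h3 := hi.trans (add_le_add_left (mul_le_mul_of_nonneg_left (h y b) hm.le) _)
  have h4 : Real.exp ((1 - m) * L) * Real.exp (m * L) = m * Real.exp L + (1 - m) * Real.exp L := by
    rw [← Real.exp_add]; ring_nf
  exact le_of_mul_le_mul_left (h3.trans_eq h4.symm) (Real.exp_pos _)

/-- The mean under a shift grows at most by half the variance. -/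
lemma sub1_mean (hU : RSB.Lip 1 U) (h : Sub1 U) (y b : ℝ) :
    ∫ z, U (y + b * z) ∂gaussianReal 0 1 ≤ b ^ 2 / 2 + U y := by
  set L := b ^ 2 / 2 + U y with hL
  have i1 : Integrable (fun z => Real.exp (U (y + b * z))) (gaussianReal 0 1) := by
    simpa using lip_exp_int hU 1 y b
  have i0 := lip_integrable hU y b
  have hp : ∀ z, U (y + b * z) + (1 - L) ≤ Real.exp (-L) * Real.exp (U (y + b * z)) := fun z => by
    rw [← Real.exp_add]
    linarith [Real.add_one_le_exp (-L + U (y + b * z))]
  have hi := integral_mono (i0.add (integrable_const _)) (i1.const_mul _) hp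
  simp only [Pi.add_apply] at hi
  rw [integral_add i0 (integrable_const _), integral_const_mul] at hi
  simp only [integral_const, probReal_univ, one_smul] at hi
  have h3 := mul_le_mul_of_nonneg_left (h y b) (Real.exp_pos (-L)).le
  rw [← Real.exp_add, neg_add_cancel, Real.exp_zero] at h3
  linarith

/-- One level keeps the bound. -/
lemma sub1_level (hU : RSB.Lip 1 U) (h : Sub1 U) {m : ℝ} (hm : 0 < m) (hm1 : m ≤ 1) (s : ℝ) :
    Sub1 fun y => RSB.lexp (gaussianReal 0 1) m fun z => U (y + Real.sqrt s * z) := by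
  intro x b
  set a := Real.sqrt s
  set V : ℝ → ℝ := fun y => RSB.lexp (gaussianReal 0 1) m fun z => U (y + a * z) with hV
  have hVl : RSB.Lip 1 V := lip_level hU hm s
  have hHy : ∀ y, ∫ z, Real.exp (m * U (y + a * z)) ∂gaussianReal 0 1 = Real.exp (m * V y) := fun y => by
    simp only [hV, RSB.lexp]
    rw [mul_div_cancel₀ _ hm.ne', Real.exp_log (RSB.Wgt.pos (X := fun z => U (y + a * z))
      ⟨hU.meas.comp (by fun_prop), lip_exp_int hU m y a⟩)]
  set K : ℝ → ℝ → ℝ := fun w z => Real.exp (m * U (x + a * z) - U (x + a * z) + U (x + b * w + a * z))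
    with hK
  have hKe : ∀ w z, K w z = Real.exp ((m - 1) * U (x + a * z)) * Real.exp (U (x + a * z + b * w)) :=
    fun w z => by simp only [hK, ← Real.exp_add]; ring_nf
  -- the kernel is integrable
  have hKm : Measurable fun p : ℝ × ℝ => K p.1 p.2 :=
    (((hU.meas.comp (by fun_prop)).const_mul m).sub (hU.meas.comp (by fun_prop))).add
      (hU.meas.comp (by fun_prop)) |>.exp
  have hKi : Integrable (fun p : ℝ × ℝ => K p.1 p.2) ((gaussianReal 0 1).prod (gaussianReal 0 1)) := by
    refine Integrable.mono' (((integrable_exp_abs (|b|)).mul_prod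
      (integrable_exp_abs ((m + 2) * |a|))).const_mul (Real.exp ((m + 2) * |U x|)))
      hKm.aestronglyMeasurable (Filter.Eventually.of_forall fun p => ?_)
    rw [Real.norm_eq_abs, abs_of_pos (Real.exp_pos _), ← Real.exp_add, ← Real.exp_add]
    refine Real.exp_le_exp.2 ?_
    have l1 := hU.lip x (a * p.2)
    have l2 := hU.lip x (b * p.1 + a * p.2)
    rw [Real.norm_eq_abs, one_mul, ← add_assoc] at l2
    rw [Real.norm_eq_abs, one_mul, abs_mul] at l1
    have l3 := abs_add_le (b * p.1) (a * p.2)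
    rw [abs_mul, abs_mul] at l3
    have m1 : (m - 1) * U (x + a * p.2) ≤ (m + 1) * (|U x| + |a| * |p.2|) := by
      refine (le_abs_self _).trans ?_
      rw [abs_mul]
      refine mul_le_mul ((abs_sub _ _).trans (by rw [abs_of_pos hm, abs_one])) ?_ (abs_nonneg _) (by linarith)
      linarith [abs_sub_abs_le_abs_sub (U (x + a * p.2)) (U x)]
    linarith [(abs_le.1 (l2.trans l3)).2, le_abs_self (U x)]
  -- at each shift
  have hpt : ∀ w, Integrable (fun z => K w z) (gaussianReal 0 1) →
      Real.exp (V (x + b * w) - V x) * Real.exp (m * V x) ≤ ∫ z, K w z ∂gaussianReal 0 1 := by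
    intro w hi
    set C := V (x + b * w) - V x with hC
    have hp : ∀ z, Real.exp ((1 - m) * C) * Real.exp (m * U (x + b * w + a * z)) ≤
        m * K w z + (1 - m) * Real.exp C * Real.exp (m * U (x + a * z)) := fun z => by
      have h2 := convexOn_exp.2 (Set.mem_univ C) (Set.mem_univ (U (x + b * w + a * z) - U (x + a * z)))
        (by linarith : 0 ≤ 1 - m) hm.le (by ring)
      simp only [smul_eq_mul] at h2
      have h3 := mul_le_mul_of_nonneg_left h2 (Real.exp_pos (m * U (x + a * z))).le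
      rw [mul_add, ← mul_assoc, ← mul_assoc, mul_comm _ (1 - m), mul_comm _ m, mul_assoc m,
        ← Real.exp_add, ← Real.exp_add] at h3
      rw [← Real.exp_add]
      simp only [hK]
      refine le_trans (le_of_eq (by ring_nf)) (h3.trans (le_of_eq ?_))
      rw [show m * U (x + a * z) - U (x + a * z) + U (x + b * w + a * z) =
        m * U (x + a * z) + (U (x + b * w + a * z) - U (x + a * z)) by ring]
      ring
    have hi2 := lip_exp_int hU m x a
    have hint := integral_mono ((lip_exp_int hU m (x + b * w) a).const_mul _)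
      ((hi.const_mul m).add (hi2.const_mul _)) hp
    simp only [Pi.add_apply] at hint
    rw [integral_const_mul, integral_add (hi.const_mul m) (hi2.const_mul _), integral_const_mul,
      integral_const_mul, hHy, hHy] at hint
    have e : Real.exp ((1 - m) * C) * Real.exp (m * V (x + b * w)) = Real.exp C * Real.exp (m * V x) := by
      rw [hC, ← Real.exp_add, ← Real.exp_add]; ring_nf
    rw [e] at hint
    have : m * (Real.exp C * Real.exp (m * V x)) ≤ m * ∫ z, K w z ∂gaussianReal 0 1 := by linarith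
    exact le_of_mul_le_mul_left this hm
  have hVi : Integrable (fun w => Real.exp (V (x + b * w))) (gaussianReal 0 1) := by
    simpa using lip_exp_int hVl 1 x b
  have hae : ∀ᵐ w ∂gaussianReal 0 1, Real.exp (V (x + b * w)) * Real.exp (m * V x - V x) ≤
      ∫ z, K w z ∂gaussianReal 0 1 := by
    filter_upwards [hKi.prod_right_ae] with w hw
    refine le_trans (le_of_eq ?_) (hpt w hw)
    rw [← Real.exp_add, ← Real.exp_add]; ring_nf
  have h1 := integral_mono_ae (hVi.mul_const _) hKi.integral_prod_left hae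
  rw [integral_mul_const] at h1
  have h2 : ∫ w, ∫ z, K w z ∂gaussianReal 0 1 ∂gaussianReal 0 1 ≤
      Real.exp (b ^ 2 / 2) * Real.exp (m * V x) := by
    rw [integral_integral_swap hKi, ← hHy, ← integral_const_mul]
    refine integral_mono_of_nonneg (Filter.Eventually.of_forall fun z => integral_nonneg fun w =>
      (Real.exp_pos _).le) ((lip_exp_int hU m x a).const_mul _) (Filter.Eventually.of_forall fun z => ?_)
    simp only [hKe, integral_const_mul]
    refine (mul_le_mul_of_nonneg_left (h (x + a * z) b) (Real.exp_pos _).le).trans (le_of_eq ?_)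
    rw [← Real.exp_add, ← Real.exp_add]; ring_nf
  have h3 := h1.trans h2
  rw [← le_div_iff₀ (Real.exp_pos _)] at h3
  refine h3.trans (le_of_eq ?_)
  rw [← Real.exp_add, ← Real.exp_sub]
  simp only [hV]
  ring_nf

/-- One level loses at most half of the variance taken away. -/
lemma level_drop (hU : RSB.Lip 1 U) (h : Sub1 U) {m : ℝ} (hm : 0 < m) (hm1 : m ≤ 1) {c s : ℝ}
    (hc0 : 0 ≤ c) (hc1 : c ≤ 1) (hs : 0 ≤ s) (x : ℝ) :
    RSB.lexp (gaussianReal 0 1) m (fun z => U (x + Real.sqrt s * z)) ≤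
      RSB.lexp (gaussianReal 0 1) m (fun z => U (x + Real.sqrt (c * s) * z)) + (1 - c) * s / 2 := by
  set a := Real.sqrt (c * s) with ha
  set b := Real.sqrt ((1 - c) * s) with hb
  have hb2 : b ^ 2 = (1 - c) * s := Real.sq_sqrt (mul_nonneg (by linarith) hs)
  have hab : a ^ 2 + b ^ 2 = Real.sqrt s ^ 2 := by
    rw [hb2, ha, Real.sq_sqrt (mul_nonneg hc0 hs), Real.sq_sqrt hs]; ring
  obtain ⟨hmi, hme⟩ := gauss_merge (H := fun t => Real.exp (m * U (x + t)))
    (((hU.meas.comp (measurable_const_add x)).const_mul m).exp) hab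
    (lip_exp_int hU m x (Real.sqrt s))
  have hle : ∫ z, Real.exp (m * U (x + Real.sqrt s * z)) ∂gaussianReal 0 1 ≤
      Real.exp (m * ((1 - c) * s / 2)) * ∫ z, Real.exp (m * U (x + a * z)) ∂gaussianReal 0 1 := by
    rw [← hme, ← integral_const_mul]
    refine integral_mono hmi ((lip_exp_int hU m x a).const_mul _) fun z => ?_
    simp only [← add_assoc]
    refine (sub1_pow hU h hm hm1 (x + a * z) b).trans (le_of_eq ?_)
    rw [← Real.exp_add, hb2]; ring_nf
  have w1 : RSB.Wgt (gaussianReal 0 1) m fun z => U (x + Real.sqrt s * z) :=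
    ⟨hU.meas.comp (by fun_prop), lip_exp_int hU m x _⟩
  have w2 : RSB.Wgt (gaussianReal 0 1) m fun z => U (x + a * z) :=
    ⟨hU.meas.comp (by fun_prop), lip_exp_int hU m x _⟩
  have hl := Real.log_le_log w1.pos hle
  rw [Real.log_mul (Real.exp_pos _).ne' w2.pos.ne', Real.log_exp] at hl
  simp only [RSB.lexp]
  rw [div_add' _ _ _ hm.ne', div_le_div_iff_of_pos_right hm]
  linarith

end levels

lemma rsbSpin_props : ∀ (ls : List (ℝ × ℝ)) (R : ℕ → ℝ), (∀ p ∈ ls, 0 < p.1 ∧ p.1 ≤ 1) →
    RSB.Lip 1 (rsbSpin ls R) ∧ Sub1 (rsbSpin ls R)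
  | [], R, _ => by
    have e : rsbSpin [] R = fun x => Real.log (Real.cosh x) := funext fun x => rfl
    rw [e]
    exact ⟨lip_of_hasDerivAt (fun x => (Real.hasDerivAt_cosh x).log (Real.cosh_pos x).ne') fun x => by
      rw [← Real.tanh_eq_sinh_div_cosh]; exact (Real.abs_tanh_lt_one x).le, sub1_logCosh⟩
  | (m, d) :: ls, R, hb => by
    obtain ⟨hm, hm1⟩ := hb (m, d) (List.mem_cons_self ..)
    obtain ⟨hl, hs⟩ := rsbSpin_props ls (fun j => R (j + 1)) fun p hp => hb p (List.mem_cons_of_mem _ hp)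
    exact ⟨lip_level hl hm _, sub1_level hl hs hm hm1 _⟩

lemma rsbSpin_drop {c : ℝ} (hc0 : 0 ≤ c) (hc1 : c ≤ 1) : ∀ (ls : List (ℝ × ℝ)) (R : ℕ → ℝ),
    (∀ p ∈ ls, 0 < p.1 ∧ p.1 ≤ 1) → (∀ j < ls.length, R j ≤ R (j + 1)) → ∀ x,
      rsbSpin ls R x ≤ rsbSpin ls (fun j => c * R j) x + (1 - c) * (R ls.length - R 0) / 2
  | [], R, _, _, x => by simp [rsbSpin]
  | (m, d) :: ls, R, hb, hR, x => by
    obtain ⟨hm, hm1⟩ := hb (m, d) (List.mem_cons_self ..)
    have hb' : ∀ p ∈ ls, 0 < p.1 ∧ p.1 ≤ 1 := fun p hp => hb p (List.mem_cons_of_mem _ hp)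
    have ih := rsbSpin_drop hc0 hc1 ls (fun j => R (j + 1)) hb'
      fun j hj => hR (j + 1) (by simpa using hj)
    obtain ⟨hl, -⟩ := rsbSpin_props ls (fun j => R (j + 1)) hb'
    obtain ⟨hl', hs'⟩ := rsbSpin_props ls (fun j => c * R (j + 1)) hb'
    have hΔ : 0 ≤ R 1 - R 0 := sub_nonneg.2 (hR 0 (by simp))
    set t := Real.sqrt (R 1 - R 0) with ht
    set K := (1 - c) * (R (ls.length + 1) - R 1) / 2 with hK
    have w1 : RSB.Wgt (gaussianReal 0 1) m fun z => rsbSpin ls (fun j => R (j + 1)) (x + t * z) :=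
      ⟨hl.meas.comp (by fun_prop), lip_exp_int hl m x t⟩
    have w2 : RSB.Wgt (gaussianReal 0 1) m fun z => rsbSpin ls (fun j => c * R (j + 1)) (x + t * z) :=
      ⟨hl'.meas.comp (by fun_prop), lip_exp_int hl' m x t⟩
    have w3 : RSB.Wgt (gaussianReal 0 1) m
        fun z => rsbSpin ls (fun j => c * R (j + 1)) (x + t * z) + K :=
      ⟨w2.meas.add_const _, by simpa [mul_add, Real.exp_add] using w2.int.mul_const (Real.exp (m * K))⟩
    have h1 := RSB.lexp_mono w1 w3 hm fun z => ih (x + t * z)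
    rw [RSB.lexp_add_const w2 hm.ne'] at h1
    have h2 := level_drop hl' hs' hm hm1 hc0 hc1 hΔ x
    rw [mul_sub c] at h2
    simp only [RSB.lexp] at h1 h2
    simp only [rsbSpin, List.length_cons]
    linarith

/-- The spin term at the root. -/
lemma spin_root_drop {c : ℝ} (hc0 : 0 ≤ c) (hc1 : c ≤ 1) (ls : List (ℝ × ℝ)) (R : ℕ → ℝ)
    (hb : ∀ p ∈ ls, 0 < p.1 ∧ p.1 ≤ 1) (hR0 : 0 ≤ R 0) (hR : ∀ j < ls.length, R j ≤ R (j + 1)) :
    ∫ x, rsbSpin ls R (Real.sqrt (R 0) * x) ∂gaussianReal 0 1 ≤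
      (∫ x, rsbSpin ls (fun j => c * R j) (Real.sqrt (c * R 0) * x) ∂gaussianReal 0 1) +
        (1 - c) * R ls.length / 2 := by
  obtain ⟨hl, -⟩ := rsbSpin_props ls R hb
  obtain ⟨hl', hs'⟩ := rsbSpin_props ls (fun j => c * R j) hb
  set U := rsbSpin ls fun j => c * R j with hU
  set b := Real.sqrt ((1 - c) * R 0) with hb'
  have hb2 : b ^ 2 = (1 - c) * R 0 := Real.sq_sqrt (mul_nonneg (by linarith) hR0)
  have hab : Real.sqrt (c * R 0) ^ 2 + b ^ 2 = Real.sqrt (R 0) ^ 2 := by
    rw [hb2, Real.sq_sqrt (mul_nonneg hc0 hR0), Real.sq_sqrt hR0]; ring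
  have i1 : ∀ a, Integrable (fun z => rsbSpin ls R (a * z)) (gaussianReal 0 1) := fun a => by
    simpa using lip_integrable hl 0 a
  have i2 : ∀ a, Integrable (fun z => U (a * z)) (gaussianReal 0 1) := fun a => by
    simpa using lip_integrable hl' 0 a
  have h1 := integral_mono (i1 (Real.sqrt (R 0)))
    ((i2 (Real.sqrt (R 0))).add (integrable_const ((1 - c) * (R ls.length - R 0) / 2)))
    fun z => rsbSpin_drop hc0 hc1 ls R hb hR _
  simp only [Pi.add_apply] at h1
  rw [integral_add (i2 _) (integrable_const _)] at h1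
  simp only [integral_const, probReal_univ, one_smul] at h1
  obtain ⟨hmi, hme⟩ := gauss_merge hl'.meas hab (i2 _)
  have h2 : ∫ z, U (Real.sqrt (R 0) * z) ∂gaussianReal 0 1 ≤
      (∫ z, U (Real.sqrt (c * R 0) * z) ∂gaussianReal 0 1) + (1 - c) * R 0 / 2 := by
    rw [← hme]
    refine (integral_mono hmi ((i2 (Real.sqrt (c * R 0))).add (integrable_const ((1 - c) * R 0 / 2))) fun z => ?_).trans ?_
    · have := sub1_mean hl' hs' (Real.sqrt (c * R 0) * z) b
      rw [hb2] at this
      simp only [Pi.add_apply]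
      linarith
    · simp only [Pi.add_apply]
      rw [integral_add (i2 _) (integrable_const _)]
      simp
  linarith

end Vale.Agent.P157.Low
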