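import Vale.Agent.P157.Low.Defs
import Vale.Agent.P157.Low.BorelX
import Vale.Agent.P157.Low.BorelSpin
import Vale.Agent.P157.Model

/-!
From smooth potentials to bounded Borel potentials.
-/

namespace Vale.Agent.P157.Low

open MeasureTheory Filter ProbabilityTheory
open scoped RealInnerProductSpace

/-- Parisi's functional of the smoothed potential dominates the original one at shrunk overlaps. -/
lemma parisi_fsm_le {f : ℝ → ℝ} {B : ℝ} (hf : Measurable f) (hB : ∀ x, |f x| ≤ B) {α : ℝ} (hα : 0 ≤ α)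
    {e : ℝ} (he : 0 < e) (he1 : e < 1) {q0 : ℝ} {ls : List (ℝ × ℝ)} (h : RsbParam q0 ls) :
    parisiIsing f α ((1 - e) * q0) (shrink e ls) ≤ parisiIsing (fsm f e) α q0 ls := by
  have hp := (shrink_param he he1 h).1
  obtain ⟨h0, hmono⟩ := overlap_props hf hB hp
  have hlen : (shrink e ls).length = ls.length := by simp [shrink]
  rw [hlen] at hmono
  set R := rsbOverlap f ((1 - e) * q0) (shrink e ls) with hR
  have hb : ∀ p ∈ shrink e ls, 0 < p.1 ∧ p.1 ≤ 1 := fun p hp' => ⟨(hp.2.2.1 p hp').1, (hp.2.2.1 p hp').2.1⟩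
  have hspin := spin_root_drop (c := 1 - e) (by linarith) (by linarith) (shrink e ls) (fun j => α * R j) hb
    (mul_nonneg hα h0) (fun j hj => mul_le_mul_of_nonneg_left (hmono j (hlen ▸ hj)) hα)
  have hmap : ∀ (l : List (ℝ × ℝ)) (S : ℕ → ℝ) (x : ℝ), rsbSpin (shrink e l) S x = rsbSpin l S x := by
    intro l
    induction l with
    | nil => exact fun S x => rfl
    | cons p l ih =>
      intro S x
      obtain ⟨m, d⟩ := p
      simp only [shrink, List.map_cons] at ih ⊢
      simp only [rsbSpin, ih]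
  simp only [parisiIsing, rsbEnergy_fsm hf hB he he1 h, rsbOverlap_fsm hf hB he he1 h, ← hR,
    rsbPair_shrink]
  simp only [hlen, hmap, mul_left_comm (1 - e) α] at hspin ⊢
  simp only [sub_sub_cancel] at hspin
  nlinarith [hspin]

/-- The Hamiltonian of the patterns. -/
noncomputable def ham (f : ℝ → ℝ) {N M : ℕ} (g : Fin M → EuclideanSpace ℝ (Fin N)) (σ : Fin N → Bool) : ℝ :=
  ∑ a, f ((∑ i, g a i * (if σ i then 1 else -1)) / Real.sqrt N)

/-- A field along a configuration is a standard Gaussian variable. -/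
lemma map_field {N : ℕ} (hN : 1 ≤ N) (σ : Fin N → Bool) :
    (stdGaussian (EuclideanSpace ℝ (Fin N))).map
      (fun g => (∑ i, g i * (if σ i then 1 else -1)) / Real.sqrt N) = gaussianReal 0 1 := by
  set v : EuclideanSpace ℝ (Fin N) :=
    (Real.sqrt N)⁻¹ • WithLp.toLp 2 (fun i => if σ i then (1 : ℝ) else -1) with hv
  have hval : ∀ g : EuclideanSpace ℝ (Fin N),
      (∑ i, g i * (if σ i then 1 else -1)) / Real.sqrt N = ⟪g, v⟫ := fun g => by
    rw [hv, real_inner_smul_right, div_eq_inv_mul]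
    congr 1
    simp [PiLp.inner_apply]
  have hn : ‖v‖ = 1 := by
    rw [hv, norm_smul, EuclideanSpace.norm_eq]
    have : ∀ i, ‖if σ i then (1 : ℝ) else -1‖ ^ 2 = 1 := fun i => by split_ifs <;> simp
    simp only [this, Finset.sum_const, Finset.card_univ, Fintype.card_fin, nsmul_eq_mul, mul_one]
    rw [norm_inv, Real.norm_eq_abs, abs_of_nonneg (Real.sqrt_nonneg _), inv_mul_cancel₀]
    exact Real.sqrt_ne_zero'.2 (by exact_mod_cast hN)
  simp only [hval]
  have : IsProbabilityMeasure ((stdGaussian (EuclideanSpace ℝ (Fin N))).map fun g => ⟪g, v⟫) :=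
    Measure.isProbabilityMeasure_map (Measurable.aemeasurable (by fun_prop))
  refine Measure.ext_of_charFun ?_
  funext t
  rw [charFun_apply_real, charFun_gaussianReal, integral_map (Measurable.aemeasurable (by fun_prop))
    (Continuous.aestronglyMeasurable (by fun_prop))]
  have e : ∀ g : EuclideanSpace ℝ (Fin N),
      Complex.exp ((t : ℂ) * (⟪g, v⟫ : ℝ) * Complex.I) =
        Complex.exp ((⟪g, t • v⟫ : ℝ) * Complex.I) := fun g => by
    rw [real_inner_smul_right g v t]; push_cast; ring_nf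
  simp only [e, integral_cexp_inner, norm_smul, hn, mul_one, Real.norm_eq_abs]
  congr 1
  rw [← Complex.ofReal_pow, sq_abs]
  push_cast
  ring

section stability

variable {f h : ℝ → ℝ} {B : ℝ} {N : ℕ}

lemma abs_sum_pat_le (hB : ∀ x, |f x| ≤ B) {M : ℕ} (g : Fin M → EuclideanSpace ℝ (Fin N))
    (σ : Fin N → Bool) : |ham f g σ| ≤ M * B := by
  refine (Finset.abs_sum_le_sum_abs _ _).trans ((Finset.sum_le_sum fun a _ => hB _).trans (le_of_eq ?_))
  simp

lemma measurable_pattern (hf : Measurable f) {M : ℕ} (σ : Fin N → Bool) (a : Fin M) :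
    Measurable fun g : Fin M → EuclideanSpace ℝ (Fin N) =>
      f ((∑ i, g a i * (if σ i then 1 else -1)) / Real.sqrt N) :=
  hf.comp (((Finset.measurable_sum _ fun i _ => ((measurable_pi_apply i).comp
    ((WithLp.measurable_ofLp 2 (Fin N → ℝ)).comp (measurable_pi_apply a))).mul_const _)).div_const _)

lemma measurable_ham (hf : Measurable f) {M : ℕ} (σ : Fin N → Bool) :
    Measurable fun g : Fin M → EuclideanSpace ℝ (Fin N) => ham f g σ :=
  Finset.measurable_sum _ fun a _ => measurable_pattern hf σ a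

lemma integrable_pressure (hf : Measurable f) (hB : ∀ x, |f x| ≤ B) (M : ℕ) :
    Integrable (fun g : Fin M → EuclideanSpace ℝ (Fin N) =>
        Real.log ((∑ σ : Fin N → Bool, Real.exp (ham f g σ)) / 2 ^ N))
      (Measure.pi fun _ => stdGaussian (EuclideanSpace ℝ (Fin N))) := by
  refine Integrable.mono' (integrable_const (M * B))
    (((Finset.measurable_sum _ fun σ _ => (measurable_ham hf σ).exp).div_const _).log).aestronglyMeasurable
    (Eventually.of_forall fun g => ?_)
  have hpos : 0 < (∑ σ : Fin N → Bool, Real.exp (ham f g σ)) / 2 ^ N := by positivity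
  rw [Real.norm_eq_abs, abs_le, Real.le_log_iff_exp_le hpos, Real.log_le_iff_le_exp hpos,
    le_div_iff₀ (by positivity), div_le_iff₀ (by positivity)]
  constructor
  · refine le_trans (le_of_eq ?_) (Finset.sum_le_sum fun σ _ => Real.exp_le_exp.2
      (abs_le.1 (abs_sum_pat_le hB g σ)).1)
    simp [mul_comm]
  · refine (Finset.sum_le_sum fun σ _ => Real.exp_le_exp.2
      (abs_le.1 (abs_sum_pat_le hB g σ)).2).trans (le_of_eq ?_)
    simp [mul_comm]

lemma measurable_field (σ : Fin N → Bool) : Measurable fun x : EuclideanSpace ℝ (Fin N) =>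
    (∑ i, x i * (if σ i then 1 else -1)) / Real.sqrt N :=
  (Finset.measurable_sum _ fun i _ => ((measurable_pi_apply i).comp
    (WithLp.measurable_ofLp 2 (Fin N → ℝ))).mul_const _).div_const _

/-- The Gibbs average of one pattern's error. -/
noncomputable def gibbsAt (h φ : ℝ → ℝ) {M : ℕ} (g : Fin M → EuclideanSpace ℝ (Fin N)) (a : Fin M) : ℝ :=
  (∑ σ : Fin N → Bool, Real.exp (ham h g σ) *
    φ ((∑ i, g a i * (if σ i then 1 else -1)) / Real.sqrt N)) /
      ∑ σ : Fin N → Bool, Real.exp (ham h g σ)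

lemma log_pressure_sub {M : ℕ} (g : Fin M → EuclideanSpace ℝ (Fin N)) :
    Real.log ((∑ σ : Fin N → Bool, Real.exp (ham h g σ)) / 2 ^ N) ≤
      Real.log ((∑ σ : Fin N → Bool, Real.exp (ham f g σ)) / 2 ^ N) +
        ∑ a, gibbsAt h (fun x => |f x - h x|) g a := by
  set Z := ∑ σ : Fin N → Bool, Real.exp (ham h g σ) with hZ
  have hZ0 : 0 < Z := Finset.sum_pos (fun σ _ => Real.exp_pos _) Finset.univ_nonempty
  set T := ∑ a, gibbsAt h (fun x => |f x - h x|) g a with hT
  have hTe : T = (∑ σ : Fin N → Bool, Real.exp (ham h g σ) *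
      ∑ a, |f ((∑ i, g a i * (if σ i then 1 else -1)) / Real.sqrt N) -
        h ((∑ i, g a i * (if σ i then 1 else -1)) / Real.sqrt N)|) / Z := by
    simp only [hT, gibbsAt, ← hZ, Finset.mul_sum]
    rw [Finset.sum_comm, Finset.sum_div]
  have hkey : Real.exp (-T) * Z ≤ ∑ σ : Fin N → Bool, Real.exp (ham f g σ) := by
    have h1 : ∀ σ : Fin N → Bool, Real.exp (-T) * (Real.exp (ham h g σ) * (1 + T) -
        Real.exp (ham h g σ) * ∑ a, |f ((∑ i, g a i * (if σ i then 1 else -1)) / Real.sqrt N) -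
          h ((∑ i, g a i * (if σ i then 1 else -1)) / Real.sqrt N)|) ≤ Real.exp (ham f g σ) := fun σ => by
      set D := ∑ a, |f ((∑ i, g a i * (if σ i then 1 else -1)) / Real.sqrt N) -
        h ((∑ i, g a i * (if σ i then 1 else -1)) / Real.sqrt N)|
      have hD : ham h g σ - D ≤ ham f g σ := by
        simp only [ham, D, ← Finset.sum_sub_distrib]
        refine Finset.sum_le_sum fun a _ => ?_
        linarith [neg_abs_le (f ((∑ i, g a i * (if σ i then 1 else -1)) / Real.sqrt N) -
          h ((∑ i, g a i * (if σ i then 1 else -1)) / Real.sqrt N))]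
      calc Real.exp (-T) * (Real.exp (ham h g σ) * (1 + T) - Real.exp (ham h g σ) * D)
          = Real.exp (-T) * Real.exp (ham h g σ) * (-D + T + 1) := by ring
        _ ≤ Real.exp (-T) * Real.exp (ham h g σ) * Real.exp (-D + T) :=
            mul_le_mul_of_nonneg_left (Real.add_one_le_exp _) (by positivity)
        _ = Real.exp (ham h g σ - D) := by rw [← Real.exp_add, ← Real.exp_add]; ring_nf
        _ ≤ _ := Real.exp_le_exp.2 hD
    refine le_trans (le_of_eq ?_) (Finset.sum_le_sum fun σ _ => h1 σ)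
    rw [← Finset.mul_sum, Finset.sum_sub_distrib, ← Finset.sum_mul, ← hZ, hTe]
    field_simp
    ring
  have hl := Real.log_le_log (by positivity)
    (div_le_div_of_nonneg_right hkey (by positivity : (0 : ℝ) ≤ 2 ^ N))
  rw [mul_div_assoc, Real.log_mul (Real.exp_pos _).ne' (by positivity), Real.log_exp] at hl
  linarith

lemma integral_gibbsAt (hh : Measurable h) (hB : ∀ x, |h x| ≤ B) {φ : ℝ → ℝ} (hφ : Measurable φ)
    (hφ0 : ∀ x, 0 ≤ φ x) {C : ℝ} (hφC : ∀ x, φ x ≤ C) (hN : 1 ≤ N) {k : ℕ} (a : Fin (k + 1)) :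
    Integrable (fun g => gibbsAt h φ g a) (Measure.pi fun _ => stdGaussian (EuclideanSpace ℝ (Fin N))) ∧
      ∫ g, gibbsAt h φ g a ∂Measure.pi (fun _ => stdGaussian (EuclideanSpace ℝ (Fin N))) ≤
        Real.exp (2 * B) * ∫ x, φ x ∂gaussianReal 0 1 := by
  set μ := stdGaussian (EuclideanSpace ℝ (Fin N))
  have hm : Measurable fun g : Fin (k + 1) → EuclideanSpace ℝ (Fin N) => gibbsAt h φ g a :=
    (Finset.measurable_sum _ fun σ _ => (measurable_ham hh σ).exp.mul (measurable_pattern hφ σ a)).div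
      (Finset.measurable_sum _ fun σ _ => (measurable_ham hh σ).exp)
  have hbd : ∀ g : Fin (k + 1) → EuclideanSpace ℝ (Fin N), 0 ≤ gibbsAt h φ g a ∧ gibbsAt h φ g a ≤ C :=
    fun g => by
    refine ⟨div_nonneg (Finset.sum_nonneg fun σ _ => mul_nonneg (Real.exp_pos _).le (hφ0 _))
      (Finset.sum_nonneg fun σ _ => (Real.exp_pos _).le), ?_⟩
    rw [gibbsAt, div_le_iff₀ (Finset.sum_pos (fun σ _ => Real.exp_pos _) Finset.univ_nonempty),
      Finset.mul_sum]
    exact Finset.sum_le_sum fun σ _ => by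
      rw [mul_comm C]; exact mul_le_mul_of_nonneg_left (hφC _) (Real.exp_pos _).le
  have hi : Integrable (fun g => gibbsAt h φ g a) (Measure.pi fun _ => μ) :=
    Integrable.mono' (integrable_const C) hm.aestronglyMeasurable
      (Eventually.of_forall fun g => by rw [Real.norm_eq_abs, abs_of_nonneg (hbd g).1]; exact (hbd g).2)
  refine ⟨hi, ?_⟩
  set e := (MeasurableEquiv.piFinSuccAbove (fun _ : Fin (k + 1) => EuclideanSpace ℝ (Fin N)) a).symm
  have mp : MeasurePreserving e (μ.prod (Measure.pi fun _ : Fin k => μ)) (Measure.pi fun _ => μ) :=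
    (measurePreserving_piFinSuccAbove (fun _ : Fin (k + 1) => μ) a).symm _
  have hi2 : Integrable (fun p => gibbsAt h φ (e p) a) (μ.prod (Measure.pi fun _ : Fin k => μ)) :=
    mp.integrable_comp_of_integrable hi
  rw [← mp.integral_comp' (fun g => gibbsAt h φ g a)]
  rw [integral_prod_symm _ hi2]
  set K := Real.exp (2 * B) * ∫ x, φ x ∂gaussianReal 0 1
  refine (integral_mono hi2.integral_prod_right (integrable_const K) fun g' => ?_).trans (le_of_eq (by simp))
  have hφi : ∀ σ : Fin N → Bool, Integrable (fun x : EuclideanSpace ℝ (Fin N) =>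
      φ ((∑ i, x i * (if σ i then 1 else -1)) / Real.sqrt N)) μ := fun σ =>
    Integrable.mono' (integrable_const C)
      (hφ.comp (measurable_field σ)).aestronglyMeasurable
      (Eventually.of_forall fun x => by rw [Real.norm_eq_abs, abs_of_nonneg (hφ0 _)]; exact hφC _)
  set Z' := ∑ σ : Fin N → Bool, Real.exp (ham h g' σ) with hZ'
  have hZ0 : 0 < Z' := Finset.sum_pos (fun σ _ => Real.exp_pos _) Finset.univ_nonempty
  have hsplit : ∀ (x : EuclideanSpace ℝ (Fin N)) (σ : Fin N → Bool),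
      ham h (e (x, g')) σ = h ((∑ i, x i * (if σ i then 1 else -1)) / Real.sqrt N) + ham h g' σ ∧
        e (x, g') a = x := fun x σ => by
    have hins : e (x, g') = Fin.insertNth a x g' := rfl
    constructor
    · rw [ham, hins, Fin.sum_univ_succAbove _ a, ham]
      simp [Fin.insertNth_apply_same, Fin.insertNth_apply_succAbove]
    · rw [hins, Fin.insertNth_apply_same]
  have hpt : ∀ x, gibbsAt h φ (e (x, g')) a ≤ ∑ σ : Fin N → Bool,
      Real.exp (2 * B) * (Real.exp (ham h g' σ) / Z') *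
        φ ((∑ i, x i * (if σ i then 1 else -1)) / Real.sqrt N) := fun x => by
    simp only [gibbsAt, (hsplit x _).1, (hsplit x (fun _ => true)).2, Real.exp_add]
    have hden : Real.exp (-B) * Z' ≤ ∑ σ : Fin N → Bool,
        Real.exp (h ((∑ i, x i * (if σ i then 1 else -1)) / Real.sqrt N)) * Real.exp (ham h g' σ) := by
      rw [hZ', Finset.mul_sum]
      exact Finset.sum_le_sum fun σ _ => mul_le_mul_of_nonneg_right
        (Real.exp_le_exp.2 (abs_le.1 (hB _)).1) (Real.exp_pos _).le
    have hnum : ∑ σ : Fin N → Bool, Real.exp (h ((∑ i, x i * (if σ i then 1 else -1)) / Real.sqrt N)) *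
        Real.exp (ham h g' σ) * φ ((∑ i, x i * (if σ i then 1 else -1)) / Real.sqrt N) ≤
        Real.exp B * ∑ σ : Fin N → Bool, Real.exp (ham h g' σ) *
          φ ((∑ i, x i * (if σ i then 1 else -1)) / Real.sqrt N) := by
      rw [Finset.mul_sum]
      exact Finset.sum_le_sum fun σ _ => by
        rw [mul_assoc]
        exact mul_le_mul_of_nonneg_right (Real.exp_le_exp.2 (abs_le.1 (hB _)).2)
          (mul_nonneg (Real.exp_pos _).le (hφ0 _))
    refine (div_le_div₀ (mul_nonneg (Real.exp_pos _).le (Finset.sum_nonneg fun σ _ =>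
      mul_nonneg (Real.exp_pos _).le (hφ0 _))) hnum (mul_pos (Real.exp_pos _) hZ0) hden).trans (le_of_eq ?_)
    rw [Finset.mul_sum, Finset.sum_div]
    refine Finset.sum_congr rfl fun σ _ => ?_
    rw [two_mul, Real.exp_add, Real.exp_neg]
    field_simp
  refine (integral_mono_of_nonneg (Eventually.of_forall fun x => (hbd _).1)
    (integrable_finsetSum _ fun σ _ => (hφi σ).const_mul _) (Eventually.of_forall hpt)).trans ?_
  rw [integral_finsetSum _ fun σ _ => (hφi σ).const_mul _]
  have hlaw : ∀ σ : Fin N → Bool, ∫ x : EuclideanSpace ℝ (Fin N),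
      φ ((∑ i, x i * (if σ i then 1 else -1)) / Real.sqrt N) ∂μ = ∫ x, φ x ∂gaussianReal 0 1 := fun σ => by
    rw [← map_field hN σ, integral_map (measurable_field σ).aemeasurable hφ.aestronglyMeasurable]
  simp only [integral_const_mul, hlaw, ← Finset.sum_mul, ← Finset.mul_sum, ← Finset.sum_div, ← hZ',
    div_self hZ0.ne', mul_one]
  exact le_rfl

/-- Moving the potential costs its mean absolute change, once per pattern. -/
lemma pressure_stable (hf : Measurable f) (hfB : ∀ x, |f x| ≤ B) (hh : Measurable h) (hhB : ∀ x, |h x| ≤ B)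
    (hN : 1 ≤ N) (M : ℕ) : cubePressure h N M ≤ cubePressure f N M +
      (M : ℝ) / N * (Real.exp (2 * B) * ∫ x, |f x - h x| ∂gaussianReal 0 1) := by
  set μ := Measure.pi fun _ : Fin M => stdGaussian (EuclideanSpace ℝ (Fin N)) with hμ
  set E := Real.exp (2 * B) * ∫ x, |f x - h x| ∂gaussianReal 0 1
  have hN0 : (0 : ℝ) < N := by exact_mod_cast hN
  have key : ∫ g, Real.log ((∑ σ : Fin N → Bool, Real.exp (ham h g σ)) / 2 ^ N) ∂μ ≤
      (∫ g, Real.log ((∑ σ : Fin N → Bool, Real.exp (ham f g σ)) / 2 ^ N) ∂μ) + M * E := by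
    have hg : ∀ a : Fin M, Integrable (fun g => gibbsAt h (fun x => |f x - h x|) g a) μ ∧
        ∫ g, gibbsAt h (fun x => |f x - h x|) g a ∂μ ≤ E := by
      intro a
      have := a.isLt
      obtain ⟨k, rfl⟩ : ∃ k, M = k + 1 := ⟨M - 1, by omega⟩
      exact integral_gibbsAt hh hhB (hf.sub hh).abs (fun x => abs_nonneg _) (C := 2 * B)
        (fun x => (abs_sub _ _).trans (by linarith [hfB x, hhB x])) hN a
    have hi1 := integrable_pressure (N := N) hh hhB M
    have hi2 := integrable_pressure (N := N) hf hfB M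
    have hi3 : Integrable (fun g => ∑ a, gibbsAt h (fun x => |f x - h x|) g a) μ :=
      integrable_finsetSum _ fun a _ => (hg a).1
    refine (integral_mono hi1 (hi2.add hi3) fun g => log_pressure_sub g).trans ?_
    rw [integral_add' hi2 hi3, integral_finsetSum _ fun a _ => (hg a).1]
    refine add_le_add_right ((Finset.sum_le_sum fun a _ => (hg a).2).trans (le_of_eq ?_)) _
    simp
  show _ / (N : ℝ) ≤ _ / (N : ℝ) + _
  rw [div_mul_eq_mul_div, ← add_div]
  exact div_le_div_of_nonneg_right key hN0.le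

end stability

/-- A lower bound by Parisi's functional passes from smooth to bounded Borel potentials. -/
theorem borel_of_smooth {α : ℝ} (hα : 0 < α)
    (hs : ∀ f : ℝ → ℝ, Smf f → ∀ c, (∀ q0 ls, RsbParam q0 ls → c ≤ parisiIsing f α q0 ls) →
      ∀ η, 0 < η → ∀ᶠ N : ℕ in atTop, c - η ≤ cubePressure f N ⌊α * N⌋₊)
    {f : ℝ → ℝ} (hf : Measurable f) (hfb : ∃ B, ∀ x, |f x| ≤ B) {c : ℝ}
    (hc : ∀ q0 ls, RsbParam q0 ls → c ≤ parisiIsing f α q0 ls) {η : ℝ} (hη : 0 < η) :
    ∀ᶠ N : ℕ in atTop, c - η ≤ cubePressure f N ⌊α * N⌋₊ := by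
  obtain ⟨B, hB⟩ := hfb
  obtain ⟨e, he, he1, hint⟩ := tendsto_fsm hf hB
    (δ := η / (2 * α * Real.exp (2 * B))) (by positivity)
  have hsmf := smf_fsm hf hB he
  filter_upwards [hs (fsm f e) hsmf c (fun q0 ls h =>
      (hc _ _ (shrink_param he he1 h).1).trans (parisi_fsm_le hf hB hα.le he he1 h)) (η / 2) (by positivity),
    eventually_ge_atTop 1] with N h1 hN
  have h2 := pressure_stable hf hB hsmf.smooth.continuous.measurable (abs_fsm_le hf hB e) hN ⌊α * N⌋₊
  have hN0 : (0 : ℝ) < N := by exact_mod_cast hN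
  have hM : (⌊α * N⌋₊ : ℝ) / N ≤ α := by
    rw [div_le_iff₀ hN0]; exact Nat.floor_le (by positivity)
  have hE : Real.exp (2 * B) * ∫ x, |f x - fsm f e x| ∂gaussianReal 0 1 ≤ η / (2 * α) := by
    refine (mul_le_mul_of_nonneg_left hint (Real.exp_pos _).le).trans (le_of_eq ?_)
    field_simp
  have hE0 : 0 ≤ Real.exp (2 * B) * ∫ x, |f x - fsm f e x| ∂gaussianReal 0 1 :=
    mul_nonneg (Real.exp_pos _).le (integral_nonneg fun x => abs_nonneg _)
  have h3 : (⌊α * N⌋₊ : ℝ) / N * (Real.exp (2 * B) * ∫ x, |f x - fsm f e x| ∂gaussianReal 0 1) ≤ η / 2 := by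
    refine (mul_le_mul hM hE hE0 hα.le).trans (le_of_eq ?_)
    field_simp
  linarith

end Vale.Agent.P157.Low
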