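import Vale.Agent.P157.Low.CascadeRoot

/-!
Identification of discrete Ghirlanda–Guerra arrays: Gaussian tilts keep their law and the
log-averages follow the nested recursion.
-/

namespace Vale.Agent.P157.Low

open MeasureTheory Filter Set

variable {r : ℕ} (C : Casc r) {d : Fin (r + 1) → ℝ} {c : ℝ} {W : ℝ → ℝ}

/-- The given series in the form carried through the levels. -/
lemma Casc.ratio_eq (hd : ∀ j, 0 ≤ d j) (hW : Weight c W) {n : ℕ} (Φ : LMat r n → ℝ)
    {θ : Fin n → ℝ → ℝ} (hθ : ∀ a, BC (θ a)) :
    C.ratio d c W Φ θ = C.pser (left d 0) c (C.pot d W 0) Φ θ := by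
  obtain ⟨lo, hi, ρ, h1, hρ, hr, hpos, -⟩ := hW.range
  have hrel : rel c (C.pot d W 0) = fun y => W y / c := by
    funext y
    simp [rel, Casc.pot, potUp, Real.exp_log (hpos y)]
  have hw : BC fun y => W y / c := by
    simpa [div_eq_inv_mul, Pi.smul_def] using (IsFn.of_Sm hW.smooth).bc.smul c⁻¹
  have hX : BC fun y => 1 - W y / c := by
    simpa [Pi.add_def, sub_eq_add_neg] using BC.one.add (hw.smul (-1))
  rw [Casc.pser, hrel, left_zero, Casc.ratio, Casc.ser]
  refine tsum_congr fun k => ?_
  rw [Fintype.card_fin, ← Casc.momE_eq hd finSumFinEquiv _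
    (bc_ext (fun a => (hθ a).mul hw) hX k)]
  refine congrArg _ (Finset.sum_congr rfl fun A _ => ?_)
  congr 2
  congr 1
  funext h
  simp [ratioTerm, ext, Fintype.prod_sum_type]

lemma Casc.av_fin {n : ℕ} (Φ : LMat r n → ℝ) : C.av Φ = ∑ A, C.P n A * Φ A :=
  (C.av_marg id Function.injective_id Φ).symm

/-- The expected log-average is the nested potential at the origin. -/
theorem Casc.logVal_eq (hd : ∀ j, 0 ≤ d j) (hW : Weight c W) :
    C.logVal d c W = potUp C.cdf d (fun y => Real.log (W y)) (r + 1) 0 := by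
  obtain ⟨lo, hi, ρ, h1, hρ, hr, hpos, -⟩ := hW.range
  have h := Casc.lser_total (C := C) hd hW
  have hX : BC fun y => 1 - W y / c := by
    simpa [Pi.add_def, sub_eq_add_neg, div_eq_inv_mul] using
      BC.one.add ((IsFn.of_Sm hW.smooth).bc.smul (-c⁻¹))
  have e : C.logVal d c W = Real.log c - C.lser d (fun y => 1 - W y / c) := by
    rw [Casc.logVal, logSer, Casc.lser]
    refine congrArg _ (tsum_congr fun k => congrArg (· / ((k : ℝ) + 1)) ?_)
    rw [← Casc.momE_eq hd (Equiv.emptySum Empty (Fin (k + 1))) _ (bc_ext (fun a => a.elim) hX (k + 1))]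
    refine Finset.sum_congr rfl fun A _ => ?_
    rw [one_mul]
    congr 2
    funext x
    simp [ext, Fintype.prod_sum_type]
  rw [e, h, sub_sub_cancel]
  rfl

/-- A tilt keeps the law of the levels. -/
theorem Casc.ratio_one (hd : ∀ j, 0 ≤ d j) (hW : Weight c W) {n : ℕ} (Φ : LMat r n → ℝ) :
    C.ratio d c W Φ (fun _ _ => 1) = ∑ A, C.P n A * Φ A := by
  obtain ⟨lo, hi, ρ, h1, hρ, hr, -, hfn⟩ := hW.range
  rw [C.ratio_eq hd hW Φ fun _ => BC.one]
  have main : ∀ k, k ≤ r + 1 → C.pser (left d 0) c (C.pot d W 0) Φ (fun _ _ => 1) =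
      C.pser (left d k) c (C.pot d W k) Φ (fun _ _ => 1) := by
    intro k
    induction k with
    | zero => exact fun _ => rfl
    | succ k ih =>
      intro hk
      obtain ⟨hU, hrU⟩ := Casc.pot_spec (C := C) hd hr hfn k (by omega)
      rw [ih (by omega), Casc.pser_level hd hW (by omega : k ≤ r) Φ (fun _ => IsFn.one)
        fun a b _ => Or.inl rfl]
      simp only [insStep_one hU hrU]
  rw [main (r + 1) le_rfl, Casc.pser_root hd hW, C.av_fin]
  simp

/-- One insertion under a tilt. -/
theorem Casc.ratio_single (hd : ∀ j, 0 ≤ d j) (hW : Weight c W) {θ : ℝ → ℝ} (hθ : Sm θ) {n : ℕ}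
    (Φ : LMat r n → ℝ) (a : Fin n) :
    C.ratio d c W Φ (Function.update (fun _ _ => 1) a θ) =
      (∑ A, C.P n A * Φ A) * insUp C.cdf d (fun y => Real.log (W y)) θ (r + 1) 0 := by
  have hi : ∀ b, BC (Function.update (fun (_ : Fin n) (_ : ℝ) => (1 : ℝ)) a θ b) :=
    bc_update (fun _ => BC.one) a (IsFn.of_Sm hθ).bc
  rw [C.ratio_eq hd hW Φ hi, ← C.av_fin]
  exact Casc.pser_single hd hW Φ a (fun k => insUp C.cdf d (fun y => Real.log (W y)) θ k)
    (Nat.zero_le _) (IsFn.of_Sm hθ) fun k hk _ => insUp_succ _ _ _ _ hk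

/-- Two insertions under a tilt. -/
theorem Casc.ratio_pair (hd : ∀ j, 0 ≤ d j) (hW : Weight c W) {θ θ' : ℝ → ℝ} (hθ : Sm θ)
    (hθ' : Sm θ') {n : ℕ} (Φ : LMat r n → ℝ) {a b : Fin n} (hab : a ≠ b) :
    C.ratio d c W Φ (Function.update (Function.update (fun _ _ => 1) a θ) b θ') =
      ∑ A, C.P n A * (Φ A * pairRoot C.cdf d (fun y => Real.log (W y)) θ θ' (A a b)) := by
  obtain ⟨lo, hi, ρ, h1, hρ, hr, -, hfn⟩ := hW.range
  set u := fun y => Real.log (W y)
  set g := fun k => insUp C.cdf d u θ k
  set g' := fun k => insUp C.cdf d u θ' k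
  set S := fun k => Function.update (Function.update (fun (_ : Fin n) (_ : ℝ) => (1 : ℝ)) a (g k)) b (g' k)
  have hg : ∀ k, k ≤ r + 1 → IsFn (g k) ∧ IsFn (g' k) := by
    intro k
    induction k with
    | zero => exact fun _ => ⟨IsFn.of_Sm hθ, IsFn.of_Sm hθ'⟩
    | succ k ih =>
      intro hk
      obtain ⟨hU, hrU⟩ := Casc.pot_spec (C := C) hd hr hfn k (by omega)
      simp only [g, g', insUp_succ _ _ _ _ (by omega : k ≤ r)]
      exact ⟨IsFn.insStep hU hrU (C.cdf_nonneg _) (hd _) (ih (by omega)).1,
        IsFn.insStep hU hrU (C.cdf_nonneg _) (hd _) (ih (by omega)).2⟩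
  have hS : ∀ k, k ≤ r + 1 → ∀ c', IsFn (S k c') := by
    intro k hk c'
    simp only [S]
    rcases eq_or_ne c' b with rfl | h
    · simpa using (hg k hk).2
    rw [Function.update_of_ne h]
    rcases eq_or_ne c' a with rfl | h'
    · simpa using (hg k hk).1
    · simpa [Function.update_of_ne h'] using IsFn.one
  set Φj : Fin (r + 1) → LMat r n → ℝ := fun j B => if B a b = j then Φ B else 0
  have key : ∀ j, C.pser (left d 0) c (C.pot d W 0) (Φj j) (S 0) =
      C.av (Φj j) * pairRoot C.cdf d u θ θ' j := by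
    intro j
    have hj : (j : ℕ) ≤ r := Nat.lt_succ_iff.1 j.isLt
    set k0 := r - (j : ℕ) with hk0
    have main : ∀ k, k ≤ k0 → C.pser (left d 0) c (C.pot d W 0) (Φj j) (S 0) =
        C.pser (left d k) c (C.pot d W k) (Φj j) (S k) := by
      intro k
      induction k with
      | zero => exact fun _ => rfl
      | succ k ih =>
        intro hk
        have hkr : k ≤ r := by omega
        obtain ⟨hU, hrU⟩ := Casc.pot_spec (C := C) hd hr hfn k (by omega)
        rw [ih (by omega), Casc.pser_level hd hW hkr (Φj j) (hS k (by omega)) ?_]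
        · congr 1
          funext c'
          simp only [S, g, g', insUp_succ _ _ _ _ hkr]
          rcases eq_or_ne c' b with rfl | h
          · simp [Casc.pot, u]
          rw [Function.update_of_ne h, Function.update_of_ne h]
          rcases eq_or_ne c' a with rfl | h'
          · simp [Casc.pot, u]
          · simp [Function.update_of_ne h', insStep_one hU hrU]
        intro p q hpq
        have one : ∀ c', c' ≠ a → c' ≠ b → S k c' = fun _ => 1 := fun c' h h' => by
          simp [S, Function.update_of_ne h, Function.update_of_ne h']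
        have z : ∀ B : LMat r n, r - k ≤ (B a b : ℕ) → Φj j B = 0 := fun B hB => by
          simp only [Φj]
          rw [if_neg]
          intro h
          have : (B a b : ℕ) = j := congrArg Fin.val h
          omega
        by_cases h1 : p = a ∧ q = b
        · obtain ⟨rfl, rfl⟩ := h1
          exact Or.inr (Or.inr fun B _ hB => z B hB)
        by_cases h2 : p = b ∧ q = a
        · obtain ⟨rfl, rfl⟩ := h2
          exact Or.inr (Or.inr fun B hs hB => z B (by rwa [hs]))
        by_cases hp : p = a ∨ p = b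
        · refine Or.inr (Or.inl (one q (fun h => ?_) fun h => ?_)) <;> rcases hp with rfl | rfl
          exacts [hpq h.symm, h2 ⟨rfl, h⟩, h1 ⟨rfl, h⟩, hpq h.symm]
        · exact Or.inl (one p (fun h => hp (Or.inl h)) fun h => hp (Or.inr h))
    rw [main k0 le_rfl]
    set η := fun y => g k0 y * g' k0 y
    obtain ⟨hU, hrU⟩ := Casc.pot_spec (C := C) hd hr hfn k0 (by omega)
    set w := rel c (C.pot d W k0)
    have hw : BC w := by
      obtain ⟨B, hB⟩ := (hU.exp_smul hrU 1).bc.bdd
      refine ⟨(Real.continuous_exp.comp hU.bc.cont).div_const c, B / |c|, fun y => ?_⟩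
      have := hB y
      rw [one_mul] at this
      simp only [w, rel, abs_div]
      exact div_le_div_of_nonneg_right this (abs_nonneg c)
    have hX : BC fun y => 1 - w y := by
      simpa [Pi.add_def, sub_eq_add_neg] using BC.one.add (hw.smul (-1))
    have hmove : C.pser (left d k0) c (C.pot d W k0) (Φj j) (S k0) =
        C.pser (left d k0) c (C.pot d W k0) (Φj j) (Function.update (fun _ _ => 1) a η) := by
      have hlev : left d k0 = lev d j (d j) := by
        rw [← lev_top d (by omega : k0 ≤ r)]
        have : (⟨r - k0, by omega⟩ : Fin (r + 1)) = j := Fin.ext (by simp [k0]; omega)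
        rw [this]
      set G := fun c' => Function.update (fun (_ : Fin n) (_ : ℝ) => (1 : ℝ)) a (g k0) c' * w
      have hG : ∀ c', BC (G c') := fun c' =>
        (bc_update (fun _ => BC.one) a (hg k0 (by omega)).1.bc c').mul hw
      have h := Casc.ser_move (C := C) (j := j) (X := fun y => 1 - w y) hd (hd j) hX (Φj j)
        (a := a) (b := b) (fun B hB => by
          by_contra hh
          refine hB (if_neg fun h => hh ?_)
          rw [h]) hG (u := g' k0) (hg k0 (by omega)).2.bc
      rw [Casc.pser, Casc.pser, hlev]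
      refine Eq.trans ?_ (h.symm.trans ?_) <;> congr 1 <;> funext c'
      · simp only [S, G, w]
        rcases eq_or_ne c' b with rfl | h
        · funext y
          simp [Function.update_of_ne hab.symm]
        · simp [Function.update_of_ne h]
      · simp only [G, η, w]
        rcases eq_or_ne c' a with rfl | h
        · funext y
          simp
          ring
        · simp [Function.update_of_ne h]
    rw [hmove]
    set m' : Fin ((j : ℕ) + 1) → ℝ := fun i => C.cdf ⟨i, by omega⟩
    set d' : Fin ((j : ℕ) + 1) → ℝ := fun i => d ⟨i, by omega⟩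
    have hpot : ∀ i, i ≤ (j : ℕ) + 1 → potUp m' d' (C.pot d W k0) i = C.pot d W (k0 + i) := by
      intro i
      induction i with
      | zero => exact fun _ => rfl
      | succ i ih =>
        intro hi
        have hi' : i ≤ (j : ℕ) := by omega
        have e : (⟨r - (k0 + i), by omega⟩ : Fin (r + 1)) = ⟨(j : ℕ) - i, by omega⟩ :=
          Fin.ext (by simp only [k0]; omega)
        rw [← add_assoc, C.pot_succ d W (by omega : k0 + i ≤ r), e, ← ih (by omega), potUp, dif_pos hi']
        rfl
    have hs := Casc.pser_single hd hW (Φj j) a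
      (fun k => insUp m' d' (C.pot d W k0) η (k - k0)) (k0 := k0) (by omega)
      (by simpa [insUp] using IsFn.mul (hg k0 (by omega)).1 (hg k0 (by omega)).2)
      (fun k hk hk' => by
        have e : (⟨r - k, by omega⟩ : Fin (r + 1)) = ⟨(j : ℕ) - (k - k0), by omega⟩ :=
          Fin.ext (by simp only [k0] at hk' ⊢; omega)
        rw [show k + 1 - k0 = k - k0 + 1 by omega, insUp_succ _ _ _ _ (by omega : k - k0 ≤ (j : ℕ)),
          hpot _ (by omega), e, show k0 + (k - k0) = k by omega])
    simp only [Nat.sub_self, show insUp m' d' (C.pot d W k0) η 0 = η from rfl,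
      show r + 1 - k0 = (j : ℕ) + 1 by omega] at hs
    exact hs
  rw [C.ratio_eq hd hW Φ
    (bc_update (bc_update (fun _ => BC.one) a (IsFn.of_Sm hθ).bc) b (IsFn.of_Sm hθ').bc)]
  obtain ⟨hU, hrU⟩ := Casc.pot_spec (C := C) hd hr hfn 0 (by omega)
  have hrel : BC (rel c (C.pot d W 0)) := by
    have := (hU.exp_smul hrU 1).bc.smul c⁻¹
    unfold rel
    simpa [Pi.smul_def, div_eq_inv_mul] using this
  have hsplit : Φ = fun B => ∑ j, Φj j B := by
    funext B
    simp [Φj]
  calc C.pser (left d 0) c (C.pot d W 0) Φ (S 0)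
      = ∑ j, C.pser (left d 0) c (C.pot d W 0) (Φj j) (S 0) := by
        conv_lhs => rw [hsplit]
        exact Casc.ser_sum_ind (fun y => hρ _ (hrU y)) h1
          (fun c' => (hS 0 (by omega) c').bc.mul hrel) _ _
    _ = ∑ j, C.av (Φj j) * pairRoot C.cdf d u θ θ' j := Finset.sum_congr rfl fun j _ => key j
    _ = _ := by
        simp only [C.av_fin, Finset.sum_mul]
        rw [Finset.sum_comm]
        simp [Φj, mul_assoc]

end Vale.Agent.P157.Low
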