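import Vale.Agent.P157.Low.Defs

/-!
Bounded continuous functions on the line.
-/

namespace Vale.Agent.P157.Low

open MeasureTheory ProbabilityTheory

/-- Bounded and continuous. -/
structure BC (f : ℝ → ℝ) : Prop where
  cont : Continuous f
  bdd : ∃ B, ∀ y, |f y| ≤ B

lemma BC.const (c : ℝ) : BC fun _ => c := ⟨continuous_const, |c|, fun _ => le_rfl⟩

lemma BC.one : BC (fun _ => (1 : ℝ)) := BC.const 1

lemma BC.add {f g : ℝ → ℝ} (hf : BC f) (hg : BC g) : BC (f + g) := by
  obtain ⟨B, hB⟩ := hf.bdd; obtain ⟨B', hB'⟩ := hg.bdd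
  exact ⟨hf.cont.add hg.cont, B + B', fun y => (abs_add_le _ _).trans (add_le_add (hB y) (hB' y))⟩

lemma BC.mul {f g : ℝ → ℝ} (hf : BC f) (hg : BC g) : BC (f * g) := by
  obtain ⟨B, hB⟩ := hf.bdd; obtain ⟨B', hB'⟩ := hg.bdd
  refine ⟨hf.cont.mul hg.cont, B * B', fun y => ?_⟩
  rw [Pi.mul_apply, abs_mul]
  exact mul_le_mul (hB y) (hB' y) (abs_nonneg _) ((abs_nonneg _).trans (hB y))

lemma BC.smul {f : ℝ → ℝ} (hf : BC f) (c : ℝ) : BC (c • f) := by
  simpa [Pi.smul_def, Pi.mul_def] using (BC.const c).mul hf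

lemma BC.prod {α : Type} (s : Finset α) {F : α → ℝ → ℝ} (hF : ∀ a ∈ s, BC (F a)) :
    BC (fun y => ∏ a ∈ s, F a y) := by
  classical
  induction s using Finset.induction_on with
  | empty => simpa using BC.one
  | insert a s ha ih =>
    have := (hF a (Finset.mem_insert_self a s)).mul
      (ih fun b hb => hF b (Finset.mem_insert_of_mem hb))
    simpa [Finset.prod_insert ha, Pi.mul_def] using this

lemma BC.integrable {α : Type} [MeasurableSpace α] {μ : Measure α} [IsFiniteMeasure μ] {f : ℝ → ℝ}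
    (hf : BC f) {g : α → ℝ} (hg : Measurable g) : Integrable (fun x => f (g x)) μ := by
  obtain ⟨B, hB⟩ := hf.bdd
  exact Integrable.mono' (integrable_const B) (hf.cont.measurable.comp hg).aestronglyMeasurable
    (Filter.Eventually.of_forall fun x => hB _)

end Vale.Agent.P157.Low
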