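import Vale.Agent.P157.Low.CascadeStep

/-!
The terms of the derivative of a ratio series cancel along the tilted flow.
-/

namespace Vale.Agent.P157.Low

open MeasureTheory ProbabilityTheory Filter Set
open scoped Topology

variable {r : ℕ} {C : Casc r} {d : Fin (r + 1) → ℝ} {j : Fin (r + 1)} {t ρ : ℝ}
  {ι : Type} [Fintype ι] [DecidableEq ι] {X : ℝ → ℝ}

/-- A function of the old replicas. -/
def up (Φ : (ι → ι → Fin (r + 1)) → ℝ) (B : Option ι → Option ι → Fin (r + 1)) : ℝ :=
  Φ fun a b => B (some a) (some b)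

omit [Fintype ι] in
lemma opt_eq_update (u g : ℝ → ℝ) (F : ι → ℝ → ℝ) :
    opt u F = Function.update (opt g F) none u := by
  funext a
  rcases a with _ | a <;> simp [opt]

lemma Casc.ser_smul_opt (c : ℝ) (g : ℝ → ℝ) (F : ι → ℝ → ℝ) (e : Fin (r + 1) → ℝ)
    (Φ : (Option ι → Option ι → Fin (r + 1)) → ℝ) :
    C.ser e X Φ (opt (c • g) F) = c * C.ser e X Φ (opt g F) := by
  rw [opt_eq_update (c • g) g F, Casc.ser_smul_fun, ← opt_eq_update]

lemma Casc.ser_update_zero (e : Fin (r + 1) → ℝ) (Φ : (ι → ι → Fin (r + 1)) → ℝ) (F : ι → ℝ → ℝ)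
    (a : ι) : C.ser e X Φ (Function.update F a 0) = 0 := by
  simpa using Casc.ser_smul_fun (C := C) (e := e) (X := X) F Φ a 0 0

omit [DecidableEq ι] in
lemma Casc.ser_zero_ind (e : Fin (r + 1) → ℝ) {Φ : (ι → ι → Fin (r + 1)) → ℝ}
    (h : ∀ B, (∀ a b, B a b = B b a) → Φ B = 0) (F : ι → ℝ → ℝ) : C.ser e X Φ F = 0 := by
  rw [Casc.ser_congr (Φ' := fun B => 0 * Φ B) (fun B hB => by simp [h B hB]), Casc.ser_mul_ind, zero_mul]

/-- Moving rule for series. -/
lemma Casc.ser_move (hd : ∀ i, 0 ≤ d i) (ht : 0 ≤ t) (hX : BC X)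
    (Φ : (ι → ι → Fin (r + 1)) → ℝ) {a b : ι} (hΦ : ∀ B, Φ B ≠ 0 → j ≤ B a b) {F : ι → ℝ → ℝ}
    (hF : ∀ c, BC (F c)) {u : ℝ → ℝ} (hu : BC u) :
    C.ser (lev d j t) X Φ (Function.update F a (u * F a)) =
      C.ser (lev d j t) X Φ (Function.update F b (u * F b)) := by
  refine tsum_congr fun k => congrArg _ ?_
  have h : ∀ (c : ι) (f : ℝ → ℝ), ext (Function.update F c f) X k =
      Function.update (ext F X k) (Sum.inl c) f := fun c f => Sum.update_elim_inl.symm
  rw [h, h]
  exact Casc.mom_move hd ht (lft k Φ) (a := Sum.inl a) (b := Sum.inl b) (fun B hB => hΦ _ hB)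
    (bc_ext hF hX k) hu

/-- A factor on a new replica slides onto the old one and the new replica is integrated out. -/
lemma Casc.slide_tilt (hd : ∀ i, 0 ≤ d i) (ht : 0 ≤ t) (hX : BC X) (hρ : ∀ y, |X y| ≤ ρ) (h1 : ρ < 1)
    (Φ : (ι → ι → Fin (r + 1)) → ℝ) (a : ι) {F : ι → ℝ → ℝ} (hF : ∀ c, BC (F c)) {R w : ℝ → ℝ}
    (hR : BC R) (hw : BC w) (hwX : w = fun y => 1 - X y) :
    (Fintype.card ι : ℝ) * C.ser (lev d j t) X (fun B => ind j (B (some a) none) * up Φ B) (opt (R * w) F) =
      (1 - C.cdf j) * C.ser (lev d j t) X Φ (Function.update F a (R * F a)) +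
        ∑ b ∈ Finset.univ.erase a, C.ser (lev d j t) X (fun B => ind j (B a b) * Φ B)
          (Function.update F a (R * F a)) := by
  have hF' : ∀ c, BC (Function.update F a (R * F a) c) := bc_update hF a (hR.mul (hF a))
  have hm : C.ser (lev d j t) X (fun B => ind j (B (some a) none) * up Φ B) (opt (R * w) F) =
      C.ser (lev d j t) X (fun B => ind j (B (some a) none) * up Φ B)
        (opt w (Function.update F a (R * F a))) := by
    rw [opt_eq_update (R * w) w F]
    refine (Casc.ser_move hd ht hX _ (a := some a) (b := none) (fun B hB => ?_) (F := opt w F)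
      (bc_opt hF hw) hR).symm.trans ?_
    · by_contra h
      simp [ind, h] at hB
    · congr 1
      funext c
      rcases c with _ | c
      · simp [opt]
      · rcases eq_or_ne c a with rfl | h <;> simp [opt, *]
  subst hwX
  rw [hm]
  refine (Casc.tilt_id (lev_nonneg hd ht) hF' hX hρ h1 j a Φ).trans ?_
  rw [← Casc.ser_sum_ind hρ h1 hF', ← Casc.ser_mul_ind, ← Casc.ser_add_ind hρ h1 hF']
  congr 1
  funext B
  rw [add_mul, Finset.sum_mul]

/-- Two factors on two new replicas meeting each other. -/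
lemma Casc.extra_tilt (hd : ∀ i, 0 ≤ d i) (ht : 0 ≤ t) (hX : BC X) (hρ : ∀ y, |X y| ≤ ρ) (h1 : ρ < 1)
    (Φ : (ι → ι → Fin (r + 1)) → ℝ) {F : ι → ℝ → ℝ} (hF : ∀ c, BC (F c)) {R w : ℝ → ℝ}
    (hR : BC R) (hw : BC w) (hwX : w = fun y => 1 - X y) :
    ((Fintype.card ι : ℝ) + 1) * C.ser (lev d j t) X (fun B => ind j (B (some none) none) * up (up Φ) B)
        (opt (R * w) (opt (R * w) F)) =
      (1 - C.cdf j) * C.ser (lev d j t) X (up Φ) (opt (R * R * w) F) +
        ∑ a, C.ser (lev d j t) X (fun B => ind j (B (some a) none) * up Φ B) (opt (R * R * w) F) := by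
  have h := Casc.slide_tilt (C := C) (j := j) hd ht hX hρ h1 (up Φ) none
    (bc_opt hF (hR.mul hw)) hR hw hwX
  have hu : Function.update (opt (R * w) F) none (R * opt (R * w) F none) = opt (R * R * w) F := by
    funext c
    rcases c with _ | c <;> simp [opt, mul_assoc]
  have he : (Finset.univ : Finset (Option ι)).erase none = Finset.univ.map Function.Embedding.some := by
    ext (_ | a) <;> simp
  rw [hu, he, Finset.sum_map, Fintype.card_option] at h
  push_cast at h
  rw [h]
  refine congrArg _ (Finset.sum_congr rfl fun a _ => Casc.ser_congr (fun B hB => ?_) _)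
  show ind j (B none (some a)) * _ = _
  rw [hB none (some a)]

/-- All terms cancel. -/
theorem Casc.stage_zero (hd : ∀ i, 0 ≤ d i) (ht : 0 ≤ t) (hX : BC X) (hρ : ∀ y, |X y| ≤ ρ) (h1 : ρ < 1)
    (Φ : (ι → ι → Fin (r + 1)) → ℝ) {F p : ι → ℝ → ℝ} (hF : ∀ c, BC (F c)) (hp : ∀ c, BC (p c))
    {R w : ℝ → ℝ} (hR : BC R) (hw : BC w) (hwX : w = fun y => 1 - X y)
    (hpair : ∀ a b, a ≠ b → p a = 0 ∨ p b = 0 ∨
      ∀ B, (∀ c c', B c c' = B c' c) → j ≤ B a b → Φ B = 0) :
    ∑ a, C.ser (lev d j t) X Φ (Function.update F a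
        ((1 - C.cdf j) • (R * p a) + ((1 - C.cdf j) / 2) • (R * R * F a))) +
      (Fintype.card ι : ℝ) * C.ser (lev d j t) X (up Φ)
        (opt ((-((1 - C.cdf j) / 2)) • (R * R * w)) F) +
      (1 / 2 : ℝ) * ∑ a, ∑ b ∈ Finset.univ.erase a, C.ser (lev d j t) X (fun B => ind j (B a b) * Φ B)
        (Function.update (Function.update F a (p a + R * F a)) b (p b + R * F b)) +
      ∑ a, (Fintype.card ι : ℝ) * C.ser (lev d j t) X (fun B => ind j (B (some a) none) * up Φ B)
        (opt ((-1 : ℝ) • (R * w)) (Function.update F a (p a + R * F a))) +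
      (1 / 2 : ℝ) * ((Fintype.card ι : ℝ) * (((Fintype.card ι : ℝ) + 1) *
        C.ser (lev d j t) X (fun B => ind j (B (some none) none) * up (up Φ) B)
          (opt ((-1 : ℝ) • (R * w)) (opt ((-1 : ℝ) • (R * w)) F)))) = 0 := by
  have hadd := fun (G : ι → ℝ → ℝ) (hG : ∀ c, BC (G c)) (Ψ : (ι → ι → Fin (r + 1)) → ℝ) (a : ι)
      (f g : ℝ → ℝ) (hf : BC f) (hg : BC g) =>
    Casc.ser_add_fun (C := C) (e := lev d j t) hX hρ h1 hG Ψ a hf hg
  set m := C.cdf j
  set n := (Fintype.card ι : ℝ)
  set e := lev d j t with he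
  set S := fun a => C.ser e X Φ (Function.update F a (R * p a))
  set Q := fun a => C.ser e X Φ (Function.update F a (R * R * F a))
  set A := fun a b => C.ser e X (fun B => ind j (B a b) * Φ B) (Function.update F a (R * p a))
  set Bq := fun a b => C.ser e X (fun B => ind j (B a b) * Φ B) (Function.update F a (R * R * F a))
  set U := C.ser e X (up Φ) (opt (R * R * w) F)
  set V := fun a => C.ser e X (fun B => ind j (B (some a) none) * up Φ B) (opt (R * R * w) F)
  have hRF : ∀ a, BC (R * F a) := fun a => hR.mul (hF a)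
  have hg : ∀ a, BC (p a + R * F a) := fun a => (hp a).add (hRF a)
  have t1 : ∀ a, C.ser e X Φ (Function.update F a
      ((1 - m) • (R * p a) + ((1 - m) / 2) • (R * R * F a))) = (1 - m) * S a + (1 - m) / 2 * Q a := by
    intro a
    rw [hadd F hF Φ a _ _ ((hR.mul (hp a)).smul _) (((hR.mul hR).mul (hF a)).smul _),
      Casc.ser_smul_fun, Casc.ser_smul_fun]
  have t3 : ∀ a, ∀ b ∈ Finset.univ.erase a, C.ser e X (fun B => ind j (B a b) * Φ B)
      (Function.update (Function.update F a (p a + R * F a)) b (p b + R * F b)) =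
        A a b + A b a + Bq a b := by
    intro a b hb
    have hne : b ≠ a := Finset.ne_of_mem_erase hb
    have hψ : ∀ B : ι → ι → Fin (r + 1), ind j (B a b) * Φ B ≠ 0 → j ≤ B a b := fun B hB => by
      by_contra h
      simp [ind, h] at hB
    have hA : ∀ f, BC f → ∀ c, BC (Function.update F a f c) := fun f hf => bc_update hF a hf
    have z : C.ser e X (fun B => ind j (B a b) * Φ B)
        (Function.update (Function.update F a (p a)) b (p b)) = 0 := by
      rcases hpair a b hne.symm with h | h | h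
      · rw [h, Function.update_comm hne.symm, Casc.ser_update_zero]
      · rw [h, Casc.ser_update_zero]
      · refine Casc.ser_zero_ind e (fun B hB => ?_) _
        by_cases hj : j ≤ B a b
        · rw [h B hB hj, mul_zero]
        · simp [ind, hj]
    have m1 : C.ser e X (fun B => ind j (B a b) * Φ B)
        (Function.update (Function.update F a (p a)) b (R * F b)) = A a b := by
      have h := Casc.ser_move (C := C) hd ht hX _ hψ (hA _ (hp a)) hR
      rw [Function.update_self, Function.update_idem, Function.update_of_ne hne] at h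
      exact h.symm
    have m2 : C.ser e X (fun B => ind j (B a b) * Φ B)
        (Function.update (Function.update F a (R * F a)) b (p b)) = A b a := by
      have h := Casc.ser_move (C := C) hd ht hX _ hψ (bc_update hF b (hp b)) hR
      rw [Function.update_of_ne hne.symm, Function.update_self, Function.update_idem,
        Function.update_comm hne] at h
      exact h.trans (Casc.ser_congr (fun B hB => by rw [hB a b]) _)
    have m3 : C.ser e X (fun B => ind j (B a b) * Φ B)
        (Function.update (Function.update F a (R * F a)) b (R * F b)) = Bq a b := by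
      have h := Casc.ser_move (C := C) hd ht hX _ hψ (hA _ (hRF a)) hR
      rw [Function.update_self, Function.update_idem, Function.update_of_ne hne, ← mul_assoc] at h
      exact h.symm
    rw [hadd _ (hA _ (hg a)) _ b _ _ (hp b) (hRF b), Function.update_comm hne.symm,
      Function.update_comm hne.symm, hadd _ (bc_update hF b (hp b)) _ a _ _ (hp a) (hRF a),
      hadd _ (bc_update hF b (hRF b)) _ a _ _ (hp a) (hRF a), Function.update_comm hne,
      Function.update_comm hne, Function.update_comm hne, Function.update_comm hne, z, m1, m2, m3]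
    ring
  have t4 : ∀ a, n * C.ser e X (fun B => ind j (B (some a) none) * up Φ B)
      (opt ((-1 : ℝ) • (R * w)) (Function.update F a (p a + R * F a))) =
        -((1 - m) * (S a + Q a) + ∑ b ∈ Finset.univ.erase a, (A a b + Bq a b)) := by
    intro a
    have h := Casc.slide_tilt (C := C) (j := j) hd ht hX hρ h1 Φ a (bc_update hF a (hg a)) hR hw hwX
    have hu : R * (p a + R * F a) = R * p a + R * R * F a := by rw [mul_add, mul_assoc]
    have hq : BC (R * R * F a) := (hR.mul hR).mul (hF a)
    simp only [Function.update_self, Function.update_idem, hu, ← he,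
      hadd F hF _ a _ _ (hR.mul (hp a)) hq] at h
    rw [Casc.ser_smul_opt]
    linear_combination (-1 : ℝ) * h
  have t5 := Casc.extra_tilt (C := C) (j := j) hd ht hX hρ h1 Φ hF hR hw hwX
  have t6 : ∀ a, n * V a = (1 - m) * Q a + ∑ b ∈ Finset.univ.erase a, Bq a b := fun a =>
    Casc.slide_tilt (C := C) (j := j) hd ht hX hρ h1 Φ a hF (hR.mul hR) hw hwX
  have hs : C.ser e X (fun B => ind j (B (some none) none) * up (up Φ) B)
      (opt ((-1 : ℝ) • (R * w)) (opt ((-1 : ℝ) • (R * w)) F)) =
        C.ser e X (fun B => ind j (B (some none) none) * up (up Φ) B) (opt (R * w) (opt (R * w) F)) := by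
    have h : ∀ g, opt g (opt ((-1 : ℝ) • (R * w)) F) =
        Function.update (opt g (opt (R * w) F)) (some none) ((-1 : ℝ) • (R * w)) := fun g => by
      funext c
      rcases c with _ | (_ | c) <;> simp [opt]
    rw [Casc.ser_smul_opt, h, Casc.ser_smul_fun,
      show Function.update (opt (R * w) (opt (R * w) F)) (some none) (R * w) =
        opt (R * w) (opt (R * w) F) from Function.update_eq_self _ _]
    ring
  have hswap : ∑ a, ∑ b ∈ Finset.univ.erase a, A b a = ∑ a, ∑ b ∈ Finset.univ.erase a, A a b :=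
    Finset.sum_comm' fun a b => by simp [ne_comm]
  rw [Finset.sum_congr rfl fun a _ => t1 a, Finset.sum_congr rfl fun a _ => t4 a,
    Finset.sum_congr rfl fun a _ => Finset.sum_congr rfl (t3 a), Casc.ser_smul_opt, hs, t5]
  have h6 := Finset.sum_congr rfl fun a (_ : a ∈ (Finset.univ : Finset ι)) => t6 a
  simp only [Finset.sum_add_distrib, Finset.sum_neg_distrib, ← Finset.mul_sum, hswap, mul_add] at h6 ⊢
  linear_combination (1 / 2 : ℝ) * h6

end Vale.Agent.P157.Low
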