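import Vale.Agent.P157.Low.CascadeMoment

/-!
A level switched on: replicas meeting at that level share the new noise.
-/

namespace Vale.Agent.P157.Low

open MeasureTheory ProbabilityTheory Filter Set
open scoped Topology

variable {r N : ℕ} {T : ℝ}

/-- Variances with the levels below `j` full and level `j` at `t`. -/
def lev (d : Fin (r + 1) → ℝ) (j : Fin (r + 1)) (t : ℝ) (i : Fin (r + 1)) : ℝ :=
  if i < j then d i else if i = j then t else 0

lemma lev_nonneg {d : Fin (r + 1) → ℝ} (hd : ∀ i, 0 ≤ d i) {j : Fin (r + 1)} {t : ℝ} (ht : 0 ≤ t)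
    (i : Fin (r + 1)) : 0 ≤ lev d j t i := by
  simp only [lev]
  split_ifs
  exacts [hd i, ht, le_rfl]

/-- Symmetric, ultrametric, with full diagonal. -/
structure Good (A : LMat r N) : Prop where
  symm : ∀ a b, A a b = A b a
  diag : ∀ a, A a a = Fin.last r
  ultra : ∀ a b c, min (A a b) (A b c) ≤ A a c

lemma Casc.good (C : Casc r) {A : LMat r N} (h : C.P N A ≠ 0) : Good A :=
  ⟨C.symm N A h, C.diag N A h, C.ultra N A h⟩

lemma Good.psd {A : LMat r N} (hA : Good A) {e : Fin (r + 1) → ℝ} (he : ∀ i, 0 ≤ e i) :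
    (Matrix.of (lcov e A)).PosSemidef :=
  posSemidef_lcov he hA.symm hA.diag hA.ultra

/-- Replicas meeting `a` at level at least `j`. -/
def cls (j : Fin (r + 1)) (A : LMat r N) (a : Fin N) : Finset (Fin N) :=
  Finset.univ.filter fun p => j ≤ A a p

/-- A representative of the class. -/
def rep (j : Fin (r + 1)) (A : LMat r N) (a : Fin N) : Fin N :=
  if h : (cls j A a).Nonempty then (cls j A a).min' h else a

lemma Good.trans {A : LMat r N} (hA : Good A) {i : Fin (r + 1)} {a b c : Fin N} (h1 : i ≤ A a b)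
    (h2 : i ≤ A b c) : i ≤ A a c :=
  (le_min h1 h2).trans (hA.ultra a b c)

lemma Good.meet_rep {A : LMat r N} (hA : Good A) (j : Fin (r + 1)) (a : Fin N) :
    j ≤ A a (rep j A a) := by
  have hne : (cls j A a).Nonempty := ⟨a, by simp [cls, hA.diag, Fin.le_last]⟩
  rw [rep, dif_pos hne]
  exact (Finset.mem_filter.1 (Finset.min'_mem _ hne)).2

lemma Good.rep_eq_iff {A : LMat r N} (hA : Good A) (j : Fin (r + 1)) (a b : Fin N) :
    rep j A a = rep j A b ↔ j ≤ A a b := by
  constructor
  · intro h
    exact hA.trans (hA.meet_rep j a) (by rw [h, hA.symm]; exact hA.meet_rep j b)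
  · intro h
    have : cls j A a = cls j A b := Finset.ext fun p => by
      simp only [cls, Finset.mem_filter, Finset.mem_univ, true_and]
      exact ⟨fun hp => hA.trans (by rwa [hA.symm]) hp, fun hp => hA.trans h hp⟩
    have hne : (cls j A a).Nonempty := ⟨a, by simp [cls, hA.diag, Fin.le_last]⟩
    rw [rep, rep, dif_pos hne, dif_pos (this ▸ hne)]
    simp [this]

lemma Good.lcov_lev {A : LMat r N} (hA : Good A) (d : Fin (r + 1) → ℝ) (j : Fin (r + 1)) (t : ℝ)
    (a b : Fin N) : lcov (lev d j t) A a b =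
      lcov (lev d j 0) A (rep j A a) (rep j A b) + if rep j A a = rep j A b then t else 0 := by
  rw [if_congr (hA.rep_eq_iff j a b) rfl rfl]
  have h1 : lcov (lev d j t) A a b = lcov (lev d j 0) A a b + if j ≤ A a b then t else 0 := by
    simp only [lcov]
    rw [← Finset.sum_ite_eq' Finset.univ j (fun i => if i ≤ A a b then t else 0) |>.trans
      (if_pos (Finset.mem_univ j)), ← Finset.sum_add_distrib]
    refine Finset.sum_congr rfl fun i _ => ?_
    simp only [lev]
    rcases lt_trichotomy i j with h | h | h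
    · simp [h, h.ne]
    · simp [h]
    · simp [h.ne', not_lt.2 h.le]
  rw [h1]
  congr 1
  refine Finset.sum_congr rfl fun i _ => ?_
  rcases lt_or_ge i j with h | h
  · have ha : i ≤ A a (rep j A a) := h.le.trans (hA.meet_rep j a)
    have hb : i ≤ A b (rep j A b) := h.le.trans (hA.meet_rep j b)
    refine if_congr ⟨fun h' => ?_, fun h' => ?_⟩ rfl rfl
    · exact hA.trans (hA.trans (hA.symm a _ ▸ ha) h') hb
    · exact hA.trans (hA.trans ha h') (hA.symm b _ ▸ hb)
  · simp [lev, not_lt.2 h]

/-- Product of the functions of one class. -/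
def fold (j : Fin (r + 1)) (A : LMat r N) (F : Fin N → ℝ → ℝ) (p : Fin N) (y : ℝ) : ℝ :=
  ∏ a ∈ Finset.univ.filter (fun a => rep j A a = p), F a y

lemma BC.fold {F : Fin N → ℝ → ℝ} (hF : ∀ a, BC (F a)) (j : Fin (r + 1)) (A : LMat r N) (p : Fin N) :
    BC (Low.fold j A F p) :=
  BC.prod _ fun a _ => hF a

/-- The class form of a moment. -/
lemma Good.GE_class {A : LMat r N} (hA : Good A) {d : Fin (r + 1) → ℝ} (hd : ∀ i, 0 ≤ d i)
    (j : Fin (r + 1)) {t : ℝ} (ht : 0 ≤ t) {F : Fin N → ℝ → ℝ} (hF : ∀ a, BC (F a)) :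
    GE (lcov (lev d j t) A) (fun x => ∏ a, F a (x a)) =
      GE (lcov (lev d j 0) A) fun x => ∏ p, heat (fold j A F p) t (x p) := by
  set C0 := lcov (lev d j 0) A
  have h0 : (Matrix.of C0).PosSemidef := hA.psd (lev_nonneg hd le_rfl)
  have e : lcov (lev d j t) A =
      sub (fun a b => C0 a b + if a = b then t else 0) (rep j A) := by
    funext a b; exact hA.lcov_lev d j t a b
  have h1 : (Matrix.of fun a b => C0 a b + if a = b then t else 0).PosSemidef := by
    have := h0.add ((Matrix.PosSemidef.one (n := Fin N) (R := ℝ)).smul ht)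
    convert this using 1
    ext a b
    simp [Matrix.one_apply, C0]
  have hm : Measurable fun x : Fin N → ℝ => ∏ a, F a (x a) :=
    (continuous_finsetProd _ fun a _ => (hF a).cont.comp (continuous_apply _)).measurable
  rw [e, GE_sub h1 _ hm, ← GE_add_diag h0 ht _
    (fun p => (BC.fold hF j A p).cont.measurable) (fun p => (BC.fold hF j A p).bdd)]
  congr 1
  funext x
  rw [← Finset.prod_fiberwise Finset.univ (rep j A)]
  refine Finset.prod_congr rfl fun p _ => Finset.prod_congr rfl fun a ha => ?_
  simp only [(Finset.mem_filter.1 ha).2]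

/-- A factor may be moved inside its class. -/
lemma Good.GE_move {A : LMat r N} (hA : Good A) {d : Fin (r + 1) → ℝ} (hd : ∀ i, 0 ≤ d i)
    {j : Fin (r + 1)} {t : ℝ} (ht : 0 ≤ t) {F : Fin N → ℝ → ℝ} (hF : ∀ a, BC (F a)) {u : ℝ → ℝ}
    (hu : BC u) {a b : Fin N} (hab : j ≤ A a b) :
    GE (lcov (lev d j t) A) (fun x => ∏ c, Function.update F a (u * F a) c (x c)) =
      GE (lcov (lev d j t) A) fun x => ∏ c, Function.update F b (u * F b) c (x c) := by
  have hup : ∀ a c, BC (Function.update F a (u * F a) c) := fun a c => by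
    rcases eq_or_ne c a with rfl | h
    · rw [Function.update_self]; exact hu.mul (hF _)
    · rw [Function.update_of_ne h]; exact hF c
  rw [hA.GE_class hd j ht (hup a), hA.GE_class hd j ht (hup b)]
  have hr := (hA.rep_eq_iff j a b).2 hab
  have key : ∀ (a p : Fin N) (y : ℝ), fold j A (Function.update F a (u * F a)) p y =
      (if rep j A a = p then u y else 1) * fold j A F p y := by
    intro a p y
    simp only [fold]
    split_ifs with h
    · have hm : a ∈ Finset.univ.filter (fun c => rep j A c = p) := by simp [h]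
      rw [← Finset.mul_prod_erase _ _ hm, ← Finset.mul_prod_erase _ _ hm, Function.update_self,
        Pi.mul_apply, mul_assoc]
      congr 2
      exact Finset.prod_congr rfl fun c hc => by
        rw [Function.update_of_ne (Finset.ne_of_mem_erase hc)]
    · rw [one_mul]
      refine Finset.prod_congr rfl fun c hc => ?_
      rw [Function.update_of_ne fun (hca : c = a) => h (by rw [← hca]; exact (Finset.mem_filter.1 hc).2)]
  have : fold j A (Function.update F a (u * F a)) = fold j A (Function.update F b (u * F b)) := by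
    funext p y; rw [key, key, hr]
  rw [this]

/-- Product of flows. -/
def Flow.prod {α : Type} [DecidableEq α] (s : Finset α) (G : α → Flow T) : Flow T where
  F t y := ∏ a ∈ s, (G a).F t y
  F1 t y := ∑ a ∈ s, (G a).F1 t y * ∏ b ∈ s.erase a, (G b).F t y
  F2 t y := ∑ a ∈ s, ((G a).F2 t y * ∏ b ∈ s.erase a, (G b).F t y +
    (G a).F1 t y * ∑ b ∈ s.erase a, (G b).F1 t y * ∏ c ∈ (s.erase a).erase b, (G c).F t y)
  Ft t y := ∑ a ∈ s, (G a).Ft t y * ∏ b ∈ s.erase a, (G b).F t y
  d1 t ht y := (HasDerivAt.fun_finsetProd fun a _ => (G a).d1 t ht y).congr_deriv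
    (Finset.sum_congr rfl fun a _ => by rw [smul_eq_mul, mul_comm])
  d2 t ht y := HasDerivAt.fun_sum fun a _ => (((G a).d2 t ht y).fun_mul
    ((HasDerivAt.fun_finsetProd fun b _ => (G b).d1 t ht y).congr_deriv
      (Finset.sum_congr rfl fun b _ => by rw [smul_eq_mul, mul_comm])))
  dt t ht φ φ' hφ := (HasDerivAt.fun_finsetProd fun a _ => (G a).dt t ht φ φ' hφ).congr_deriv (by
    rw [Finset.sum_mul, ← Finset.sum_add_distrib]
    exact Finset.sum_congr rfl fun a _ => by rw [smul_eq_mul]; ring)
  joint := continuousOn_finsetProd _ fun a _ => (G a).joint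
  cont1 t ht := continuous_finsetSum _ fun a _ =>
    ((G a).cont1 t ht).mul (continuous_finsetProd _ fun b _ => (G b).cont ht)
  cont2 t ht := continuous_finsetSum _ fun a _ =>
    (((G a).cont2 t ht).mul (continuous_finsetProd _ fun b _ => (G b).cont ht)).add
      (((G a).cont1 t ht).mul (continuous_finsetSum _ fun b _ =>
        ((G b).cont1 t ht).mul (continuous_finsetProd _ fun c _ => (G c).cont ht)))
  contt t ht := continuous_finsetSum _ fun a _ =>
    ((G a).contt t ht).mul (continuous_finsetProd _ fun b _ => (G b).cont ht)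
  bdd := by
    choose B hB using fun a => (G a).bdd
    set M : ℝ := 1 + ∑ a ∈ s, |B a| with hM
    have hM1 : 1 ≤ M := by linarith [show 0 ≤ ∑ a ∈ s, |B a| by positivity]
    have hM0 : 0 ≤ M := zero_le_one.trans hM1
    have hle : ∀ a ∈ s, B a ≤ M := fun a ha => by
      linarith [le_abs_self (B a), Finset.single_le_sum (fun b _ => abs_nonneg (B b)) ha]
    have hp : ∀ u ⊆ s, ∀ t ∈ Icc 0 T, ∀ y, |∏ b ∈ u, (G b).F t y| ≤ M ^ s.card := by
      intro u hu t ht y
      rw [Finset.abs_prod]
      refine (Finset.prod_le_prod (fun b _ => abs_nonneg _)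
        fun b hb => (hB b t ht y).1.trans (hle b (hu hb))).trans ?_
      rw [Finset.prod_const]
      exact pow_le_pow_right₀ hM1 (Finset.card_le_card hu)
    set P := M ^ s.card
    have hP : 0 ≤ P := by positivity
    set n : ℝ := (s.card : ℝ)
    refine ⟨P + n * (M * P + M * (n * (M * P))), fun t ht y => ?_⟩
    have hn : 0 ≤ n := Nat.cast_nonneg _
    have hMP : 0 ≤ M * P := mul_nonneg hM0 hP
    have hX : 0 ≤ M * (n * (M * P)) := mul_nonneg hM0 (mul_nonneg hn hMP)
    have sum_le : ∀ (f : α → ℝ) (K : ℝ), (∀ a ∈ s, |f a| ≤ K) → |∑ a ∈ s, f a| ≤ n * K := by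
      intro f K h
      refine (Finset.abs_sum_le_sum_abs _ _).trans ?_
      simpa [n] using Finset.sum_le_card_nsmul s _ K h
    have one : ∀ a ∈ s, ∀ v : ℝ, |v| ≤ B a → |v * ∏ b ∈ s.erase a, (G b).F t y| ≤ M * P :=
      fun a ha v hv => by
        rw [abs_mul]
        exact mul_le_mul (hv.trans (hle a ha)) (hp _ (Finset.erase_subset _ _) t ht y) (abs_nonneg _) hM0
    have hsplit : n * (M * P) ≤ n * (M * P + M * (n * (M * P))) :=
      mul_le_mul_of_nonneg_left (by linarith) hn
    refine ⟨?_, ?_, ?_, ?_⟩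
    · linarith [hp s subset_rfl t ht y, mul_nonneg hn (add_nonneg hMP hX)]
    · linarith [sum_le _ _ fun a ha => one a ha _ (hB a t ht y).2.1]
    · refine (sum_le _ (M * P + M * (n * (M * P))) fun a ha => (abs_add_le _ _).trans
        (add_le_add (one a ha _ (hB a t ht y).2.2.1) ?_)).trans (by linarith)
      rw [abs_mul]
      refine mul_le_mul ((hB a t ht y).2.1.trans (hle a ha)) ?_ (abs_nonneg _) hM0
      refine (Finset.abs_sum_le_sum_abs _ _).trans ((Finset.sum_le_card_nsmul _ _ (M * P) fun b hb => ?_).trans ?_)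
      · rw [abs_mul]
        exact mul_le_mul ((hB b t ht y).2.1.trans (hle b (Finset.mem_of_mem_erase hb)))
          (hp _ ((Finset.erase_subset _ _).trans (Finset.erase_subset _ _)) t ht y) (abs_nonneg _) hM0
      · rw [nsmul_eq_mul]
        exact mul_le_mul_of_nonneg_right
          (Nat.cast_le.2 (Finset.card_le_card (Finset.erase_subset _ _))) hMP
    · linarith [sum_le _ _ fun a ha => one a ha _ (hB a t ht y).2.2.2]

end Vale.Agent.P157.Low
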