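import Vale.Agent.P157.Low.CascadeClass

/-!
Derivative of a moment in the variance of the active level.
-/

namespace Vale.Agent.P157.Low

open MeasureTheory ProbabilityTheory Filter Set
open scoped Topology

variable {r N : ℕ} {T : ℝ} {d : Fin (r + 1) → ℝ} {j : Fin (r + 1)}

/-- The space-time operator of a level. -/
noncomputable def Flow.op (G : Flow T) (t : ℝ) : ℝ → ℝ := G.Ft t + (1 / 2 : ℝ) • G.F2 t

lemma Flow.bc_op (G : Flow T) {t : ℝ} (ht : t ∈ Icc 0 T) : BC (G.op t) :=
  (G.bcFt ht).add ((G.bcF2 ht).smul _)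

lemma bc_update {ι : Type} [DecidableEq ι] {F : ι → ℝ → ℝ} (hF : ∀ a, BC (F a)) (a : ι) {f : ℝ → ℝ}
    (hf : BC f) (c : ι) : BC (Function.update F a f c) := by
  rcases eq_or_ne c a with rfl | h
  · rwa [Function.update_self]
  · rw [Function.update_of_ne h]; exact hF c

lemma integrable_prodF {μ : Measure (EuclideanSpace ℝ (Fin N))} [IsFiniteMeasure μ]
    {F : Fin N → ℝ → ℝ} (hF : ∀ a, BC (F a)) :
    Integrable (fun x => ∏ a, F a (x a)) μ := by
  choose D hD using fun a => (hF a).bdd
  refine Integrable.mono' (integrable_const (∏ a, D a))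
    (continuous_finsetProd _ fun a _ => (hF a).cont.comp (by fun_prop)).aestronglyMeasurable
    (Eventually.of_forall fun x => ?_)
  rw [Real.norm_eq_abs, Finset.abs_prod]
  exact Finset.prod_le_prod (fun a _ => abs_nonneg _) fun a _ => hD a _

lemma Good.hasDerivAt_GE {A : LMat r N} (hA : Good A) (hd : ∀ i, 0 ≤ d i) (G : Fin N → Flow T)
    {t : ℝ} (ht : t ∈ Ioo 0 T) :
    HasDerivAt (fun s => GE (lcov (lev d j s) A) fun x => ∏ a, (G a).F s (x a))
      (∑ a, GE (lcov (lev d j t) A) (fun x =>
          ∏ c, Function.update (fun c => (G c).F t) a ((G a).op t) c (x c)) +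
        (1 / 2 : ℝ) * ∑ a, ∑ b ∈ Finset.univ.erase a, if j ≤ A a b then
          GE (lcov (lev d j t) A) (fun x => ∏ c, Function.update (Function.update (fun c => (G c).F t) a
            ((G a).F1 t)) b ((G b).F1 t) c (x c)) else 0) t := by
  set ν := multivariateGaussian (0 : EuclideanSpace ℝ (Fin N)) (Matrix.of (lcov (lev d j 0) A))
  let H : Fin N → Flow T := fun p => Flow.prod (Finset.univ.filter fun a => rep j A a = p) G
  have htI : t ∈ Icc 0 T := Ioo_subset_Icc_self ht
  have hV : ∀ s ∈ Icc 0 T, GE (lcov (lev d j s) A) (fun x => ∏ a, (G a).F s (x a)) =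
      ∫ x, ∏ p, heat ((H p).F s) s (x p) ∂ν := fun s hs => by
    rw [hA.GE_class hd j hs.1 fun a => (G a).bcF hs]; rfl
  choose B hB using fun p => (H p).bdd
  have hder : ∀ s ∈ Ioo 0 T, ∀ p y, HasDerivAt (fun s => heat ((H p).F s) s y)
      (heat ((H p).op s) s y) s := fun s hs p y => by
    have h := hasDerivAt_heat_line (H p) hs 0 1 y 0 (by linarith [hs.1])
    simp only [zero_add, one_mul, zero_mul, add_zero] at h
    refine h.congr_deriv ?_
    rw [Flow.op, heat_add ((H p).bcFt (Ioo_subset_Icc_self hs)) (((H p).bcF2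
      (Ioo_subset_Icc_self hs)).smul _), heat_smul]
    rfl
  have hmain := (hasDerivAt_integral_of_dominated_loc_of_deriv_le (μ := ν)
    (F := fun s x => ∏ p, heat ((H p).F s) s (x p))
    (F' := fun s x => ∑ p, heat ((H p).op s) s (x p) * ∏ q ∈ Finset.univ.erase p, heat ((H q).F s) s (x q))
    (bound := fun _ => ∑ p, 2 * B p * ∏ q ∈ Finset.univ.erase p, B q)
    (x₀ := t) (s := Ioo 0 T) (Ioo_mem_nhds ht.1 ht.2)
    (Filter.eventually_of_mem (Ioo_mem_nhds ht.1 ht.2) fun s hs =>
      (continuous_finsetProd _ fun p _ =>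
        (((H p).bcF (Ioo_subset_Icc_self hs)).heat s).cont.comp (by fun_prop)).aestronglyMeasurable)
    (integrable_prodF fun p => ((H p).bcF htI).heat t)
    (continuous_finsetSum _ fun p _ => ((((H p).bc_op htI).heat t).cont.comp (by fun_prop)).mul
      (continuous_finsetProd _ fun q _ =>
        (((H q).bcF htI).heat t).cont.comp (by fun_prop))).aestronglyMeasurable
    (Eventually.of_forall fun x s hs => by
      rw [Real.norm_eq_abs]
      refine (Finset.abs_sum_le_sum_abs _ _).trans (Finset.sum_le_sum fun p _ => ?_)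
      rw [abs_mul, Finset.abs_prod]
      refine mul_le_mul (abs_heat_le_bdd (fun y => ?_) _ _)
        (Finset.prod_le_prod (fun q _ => abs_nonneg _) fun q _ =>
          abs_heat_le_bdd (fun y => (hB q s (Ioo_subset_Icc_self hs) y).1) _ _)
        (Finset.prod_nonneg fun q _ => abs_nonneg _) ?_
      · obtain ⟨_, _, h2, h3⟩ := hB p s (Ioo_subset_Icc_self hs) y
        simp only [Flow.op, Pi.add_apply, Pi.smul_apply, smul_eq_mul]
        refine (abs_add_le _ _).trans ?_
        rw [abs_mul, show |(1 / 2 : ℝ)| = 1 / 2 by norm_num]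
        linarith [(abs_nonneg _).trans h3]
      · linarith [(abs_nonneg _).trans (hB p s (Ioo_subset_Icc_self hs) 0).1])
    (integrable_const _)
    (Eventually.of_forall fun x s hs => (HasDerivAt.fun_finsetProd fun p _ => hder s hs p (x p)).congr_deriv
      (Finset.sum_congr rfl fun p _ => by rw [smul_eq_mul, mul_comm]))).2
  refine (hmain.congr_of_eventuallyEq (Filter.eventually_of_mem (Ioo_mem_nhds ht.1 ht.2)
    fun s hs => hV s (Ioo_subset_Icc_self hs))).congr_deriv ?_
  set F0 : Fin N → ℝ → ℝ := fun c => (G c).F t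
  have hF0 : ∀ c, BC (F0 c) := fun c => (G c).bcF htI
  set E : Fin N → EuclideanSpace ℝ (Fin N) → ℝ := fun p x =>
    ∏ q ∈ Finset.univ.erase p, heat ((H q).F t) t (x q)
  set fib : Fin N → Finset (Fin N) := fun p => Finset.univ.filter fun a => rep j A a = p
  set T1 : Fin N → EuclideanSpace ℝ (Fin N) → ℝ := fun a x =>
    heat (fun y => (G a).op t y * ∏ c ∈ (fib (rep j A a)).erase a, F0 c y) t (x (rep j A a)) *
      E (rep j A a) x
  set T2 : Fin N → Fin N → EuclideanSpace ℝ (Fin N) → ℝ := fun a b x =>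
    heat (fun y => (G a).F1 t y * ((G b).F1 t y * ∏ c ∈ ((fib (rep j A a)).erase a).erase b, F0 c y))
      t (x (rep j A a)) * E (rep j A a) x
  have hpt : ∀ x, ∑ p, heat ((H p).op t) t (x p) * E p x =
      ∑ a, (T1 a x + (1 / 2 : ℝ) * ∑ b ∈ (fib (rep j A a)).erase a, T2 a b x) := by
    intro x
    conv_rhs => rw [← Finset.sum_fiberwise Finset.univ (rep j A)]
    refine Finset.sum_congr rfl fun p _ => ?_
    have he : (H p).op t = fun y => ∑ a ∈ fib p, ((G a).op t y * ∏ c ∈ (fib p).erase a, F0 c y +
        (1 / 2 : ℝ) * ∑ b ∈ (fib p).erase a,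
          (G a).F1 t y * ((G b).F1 t y * ∏ c ∈ ((fib p).erase a).erase b, F0 c y)) := by
      funext y
      simp only [H, Flow.op, Flow.prod, Pi.add_apply, Pi.smul_apply, smul_eq_mul, Finset.mul_sum,
        ← Finset.sum_add_distrib]
      refine Finset.sum_congr rfl fun a _ => ?_
      simp only [F0, fib, mul_add, Finset.mul_sum]
      ring
    rw [he]
    have hP : ∀ s : Finset (Fin N), BC (fun y => ∏ c ∈ s, F0 c y) := fun s =>
      BC.prod s fun c _ => hF0 c
    have b1 : ∀ a, BC (fun y => (G a).op t y * ∏ c ∈ (fib p).erase a, F0 c y) := fun a =>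
      ((G a).bc_op htI).mul (hP _)
    have b2 : ∀ a b, BC (fun y => (G a).F1 t y *
        ((G b).F1 t y * ∏ c ∈ ((fib p).erase a).erase b, F0 c y)) := fun a b =>
      ((G a).bcF1 htI).mul (((G b).bcF1 htI).mul (hP _))
    have b3 : ∀ a, BC (fun y => (1 / 2 : ℝ) * ∑ b ∈ (fib p).erase a,
          (G a).F1 t y * ((G b).F1 t y * ∏ c ∈ ((fib p).erase a).erase b, F0 c y)) := fun a => by
      refine ⟨continuous_const.mul (continuous_finsetSum _ fun b _ => (b2 a b).cont), ?_⟩
      choose D hD using fun b => (b2 a b).bdd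
      refine ⟨1 / 2 * ∑ b ∈ (fib p).erase a, D b, fun y => ?_⟩
      rw [abs_mul, show |(1 / 2 : ℝ)| = 1 / 2 by norm_num]
      exact mul_le_mul_of_nonneg_left ((Finset.abs_sum_le_sum_abs _ _).trans
        (Finset.sum_le_sum fun b _ => hD b y)) (by norm_num)
    rw [heat_sum (fib p) (f := fun a y => (G a).op t y * ∏ c ∈ (fib p).erase a, F0 c y +
      (1 / 2 : ℝ) * ∑ b ∈ (fib p).erase a,
        (G a).F1 t y * ((G b).F1 t y * ∏ c ∈ ((fib p).erase a).erase b, F0 c y))
      (fun a _ => (b1 a).add (b3 a)), Finset.sum_mul]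
    refine Finset.sum_congr rfl fun a ha => ?_
    obtain rfl := (Finset.mem_filter.1 ha).2
    have hh : ∀ g : ℝ → ℝ, (fun y => (1 / 2 : ℝ) * g y) = (1 / 2 : ℝ) • g := fun g => rfl
    show heat ((fun y => (G a).op t y * ∏ c ∈ (fib (rep j A a)).erase a, F0 c y) +
            fun y => (1 / 2 : ℝ) * ∑ b ∈ (fib (rep j A a)).erase a,
              (G a).F1 t y * ((G b).F1 t y * ∏ c ∈ ((fib (rep j A a)).erase a).erase b, F0 c y))
          t (x (rep j A a)) * E (rep j A a) x = _
    rw [heat_add (b1 a) (b3 a), hh, heat_smul]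
    simp only [T1, T2, Pi.add_apply, Pi.smul_apply, smul_eq_mul, add_mul, mul_assoc,
      Finset.mul_sum, Finset.sum_mul, heat_sum _ (fun b _ => b2 a b)]
  have hfold : ∀ (s : Fin N → ℝ → ℝ), (∀ c, BC (s c)) →
      GE (lcov (lev d j t) A) (fun x => ∏ c, s c (x c)) = ∫ x, ∏ p, heat (fold j A s p) t (x p) ∂ν :=
    fun s hs => hA.GE_class hd j htI.1 hs
  have hupd : ∀ (s : Fin N → ℝ → ℝ) (a p : Fin N) (h : ℝ → ℝ), rep j A a ≠ p →
      fold j A (Function.update s a h) p = fold j A s p := fun s a p h hp => by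
    funext y
    refine Finset.prod_congr rfl fun c hc => ?_
    rw [Function.update_of_ne fun (hca : c = a) => hp (by rw [← hca]; exact (Finset.mem_filter.1 hc).2)]
  have hself : ∀ (s : Fin N → ℝ → ℝ) (a : Fin N) (h : ℝ → ℝ) (u : Finset (Fin N)), a ∈ u → ∀ y,
      ∏ c ∈ u, Function.update s a h c y = h y * ∏ c ∈ u.erase a, s c y := fun s a h u ha y => by
    rw [← Finset.mul_prod_erase _ _ ha, Function.update_self]
    exact congrArg _ (Finset.prod_congr rfl fun c hc => by
      rw [Function.update_of_ne (Finset.ne_of_mem_erase hc)])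
  have e1 : ∀ a, GE (lcov (lev d j t) A) (fun x =>
      ∏ c, Function.update F0 a ((G a).op t) c (x c)) = ∫ x, T1 a x ∂ν := fun a => by
    rw [hfold _ (bc_update hF0 a ((G a).bc_op htI))]
    congr 1; funext x
    rw [← Finset.mul_prod_erase _ _ (Finset.mem_univ (rep j A a))]
    refine congrArg₂ _ ?_ (Finset.prod_congr rfl fun p hp => ?_)
    · congr 2
      funext y
      exact hself _ _ _ _ (by simp) y
    · rw [hupd _ _ _ _ (Finset.ne_of_mem_erase hp).symm]; rfl
  have e2 : ∀ a, ∀ b ∈ (fib (rep j A a)).erase a, GE (lcov (lev d j t) A) (fun x =>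
      ∏ c, Function.update (Function.update F0 a ((G a).F1 t)) b ((G b).F1 t) c (x c)) =
        ∫ x, T2 a b x ∂ν := fun a b hb => by
    have hrb : rep j A b = rep j A a := (Finset.mem_filter.1 (Finset.mem_of_mem_erase hb)).2
    rw [hfold _ (bc_update (bc_update hF0 a ((G a).bcF1 htI)) b ((G b).bcF1 htI))]
    congr 1; funext x
    rw [← Finset.mul_prod_erase _ _ (Finset.mem_univ (rep j A a))]
    refine congrArg₂ _ ?_ (Finset.prod_congr rfl fun p hp => ?_)
    · congr 2
      funext y
      have hne : a ≠ b := (Finset.ne_of_mem_erase hb).symm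
      show ∏ c ∈ fib (rep j A a), _ = _
      rw [hself _ _ _ _ (Finset.mem_of_mem_erase hb), hself _ _ _ _ (by simp [fib, hne]),
        Finset.erase_right_comm]
      ring
    · have hp' := (Finset.ne_of_mem_erase hp).symm
      rw [hupd _ b _ _ (by rw [hrb]; exact hp'), hupd _ a _ _ hp']; rfl
  have hfib : ∀ a, (Finset.univ.erase a).filter (fun b => j ≤ A a b) = (fib (rep j A a)).erase a :=
    fun a => Finset.ext fun b => by
      simp [fib, hA.rep_eq_iff, hA.symm b a]
  have i1 : ∀ a, Integrable (T1 a) ν := fun a => by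
    refine (integrable_prodF (μ := ν) (F := Function.update (fun q => heat ((H q).F t) t) (rep j A a)
      (heat (fun y => (G a).op t y * ∏ c ∈ (fib (rep j A a)).erase a, F0 c y) t))
      (bc_update (fun q => ((H q).bcF htI).heat t) _
        ((((G a).bc_op htI).mul (BC.prod _ fun c _ => hF0 c) :).heat t))).congr
      (Eventually.of_forall fun x => ?_)
    simp only [T1, E]
    rw [← Finset.mul_prod_erase _ _ (Finset.mem_univ (rep j A a)), Function.update_self]
    exact congrArg _ (Finset.prod_congr rfl fun q hq => by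
      rw [Function.update_of_ne (Finset.ne_of_mem_erase hq)])
  have i2 : ∀ a b, Integrable (T2 a b) ν := by
    intro a b
    refine (integrable_prodF (μ := ν) (F := Function.update (fun q => heat ((H q).F t) t) (rep j A a)
      (heat (fun y => (G a).F1 t y *
        ((G b).F1 t y * ∏ c ∈ ((fib (rep j A a)).erase a).erase b, F0 c y)) t))
      (bc_update (fun q => ((H q).bcF htI).heat t) _
        ((((G a).bcF1 htI).mul (((G b).bcF1 htI).mul (BC.prod _ fun c _ => hF0 c)) :).heat t))).congr
      (Eventually.of_forall fun x => ?_)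
    simp only [T2, E]
    rw [← Finset.mul_prod_erase _ _ (Finset.mem_univ (rep j A a)), Function.update_self]
    exact congrArg _ (Finset.prod_congr rfl fun q hq => by
      rw [Function.update_of_ne (Finset.ne_of_mem_erase hq)])
  refine (integral_congr_ae (Eventually.of_forall hpt)).trans ?_
  have i12 : ∀ a, Integrable
      (fun x => T1 a x + (1 / 2 : ℝ) * ∑ b ∈ (fib (rep j A a)).erase a, T2 a b x) ν :=
    fun a => (i1 a).add ((integrable_finsetSum _ fun b _ => i2 a b).const_mul _)
  rw [integral_finsetSum _ fun a _ => i12 a, Finset.mul_sum,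
    ← Finset.sum_add_distrib]
  refine Finset.sum_congr rfl fun a _ => ?_
  rw [integral_add (i1 a) ((integrable_finsetSum _ fun b _ => i2 a b).const_mul _), integral_const_mul,
    integral_finsetSum _ fun b _ => i2 a b, e1, ← Finset.sum_filter, hfib,
    Finset.sum_congr rfl (e2 a)]

lemma Good.continuousOn_GE {A : LMat r N} (hA : Good A) (hd : ∀ i, 0 ≤ d i) (G : Fin N → Flow T) :
    ContinuousOn (fun s => GE (lcov (lev d j s) A) fun x => ∏ a, (G a).F s (x a)) (Icc 0 T) := by
  let H : Fin N → Flow T := fun p => Flow.prod (Finset.univ.filter fun a => rep j A a = p) G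
  refine ContinuousOn.congr ?_ (fun s hs => hA.GE_class hd j hs.1 fun a => (G a).bcF hs)
  choose B hB using fun p => (H p).bdd
  have hheat : ∀ (p : Fin N) (y : ℝ), ContinuousOn (fun s => heat ((H p).F s) s y) (Icc 0 T) :=
    fun p y => continuousOn_of_dominated
      (fun s hs => (((H p).cont hs).comp (by fun_prop)).aestronglyMeasurable)
      (fun s hs => Eventually.of_forall fun z => by rw [Real.norm_eq_abs]; exact (hB p s hs _).1)
      (integrable_const (B p))
      (Eventually.of_forall fun z => ((H p).joint.comp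
        (continuousOn_id.prodMk ((continuousOn_const (c := y)).add
          ((Real.continuous_sqrt.continuousOn).mul continuousOn_const)))
        fun s hs => ⟨hs, mem_univ _⟩ :))
  exact continuousOn_of_dominated
    (fun s hs => (continuous_finsetProd _ fun p _ =>
      (((H p).bcF hs).heat s).cont.comp (by fun_prop)).aestronglyMeasurable)
    (fun s hs => Eventually.of_forall fun x => by
      rw [Real.norm_eq_abs, Finset.abs_prod]
      exact Finset.prod_le_prod (fun p _ => abs_nonneg _) fun p _ =>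
        abs_heat_le_bdd (fun y => (hB p s hs y).1) _ _)
    (integrable_const (∏ p, B p))
    (Eventually.of_forall fun x => continuousOn_finsetProd _ fun p _ => hheat p (x p))

end Vale.Agent.P157.Low
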