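import Vale.Agent.P157.Low.CascadeBC

/-!
Functions of time and space carried by the nested averages: derivatives and Gaussian averages.
-/

namespace Vale.Agent.P157.Low

open MeasureTheory ProbabilityTheory Filter Set
open scoped Topology

/-- A function with two bounded continuous derivatives. -/
structure Fn where
  f : ℝ → ℝ
  f1 : ℝ → ℝ
  f2 : ℝ → ℝ
  d1 : ∀ y, HasDerivAt f (f1 y) y
  d2 : ∀ y, HasDerivAt f1 (f2 y) y
  bc2 : BC f2
  bc1 : BC f1
  bc : BC f

/-- A function with bounded derivatives as a member of the class. -/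
noncomputable def Fn.ofSm {θ : ℝ → ℝ} (hθ : Sm θ) : Fn where
  f := θ
  f1 := deriv θ
  f2 := deriv (deriv θ)
  d1 y := ((hθ.smooth.differentiable (by norm_num)) y).hasDerivAt
  d2 y := by
    have h := hθ.smooth.differentiable_iteratedDeriv 1 (by norm_num)
    rw [iteratedDeriv_one] at h
    exact (h y).hasDerivAt
  bc2 := by
    obtain ⟨B, hB⟩ := hθ.bdd
    have h := (hθ.smooth.differentiable_iteratedDeriv 2 (by norm_num)).continuous
    rw [iteratedDeriv_succ, iteratedDeriv_one] at h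
    refine ⟨h, B, fun y => ?_⟩
    have := hB 2 (by norm_num) y
    rwa [iteratedDeriv_succ, iteratedDeriv_one] at this
  bc1 := by
    obtain ⟨B, hB⟩ := hθ.bdd
    have h := (hθ.smooth.differentiable_iteratedDeriv 1 (by norm_num)).continuous
    rw [iteratedDeriv_one] at h
    refine ⟨h, B, fun y => ?_⟩
    have := hB 1 (by norm_num) y
    rwa [iteratedDeriv_one] at this
  bc := by
    obtain ⟨B, hB⟩ := hθ.bdd
    exact ⟨hθ.smooth.continuous, B, fun y => by simpa using hB 0 (by norm_num) y⟩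

/-- A bounded function of time in `[0, T]` and space with the derivatives needed below. -/
structure Flow (T : ℝ) where
  F : ℝ → ℝ → ℝ
  F1 : ℝ → ℝ → ℝ
  F2 : ℝ → ℝ → ℝ
  Ft : ℝ → ℝ → ℝ
  d1 : ∀ t ∈ Icc 0 T, ∀ y, HasDerivAt (F t) (F1 t y) y
  d2 : ∀ t ∈ Icc 0 T, ∀ y, HasDerivAt (F1 t) (F2 t y) y
  dt : ∀ t ∈ Ioo 0 T, ∀ (φ : ℝ → ℝ) (φ' : ℝ), HasDerivAt φ φ' t →
    HasDerivAt (fun s => F s (φ s)) (Ft t (φ t) + F1 t (φ t) * φ') t
  joint : ContinuousOn (Function.uncurry F) (Icc 0 T ×ˢ univ)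
  cont1 : ∀ t ∈ Icc 0 T, Continuous (F1 t)
  cont2 : ∀ t ∈ Icc 0 T, Continuous (F2 t)
  contt : ∀ t ∈ Icc 0 T, Continuous (Ft t)
  bdd : ∃ B, ∀ t ∈ Icc 0 T, ∀ y, |F t y| ≤ B ∧ |F1 t y| ≤ B ∧ |F2 t y| ≤ B ∧ |Ft t y| ≤ B

namespace Flow

variable {T : ℝ}

lemma cont (G : Flow T) {t : ℝ} (ht : t ∈ Icc 0 T) : Continuous (G.F t) :=
  continuous_iff_continuousAt.2 fun y => (G.d1 t ht y).continuousAt

lemma bcF (G : Flow T) {t : ℝ} (ht : t ∈ Icc 0 T) : BC (G.F t) :=
  ⟨G.cont ht, G.bdd.imp fun _ h y => (h t ht y).1⟩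

lemma bcF1 (G : Flow T) {t : ℝ} (ht : t ∈ Icc 0 T) : BC (G.F1 t) :=
  ⟨G.cont1 t ht, G.bdd.imp fun _ h y => (h t ht y).2.1⟩

lemma bcF2 (G : Flow T) {t : ℝ} (ht : t ∈ Icc 0 T) : BC (G.F2 t) :=
  ⟨G.cont2 t ht, G.bdd.imp fun _ h y => (h t ht y).2.2.1⟩

lemma bcFt (G : Flow T) {t : ℝ} (ht : t ∈ Icc 0 T) : BC (G.Ft t) :=
  ⟨G.contt t ht, G.bdd.imp fun _ h y => (h t ht y).2.2.2⟩

/-- The slice at a time. -/
def slice (G : Flow T) {t : ℝ} (ht : t ∈ Icc 0 T) : Fn where
  f := G.F t
  f1 := G.F1 t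
  f2 := G.F2 t
  d1 := G.d1 t ht
  d2 := G.d2 t ht
  bc2 := G.bcF2 ht
  bc1 := G.bcF1 ht
  bc := G.bcF ht

/-- Product. -/
def mul (G H : Flow T) : Flow T where
  F t y := G.F t y * H.F t y
  F1 t y := G.F1 t y * H.F t y + G.F t y * H.F1 t y
  F2 t y := G.F2 t y * H.F t y + 2 * (G.F1 t y * H.F1 t y) + G.F t y * H.F2 t y
  Ft t y := G.Ft t y * H.F t y + G.F t y * H.Ft t y
  d1 t ht y := (G.d1 t ht y).fun_mul (H.d1 t ht y)
  d2 t ht y := (((G.d2 t ht y).fun_mul (H.d1 t ht y)).fun_add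
    ((G.d1 t ht y).fun_mul (H.d2 t ht y))).congr_deriv (by ring)
  dt t ht φ φ' hφ := ((G.dt t ht φ φ' hφ).fun_mul (H.dt t ht φ φ' hφ)).congr_deriv (by ring)
  joint := G.joint.mul H.joint
  cont1 t ht := ((G.cont1 t ht).mul (H.cont ht)).add ((G.cont ht).mul (H.cont1 t ht))
  cont2 t ht := (((G.cont2 t ht).mul (H.cont ht)).add
    (((G.cont1 t ht).mul (H.cont1 t ht)).const_mul 2)).add ((G.cont ht).mul (H.cont2 t ht))
  contt t ht := ((G.contt t ht).mul (H.cont ht)).add ((G.cont ht).mul (H.contt t ht))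
  bdd := by
    obtain ⟨B, hB⟩ := G.bdd
    obtain ⟨B', hB'⟩ := H.bdd
    refine ⟨4 * (|B| * |B'|), fun t ht y => ?_⟩
    obtain ⟨a, b, c, d⟩ := hB t ht y
    obtain ⟨a', b', c', d'⟩ := hB' t ht y
    have m : ∀ {u v : ℝ}, |u| ≤ B → |v| ≤ B' → |u * v| ≤ |B| * |B'| := fun hu hv => by
      rw [abs_mul]
      exact mul_le_mul (hu.trans (le_abs_self B)) (hv.trans (le_abs_self B')) (abs_nonneg _)
        (abs_nonneg _)
    have p : 0 ≤ |B| * |B'| := by positivity
    have := m a a'; have := m b a'; have := m a b'; have := m c a'; have := m b b'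
    have := m a c'; have := m d a'; have := m a d'
    refine ⟨by linarith, (abs_add_le _ _).trans (by linarith), ?_,
      (abs_add_le _ _).trans (by linarith)⟩
    refine (abs_add_three _ _ _).trans ?_
    rw [abs_mul 2, abs_two]
    linarith

/-- Constant in time. -/
def ofFn (T : ℝ) (u : Fn) : Flow T where
  F _ := u.f
  F1 _ := u.f1
  F2 _ := u.f2
  Ft _ _ := 0
  d1 _ _ := u.d1
  d2 _ _ := u.d2
  dt t _ φ φ' hφ := ((u.d1 (φ t)).comp t hφ).congr_deriv (by simp)
  joint := (u.bc.cont.comp continuous_snd).continuousOn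
  cont1 _ _ := u.bc1.cont
  cont2 _ _ := u.bc2.cont
  contt _ _ := continuous_const
  bdd := by
    obtain ⟨a, ha⟩ := u.bc.bdd; obtain ⟨b, hb⟩ := u.bc1.bdd; obtain ⟨c, hc⟩ := u.bc2.bdd
    refine ⟨|a| + |b| + |c|, fun t _ y => ⟨?_, ?_, ?_, ?_⟩⟩
    · linarith [ha y, le_abs_self a, abs_nonneg b, abs_nonneg c]
    · linarith [hb y, le_abs_self b, abs_nonneg a, abs_nonneg c]
    · linarith [hc y, le_abs_self c, abs_nonneg a, abs_nonneg b]
    · simp; positivity

/-- The constant one. -/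
def one (T : ℝ) : Flow T :=
  ofFn T ⟨fun _ => 1, fun _ => 0, fun _ => 0, fun _ => hasDerivAt_const _ _,
    fun _ => hasDerivAt_const _ _, BC.const 0, BC.const 0, BC.one⟩

/-- Composition with a function smooth on a compact interval containing the range. -/
def comp (G : Flow T) (φ φ1 φ2 : ℝ → ℝ) (lo hi : ℝ)
    (hr : ∀ t ∈ Icc 0 T, ∀ y, G.F t y ∈ Icc lo hi)
    (h1 : ∀ x ∈ Icc lo hi, HasDerivAt φ (φ1 x) x) (h2 : ∀ x ∈ Icc lo hi, HasDerivAt φ1 (φ2 x) x)
    (hc : ContinuousOn φ2 (Icc lo hi)) : Flow T where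
  F t y := φ (G.F t y)
  F1 t y := φ1 (G.F t y) * G.F1 t y
  F2 t y := φ2 (G.F t y) * G.F1 t y * G.F1 t y + φ1 (G.F t y) * G.F2 t y
  Ft t y := φ1 (G.F t y) * G.Ft t y
  d1 t ht y := (h1 _ (hr t ht y)).comp y (G.d1 t ht y)
  d2 t ht y := (((h2 _ (hr t ht y)).comp y (G.d1 t ht y)).fun_mul (G.d2 t ht y)).congr_deriv
    (by simp)
  dt t ht ψ ψ' hψ := ((h1 _ (hr t (Ioo_subset_Icc_self ht) (ψ t))).comp t
    (G.dt t ht ψ ψ' hψ)).congr_deriv (by ring)
  joint := (HasDerivAt.continuousOn h1).comp G.joint fun p hp => hr p.1 hp.1 p.2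
  cont1 t ht := ((HasDerivAt.continuousOn h2).comp_continuous (G.cont ht) (hr t ht)).mul (G.cont1 t ht)
  cont2 t ht := (((hc.comp_continuous (G.cont ht) (hr t ht)).mul (G.cont1 t ht)).mul
    (G.cont1 t ht)).add (((HasDerivAt.continuousOn h2).comp_continuous (G.cont ht) (hr t ht)).mul
      (G.cont2 t ht))
  contt t ht := ((HasDerivAt.continuousOn h2).comp_continuous (G.cont ht) (hr t ht)).mul (G.contt t ht)
  bdd := by
    obtain ⟨B, hB⟩ := G.bdd
    obtain ⟨a, ha⟩ := isCompact_Icc.exists_bound_of_continuousOn (HasDerivAt.continuousOn h1)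
    obtain ⟨b, hb⟩ := isCompact_Icc.exists_bound_of_continuousOn (HasDerivAt.continuousOn h2)
    obtain ⟨c, hc'⟩ := isCompact_Icc.exists_bound_of_continuousOn hc
    simp only [Real.norm_eq_abs] at ha hb hc'
    refine ⟨|a| + |b| * |B| + |c| * |B| * |B|, fun t ht y => ?_⟩
    obtain ⟨g0, g1, g2, g3⟩ := hB t ht y
    have k1 := (hb _ (hr t ht y)).trans (le_abs_self b)
    have k2 := (hc' _ (hr t ht y)).trans (le_abs_self c)
    have k0 := (ha _ (hr t ht y)).trans (le_abs_self a)
    have p2 : 0 ≤ |c| * |B| * |B| := by positivity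
    have p1 : 0 ≤ |b| * |B| := by positivity
    have m : ∀ {u : ℝ}, |u| ≤ B → |φ1 (G.F t y) * u| ≤ |b| * |B| := fun hu => by
      rw [abs_mul]; exact mul_le_mul k1 (hu.trans (le_abs_self B)) (abs_nonneg _) (abs_nonneg _)
    refine ⟨by linarith, by linarith [m g1, abs_nonneg a], ?_, by linarith [m g3, abs_nonneg a]⟩
    refine (abs_add_le _ _).trans ?_
    have : |φ2 (G.F t y) * G.F1 t y * G.F1 t y| ≤ |c| * |B| * |B| := by
      rw [abs_mul, abs_mul]
      exact mul_le_mul (mul_le_mul k2 (g1.trans (le_abs_self B)) (abs_nonneg _) (abs_nonneg _))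
        (g1.trans (le_abs_self B)) (abs_nonneg _) (by positivity)
    linarith [m g2, abs_nonneg a]

end Flow

/-- Gaussian integration by parts. -/
lemma stein_bdd {F F' : ℝ → ℝ} (hd : ∀ x, HasDerivAt F (F' x) x) (hF : BC F) (hF' : BC F') :
    ∫ y, F y * y ∂gaussianReal 0 1 = ∫ y, F' y ∂gaussianReal 0 1 := by
  set p := gaussianPDFReal 0 1 with hp
  have tr : ∀ g : ℝ → ℝ, Integrable g (gaussianReal 0 1) → Integrable (fun y => g y * p y) := by
    intro g hg
    rw [gaussianReal_of_var_ne_zero 0 one_ne_zero, integrable_withDensity_iff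
      (measurable_gaussianPDF 0 1) (Eventually.of_forall fun _ => gaussianPDF_lt_top)] at hg
    simpa [toReal_gaussianPDF] using hg
  have h0 : Integrable F (gaussianReal 0 1) := hF.integrable measurable_id
  have h1 : Integrable F' (gaussianReal 0 1) := hF'.integrable measurable_id
  have h2 : Integrable (fun y => F y * y) (gaussianReal 0 1) := by
    obtain ⟨B, hB⟩ := hF.bdd
    refine Integrable.mono' (((IsGaussian.integrable_id (μ := gaussianReal 0 1)).abs).const_mul B)
      (hF.cont.mul continuous_id).aestronglyMeasurable (Eventually.of_forall fun y => ?_)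
    rw [Real.norm_eq_abs, abs_mul]
    exact mul_le_mul_of_nonneg_right (hB y) (abs_nonneg _)
  have hpd : ∀ x, HasDerivAt p (-(x * p x)) x := fun x => by
    have h := ((((hasDerivAt_pow 2 x).neg).div_const 2).exp).const_mul (√(2 * Real.pi))⁻¹
    simp only [hp, gaussianPDFReal_def, sub_zero, NNReal.coe_one, mul_one]
    refine h.congr_deriv ?_
    simp
    ring
  have h := integral_mul_deriv_eq_deriv_mul_of_integrable (u := F) (v := p) (u' := F')
    (v' := fun x => -(x * p x)) (fun x _ => hd x) (fun x _ => hpd x)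
    ((tr _ h2).neg.congr (Eventually.of_forall fun x => by simp; ring))
    (tr _ h1) (tr _ h0)
  have e : ∀ g : ℝ → ℝ, ∫ y, g y ∂gaussianReal 0 1 = ∫ y, g y * p y := fun g => by
    rw [integral_gaussianReal_eq_integral_smul one_ne_zero]
    exact integral_congr_ae (Eventually.of_forall fun y => by simp [hp, mul_comm])
  rw [e, e, ← neg_inj, ← integral_neg, ← h]
  exact integral_congr_ae (Eventually.of_forall fun y => by ring)

lemma abs_heat_le_bdd {G : ℝ → ℝ} {B : ℝ} (hG : ∀ y, |G y| ≤ B) (τ y : ℝ) : |heat G τ y| ≤ B := by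
  have := norm_integral_le_of_norm_le_const (C := B) (μ := gaussianReal 0 1)
    (f := fun z => G (y + Real.sqrt τ * z))
    (Eventually.of_forall fun z => by rw [Real.norm_eq_abs]; exact hG _)
  simpa [heat] using this

lemma heat_zero (G : ℝ → ℝ) : heat G 0 = G := by
  funext y; simp [heat]

lemma heat_mem_Icc {G : ℝ → ℝ} {lo hi : ℝ} (hc : BC G) (hG : ∀ y, G y ∈ Icc lo hi) (τ y : ℝ) :
    heat G τ y ∈ Icc lo hi := by
  have hi' : Integrable (fun z => G (y + Real.sqrt τ * z)) (gaussianReal 0 1) :=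
    hc.integrable (by fun_prop)
  constructor
  · simpa [heat] using integral_mono (integrable_const lo) hi' fun z => (hG _).1
  · simpa [heat] using integral_mono hi' (integrable_const hi) fun z => (hG _).2

lemma continuous_heat {G : ℝ → ℝ} (hG : BC G) :
    Continuous fun p : ℝ × ℝ => heat G p.1 p.2 := by
  obtain ⟨B, hB⟩ := hG.bdd
  refine continuous_of_dominated (fun p => (hG.cont.comp (by fun_prop)).aestronglyMeasurable)
    (fun p => Eventually.of_forall fun z => by rw [Real.norm_eq_abs]; exact hB _)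
    (integrable_const B) (Eventually.of_forall fun z => hG.cont.comp (by fun_prop))

lemma BC.heat {G : ℝ → ℝ} (hG : BC G) (τ : ℝ) : BC (Low.heat G τ) :=
  ⟨(continuous_heat hG).comp (continuous_const.prodMk continuous_id),
    hG.bdd.imp fun _ h => abs_heat_le_bdd h τ⟩

lemma heat_add {f g : ℝ → ℝ} (hf : BC f) (hg : BC g) (τ : ℝ) :
    Low.heat (f + g) τ = Low.heat f τ + Low.heat g τ := by
  funext y
  exact integral_add (hf.integrable (by fun_prop)) (hg.integrable (by fun_prop))

lemma heat_smul (c : ℝ) (f : ℝ → ℝ) (τ : ℝ) : Low.heat (c • f) τ = c • Low.heat f τ := by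
  funext y
  simp [Low.heat, integral_const_mul]

lemma heat_sum {α : Type} (s : Finset α) {f : α → ℝ → ℝ} (hf : ∀ a ∈ s, BC (f a)) (τ y : ℝ) :
    Low.heat (fun x => ∑ a ∈ s, f a x) τ y = ∑ a ∈ s, Low.heat (f a) τ y :=
  integral_finsetSum s fun a ha => (hf a ha).integrable (by fun_prop)

lemma hasDerivAt_heat_space {G G1 : ℝ → ℝ} (hd : ∀ y, HasDerivAt G (G1 y) y) (hG : BC G)
    (hG1 : BC G1) (τ y : ℝ) : HasDerivAt (heat G τ) (heat G1 τ y) y := by
  obtain ⟨B, hB⟩ := hG1.bdd
  exact (hasDerivAt_integral_of_dominated_loc_of_deriv_le (μ := gaussianReal 0 1)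
    (F := fun y z => G (y + Real.sqrt τ * z)) (F' := fun y z => G1 (y + Real.sqrt τ * z))
    (bound := fun _ => B) (x₀ := y) (s := univ) univ_mem
    (Eventually.of_forall fun _ => (hG.cont.comp (by fun_prop)).aestronglyMeasurable)
    (hG.integrable (by fun_prop)) (hG1.cont.comp (by fun_prop)).aestronglyMeasurable
    (Eventually.of_forall fun z x _ => by rw [Real.norm_eq_abs]; exact hB _)
    (integrable_const B)
    (Eventually.of_forall fun z x _ => (hd _).comp_add_const x _)).2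

/-- Gaussian average of a flow along affine time and space. -/
lemma hasDerivAt_heat_line {T : ℝ} (G : Flow T) {t : ℝ} (ht : t ∈ Ioo 0 T) (τ0 c a b : ℝ)
    (hτ : 0 < τ0 + c * t) :
    HasDerivAt (fun s => heat (G.F s) (τ0 + c * s) (a + b * s))
      (heat (G.Ft t) (τ0 + c * t) (a + b * t) + c / 2 * heat (G.F2 t) (τ0 + c * t) (a + b * t) +
        b * heat (G.F1 t) (τ0 + c * t) (a + b * t)) t := by
  obtain ⟨B, hB⟩ := G.bdd
  set S : Set ℝ := Ioo 0 T ∩ {s | (τ0 + c * t) / 2 < τ0 + c * s}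
  have hS : S ∈ 𝓝 t := Filter.inter_mem (Ioo_mem_nhds ht.1 ht.2)
    ((isOpen_lt continuous_const (by fun_prop)).mem_nhds (by simp; linarith))
  set σ := Real.sqrt ((τ0 + c * t) / 2)
  have hσ : 0 < σ := Real.sqrt_pos.2 (by linarith)
  have hdiff : ∀ z, ∀ s ∈ S, HasDerivAt
      (fun s => G.F s (a + b * s + Real.sqrt (τ0 + c * s) * z))
      (G.Ft s (a + b * s + Real.sqrt (τ0 + c * s) * z) +
        G.F1 s (a + b * s + Real.sqrt (τ0 + c * s) * z) *
          (b + c / (2 * Real.sqrt (τ0 + c * s)) * z)) s := by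
    intro z s hs
    have h2 : (τ0 + c * t) / 2 < τ0 + c * s := hs.2
    have h0 : τ0 + c * s ≠ 0 := by linarith
    refine G.dt s hs.1 _ _ ?_
    exact ((((hasDerivAt_id s).const_mul b).const_add a).add
      (((((hasDerivAt_id s).const_mul c).const_add τ0).sqrt h0).mul_const z)).congr_deriv (by simp)
  have htI : t ∈ Icc 0 T := Ioo_subset_Icc_self ht
  have hmain := (hasDerivAt_integral_of_dominated_loc_of_deriv_le (μ := gaussianReal 0 1)
    (F := fun s z => G.F s (a + b * s + Real.sqrt (τ0 + c * s) * z))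
    (F' := fun s z => G.Ft s (a + b * s + Real.sqrt (τ0 + c * s) * z) +
        G.F1 s (a + b * s + Real.sqrt (τ0 + c * s) * z) *
          (b + c / (2 * Real.sqrt (τ0 + c * s)) * z))
    (bound := fun z => B + B * (|b| + |c| / (2 * σ) * |z|)) (x₀ := t) (s := S) hS
    (Filter.eventually_of_mem hS fun s hs =>
      ((G.cont (Ioo_subset_Icc_self hs.1)).comp (by fun_prop)).aestronglyMeasurable)
    ((G.bcF htI).integrable (by fun_prop))
    (((G.contt t htI).comp (by fun_prop)).add
      (((G.cont1 t htI).comp (by fun_prop)).mul (by fun_prop))).aestronglyMeasurable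
    (Eventually.of_forall fun z s hs => by
      have hs1 : s ∈ Icc 0 T := Ioo_subset_Icc_self hs.1
      have h2 : (τ0 + c * t) / 2 < τ0 + c * s := hs.2
      have hle : σ ≤ Real.sqrt (τ0 + c * s) := Real.sqrt_le_sqrt h2.le
      obtain ⟨_, g1, _, g3⟩ := hB s hs1 (a + b * s + Real.sqrt (τ0 + c * s) * z)
      rw [Real.norm_eq_abs]
      refine (abs_add_le _ _).trans (add_le_add g3 ?_)
      rw [abs_mul]
      refine mul_le_mul g1 ((abs_add_le _ _).trans (add_le_add le_rfl ?_)) (abs_nonneg _)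
        ((abs_nonneg _).trans g1)
      rw [abs_mul, abs_div, abs_of_pos (show 0 < 2 * Real.sqrt (τ0 + c * s) by linarith)]
      exact mul_le_mul_of_nonneg_right
        (div_le_div_of_nonneg_left (abs_nonneg c) (by linarith) (by linarith)) (abs_nonneg z))
    ((integrable_const _).add (((integrable_const _).add
      ((IsGaussian.integrable_id (μ := gaussianReal 0 1)).abs.const_mul _)).const_mul B))
    (Eventually.of_forall hdiff)).2
  refine hmain.congr_deriv ?_
  set τ := τ0 + c * t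
  set y := a + b * t
  have hsq : 0 < Real.sqrt τ := Real.sqrt_pos.2 hτ
  have i1 : Integrable (fun z => G.Ft t (y + Real.sqrt τ * z)) (gaussianReal 0 1) :=
    (G.bcFt htI).integrable (by fun_prop)
  have i2 : Integrable (fun z => G.F1 t (y + Real.sqrt τ * z)) (gaussianReal 0 1) :=
    (G.bcF1 htI).integrable (by fun_prop)
  have i3 : Integrable (fun z => G.F1 t (y + Real.sqrt τ * z) * z) (gaussianReal 0 1) := by
    refine Integrable.mono' ((IsGaussian.integrable_id (μ := gaussianReal 0 1)).abs.const_mul B)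
      (((G.cont1 t htI).comp (by fun_prop)).mul continuous_id).aestronglyMeasurable
      (Eventually.of_forall fun z => ?_)
    rw [Real.norm_eq_abs, abs_mul]
    exact mul_le_mul_of_nonneg_right (hB t htI _).2.1 (abs_nonneg _)
  have hst : ∫ z, G.F1 t (y + Real.sqrt τ * z) * z ∂gaussianReal 0 1 =
      Real.sqrt τ * ∫ z, G.F2 t (y + Real.sqrt τ * z) ∂gaussianReal 0 1 := by
    rw [← integral_const_mul]
    have hb2 : BC fun z => G.F2 t (y + Real.sqrt τ * z) :=
      ⟨(G.cont2 t htI).comp (by fun_prop), (G.bcF2 htI).bdd.imp fun _ h z => h _⟩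
    refine stein_bdd (fun z => ?_) ⟨(G.cont1 t htI).comp (by fun_prop),
      (G.bcF1 htI).bdd.imp fun _ h z => h _⟩ (hb2.smul (Real.sqrt τ))
    exact ((G.d2 t htI _).comp z (((hasDerivAt_id z).const_mul (Real.sqrt τ)).const_add y)).congr_deriv
      (by simp [mul_comm])
  calc ∫ z, (G.Ft t (y + Real.sqrt τ * z) + G.F1 t (y + Real.sqrt τ * z) *
          (b + c / (2 * Real.sqrt τ) * z)) ∂gaussianReal 0 1
      = ∫ z, (G.Ft t (y + Real.sqrt τ * z) + (b * G.F1 t (y + Real.sqrt τ * z) +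
          c / (2 * Real.sqrt τ) * (G.F1 t (y + Real.sqrt τ * z) * z))) ∂gaussianReal 0 1 := by
        congr 1; funext z; ring
    _ = _ := by
        have i23 : Integrable (fun z => b * G.F1 t (y + Real.sqrt τ * z) +
            c / (2 * Real.sqrt τ) * (G.F1 t (y + Real.sqrt τ * z) * z)) (gaussianReal 0 1) :=
          (i2.const_mul b).add (i3.const_mul _)
        rw [integral_add i1 i23, integral_add (i2.const_mul b) (i3.const_mul _), integral_const_mul, integral_const_mul, hst]
        simp only [heat]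
        field_simp
        ring

/-- The Gaussian average carried backwards in time. -/
noncomputable def Flow.heatBack (T : ℝ) (u : Fn) : Flow T where
  F t := heat u.f (T - t)
  F1 t := heat u.f1 (T - t)
  F2 t := heat u.f2 (T - t)
  Ft t y := -(heat u.f2 (T - t) y) / 2
  d1 t _ y := hasDerivAt_heat_space u.d1 u.bc u.bc1 _ y
  d2 t _ y := hasDerivAt_heat_space u.d2 u.bc1 u.bc2 _ y
  dt t ht φ φ' hφ := by
    obtain ⟨B, hB⟩ := u.bc1.bdd
    have hB0 : 0 ≤ B := (abs_nonneg _).trans (hB 0)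
    have hlin := hasDerivAt_heat_line (Flow.ofFn T u) ht T (-1) (φ t - φ' * t) φ'
      (by linarith [ht.2])
    simp only [Flow.ofFn] at hlin
    have e1 : ∀ s, T + -1 * s = T - s := fun s => by ring
    have e2 : φ t - φ' * t + φ' * t = φ t := by ring
    simp only [e1, e2] at hlin
    have hlip : ∀ τ x x', |heat u.f τ x - heat u.f τ x'| ≤ B * |x - x'| := fun τ x x' => by
      have := Convex.norm_image_sub_le_of_norm_hasDerivWithin_le (s := univ)
        (f := heat u.f τ) (f' := heat u.f1 τ) (C := B)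
        (fun y _ => (hasDerivAt_heat_space u.d1 u.bc u.bc1 τ y).hasDerivWithinAt)
        (fun y _ => by rw [Real.norm_eq_abs]; exact abs_heat_le_bdd hB τ y) convex_univ
        (mem_univ x') (mem_univ x)
      simpa using this
    have hsmall : (fun s => heat u.f (T - s) (φ s) - heat u.f (T - s) (φ t - φ' * t + φ' * s))
        =o[𝓝 t] fun s => s - t := by
      refine Asymptotics.IsBigO.trans_isLittleO ?_ (hasDerivAt_iff_isLittleO.1 hφ)
      refine Asymptotics.isBigO_of_le' (c := B) _ fun s => ?_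
      simp only [Real.norm_eq_abs, smul_eq_mul]
      calc |heat u.f (T - s) (φ s) - heat u.f (T - s) (φ t - φ' * t + φ' * s)|
          ≤ B * |φ s - (φ t - φ' * t + φ' * s)| := hlip _ _ _
        _ = B * |φ s - φ t - (s - t) * φ'| := by ring_nf
    rw [hasDerivAt_iff_isLittleO] at hlin ⊢
    refine (hsmall.add hlin).congr_left fun s => ?_
    simp only [e2, heat, smul_eq_mul, integral_zero]
    ring
  joint := ((continuous_heat u.bc).comp
    ((continuous_const.sub continuous_fst).prodMk continuous_snd)).continuousOn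
  cont1 t _ := (u.bc1.heat _).cont
  cont2 t _ := (u.bc2.heat _).cont
  contt t _ := ((u.bc2.heat _).cont.neg).div_const 2
  bdd := by
    obtain ⟨a, ha⟩ := u.bc.bdd; obtain ⟨b, hb⟩ := u.bc1.bdd; obtain ⟨c, hc⟩ := u.bc2.bdd
    refine ⟨|a| + |b| + |c|, fun t _ y => ?_⟩
    have := abs_heat_le_bdd ha (T - t) y; have := abs_heat_le_bdd hb (T - t) y
    have := abs_heat_le_bdd hc (T - t) y
    have := le_abs_self a; have := le_abs_self b; have := le_abs_self c
    have := abs_nonneg a; have := abs_nonneg b; have := abs_nonneg c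
    refine ⟨by linarith, by linarith, by linarith, ?_⟩
    rw [abs_div, abs_neg, abs_two]
    linarith

end Vale.Agent.P157.Low
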