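import Vale.Agent.P157.Low.CascadeStage

/-!
The log series does not move while one level is switched on.
-/

namespace Vale.Agent.P157.Low

open MeasureTheory ProbabilityTheory Filter Set
open scoped Topology

variable {r : ℕ} {C : Casc r} {T : ℝ} {d : Fin (r + 1) → ℝ} {j : Fin (r + 1)} {ρ : ℝ}

/-- No factors. -/
def noF : Empty → ℝ → ℝ := Empty.elim

/-- The log series with weight `1 - X`. -/
noncomputable def Casc.lser (C : Casc r) (e : Fin (r + 1) → ℝ) (X : ℝ → ℝ) : ℝ :=
  ∑' k : ℕ, C.mom e (fun _ : Empty ⊕ Fin (k + 1) → Empty ⊕ Fin (k + 1) → Fin (r + 1) => 1)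
    (ext noF X (k + 1)) / ((k : ℝ) + 1)

/-- The log series is constant while the level is switched on. -/
theorem Casc.lser_const (hd : ∀ i, 0 ≤ d i) (W : Flow T) (h1 : ρ < 1)
    (hρ : ∀ t ∈ Icc 0 T, ∀ y, |1 - W.F t y| ≤ ρ)
    (R : ℝ → ℝ → ℝ) (hR : ∀ t ∈ Ioo 0 T, BC (R t))
    (hW1 : ∀ t ∈ Ioo 0 T, W.F1 t = R t * W.F t)
    (hW2 : ∀ t ∈ Ioo 0 T, W.op t = ((1 - C.cdf j) / 2) • (R t * R t * W.F t)) {s : ℝ}
    (hs : s ∈ Icc 0 T) :
    C.lser (lev d j s) (fun y => 1 - W.F s y) = C.lser (lev d j 0) (fun y => 1 - W.F 0 y) := by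
  show C.lser (lev d j s) (W.compl.F s) = C.lser (lev d j 0) (W.compl.F 0)
  set X := W.compl
  have hX : ∀ t ∈ Icc 0 T, ∀ y, |X.F t y| ≤ ρ := hρ
  obtain ⟨Bx, hBx⟩ := X.bdd
  set ρ' := max ρ (1 / 2)
  have hρ' : (1 / 2 : ℝ) ≤ ρ' := le_max_right _ _
  have h1' : ρ' < 1 := max_lt h1 (by norm_num)
  set L := 4 * (|Bx| + 1)
  set Φ : ∀ k : ℕ, (Empty ⊕ Fin (k + 1) → Empty ⊕ Fin (k + 1) → Fin (r + 1)) → ℝ :=
    fun k _ => 1
  set G : ∀ k : ℕ, Empty ⊕ Fin (k + 1) → Flow T := fun k => extG Empty.elim X (k + 1)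
  have hGF : ∀ k t, (fun c => (G k c).F t) = ext noF (X.F t) (k + 1) := fun k t => by
    funext c
    rcases c with a | i
    · exact a.elim
    · rfl
  set u : ℕ → ℝ := fun k => 2 * L ^ 2 * ((negCoef 1 k : ℝ) * ((1 : ℕ) + k + 1 : ℝ) ^ 2 * ρ' ^ k)
  have hu : Summable u := (summable_weight 1 2 (by linarith) h1').mul_left _
  have hk1 : ∀ k : ℕ, (1 : ℝ) ≤ k + 1 := fun k => by linarith [Nat.cast_nonneg (α := ℝ) k]
  have hbd : ∀ k, ∀ t ∈ Icc 0 T, ‖C.momD d j (Φ k) (G k) t / ((k : ℝ) + 1)‖ ≤ u k ∧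
      ‖C.mom (lev d j t) (Φ k) (fun c => (G k c).F t) / ((k : ℝ) + 1)‖ ≤ u k := by
    intro k t ht
    have g0 : ∀ c y, |(G k c).F t y| ≤ ρ' := by
      rintro (a | i) y
      exacts [a.elim, (hX t ht y).trans (le_max_left _ _)]
    have g1 : ∀ c y, |(G k c).F1 t y| ≤ L * ρ' ∧ |(G k c).op t y| ≤ L * ρ' := by
      rintro (a | i) y
      · exact a.elim
      obtain ⟨_, q1, q2, q3⟩ := hBx t ht y
      have : 2 * (|Bx| + 1) ≤ L * ρ' := by nlinarith [abs_nonneg Bx]
      have := le_abs_self Bx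
      refine ⟨show |X.F1 t y| ≤ _ by linarith [abs_nonneg Bx], ?_⟩
      show |X.Ft t y + 1 / 2 * X.F2 t y| ≤ _
      refine (abs_add_le _ _).trans ?_
      rw [abs_mul, show |(1 / 2 : ℝ)| = 1 / 2 by norm_num]
      linarith [abs_nonneg Bx]
    have hD := Casc.abs_momD_le (C := C) (d := d) (j := j) (Φ := Φ k) (D := 1) (fun _ => by simp [Φ])
      (L := L) (by linarith [abs_nonneg Bx]) (G k) g0 (fun c y => (g1 c y).1) (fun c y => (g1 c y).2)
    have h0 := Casc.abs_mom_le (C := C) (e := lev d j t) (Φ := Φ k) (D := 1) (fun _ => by simp [Φ]) g0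
    simp only [Finset.prod_const, Finset.card_univ, Fintype.card_sum, Fintype.card_fin,
      Fintype.card_empty, zero_add, one_mul] at hD h0
    push_cast at hD
    have hpow : ρ' ^ (k + 1) ≤ ρ' ^ k :=
      pow_le_pow_of_le_one (by linarith) h1'.le k.le_succ
    have hue : u k = 2 * (((k : ℝ) + 1) + 1) ^ 2 * (L ^ 2 * ρ' ^ k) := by
      simp [u, negCoef]; ring
    have hA : ∀ v : ℝ, ‖v / ((k : ℝ) + 1)‖ ≤ |v| := fun v => by
      rw [Real.norm_eq_abs, abs_div, abs_of_nonneg (by linarith [hk1 k] : (0 : ℝ) ≤ (k : ℝ) + 1)]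
      exact div_le_self (abs_nonneg v) (hk1 k)
    have hL2 : (1 : ℝ) ≤ L ^ 2 := one_le_pow₀ (by linarith [abs_nonneg Bx])
    have hk2 : (1 : ℝ) ≤ (((k : ℝ) + 1) + 1) ^ 2 := one_le_pow₀ (by linarith [hk1 k])
    refine ⟨(hA _).trans (hD.trans ?_), (hA _).trans (h0.trans ?_)⟩
    · rw [hue]
      exact mul_le_mul_of_nonneg_left (mul_le_mul_of_nonneg_left hpow (by positivity)) (by positivity)
    · rw [hue]
      refine hpow.trans ?_
      have hp : (0 : ℝ) ≤ ρ' ^ k := pow_nonneg (by linarith) k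
      nlinarith [mul_le_mul hk2 hL2 zero_le_one (zero_le_one.trans hk2)]
  set f : ℝ → ℝ := fun t => C.lser (lev d j t) (X.F t)
  have hf : f = fun t => ∑' k, C.mom (lev d j t) (Φ k) (fun c => (G k c).F t) / ((k : ℝ) + 1) := by
    funext t
    simp only [f, Casc.lser, hGF, Φ]
  have hcont : ContinuousOn f (Icc 0 T) := by
    rw [hf]
    exact continuousOn_tsum (fun k => (Casc.continuousOn_mom (C := C) (j := j) hd (Φ k) (G k)).div_const _)
      hu fun k t ht => (hbd k t ht).2
  have hder : ∀ t ∈ Ioo 0 T, HasDerivAt f 0 t := by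
    intro t ht
    have htI : t ∈ Icc 0 T := Ioo_subset_Icc_self ht
    rw [hf]
    refine (hasDerivAt_tsum_of_isPreconnected hu isOpen_Ioo isPreconnected_Ioo
      (fun k x hx => (Casc.hasDerivAt_mom (C := C) (j := j) hd (Φ k) (G k) hx).div_const ((k : ℝ) + 1))
      (fun k x hx => (hbd k x (Ioo_subset_Icc_self hx)).1) ht
      (Summable.of_norm_bounded hu fun k => (hbd k t htI).2) ht).congr_deriv ?_
    set e := lev d j t
    have he : ∀ i, 0 ≤ e i := lev_nonneg hd htI.1
    set Xf := X.F t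
    have hXf : BC Xf := X.bcF htI
    have hnoF : ∀ a, BC (noF a) := fun a => a.elim
    set one0 : (Empty → Empty → Fin (r + 1)) → ℝ := fun _ => 1
    have s1 := (Casc.summable_ser (C := C) (e := e) (bc_opt hnoF (X.bc_op htI)) (hX t htI) h1
      (up one0)).hasSum
    have s2 := (Casc.hasSum_extra (C := C) he (bc_opt hnoF (X.bcF1 htI)) hXf (hX t htI) h1 (X.bcF1 htI)
      (fun B => ind j (B (some none) none) * up (up one0) B)).mul_left (1 / 2 : ℝ)
    have hval : C.ser e Xf (up one0) (opt (X.op t) noF) + (1 / 2 : ℝ) *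
        ((Fintype.card (Option Empty) : ℝ) * C.ser e Xf
          (fun B => ind j (B (some none) none) * up (up one0) B)
          (opt (X.F1 t) (opt (X.F1 t) noF))) = 0 := by
      set R' := R t
      set w := W.F t
      have hXop : X.op t = (-((1 - C.cdf j) / 2)) • (R' * R' * w) := by
        funext y
        have e2 := congrFun (hW2 t ht) y
        simp only [Flow.op, Pi.add_apply, Pi.smul_apply, Pi.mul_apply, smul_eq_mul] at e2
        simp only [X, Flow.compl, Flow.op, Pi.add_apply, Pi.smul_apply, Pi.mul_apply, smul_eq_mul, w, R']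
        linear_combination (-1 : ℝ) * e2
      have hX1 : X.F1 t = (-1 : ℝ) • (R' * w) := by
        funext y
        have e3 := congrFun (hW1 t ht) y
        simp only [Pi.mul_apply] at e3
        simp only [X, Flow.compl, Pi.smul_apply, Pi.mul_apply, smul_eq_mul, w, R']
        linear_combination (-1 : ℝ) * e3
      have h5 := Casc.extra_tilt (C := C) (j := j) hd htI.1 hXf (hX t htI) h1 one0 hnoF (hR t ht)
        (W.bcF htI) (by funext y; simp [Xf, X, Flow.compl])
      have h : ∀ g, opt g (opt ((-1 : ℝ) • (R' * w)) noF) =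
          Function.update (opt g (opt (R' * w) noF)) (some none) ((-1 : ℝ) • (R' * w)) := fun g => by
        funext c
        rcases c with _ | (_ | c)
        exacts [by simp [opt], by simp [opt], c.elim]
      rw [hXop, hX1, Casc.ser_smul_opt, Casc.ser_smul_opt, h, Casc.ser_smul_fun,
        show Function.update (opt (R' * w) (opt (R' * w) noF)) (some none) (R' * w) =
          opt (R' * w) (opt (R' * w) noF) from Function.update_eq_self _ _]
      simp only [Fintype.card_option, Fintype.card_empty, Finset.univ_eq_empty, Finset.sum_empty,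
        Nat.cast_zero, zero_add, Nat.cast_one, one_mul, add_zero] at h5 ⊢
      linear_combination (1 / 2 : ℝ) * h5
    refine (((s1.add s2).congr_fun fun k => ?_).tsum_eq).trans hval
    have hr' : ∀ (i : Fin (k + 1)) (f : ℝ → ℝ) (Y : Fin (k + 1) → ℝ → ℝ),
        Function.update (Sum.elim noF Y) (Sum.inr i) f = Sum.elim noF (Function.update Y i f) :=
      fun i f Y => Sum.update_elim_inr
    have e1 : ∀ i : Fin (k + 1), C.mom e (fun _ => 1)
        (Sum.elim noF (Function.update (fun _ => Xf) i (X.op t))) =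
          C.mom e (lft k (up one0)) (ext (opt (X.op t) noF) Xf k) := fun i =>
      Casc.mom_extra (C := C) he hnoF hXf (X.bc_op htI) (up one0) k i
    have e2 : ∀ i : Fin (k + 1), ∑ i' ∈ Finset.univ.erase i,
        C.mom e (fun B => ind j (B (Sum.inr i) (Sum.inr i')) * 1)
          (Sum.elim noF (Function.update (Function.update (fun _ => Xf) i (X.F1 t)) i' (X.F1 t))) =
        ∑ b : Fin k, C.mom e (fun B => (fun B : Option (Option Empty) → Option (Option Empty) →
          Fin (r + 1) => ind j (B (some none) none) * up (up one0) B)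
            fun p q => B (p.elim (Sum.inr b) Sum.inl) (q.elim (Sum.inr b) Sum.inl))
          (Sum.elim (opt (X.F1 t) noF) (Function.update (fun _ => Xf) b (X.F1 t))) := fun i =>
      Casc.mom_extra2 (C := C) he hnoF hXf (X.bcF1 htI) one0 j i
    simp only [Casc.momD, hGF, Fintype.sum_sum_type, erase_inr, Finset.sum_disjSum, Finset.univ_eq_empty,
      Finset.sum_empty, zero_add, Φ]
    simp only [ext, hr', show ∀ i, G k (Sum.inr i) = X from fun i => rfl]
    rw [Finset.sum_congr rfl fun i _ => e1 i, Finset.sum_congr rfl fun i _ => e2 i]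
    simp only [Finset.sum_const, Finset.card_univ, Fintype.card_fin, nsmul_eq_mul, Fintype.card_option,
      Fintype.card_empty]
    push_cast
    have hk : ((k : ℝ) + 1) ≠ 0 := by linarith [hk1 k]
    have hn : (negCoef (0 + 1) k : ℝ) = 1 := by simp [negCoef]
    simp only [hn]
    field_simp
    simp only [ext, Xf]
    ring
  rcases eq_or_lt_of_le hs.1 with h | h
  · rw [← h]
  obtain ⟨x, hx, hslope⟩ := exists_hasDerivAt_eq_slope f _ h
    (hcont.mono (Icc_subset_Icc_right hs.2)) fun x hx => hder x ⟨hx.1, hx.2.trans_le hs.2⟩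
  rw [eq_div_iff (by linarith)] at hslope
  show f s = f 0
  linarith

end Vale.Agent.P157.Low
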