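import Vale.Agent.P157.Low.Gauss2
import Vale.Agent.P157.Low.CascadeHeat

/-!
Moments of a discrete Ghirlanda–Guerra array with Gaussian fields: products of functions of the
fields, indexed by any finite type.
-/

namespace Vale.Agent.P157.Low

open MeasureTheory ProbabilityTheory

variable {r : ℕ} (C : Casc r) (e : Fin (r + 1) → ℝ)

/-- Moment of products of field functions, for an enumeration of the replicas. -/
noncomputable def Casc.momE {ι : Type} [Fintype ι] {N : ℕ} (σ : ι ≃ Fin N)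
    (Φ : (ι → ι → Fin (r + 1)) → ℝ) (F : ι → ℝ → ℝ) : ℝ :=
  ∑ A, C.P N A * (Φ (fun a b => A (σ a) (σ b)) * GE (lcov e A) fun x => ∏ a, F a (x (σ a)))

/-- Moment of products of field functions. -/
noncomputable def Casc.mom {ι : Type} [Fintype ι] (Φ : (ι → ι → Fin (r + 1)) → ℝ)
    (F : ι → ℝ → ℝ) : ℝ :=
  C.momE e (Fintype.equivFin ι) Φ F

variable {C e}

lemma Casc.psd (he : ∀ i, 0 ≤ e i) {N : ℕ} {A : LMat r N} (hA : C.P N A ≠ 0) :
    (Matrix.of (lcov e A)).PosSemidef :=
  posSemidef_lcov he (C.symm N A hA) (C.diag N A hA) (C.ultra N A hA)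

/-- Replicas with constant factor drop out; replicas may be renamed. -/
lemma Casc.momE_inj (he : ∀ i, 0 ≤ e i) {ι κ : Type} [Fintype ι] [Fintype κ] {N K : ℕ}
    (σ : ι ≃ Fin N) (τ : κ ≃ Fin K) (s : κ → ι) (hs : Function.Injective s)
    (Φ : (κ → κ → Fin (r + 1)) → ℝ) {F : ι → ℝ → ℝ} (hF : ∀ a, BC (F a))
    (h1 : ∀ a, a ∉ Set.range s → F a = fun _ => 1) :
    C.momE e σ (fun B => Φ fun a b => B (s a) (s b)) F = C.momE e τ Φ fun a => F (s a) := by
  have hinj : Function.Injective (σ ∘ s ∘ τ.symm) :=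
    σ.injective.comp (hs.comp τ.symm.injective)
  unfold Casc.momE
  rw [← C.marg _ hinj]
  refine Finset.sum_congr rfl fun A _ => ?_
  rcases eq_or_ne (C.P N A) 0 with h | h
  · simp [h]
  have hm : Measurable fun x : Fin K → ℝ => ∏ a, F (s a) (x (τ a)) :=
    (continuous_finsetProd _ fun a _ => (hF (s a)).cont.comp (continuous_apply _)).measurable
  have hl : lcov e (sub A (σ ∘ s ∘ τ.symm)) = sub (lcov e A) (σ ∘ s ∘ τ.symm) := rfl
  rw [hl, GE_sub (C.psd he h) _ hm]
  congr 2
  · simp [sub]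
  · congr 1
    funext x
    simp only [Function.comp_apply, Equiv.symm_apply_apply]
    exact (Fintype.prod_of_injective s hs _ _ (fun a ha => by rw [h1 a ha]) fun a => rfl).symm

lemma Casc.mom_inj (he : ∀ i, 0 ≤ e i) {ι κ : Type} [Fintype ι] [Fintype κ] (s : κ → ι)
    (hs : Function.Injective s) (Φ : (κ → κ → Fin (r + 1)) → ℝ) {F : ι → ℝ → ℝ} (hF : ∀ a, BC (F a))
    (h1 : ∀ a, a ∉ Set.range s → F a = fun _ => 1) :
    C.mom e (fun B => Φ fun a b => B (s a) (s b)) F = C.mom e Φ fun a => F (s a) :=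
  Casc.momE_inj he _ _ s hs Φ hF h1

lemma Casc.momE_eq (he : ∀ i, 0 ≤ e i) {ι : Type} [Fintype ι] {N : ℕ} (σ : ι ≃ Fin N)
    (Φ : (ι → ι → Fin (r + 1)) → ℝ) {F : ι → ℝ → ℝ} (hF : ∀ a, BC (F a)) :
    C.momE e σ Φ F = C.mom e Φ F :=
  Casc.momE_inj he σ (Fintype.equivFin ι) id Function.injective_id Φ hF fun a ha =>
    absurd ⟨a, rfl⟩ ha

/-- Renaming along a bijection. -/
lemma Casc.mom_equiv (he : ∀ i, 0 ≤ e i) {ι κ : Type} [Fintype ι] [Fintype κ] (s : κ ≃ ι)
    (Φ : (ι → ι → Fin (r + 1)) → ℝ) {F : ι → ℝ → ℝ} (hF : ∀ a, BC (F a)) :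
    C.mom e Φ F = C.mom e (fun B => Φ fun a b => B (s.symm a) (s.symm b)) fun a => F (s a) := by
  rw [← Casc.mom_inj he s s.injective (fun B => Φ fun a b => B (s.symm a) (s.symm b)) hF
    (fun a ha => absurd ⟨s.symm a, by simp⟩ ha)]
  simp

lemma Casc.mom_congr {ι : Type} [Fintype ι] {Φ Φ' : (ι → ι → Fin (r + 1)) → ℝ}
    (h : ∀ B, (∀ a b, B a b = B b a) → Φ B = Φ' B) (F : ι → ℝ → ℝ) :
    C.mom e Φ F = C.mom e Φ' F := by
  refine Finset.sum_congr rfl fun A _ => ?_
  rcases eq_or_ne (C.P _ A) 0 with h0 | h0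
  · simp [h0]
  · rw [h _ fun a b => C.symm _ A h0 _ _]

lemma Casc.mom_add {ι : Type} [Fintype ι] (Φ Φ' : (ι → ι → Fin (r + 1)) → ℝ) (F : ι → ℝ → ℝ) :
    C.mom e (fun B => Φ B + Φ' B) F = C.mom e Φ F + C.mom e Φ' F := by
  simp only [Casc.mom, Casc.momE, add_mul, mul_add, Finset.sum_add_distrib]

lemma Casc.mom_mul {ι : Type} [Fintype ι] (c : ℝ) (Φ : (ι → ι → Fin (r + 1)) → ℝ) (F : ι → ℝ → ℝ) :
    C.mom e (fun B => c * Φ B) F = c * C.mom e Φ F := by
  simp only [Casc.mom, Casc.momE, Finset.mul_sum]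
  exact Finset.sum_congr rfl fun A _ => by ring

lemma Casc.mom_zero {ι : Type} [Fintype ι] (F : ι → ℝ → ℝ) :
    C.mom e (fun _ => 0) F = 0 := by
  simp [Casc.mom, Casc.momE]

lemma Casc.mom_sum {ι α : Type} [Fintype ι] (s : Finset α)
    (Φ : α → (ι → ι → Fin (r + 1)) → ℝ) (F : ι → ℝ → ℝ) :
    C.mom e (fun B => ∑ i ∈ s, Φ i B) F = ∑ i ∈ s, C.mom e (Φ i) F := by
  classical
  induction s using Finset.induction_on with
  | empty => simp [Casc.mom_zero]
  | insert i s hi ih => simp only [Finset.sum_insert hi, Casc.mom_add, ih]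

/-- Linearity in one factor. -/
lemma Casc.mom_update_add {ι : Type} [Fintype ι] [DecidableEq ι]
    (Φ : (ι → ι → Fin (r + 1)) → ℝ) {F : ι → ℝ → ℝ} (hF : ∀ a, BC (F a)) (a : ι) {f g : ℝ → ℝ}
    (hf : BC f) (hg : BC g) :
    C.mom e Φ (Function.update F a (f + g)) =
      C.mom e Φ (Function.update F a f) + C.mom e Φ (Function.update F a g) := by
  simp only [Casc.mom, Casc.momE]
  rw [← Finset.sum_add_distrib]
  refine Finset.sum_congr rfl fun A _ => ?_
  rw [← mul_add, ← mul_add]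
  congr 2
  have key : ∀ (h : ℝ → ℝ) (x : Fin (Fintype.card ι) → ℝ),
      ∏ b, Function.update F a h b (x (Fintype.equivFin ι b)) =
        h (x (Fintype.equivFin ι a)) * ∏ b ∈ Finset.univ.erase a, F b (x (Fintype.equivFin ι b)) := by
    intro h x
    rw [← Finset.mul_prod_erase _ _ (Finset.mem_univ a), Function.update_self]
    exact congrArg _ (Finset.prod_congr rfl fun b hb => by
      rw [Function.update_of_ne (Finset.ne_of_mem_erase hb)])
  simp only [GE, key, Pi.add_apply, add_mul]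
  have hi : ∀ {h : ℝ → ℝ}, BC h → Integrable (fun x : EuclideanSpace ℝ (Fin (Fintype.card ι)) =>
      h (x (Fintype.equivFin ι a)) * ∏ b ∈ Finset.univ.erase a, F b (x (Fintype.equivFin ι b)))
      (multivariateGaussian (0 : EuclideanSpace ℝ (Fin (Fintype.card ι))) (Matrix.of (lcov e A))) := by
    intro h hh
    obtain ⟨B, hB⟩ := hh.bdd
    choose D hD using fun b => (hF b).bdd
    refine Integrable.mono' (integrable_const (B * ∏ b ∈ Finset.univ.erase a, D b)) ?_
      (Filter.Eventually.of_forall fun x => ?_)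
    · exact (((hh.cont.comp (by fun_prop)).mul (continuous_finsetProd _ fun b _ =>
        (hF b).cont.comp (by fun_prop)))).aestronglyMeasurable
    · rw [Real.norm_eq_abs, abs_mul, Finset.abs_prod]
      exact mul_le_mul (hB _) (Finset.prod_le_prod (fun b _ => abs_nonneg _) fun b _ => hD b _)
        (Finset.prod_nonneg fun b _ => abs_nonneg _) ((abs_nonneg _).trans (hB 0))
  exact integral_add (hi hf) (hi hg)

lemma Casc.mom_update_smul {ι : Type} [Fintype ι] [DecidableEq ι]
    (Φ : (ι → ι → Fin (r + 1)) → ℝ) (F : ι → ℝ → ℝ) (a : ι) (c : ℝ) (f : ℝ → ℝ) :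
    C.mom e Φ (Function.update F a (c • f)) = c * C.mom e Φ (Function.update F a f) := by
  simp only [Casc.mom, Casc.momE, Finset.mul_sum]
  refine Finset.sum_congr rfl fun A _ => ?_
  have key : ∀ (h : ℝ → ℝ) (x : Fin (Fintype.card ι) → ℝ),
      ∏ b, Function.update F a h b (x (Fintype.equivFin ι b)) =
        h (x (Fintype.equivFin ι a)) * ∏ b ∈ Finset.univ.erase a, F b (x (Fintype.equivFin ι b)) := by
    intro h x
    rw [← Finset.mul_prod_erase _ _ (Finset.mem_univ a), Function.update_self]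
    exact congrArg _ (Finset.prod_congr rfl fun b hb => by
      rw [Function.update_of_ne (Finset.ne_of_mem_erase hb)])
  simp only [GE, key, Pi.smul_apply, smul_eq_mul, mul_assoc, integral_const_mul]
  ring

lemma Casc.abs_mom_le {ι : Type} [Fintype ι] {Φ : (ι → ι → Fin (r + 1)) → ℝ} {D : ℝ}
    (hΦ : ∀ B, |Φ B| ≤ D) {F : ι → ℝ → ℝ} {B : ι → ℝ} (hF : ∀ a y, |F a y| ≤ B a) :
    |C.mom e Φ F| ≤ D * ∏ a, B a := by
  have hg : ∀ A : LMat r (Fintype.card ι),
      |GE (lcov e A) fun x => ∏ a, F a (x (Fintype.equivFin ι a))| ≤ ∏ a, B a := by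
    intro A
    have := norm_integral_le_of_norm_le_const (C := ∏ a, B a)
      (μ := multivariateGaussian (0 : EuclideanSpace ℝ (Fin (Fintype.card ι))) (Matrix.of (lcov e A)))
      (f := fun x : EuclideanSpace ℝ (Fin (Fintype.card ι)) =>
        ∏ a, F a (x (Fintype.equivFin ι a)))
      (Filter.Eventually.of_forall fun x => by
        rw [Real.norm_eq_abs, Finset.abs_prod]
        exact Finset.prod_le_prod (fun a _ => abs_nonneg _) fun a _ => hF a _)
    simpa [GE] using this
  refine (Finset.abs_sum_le_sum_abs _ _).trans ?_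
  calc ∑ A, |C.P _ A * (Φ _ * GE (lcov e A) _)| ≤ ∑ A, C.P (Fintype.card ι) A * (D * ∏ a, B a) :=
        Finset.sum_le_sum fun A _ => by
          rw [abs_mul, abs_mul, abs_of_nonneg (C.nonneg _ A)]
          exact mul_le_mul_of_nonneg_left (mul_le_mul (hΦ _) (hg A) (abs_nonneg _)
            ((abs_nonneg _).trans (hΦ fun _ _ => 0))) (C.nonneg _ A)
    _ = D * ∏ a, B a := by rw [← Finset.sum_mul, C.total, one_mul]

/-- One new replica meeting `l` at level at least `j`. -/
lemma Casc.mom_gg (he : ∀ i, 0 ≤ e i) {ι : Type} [Fintype ι] [DecidableEq ι] (j : Fin (r + 1))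
    (l : ι) (Φ : (ι → ι → Fin (r + 1)) → ℝ) {F : ι → ℝ → ℝ} (hF : ∀ a, BC (F a)) :
    (Fintype.card ι : ℝ) * C.mom e
        (fun B : Option ι → Option ι → Fin (r + 1) =>
          (if j ≤ B (some l) none then 1 else 0) * Φ fun a b => B (some a) (some b))
        (fun a => a.elim (fun _ => 1) F) =
      C.mom e (fun B => ((1 - C.cdf j) +
        ∑ l' ∈ Finset.univ.erase l, if j ≤ B l l' then 1 else 0) * Φ B) F := by
  set N := Fintype.card ι
  set σ := Fintype.equivFin ι
  set σ' : Option ι ≃ Fin (N + 1) := σ.optionCongr.trans finSuccEquivLast.symm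
  have hs : ∀ a, σ' (some a) = (σ a).castSucc := fun a => by simp [σ']
  have hn : σ' none = Fin.last N := by simp [σ', N]
  have hF' : ∀ a : Option ι, BC (a.elim (fun _ => 1) F) := by
    rintro (_ | a)
    exacts [BC.one, hF a]
  rw [← Casc.momE_eq he σ' _ hF']
  have hgg := C.gg N (σ l) (fun A => Φ (fun a b => A (σ a) (σ b)) *
    GE (lcov e A) fun x => ∏ a, F a (x (σ a))) (fun i => if j ≤ i then 1 else 0)
  have hlhs : C.momE e σ' (fun B : Option ι → Option ι → Fin (r + 1) =>
          (if j ≤ B (some l) none then 1 else 0) * Φ fun a b => B (some a) (some b))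
        (fun a => a.elim (fun _ => 1) F) =
      ∑ A, C.P (N + 1) A * ((Φ (fun a b => sub A Fin.castSucc (σ a) (σ b)) *
        GE (lcov e (sub A Fin.castSucc)) fun x => ∏ a, F a (x (σ a))) *
          if j ≤ A (σ l).castSucc (Fin.last N) then 1 else 0) := by
    unfold Casc.momE
    refine Finset.sum_congr rfl fun A _ => ?_
    rcases eq_or_ne (C.P (N + 1) A) 0 with h | h
    · simp [h]
    have hl : lcov e (sub A Fin.castSucc) = sub (lcov e A) Fin.castSucc := rfl
    have hm : Measurable fun x : Fin N → ℝ => ∏ a, F a (x (σ a)) :=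
      (continuous_finsetProd _ fun a _ => (hF a).cont.comp (continuous_apply _)).measurable
    rw [hl, GE_sub (C.psd he h) _ hm]
    simp only [hs, hn, sub, Fintype.prod_option, Option.elim_none, Option.elim_some, one_mul]
    ring
  rw [hlhs, hgg]
  have hc : ∑ A, C.P 2 A * (if j ≤ A 0 1 then 1 else 0) = 1 - C.cdf j := by
    rw [eq_sub_iff_add_eq, Casc.cdf, ← Finset.sum_add_distrib]
    conv_rhs => rw [← C.total 2]
    refine Finset.sum_congr rfl fun A _ => ?_
    by_cases h : j ≤ A 0 1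
    · simp [h, not_lt.2 h]
    · simp [h, not_le.1 h]
  rw [hc]
  unfold Casc.mom Casc.momE
  have he' : Finset.univ.erase (σ l) = (Finset.univ.erase l).map σ.toEmbedding := by
    rw [Finset.map_erase, Finset.map_univ_equiv]; rfl
  rw [he', Finset.sum_map, Finset.sum_mul, Finset.sum_comm, ← Finset.sum_add_distrib]
  refine Finset.sum_congr rfl fun A _ => ?_
  simp only [Equiv.coe_toEmbedding, add_mul, Finset.sum_mul, mul_add, Finset.mul_sum]
  refine congrArg₂ _ (by ring) (Finset.sum_congr rfl fun l' _ => ?_)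
  ring

end Vale.Agent.P157.Low
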