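import Vale.Agent.P157.Low.CascadeUp

/-!
From the innermost level to the root.
-/

namespace Vale.Agent.P157.Low

open MeasureTheory ProbabilityTheory Filter Set
open scoped Topology

variable {r : ℕ} {C : Casc r} {d : Fin (r + 1) → ℝ} {c : ℝ} {W : ℝ → ℝ}
  {ι : Type} [Fintype ι] [DecidableEq ι]

/-- Variances after `k` levels have been averaged. -/
def left (d : Fin (r + 1) → ℝ) (k : ℕ) (i : Fin (r + 1)) : ℝ := if (i : ℕ) + k ≤ r then d i else 0

lemma left_zero (d : Fin (r + 1) → ℝ) : left d 0 = d := by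
  funext i
  simp [left, Nat.lt_succ_iff.1 i.isLt]

lemma lev_top (d : Fin (r + 1) → ℝ) {k : ℕ} (hk : k ≤ r) :
    lev d ⟨r - k, by omega⟩ (d ⟨r - k, by omega⟩) = left d k := by
  funext i
  simp only [lev, left, Fin.lt_def, Fin.ext_iff]
  rcases lt_trichotomy (i : ℕ) (r - k) with h | h | h
  · rw [if_pos h, if_pos (by omega)]
  · rw [if_neg (by omega), if_pos h, if_pos (by omega)]
    exact congrArg d (Fin.ext h.symm)
  · rw [if_neg (by omega), if_neg (by omega), if_neg (by omega)]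

lemma lev_bot (d : Fin (r + 1) → ℝ) {k : ℕ} (hk : k ≤ r) :
    lev d ⟨r - k, by omega⟩ 0 = left d (k + 1) := by
  funext i
  simp only [lev, left, Fin.lt_def, Fin.ext_iff]
  rcases lt_trichotomy (i : ℕ) (r - k) with h | h | h
  · rw [if_pos h, if_pos (by omega)]
  · rw [if_neg (by omega), if_pos h, if_neg (by omega)]
  · rw [if_neg (by omega), if_neg (by omega), if_neg (by omega)]

lemma Casc.cdf_nonneg (C : Casc r) (j : Fin (r + 1)) : 0 ≤ C.cdf j :=
  Finset.sum_nonneg fun A _ => mul_nonneg (C.nonneg 2 A) (by split_ifs <;> norm_num)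

/-- The potential after `k` levels. -/
noncomputable def Casc.pot (C : Casc r) (d : Fin (r + 1) → ℝ) (W : ℝ → ℝ) (k : ℕ) : ℝ → ℝ :=
  potUp C.cdf d (fun y => Real.log (W y)) k

lemma Casc.pot_succ (C : Casc r) (d : Fin (r + 1) → ℝ) (W : ℝ → ℝ) {k : ℕ} (hk : k ≤ r) :
    C.pot d W (k + 1) = potStep (C.cdf ⟨r - k, by omega⟩) (d ⟨r - k, by omega⟩) (C.pot d W k) := by
  simp only [Casc.pot, potUp, dif_pos hk]
  rfl

lemma insUp_succ (m d : Fin (r + 1) → ℝ) (u θ : ℝ → ℝ) {k : ℕ} (hk : k ≤ r) :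
    insUp m d u θ (k + 1) =
      insStep (m ⟨r - k, by omega⟩) (d ⟨r - k, by omega⟩) (potUp m d u k) (insUp m d u θ k) := by
  simp only [insUp, dif_pos hk]
  rfl

/-- What the weight gives: an interval for the potentials. -/
lemma Weight.range (hW : Weight c W) :
    ∃ lo hi ρ, ρ < 1 ∧ (∀ x ∈ Icc lo hi, |1 - Real.exp x / c| ≤ ρ) ∧
      (∀ y, Real.log (W y) ∈ Icc lo hi) ∧ (∀ y, 0 < W y) ∧ IsFn fun y => Real.log (W y) := by
  obtain ⟨ρ, h1, hρ⟩ := hW.near
  have h0 : 0 ≤ ρ := (abs_nonneg _).trans (hρ 0)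
  have hlo : 0 < c * (1 - ρ) := mul_pos hW.cpos (by linarith)
  have hi0 : 0 < c * (1 + ρ) := mul_pos hW.cpos (by linarith)
  have hb : ∀ y, c * (1 - ρ) ≤ W y ∧ W y ≤ c * (1 + ρ) := fun y => by
    have h := abs_le.1 (hρ y)
    constructor
    · have := (le_div_iff₀ hW.cpos).1 (by linarith [h.2] : 1 - ρ ≤ W y / c)
      linarith
    · have := (div_le_iff₀ hW.cpos).1 (by linarith [h.1] : W y / c ≤ 1 + ρ)
      linarith
  refine ⟨Real.log (c * (1 - ρ)), Real.log (c * (1 + ρ)), ρ, h1, fun x hx => ?_, fun y => ?_,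
    fun y => hlo.trans_le (hb y).1, ?_⟩
  · have e1 := Real.exp_le_exp.2 hx.1
    have e2 := Real.exp_le_exp.2 hx.2
    rw [Real.exp_log hlo] at e1
    rw [Real.exp_log hi0] at e2
    rw [abs_le]
    constructor
    · have := (div_le_iff₀ hW.cpos).2 (by linarith : Real.exp x ≤ (1 + ρ) * c)
      linarith
    · have := (le_div_iff₀ hW.cpos).2 (by linarith : (1 - ρ) * c ≤ Real.exp x)
      linarith
  · exact ⟨Real.log_le_log hlo (hb y).1, Real.log_le_log (hlo.trans_le (hb y).1) (hb y).2⟩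
  · have hne : ∀ x ∈ Icc (c * (1 - ρ)) (c * (1 + ρ)), x ≠ 0 := fun x hx => (hlo.trans_le hx.1).ne'
    exact (IsFn.of_Sm hW.smooth).comp Real.log (fun x => x⁻¹) (fun x => -(x ^ 2)⁻¹) (fun y => hb y)
      (fun x hx => Real.hasDerivAt_log (hne x hx)) (fun x hx => hasDerivAt_inv (hne x hx))
      (((continuousOn_pow 2).inv₀ fun x hx => pow_ne_zero 2 (hne x hx)).neg)

lemma Casc.pot_spec (hd : ∀ i, 0 ≤ d i) {lo hi : ℝ} (hr : ∀ y, Real.log (W y) ∈ Icc lo hi)
    (hfn : IsFn fun y => Real.log (W y)) :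
    ∀ k, k ≤ r + 1 → IsFn (C.pot d W k) ∧ ∀ y, C.pot d W k y ∈ Icc lo hi
  | 0, _ => ⟨hfn, hr⟩
  | k + 1, hk => by
    have hk' : k ≤ r := by omega
    obtain ⟨hU, hrU⟩ := Casc.pot_spec hd hr hfn k (by omega)
    set j : Fin (r + 1) := ⟨r - k, by omega⟩
    obtain ⟨P, hP, -, hP0, -⟩ := exists_stage (T := d j) hU hrU (C.cdf_nonneg j)
    rw [C.pot_succ d W hk', ← hP0]
    exact ⟨⟨P.slice ⟨le_rfl, hd j⟩, rfl⟩, hP 0 ⟨le_rfl, hd j⟩⟩

lemma IsFn.insStep {lo hi : ℝ} {U θ : ℝ → ℝ} (hU : IsFn U) (hr : ∀ y, U y ∈ Icc lo hi) {m T : ℝ}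
    (hm : 0 ≤ m) (hT : 0 ≤ T) (hθ : IsFn θ) : IsFn (Low.insStep m T U θ) := by
  obtain ⟨P, -, -, -, -, hins⟩ := exists_stage (T := T) hU hr hm
  obtain ⟨Θ, -, h0, -⟩ := hins θ hθ
  exact ⟨Θ.slice ⟨le_rfl, hT⟩, h0⟩

/-- One level, by its number. -/
lemma Casc.pser_level (hd : ∀ i, 0 ≤ d i) (hW : Weight c W) {k : ℕ} (hk : k ≤ r)
    (Φ : (ι → ι → Fin (r + 1)) → ℝ) {θ : ι → ℝ → ℝ} (hθ : ∀ a, IsFn (θ a))
    (hpair : ∀ a b, a ≠ b → (θ a = fun _ => 1) ∨ (θ b = fun _ => 1) ∨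
      ∀ B, (∀ c c', B c c' = B c' c) → r - k ≤ (B a b : ℕ) → Φ B = 0) :
    C.pser (left d k) c (C.pot d W k) Φ θ = C.pser (left d (k + 1)) c (C.pot d W (k + 1)) Φ fun a =>
      insStep (C.cdf ⟨r - k, by omega⟩) (d ⟨r - k, by omega⟩) (C.pot d W k) (θ a) := by
  obtain ⟨lo, hi, ρ, h1, hρ, hr, -, hfn⟩ := hW.range
  obtain ⟨hU, hrU⟩ := Casc.pot_spec (C := C) (d := d) hd hr hfn k (by omega)
  rw [← lev_top d hk, ← lev_bot d hk, C.pot_succ d W hk]
  exact Casc.pser_step hd hU hrU h1 hρ (C.cdf_nonneg _) Φ hθ fun a b hab => hpair a b hab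

lemma GE_zero {n : ℕ} (Θ : (Fin n → ℝ) → ℝ) : GE (fun _ _ => 0) Θ = Θ 0 := by
  have : (Matrix.of (fun _ _ => 0) : Matrix (Fin n) (Fin n) ℝ) = 0 := rfl
  simp [GE, this, multivariateGaussian]

lemma lcov_zero {N : ℕ} (A : LMat r N) : lcov (left d (r + 1)) A = fun _ _ => 0 := by
  funext a b
  refine Finset.sum_eq_zero fun i _ => ?_
  simp [left, show ¬ (i : ℕ) + (r + 1) ≤ r by omega]

omit [Fintype ι] [DecidableEq ι] in
/-- Moments at the root. -/
lemma Casc.mom_root {κ : Type} [Fintype κ] (Φ : (κ → κ → Fin (r + 1)) → ℝ) (F : κ → ℝ → ℝ) :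
    C.mom (left d (r + 1)) Φ F =
      (∑ A, C.P (Fintype.card κ) A *
        Φ fun a b => A (Fintype.equivFin κ a) (Fintype.equivFin κ b)) * ∏ a, F a 0 := by
  rw [Finset.sum_mul]
  refine Finset.sum_congr rfl fun A _ => ?_
  rw [lcov_zero, GE_zero]
  simp [mul_assoc]

/-- Mean of a function of the levels of finitely many replicas. -/
noncomputable def Casc.av (C : Casc r) (Φ : (ι → ι → Fin (r + 1)) → ℝ) : ℝ :=
  ∑ A, C.P (Fintype.card ι) A * Φ fun a b => A (Fintype.equivFin ι a) (Fintype.equivFin ι b)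

omit [DecidableEq ι] in
lemma Casc.av_marg {N : ℕ} (f : ι → Fin N) (hf : Function.Injective f)
    (Φ : (ι → ι → Fin (r + 1)) → ℝ) : ∑ A, C.P N A * Φ (fun a b => A (f a) (f b)) = C.av Φ := by
  unfold Casc.av
  have h := C.marg (fun p => f ((Fintype.equivFin ι).symm p))
    (hf.comp (Fintype.equivFin ι).symm.injective)
    fun A' => Φ fun a b => A' (Fintype.equivFin ι a) (Fintype.equivFin ι b)
  simp only [sub, Equiv.symm_apply_apply] at h
  exact h

lemma hasSum_negCoef_geom (n : ℕ) {x : ℝ} (hx : |x| < 1) :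
    HasSum (fun k => (negCoef n k : ℝ) * x ^ k) ((1 - x) ^ n)⁻¹ := by
  rcases n with _ | m
  · refine HasSum.congr_fun (f := fun k => if k = 0 then (1 : ℝ) else 0) ?_ fun k => ?_
    · simpa using hasSum_ite_eq 0 (1 : ℝ)
    · rcases k with _ | k <;> simp [negCoef]
  · have := hasSum_choose_mul_geometric_of_norm_lt_one m (r := x) (by rwa [Real.norm_eq_abs])
    rw [one_div] at this
    refine this.congr_fun fun k => ?_
    rw [negCoef, add_comm, Nat.choose_symm_add]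

omit [DecidableEq ι] in
/-- Series at the root. -/
lemma Casc.pser_root (hd : ∀ i, 0 ≤ d i) (hW : Weight c W) (Φ : (ι → ι → Fin (r + 1)) → ℝ) (θ : ι → ℝ → ℝ) :
    C.pser (left d (r + 1)) c (C.pot d W (r + 1)) Φ θ = C.av Φ * ∏ a, θ a 0 := by
  obtain ⟨lo, hi, ρ, h1, hρ, hr, -, hfn⟩ := hW.range
  set w := rel c (C.pot d W (r + 1)) 0
  set x := 1 - w
  have hx : |x| < 1 :=
    (hρ _ ((Casc.pot_spec (C := C) (d := d) hd hr hfn (r + 1) le_rfl).2 0)).trans_lt h1
  have hw : w = 1 - x := by simp [x]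
  have hw0 : 1 - x ≠ 0 := by linarith [(abs_lt.1 hx).2]
  have hterm : ∀ k, C.mom (left d (r + 1)) (lft k Φ)
      (ext (fun a => θ a * rel c (C.pot d W (r + 1))) (fun y => 1 - rel c (C.pot d W (r + 1)) y) k) =
        (C.av Φ * ((∏ a, θ a 0) * w ^ Fintype.card ι)) * x ^ k := by
    intro k
    rw [Casc.mom_root]
    have e : ∑ A, C.P (Fintype.card (ι ⊕ Fin k)) A *
        lft k Φ (fun a b => A (Fintype.equivFin _ a) (Fintype.equivFin _ b)) = C.av Φ := by
      exact C.av_marg (fun a => Fintype.equivFin (ι ⊕ Fin k) (Sum.inl a))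
        ((Equiv.injective _).comp Sum.inl_injective) Φ
    rw [e, Fintype.prod_sum_type]
    simp [ext, Finset.prod_mul_distrib, w, x, mul_assoc]
  have hgeom : HasSum (fun k => (negCoef (Fintype.card ι) k : ℝ) * x ^ k) (w ^ Fintype.card ι)⁻¹ :=
    hw ▸ hasSum_negCoef_geom (Fintype.card ι) hx
  refine (HasSum.congr_fun (hgeom.mul_left
    (C.av Φ * ((∏ a, θ a 0) * w ^ Fintype.card ι))) fun k => ?_).tsum_eq.trans ?_
  · rw [hterm]; ring
  · rw [hw]
    field_simp

omit [Fintype ι] in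
lemma ins_one {lo hi : ℝ} {U : ℝ → ℝ} (hU : IsFn U) (hr : ∀ y, U y ∈ Icc lo hi) (m T : ℝ) (a : ι)
    (g : ℝ → ℝ) : (fun b => insStep m T U (Function.update (fun _ _ => 1) a g b)) =
      Function.update (fun _ _ => 1) a (insStep m T U g) := by
  funext b
  rcases eq_or_ne b a with rfl | h
  · simp
  · simp [Function.update_of_ne h, insStep_one hU hr]

/-- One insertion carried to the root, starting at any level. -/
lemma Casc.pser_single (hd : ∀ i, 0 ≤ d i) (hW : Weight c W) (Φ : (ι → ι → Fin (r + 1)) → ℝ) (a : ι)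
    (g : ℕ → ℝ → ℝ) {k0 : ℕ} (hk0 : k0 ≤ r + 1) (hg0 : IsFn (g k0))
    (hg : ∀ k (hk : k ≤ r), k0 ≤ k →
      g (k + 1) = insStep (C.cdf ⟨r - k, by omega⟩) (d ⟨r - k, by omega⟩) (C.pot d W k) (g k)) :
    C.pser (left d k0) c (C.pot d W k0) Φ (Function.update (fun _ _ => 1) a (g k0)) =
      C.av Φ * g (r + 1) 0 := by
  obtain ⟨lo, hi, ρ, h1, hρ, hr, -, hfn⟩ := hW.range
  have main : ∀ k, k0 ≤ k → k ≤ r + 1 → IsFn (g k) ∧
      C.pser (left d k0) c (C.pot d W k0) Φ (Function.update (fun _ _ => 1) a (g k0)) =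
        C.pser (left d k) c (C.pot d W k) Φ (Function.update (fun _ _ => 1) a (g k)) := by
    intro k h1k
    induction k, h1k using Nat.le_induction with
    | base => exact fun _ => ⟨hg0, rfl⟩
    | succ k hk ih =>
      intro hk'
      obtain ⟨hgk, ih⟩ := ih (by omega)
      have hkr : k ≤ r := by omega
      obtain ⟨hU, hrU⟩ := Casc.pot_spec (C := C) (d := d) hd hr hfn k (by omega)
      refine ⟨(hg k hkr hk).symm ▸ IsFn.insStep hU hrU (C.cdf_nonneg _) (hd _) hgk, ih.trans ?_⟩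
      rw [Casc.pser_level hd hW hkr Φ, ins_one hU hrU, hg k hkr hk]
      · intro b
        rcases eq_or_ne b a with rfl | h
        · simpa using hgk
        · simpa [Function.update_of_ne h] using IsFn.one
      · intro b b' hb
        rcases eq_or_ne b a with rfl | h
        · exact Or.inr (Or.inl (Function.update_of_ne hb.symm _ _))
        · exact Or.inl (Function.update_of_ne h _ _)
  rw [(main (r + 1) hk0 le_rfl).2, Casc.pser_root hd hW]
  rw [Fintype.prod_eq_single a fun b hb => by rw [Function.update_of_ne hb], Function.update_self]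

/-- The log series at the root. -/
lemma Casc.lser_total (hd : ∀ i, 0 ≤ d i) (hW : Weight c W) :
    C.lser d (fun y => 1 - W y / c) = Real.log c - C.pot d W (r + 1) 0 := by
  obtain ⟨lo, hi, ρ, h1, hρ, hr, hpos, hfn⟩ := hW.range
  have main : ∀ k, k ≤ r + 1 → C.lser d (fun y => 1 - W y / c) =
      C.lser (left d k) (fun y => 1 - rel c (C.pot d W k) y) := by
    intro k
    induction k with
    | zero =>
      intro _
      rw [left_zero]
      congr 1
      funext y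
      simp [rel, Casc.pot, potUp, Real.exp_log (hpos y)]
    | succ k ih =>
      intro hk
      have hkr : k ≤ r := by omega
      obtain ⟨hU, hrU⟩ := Casc.pot_spec (C := C) (d := d) hd hr hfn k (by omega)
      rw [ih (by omega), ← lev_top d hkr, ← lev_bot d hkr, C.pot_succ d W hkr]
      exact Casc.lser_step hd hU hrU h1 hρ (C.cdf_nonneg _)
  rw [main (r + 1) le_rfl]
  set U := C.pot d W (r + 1) 0
  set x := 1 - rel c (C.pot d W (r + 1)) 0
  have hx : |x| < 1 :=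
    (hρ _ ((Casc.pot_spec (C := C) (d := d) hd hr hfn (r + 1) le_rfl).2 0)).trans_lt h1
  have := Real.hasSum_pow_div_log_of_abs_lt_one hx
  refine (this.congr_fun fun k => ?_).tsum_eq.trans ?_
  · rw [Casc.mom_root]
    simp [ext, Fintype.prod_sum_type, C.total, x]
  · show -Real.log (1 - (1 - Real.exp U / c)) = _
    rw [sub_sub_cancel, Real.log_div (Real.exp_pos _).ne' hW.cpos.ne', Real.log_exp, neg_sub]

end Vale.Agent.P157.Low
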