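import Vale.Agent.P157.Low.CascadeDeriv

/-!
Ratio series of a discrete array over any finite set of replicas, and the tilt identity.
-/

namespace Vale.Agent.P157.Low

open MeasureTheory ProbabilityTheory Filter Set
open scoped Topology

variable {r : ℕ} {C : Casc r} {e : Fin (r + 1) → ℝ} {ι : Type} [Fintype ι] {X : ℝ → ℝ} {ρ : ℝ}

/-- Factors of the replicas followed by the extra ones. -/
def ext (F : ι → ℝ → ℝ) (X : ℝ → ℝ) (k : ℕ) : ι ⊕ Fin k → ℝ → ℝ := Sum.elim F fun _ => X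

/-- A factor for a new replica. -/
def opt (g : ℝ → ℝ) (F : ι → ℝ → ℝ) : Option ι → ℝ → ℝ := fun a => a.elim g F

/-- A function of the first replicas. -/
def lft (k : ℕ) (Φ : (ι → ι → Fin (r + 1)) → ℝ) (B : ι ⊕ Fin k → ι ⊕ Fin k → Fin (r + 1)) : ℝ :=
  Φ fun a b => B (Sum.inl a) (Sum.inl b)

/-- Indicator of meeting at level at least `j`. -/
noncomputable def ind (j i : Fin (r + 1)) : ℝ := if j ≤ i then 1 else 0

lemma abs_ind_le (j i : Fin (r + 1)) : |ind j i| ≤ 1 := by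
  simp only [ind]; split_ifs <;> norm_num

/-- The series with extra replicas weighted by `X`. -/
noncomputable def Casc.ser (C : Casc r) (e : Fin (r + 1) → ℝ) (X : ℝ → ℝ)
    (Φ : (ι → ι → Fin (r + 1)) → ℝ) (F : ι → ℝ → ℝ) : ℝ :=
  ∑' k : ℕ, (negCoef (Fintype.card ι) k : ℝ) * C.mom e (lft k Φ) (ext F X k)

omit [Fintype ι] in
lemma bc_ext {F : ι → ℝ → ℝ} (hF : ∀ a, BC (F a)) (hX : BC X) (k : ℕ) (a : ι ⊕ Fin k) :
    BC (ext F X k a) := by
  rcases a with a | i
  exacts [hF a, hX]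

omit [Fintype ι] in
lemma bc_opt {F : ι → ℝ → ℝ} {g : ℝ → ℝ} (hF : ∀ a, BC (F a)) (hg : BC g) (a : Option ι) :
    BC (opt g F a) := by
  rcases a with _ | a
  exacts [hg, hF a]

lemma bdd_fintype {α : Type} [Finite α] (Φ : α → ℝ) : ∃ D, ∀ B, |Φ B| ≤ D := by
  obtain ⟨D, hD⟩ := (Set.finite_range fun B => |Φ B|).bddAbove
  exact ⟨D, fun B => hD ⟨B, rfl⟩⟩

lemma negCoef_succ_mul (n k : ℕ) :
    (negCoef n (k + 1) : ℝ) * (k + 1) = n * negCoef (n + 1) k := by
  rcases n with _ | n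
  · simp [negCoef]
  have h := Nat.choose_succ_right_eq (n + 1 + k) k
  rw [show n + 1 + k - k = n + 1 by omega] at h
  have h' : negCoef (n + 1) (k + 1) * (k + 1) = (n + 1) * negCoef (n + 2) k := by
    simp only [negCoef]
    rw [show n + (k + 1) = n + 1 + k by omega, h, mul_comm]
  exact_mod_cast h'

lemma negCoef_mul_add (n k : ℕ) :
    (negCoef n k : ℝ) * (n + k) = n * negCoef (n + 1) k := by
  rcases n with _ | n
  · rcases k with _ | k <;> simp [negCoef]
  have h := Nat.choose_mul_succ_eq (n + k) k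
  rw [show n + k + 1 - k = n + 1 by omega] at h
  have h' : negCoef (n + 1) k * (n + 1 + k) = (n + 1) * negCoef (n + 2) k := by
    simp only [negCoef]
    rw [show n + 1 + k = n + k + 1 by omega, h, mul_comm]
  exact_mod_cast h'

lemma negCoef_le (n k : ℕ) : (negCoef n k : ℝ) ≤ ((n : ℝ) + k + 1) ^ n := by
  rcases n with _ | n
  · rcases k with _ | k <;> simp [negCoef]
  have h : (n + k).choose k ≤ (n + k) ^ n := by
    rw [← Nat.choose_symm (Nat.le_add_left k n), Nat.add_sub_cancel]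
    exact Nat.choose_le_pow _ _
  calc (negCoef (n + 1) k : ℝ) ≤ ((n : ℝ) + k) ^ n := by exact_mod_cast h
    _ ≤ (((n + 1 : ℕ) : ℝ) + k + 1) ^ n := by
        refine pow_le_pow_left₀ (by positivity) ?_ n; push_cast; linarith
    _ ≤ (((n + 1 : ℕ) : ℝ) + k + 1) ^ (n + 1) := pow_le_pow_right₀ (by push_cast; linarith) n.le_succ

lemma summable_weight (n p : ℕ) {ρ : ℝ} (h0 : 0 ≤ ρ) (h1 : ρ < 1) :
    Summable fun k : ℕ => (negCoef n k : ℝ) * ((n : ℝ) + k + 1) ^ p * ρ ^ k := by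
  set m := n + p
  have hs : Summable fun k : ℕ => ((2 * (n : ℝ) + 2) ^ m * 2 ^ m) * (((k : ℝ) ^ m + 1) * ρ ^ k) := by
    refine Summable.mul_left _ ?_
    simp only [add_mul, one_mul]
    exact (summable_pow_mul_geometric_of_norm_lt_one m
      (by rwa [Real.norm_eq_abs, abs_of_nonneg h0])).add (summable_geometric_of_lt_one h0 h1)
  refine Summable.of_nonneg_of_le (fun k => by positivity) (fun k => ?_) hs
  have hb : (n : ℝ) + k + 1 ≤ (2 * (n : ℝ) + 2) * (max (k : ℝ) 1) := by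
    nlinarith [le_max_left (k : ℝ) 1, le_max_right (k : ℝ) 1, Nat.cast_nonneg (α := ℝ) n]
  have hk : (max (k : ℝ) 1) ^ m ≤ (k : ℝ) ^ m + 1 := by
    rcases le_total (k : ℝ) 1 with h | h
    · rw [max_eq_right h, one_pow]; linarith [show (0 : ℝ) ≤ (k : ℝ) ^ m by positivity]
    · rw [max_eq_left h]; linarith
  have h2 : (1 : ℝ) ≤ 2 ^ m := one_le_pow₀ (by norm_num)
  calc (negCoef n k : ℝ) * ((n : ℝ) + k + 1) ^ p * ρ ^ k
      ≤ ((n : ℝ) + k + 1) ^ m * ρ ^ k := by
        rw [pow_add]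
        gcongr
        exact negCoef_le n k
    _ ≤ ((2 * (n : ℝ) + 2) * max (k : ℝ) 1) ^ m * ρ ^ k :=
        mul_le_mul_of_nonneg_right (pow_le_pow_left₀ (by positivity) hb m) (pow_nonneg h0 k)
    _ ≤ _ := by
        rw [mul_pow, mul_assoc, mul_assoc]
        refine mul_le_mul_of_nonneg_left ?_ (by positivity)
        calc max (k : ℝ) 1 ^ m * ρ ^ k ≤ ((k : ℝ) ^ m + 1) * ρ ^ k :=
              mul_le_mul_of_nonneg_right hk (pow_nonneg h0 k)
          _ ≤ _ := le_mul_of_one_le_left (by positivity) h2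

/-- Bound of one term of a series. -/
lemma Casc.abs_term_le {F : ι → ℝ → ℝ} (hF : ∀ a, BC (F a)) (hρ : ∀ y, |X y| ≤ ρ)
    (Φ : (ι → ι → Fin (r + 1)) → ℝ) :
    ∃ K, ∀ k, |C.mom e (lft k Φ) (ext F X k)| ≤ K * ρ ^ k := by
  obtain ⟨D, hD⟩ := bdd_fintype Φ
  choose B hB using fun a => (hF a).bdd
  refine ⟨D * ∏ a, B a, fun k => ?_⟩
  refine (Casc.abs_mom_le (C := C) (e := e) (fun _ => hD _) (B := Sum.elim B fun _ => ρ) ?_).trans ?_
  · rintro (a | i) y
    exacts [hB a y, hρ y]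
  · simp [Fintype.prod_sum_type, mul_assoc]

lemma Casc.summable_ser {F : ι → ℝ → ℝ} (hF : ∀ a, BC (F a)) (hρ : ∀ y, |X y| ≤ ρ) (h1 : ρ < 1)
    (Φ : (ι → ι → Fin (r + 1)) → ℝ) :
    Summable fun k : ℕ => (negCoef (Fintype.card ι) k : ℝ) * C.mom e (lft k Φ) (ext F X k) := by
  obtain ⟨K, hK⟩ := Casc.abs_term_le (C := C) (e := e) hF hρ Φ
  have h0 : 0 ≤ ρ := (abs_nonneg _).trans (hρ 0)
  refine Summable.of_norm_bounded ((summable_weight (Fintype.card ι) 0 h0 h1).mul_left K) fun k => ?_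
  rw [Real.norm_eq_abs, abs_mul, Nat.abs_cast, pow_zero, mul_one]
  calc (negCoef (Fintype.card ι) k : ℝ) * |C.mom e (lft k Φ) (ext F X k)|
      ≤ negCoef (Fintype.card ι) k * (K * ρ ^ k) := mul_le_mul_of_nonneg_left (hK k) (Nat.cast_nonneg _)
    _ = _ := by ring

lemma Casc.ser_add_fun (hX : BC X) (hρ : ∀ y, |X y| ≤ ρ) (h1 : ρ < 1) [DecidableEq ι] {F : ι → ℝ → ℝ}
    (hF : ∀ a, BC (F a)) (Φ : (ι → ι → Fin (r + 1)) → ℝ) (a : ι) {f g : ℝ → ℝ} (hf : BC f) (hg : BC g) :
    C.ser e X Φ (Function.update F a (f + g)) =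
      C.ser e X Φ (Function.update F a f) + C.ser e X Φ (Function.update F a g) := by
  rw [Casc.ser, Casc.ser, Casc.ser,
    ← (Casc.summable_ser (bc_update hF a hf) hρ h1 Φ).tsum_add
      (Casc.summable_ser (bc_update hF a hg) hρ h1 Φ)]
  refine tsum_congr fun k => ?_
  have h : ∀ u : ℝ → ℝ, ext (Function.update F a u) X k =
      Function.update (ext F X k) (Sum.inl a) u := fun u => Sum.update_elim_inl.symm
  rw [h, h, h, Casc.mom_update_add _ (bc_ext hF hX k) _ hf hg, mul_add]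

lemma Casc.ser_smul_fun [DecidableEq ι] (F : ι → ℝ → ℝ) (Φ : (ι → ι → Fin (r + 1)) → ℝ) (a : ι)
    (c : ℝ) (f : ℝ → ℝ) :
    C.ser e X Φ (Function.update F a (c • f)) = c * C.ser e X Φ (Function.update F a f) := by
  rw [Casc.ser, Casc.ser, ← tsum_mul_left]
  refine tsum_congr fun k => ?_
  have h : ∀ u : ℝ → ℝ, ext (Function.update F a u) X k =
      Function.update (ext F X k) (Sum.inl a) u := fun u => Sum.update_elim_inl.symm
  rw [h, h, Casc.mom_update_smul]
  ring

lemma Casc.ser_add_ind (hρ : ∀ y, |X y| ≤ ρ) (h1 : ρ < 1) {F : ι → ℝ → ℝ} (hF : ∀ a, BC (F a))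
    (Φ Φ' : (ι → ι → Fin (r + 1)) → ℝ) :
    C.ser e X (fun B => Φ B + Φ' B) F = C.ser e X Φ F + C.ser e X Φ' F := by
  rw [Casc.ser, Casc.ser, Casc.ser,
    ← (Casc.summable_ser hF hρ h1 Φ).tsum_add (Casc.summable_ser hF hρ h1 Φ')]
  refine tsum_congr fun k => ?_
  rw [← mul_add, ← Casc.mom_add]
  rfl

lemma Casc.ser_mul_ind (c : ℝ) (Φ : (ι → ι → Fin (r + 1)) → ℝ) (F : ι → ℝ → ℝ) :
    C.ser e X (fun B => c * Φ B) F = c * C.ser e X Φ F := by
  rw [Casc.ser, Casc.ser, ← tsum_mul_left]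
  refine tsum_congr fun k => ?_
  rw [show lft k (fun B => c * Φ B) = fun B => c * lft k Φ B from rfl, Casc.mom_mul]
  ring

lemma Casc.ser_congr {Φ Φ' : (ι → ι → Fin (r + 1)) → ℝ}
    (h : ∀ B, (∀ a b, B a b = B b a) → Φ B = Φ' B) (F : ι → ℝ → ℝ) :
    C.ser e X Φ F = C.ser e X Φ' F :=
  tsum_congr fun _ => congrArg _ (Casc.mom_congr (fun _ hB => h _ fun _ _ => hB _ _) _)

lemma Casc.ser_sum_ind (hρ : ∀ y, |X y| ≤ ρ) (h1 : ρ < 1) {F : ι → ℝ → ℝ} (hF : ∀ a, BC (F a))
    {α : Type} (s : Finset α) (Φ : α → (ι → ι → Fin (r + 1)) → ℝ) :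
    C.ser e X (fun B => ∑ i ∈ s, Φ i B) F = ∑ i ∈ s, C.ser e X (Φ i) F := by
  classical
  induction s using Finset.induction_on with
  | empty =>
    have := Casc.ser_mul_ind (C := C) (e := e) (X := X) 0 (fun _ => 0) F
    simpa using this
  | insert i s hi ih => simp only [Finset.sum_insert hi, Casc.ser_add_ind hρ h1 hF, ih]

/-- The renaming taking the extra replica `i` as the new one. -/
def promote {k : ℕ} (i : Fin (k + 1)) : Option ι ⊕ Fin k ≃ ι ⊕ Fin (k + 1) where
  toFun := Sum.elim (fun a => a.elim (Sum.inr i) Sum.inl) fun b => Sum.inr (i.succAbove b)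
  invFun := Sum.elim (fun a => Sum.inl (some a))
    fun c => (finSuccEquiv' i c).elim (Sum.inl none) Sum.inr
  left_inv := by
    rintro ((_ | a) | b) <;> simp
  right_inv := by
    rintro (a | c)
    · rfl
    · rcases h : finSuccEquiv' i c with _ | b
      · have := (finSuccEquiv' i).symm_apply_apply c
        rw [h, finSuccEquiv'_symm_none] at this
        simp [this]
      · have := (finSuccEquiv' i).symm_apply_apply c
        rw [h, finSuccEquiv'_symm_some] at this
        simp [h, this]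

/-- An extra replica with its own factor becomes a new replica. -/
lemma Casc.mom_promote (he : ∀ i, 0 ≤ e i) {F : ι → ℝ → ℝ} (hF : ∀ a, BC (F a)) {k : ℕ}
    (i : Fin (k + 1)) {Y : Fin (k + 1) → ℝ → ℝ} (hY : ∀ b, BC (Y b))
    (Ψ : (Option ι ⊕ Fin k → Option ι ⊕ Fin k → Fin (r + 1)) → ℝ) :
    C.mom e (fun B => Ψ fun a b => B (promote i a) (promote i b)) (Sum.elim F Y) =
      C.mom e Ψ (Sum.elim (opt (Y i) F) fun b => Y (i.succAbove b)) := by
  rw [Casc.mom_inj he (promote i) (promote i).injective Ψ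
    (by rintro (a | b); exacts [hF a, hY b]) fun a ha => absurd ⟨(promote i).symm a, by simp⟩ ha]
  congr 1
  funext a
  rcases a with (_ | a) | b <;> rfl

/-- Terms with one marked extra replica. -/
lemma Casc.mom_extra (he : ∀ i, 0 ≤ e i) {F : ι → ℝ → ℝ} (hF : ∀ a, BC (F a)) (hX : BC X)
    {G : ℝ → ℝ} (hG : BC G) (Φ : (Option ι → Option ι → Fin (r + 1)) → ℝ) (k : ℕ) (i : Fin (k + 1)) :
    C.mom e (fun B => Φ fun a b => B (a.elim (Sum.inr i) Sum.inl) (b.elim (Sum.inr i) Sum.inl))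
        (Sum.elim F (Function.update (fun _ => X) i G)) =
      C.mom e (lft k Φ) (ext (opt G F) X k) := by
  refine (Casc.mom_promote he hF i (Y := Function.update (fun _ => X) i G)
    (bc_update (fun _ => hX) i hG) (lft k Φ)).trans ?_
  simp [ext]

lemma Casc.hasSum_extra (he : ∀ i, 0 ≤ e i) {F : ι → ℝ → ℝ} (hF : ∀ a, BC (F a)) (hX : BC X)
    (hρ : ∀ y, |X y| ≤ ρ) (h1 : ρ < 1) {G : ℝ → ℝ} (hG : BC G)
    (Φ : (Option ι → Option ι → Fin (r + 1)) → ℝ) :
    HasSum (fun k : ℕ => (negCoef (Fintype.card ι) k : ℝ) * ∑ i : Fin k,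
        C.mom e (fun B => Φ fun a b => B (a.elim (Sum.inr i) Sum.inl) (b.elim (Sum.inr i) Sum.inl))
          (Sum.elim F (Function.update (fun _ => X) i G)))
      (Fintype.card ι * C.ser e X Φ (opt G F)) := by
  rw [← hasSum_nat_add_iff' 1]
  simp only [Finset.range_one, Finset.sum_singleton, Finset.univ_eq_empty, Finset.sum_empty, mul_zero,
    sub_zero]
  refine ((Casc.summable_ser (bc_opt hF hG) hρ h1 Φ).hasSum.mul_left _).congr_fun fun k => ?_
  simp only [Casc.mom_extra he hF hX hG, Finset.sum_const, Finset.card_univ, Fintype.card_fin,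
    nsmul_eq_mul, Fintype.card_option]
  push_cast
  rw [← mul_assoc, negCoef_succ_mul, mul_assoc]

/-- The tilt identity. -/
theorem Casc.tilt_id (he : ∀ i, 0 ≤ e i) [DecidableEq ι] {F : ι → ℝ → ℝ} (hF : ∀ a, BC (F a))
    (hX : BC X) (hρ : ∀ y, |X y| ≤ ρ) (h1 : ρ < 1) (j : Fin (r + 1)) (l : ι)
    (Φ : (ι → ι → Fin (r + 1)) → ℝ) :
    (Fintype.card ι : ℝ) * C.ser e X (fun B => ind j (B (some l) none) * Φ fun a b => B (some a) (some b))
        (opt (fun y => 1 - X y) F) =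
      C.ser e X (fun B => ((1 - C.cdf j) + ∑ l' ∈ Finset.univ.erase l, ind j (B l l')) * Φ B) F := by
  set n := Fintype.card ι
  set Φp : (Option ι → Option ι → Fin (r + 1)) → ℝ :=
    fun B => ind j (B (some l) none) * Φ fun a b => B (some a) (some b)
  set Φr : (ι → ι → Fin (r + 1)) → ℝ :=
    fun B => ((1 - C.cdf j) + ∑ l' ∈ Finset.univ.erase l, ind j (B l l')) * Φ B
  have hone : BC (fun _ : ℝ => (1 : ℝ)) := BC.one
  have hw : BC (fun y => 1 - X y) := by
    have := hone.add (hX.smul (-1))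
    simpa [Pi.add_def, sub_eq_add_neg] using this
  have key : ∀ k, (negCoef n k : ℝ) * C.mom e (lft k Φr) (ext F X k) =
      n * ((negCoef (n + 1) k : ℝ) * C.mom e (lft k Φp) (ext (opt (fun _ => 1) F) X k)) -
        negCoef n k * ∑ i : Fin k, C.mom e
          (fun B => Φp fun a b => B (a.elim (Sum.inr i) Sum.inl) (b.elim (Sum.inr i) Sum.inl))
          (Sum.elim F (Function.update (fun _ => X) i X)) := by
    intro k
    have hgg := Casc.mom_gg (C := C) he j (Sum.inl l : ι ⊕ Fin k) (lft k Φ) (bc_ext hF hX k)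
    have hsplit : Finset.univ.erase (Sum.inl l : ι ⊕ Fin k) =
        (Finset.univ.erase l).disjSum Finset.univ := by
      ext (a | i) <;> simp
    have hr : C.mom e (fun B => ((1 - C.cdf j) +
        ∑ l' ∈ Finset.univ.erase (Sum.inl l), if j ≤ B (Sum.inl l) l' then 1 else 0) * lft k Φ B)
          (ext F X k) = C.mom e (lft k Φr) (ext F X k) + ∑ i : Fin k, C.mom e
            (fun B => Φp fun a b => B (a.elim (Sum.inr i) Sum.inl) (b.elim (Sum.inr i) Sum.inl))
            (Sum.elim F (Function.update (fun _ => X) i X)) := by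
      simp only [Function.update_eq_self]
      rw [← Casc.mom_sum]
      show _ = _ + C.mom e _ (ext F X k)
      rw [← Casc.mom_add]
      refine Casc.mom_congr (fun B _ => ?_) _
      rw [hsplit, Finset.sum_disjSum]
      simp only [lft, Φr, Φp, ind, Option.elim_none, Option.elim_some, Finset.sum_mul, add_mul]
      ring_nf
      congr!
    let σ : Option (ι ⊕ Fin k) ≃ Option ι ⊕ Fin k :=
      { toFun := fun a => a.elim (Sum.inl none) (Sum.map some id)
        invFun := Sum.elim (fun a => a.map Sum.inl) (fun b => some (Sum.inr b))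
        left_inv := by rintro (_ | (a | b)) <;> rfl
        right_inv := by rintro ((_ | a) | b) <;> rfl }
    have hσ : C.mom e (fun B : Option (ι ⊕ Fin k) → Option (ι ⊕ Fin k) → Fin (r + 1) =>
          (if j ≤ B (some (Sum.inl l)) none then 1 else 0) * lft k Φ fun a b => B (some a) (some b))
        (fun a => a.elim (fun _ => 1) (ext F X k)) =
        C.mom e (lft k Φp) (ext (opt (fun _ => 1) F) X k) := by
      rw [Casc.mom_equiv he σ (lft k Φp) (bc_ext (bc_opt hF hone) hX k)]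
      congr 1
      funext a
      rcases a with _ | (a | b) <;> rfl
    rw [hσ, hr] at hgg
    have hc := negCoef_mul_add n k
    simp only [Fintype.card_sum, Fintype.card_fin] at hgg
    push_cast at hgg
    linear_combination (-(negCoef n k : ℝ)) * hgg +
      (C.mom e (lft k Φp) (ext (opt (fun _ => 1) F) X k)) * hc
  have hsum := (((Casc.summable_ser (C := C) (e := e) (bc_opt hF hone) hρ h1 Φp).hasSum.mul_left
    (n : ℝ)).congr_fun fun k => by rw [Fintype.card_option]).sub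
      (Casc.hasSum_extra (C := C) he hF hX hρ h1 hX Φp)
  have : C.ser e X Φr F = n * C.ser e X Φp (opt (fun _ => 1) F) -
      n * C.ser e X Φp (opt X F) := (hsum.congr_fun key).tsum_eq
  rw [this]
  have hu : ∀ u : ℝ → ℝ, opt u F = Function.update (opt (fun _ => 1) F) none u := fun u => by
    funext a
    rcases a with _ | a <;> simp [opt]
  have hwX : (fun y => 1 - X y) = (fun _ => (1 : ℝ)) + (-1 : ℝ) • X := by
    funext y; simp [sub_eq_add_neg]
  rw [hwX, hu, hu X, Casc.ser_add_fun hX hρ h1 (bc_opt hF hone) _ _ hone (hX.smul _),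
    Casc.ser_smul_fun, ← hu]
  ring

end Vale.Agent.P157.Low
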