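import Vale.Agent.P157.Low.CascadeCancel

/-!
A ratio series does not move while one level is switched on along the tilted flow.
-/

namespace Vale.Agent.P157.Low

open MeasureTheory ProbabilityTheory Filter Set
open scoped Topology

variable {r : ℕ} {C : Casc r} {T : ℝ} {d : Fin (r + 1) → ℝ} {j : Fin (r + 1)} {ρ : ℝ}
  {ι : Type} [Fintype ι]

/-- One minus a flow. -/
def Flow.compl (G : Flow T) : Flow T where
  F t y := 1 - G.F t y
  F1 t y := -G.F1 t y
  F2 t y := -G.F2 t y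
  Ft t y := -G.Ft t y
  d1 t ht y := (G.d1 t ht y).const_sub 1
  d2 t ht y := (G.d2 t ht y).neg
  dt t ht φ φ' hφ := ((G.dt t ht φ φ' hφ).const_sub 1).congr_deriv (by ring)
  joint := continuousOn_const.sub G.joint
  cont1 t ht := (G.cont1 t ht).neg
  cont2 t ht := (G.cont2 t ht).neg
  contt t ht := (G.contt t ht).neg
  bdd := by
    obtain ⟨B, hB⟩ := G.bdd
    refine ⟨1 + B, fun t ht y => ?_⟩
    obtain ⟨a, b, c, e⟩ := hB t ht y
    simp only [abs_neg]
    exact ⟨(abs_sub _ _).trans (by rw [abs_one]; linarith), by linarith, by linarith, by linarith⟩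

/-- Flows of one term. -/
def extG (G : ι → Flow T) (X : Flow T) (k : ℕ) : ι ⊕ Fin k → Flow T := Sum.elim G fun _ => X

omit [Fintype ι] in
lemma extG_F (G : ι → Flow T) (X : Flow T) (k : ℕ) (s : ℝ) :
    (fun c => (extG G X k c).F s) = ext (fun a => (G a).F s) (X.F s) k := by
  funext c
  rcases c with a | i <;> rfl

/-- Termwise bound for the differentiated series. -/
lemma Casc.momD_weight [DecidableEq ι] (Φ : (ι → ι → Fin (r + 1)) → ℝ) (G : ι → Flow T) (X : Flow T)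
    (h1 : ρ < 1) (hρ : ∀ t ∈ Icc 0 T, ∀ y, |X.F t y| ≤ ρ) :
    ∃ u : ℕ → ℝ, Summable u ∧ (∀ k, ∀ t ∈ Icc 0 T,
      ‖(negCoef (Fintype.card ι) k : ℝ) * C.momD d j (lft k Φ) (extG G X k) t‖ ≤ u k ∧
      ‖(negCoef (Fintype.card ι) k : ℝ) * C.mom (lev d j t) (lft k Φ)
        (ext (fun a => (G a).F t) (X.F t) k)‖ ≤ u k) := by
  obtain ⟨D, hD⟩ := bdd_fintype Φ
  choose B hB using fun a => (G a).bdd
  obtain ⟨Bx, hBx⟩ := X.bdd
  set M : ℝ := 1 + ∑ a, |B a| + |Bx| with hM
  have hS : 0 ≤ ∑ a, |B a| := Finset.sum_nonneg fun a _ => abs_nonneg _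
  have hM1 : 1 ≤ M := by rw [hM]; linarith [abs_nonneg Bx]
  have hle : ∀ a, B a ≤ M := fun a => by
    linarith [Finset.single_le_sum (fun a _ => abs_nonneg (B a)) (Finset.mem_univ a), le_abs_self (B a),
      abs_nonneg Bx]
  have hlx : Bx ≤ M := by linarith [le_abs_self Bx]
  set ρ' := max ρ (1 / 2)
  have hρ' : (1 / 2 : ℝ) ≤ ρ' := le_max_right _ _
  have h1' : ρ' < 1 := max_lt h1 (by norm_num)
  set n := Fintype.card ι
  set K := 2 * ((4 * M) ^ 2 * (|D| * M ^ n))
  refine ⟨fun k => K * ((negCoef n k : ℝ) * ((n : ℝ) + k + 1) ^ 2 * ρ' ^ k),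
    (summable_weight n 2 (by linarith) h1').mul_left K, fun k t ht => ?_⟩
  set b : ι ⊕ Fin k → ℝ := Sum.elim (fun _ => M) fun _ => ρ'
  have hb : ∀ c, (1 / 2 : ℝ) ≤ b c := by
    rintro (a | i)
    exacts [by show _ ≤ M; linarith, hρ']
  have hp : ∏ c, b c = M ^ n * ρ' ^ k := by simp [b, n, Fintype.prod_sum_type]
  have g0 : ∀ c y, |(extG G X k c).F t y| ≤ b c := by
    rintro (a | i) y
    exacts [((hB a t ht y).1).trans (hle a), (hρ t ht y).trans (le_max_left _ _)]
  have key : ∀ c {v : ℝ}, |v| ≤ 2 * M → |v| ≤ 4 * M * b c := fun c v hv => by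
    nlinarith [hb c]
  have hG : ∀ c y, |(extG G X k c).F1 t y| ≤ M ∧ |(extG G X k c).F2 t y| ≤ M ∧
      |(extG G X k c).Ft t y| ≤ M := by
    rintro (a | i) y
    · obtain ⟨_, q1, q2, q3⟩ := hB a t ht y
      exact ⟨q1.trans (hle a), q2.trans (hle a), q3.trans (hle a)⟩
    · obtain ⟨_, q1, q2, q3⟩ := hBx t ht y
      exact ⟨q1.trans hlx, q2.trans hlx, q3.trans hlx⟩
  have hΦ : ∀ B', |lft k Φ B'| ≤ |D| := fun B' => (hD _).trans (le_abs_self D)
  have hD' := Casc.abs_momD_le (C := C) (d := d) (j := j) hΦ (L := 4 * M) (by linarith) (extG G X k) g0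
    (fun c y => key c ((hG c y).1.trans (by linarith))) (fun c y => key c (by
      obtain ⟨_, q2, q3⟩ := hG c y
      simp only [Flow.op, Pi.add_apply, Pi.smul_apply, smul_eq_mul]
      refine (abs_add_le _ _).trans ?_
      rw [abs_mul, show |(1 / 2 : ℝ)| = 1 / 2 by norm_num]
      linarith))
  have h0 := Casc.abs_mom_le (C := C) (e := lev d j t) hΦ g0
  rw [extG_F, hp] at h0
  rw [hp] at hD'
  simp only [Real.norm_eq_abs, abs_mul, Nat.abs_cast]
  have hn : (0 : ℝ) ≤ negCoef n k := Nat.cast_nonneg _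
  have hP : 0 ≤ |D| * (M ^ n * ρ' ^ k) := by positivity
  have hN : (1 : ℝ) ≤ ((n : ℝ) + k + 1) ^ 2 :=
    one_le_pow₀ (by linarith [show (0 : ℝ) ≤ (n : ℝ) + k by positivity])
  have hL : (1 : ℝ) ≤ (4 * M) ^ 2 := one_le_pow₀ (by linarith)
  simp only [Fintype.card_sum, Fintype.card_fin, Nat.cast_add] at hD'
  refine ⟨(mul_le_mul_of_nonneg_left hD' hn).trans (le_of_eq (by ring)),
    (mul_le_mul_of_nonneg_left h0 hn).trans ?_⟩
  calc (negCoef n k : ℝ) * (|D| * (M ^ n * ρ' ^ k))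
      ≤ negCoef n k * (2 * ((4 * M) ^ 2 * (((n : ℝ) + k + 1) ^ 2 * (|D| * (M ^ n * ρ' ^ k))))) := by
        refine mul_le_mul_of_nonneg_left ?_ hn
        nlinarith [le_mul_of_one_le_left hP hN,
          le_mul_of_one_le_left (mul_nonneg (by linarith : (0 : ℝ) ≤ ((n : ℝ) + k + 1) ^ 2) hP) hL]
    _ = _ := by ring

/-- Derivative of a series. -/
noncomputable def Casc.serD [DecidableEq ι] (C : Casc r) (d : Fin (r + 1) → ℝ) (j : Fin (r + 1))
    (Φ : (ι → ι → Fin (r + 1)) → ℝ) (G : ι → Flow T) (X : Flow T) (t : ℝ) : ℝ :=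
  ∑' k : ℕ, (negCoef (Fintype.card ι) k : ℝ) * C.momD d j (lft k Φ) (extG G X k) t

lemma Casc.hasDerivAt_ser [DecidableEq ι] (hd : ∀ i, 0 ≤ d i) (Φ : (ι → ι → Fin (r + 1)) → ℝ)
    (G : ι → Flow T) (X : Flow T) (h1 : ρ < 1) (hρ : ∀ t ∈ Icc 0 T, ∀ y, |X.F t y| ≤ ρ) {t : ℝ}
    (ht : t ∈ Ioo 0 T) :
    HasDerivAt (fun s => C.ser (lev d j s) (X.F s) Φ fun a => (G a).F s) (C.serD d j Φ G X t) t := by
  obtain ⟨u, hu, hb⟩ := Casc.momD_weight (C := C) (d := d) (j := j) Φ G X h1 hρ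
  refine hasDerivAt_tsum_of_isPreconnected hu isOpen_Ioo isPreconnected_Ioo
    (fun k s hs => ?_) (fun k s hs => (hb k s (Ioo_subset_Icc_self hs)).1) ht
    (Casc.summable_ser (fun a => (G a).bcF (Ioo_subset_Icc_self ht)) (hρ t (Ioo_subset_Icc_self ht))
      h1 Φ) ht
  have h := Casc.hasDerivAt_mom (C := C) (j := j) hd (lft k Φ) (extG G X k) hs
  simp only [extG_F] at h
  exact h.const_mul _

lemma Casc.continuousOn_ser [DecidableEq ι] (hd : ∀ i, 0 ≤ d i) (Φ : (ι → ι → Fin (r + 1)) → ℝ)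
    (G : ι → Flow T) (X : Flow T) (h1 : ρ < 1) (hρ : ∀ t ∈ Icc 0 T, ∀ y, |X.F t y| ≤ ρ) :
    ContinuousOn (fun s => C.ser (lev d j s) (X.F s) Φ fun a => (G a).F s) (Icc 0 T) := by
  obtain ⟨u, hu, hb⟩ := Casc.momD_weight (C := C) (d := d) (j := j) Φ G X h1 hρ
  refine continuousOn_tsum (fun k => ?_) hu fun k s hs => (hb k s hs).2
  have h := Casc.continuousOn_mom (C := C) (j := j) hd (lft k Φ) (extG G X k)
  simp only [extG_F] at h
  exact continuousOn_const.mul h

lemma erase_inl [DecidableEq ι] {k : ℕ} (a : ι) :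
    (Finset.univ : Finset (ι ⊕ Fin k)).erase (Sum.inl a) =
      (Finset.univ.erase a).disjSum Finset.univ := by
  ext (b | i) <;> simp

lemma erase_inr [DecidableEq ι] {k : ℕ} (i : Fin k) :
    (Finset.univ : Finset (ι ⊕ Fin k)).erase (Sum.inr i) =
      (Finset.univ : Finset ι).disjSum (Finset.univ.erase i) := by
  ext (b | i') <;> simp

lemma Casc.mom_extra2 [DecidableEq ι] {e : Fin (r + 1) → ℝ} (he : ∀ i, 0 ≤ e i) {F : ι → ℝ → ℝ}
    (hF : ∀ a, BC (F a)) {X G : ℝ → ℝ} (hX : BC X) (hG : BC G) (Φ : (ι → ι → Fin (r + 1)) → ℝ)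
    (i0 : Fin (r + 1)) {k : ℕ} (i : Fin (k + 1)) :
    ∑ i' ∈ Finset.univ.erase i, C.mom e (fun B => ind i0 (B (Sum.inr i) (Sum.inr i')) * lft (k + 1) Φ B)
        (Sum.elim F (Function.update (Function.update (fun _ => X) i G) i' G)) =
      ∑ b : Fin k, C.mom e (fun B => (fun B : Option (Option ι) → Option (Option ι) → Fin (r + 1) =>
          ind i0 (B (some none) none) * up (up Φ) B)
          fun p q => B (p.elim (Sum.inr b) Sum.inl) (q.elim (Sum.inr b) Sum.inl))
        (Sum.elim (opt G F) (Function.update (fun _ => X) b G)) := by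
  have hm : (Finset.univ.erase i).val = ((Finset.univ : Finset (Fin k)).map i.succAboveEmb).val := by
    congr 1
    ext c
    simp [Fin.exists_succAbove_eq_iff]
  rw [Finset.sum_congr (Finset.val_inj.1 hm) fun _ _ => rfl, Finset.sum_map]
  refine Finset.sum_congr rfl fun b _ => ?_
  simp only [Fin.coe_succAboveEmb]
  set Y := Function.update (Function.update (fun _ => X) i G) (i.succAbove b) G
  refine (Casc.mom_promote (C := C) he hF i (Y := Y)
    (bc_update (bc_update (fun _ => hX) i hG) _ hG)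
    (fun B => ind i0 (B (Sum.inl none) (Sum.inr b)) * lft k (up Φ) B)).trans ?_
  congr 1
  · funext a
    rcases a with a | c
    · rcases a with _ | a <;> simp [Y, opt, (Fin.succAbove_ne i b).symm]
    · rcases eq_or_ne c b with rfl | h
      · simp [Y]
      · simp [Y, h, Fin.succAbove_ne i c, Fin.succAbove_right_injective.ne h]

/-- The derivative of a series by kinds of replicas. -/
lemma Casc.serD_eq [DecidableEq ι] (hd : ∀ i, 0 ≤ d i) (Φ : (ι → ι → Fin (r + 1)) → ℝ)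
    (G : ι → Flow T) (X : Flow T) (h1 : ρ < 1) (hρ : ∀ t ∈ Icc 0 T, ∀ y, |X.F t y| ≤ ρ) {t : ℝ}
    (ht : t ∈ Icc 0 T) :
    C.serD d j Φ G X t =
      ∑ a, C.ser (lev d j t) (X.F t) Φ (Function.update (fun c => (G c).F t) a ((G a).op t)) +
      (Fintype.card ι : ℝ) * C.ser (lev d j t) (X.F t) (up Φ) (opt (X.op t) fun c => (G c).F t) +
      (1 / 2 : ℝ) * ∑ a, ∑ b ∈ Finset.univ.erase a, C.ser (lev d j t) (X.F t)
        (fun B => ind j (B a b) * Φ B)
        (Function.update (Function.update (fun c => (G c).F t) a ((G a).F1 t)) b ((G b).F1 t)) +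
      ∑ a, (Fintype.card ι : ℝ) * C.ser (lev d j t) (X.F t)
        (fun B => ind j (B (some a) none) * up Φ B)
        (opt (X.F1 t) (Function.update (fun c => (G c).F t) a ((G a).F1 t))) +
      (1 / 2 : ℝ) * ((Fintype.card ι : ℝ) * (((Fintype.card ι : ℝ) + 1) *
        C.ser (lev d j t) (X.F t) (fun B => ind j (B (some none) none) * up (up Φ) B)
          (opt (X.F1 t) (opt (X.F1 t) fun c => (G c).F t)))) := by
  set F := fun c => (G c).F t
  set Xf := X.F t
  set e := lev d j t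
  have he : ∀ i, 0 ≤ e i := lev_nonneg hd ht.1
  have hF : ∀ c, BC (F c) := fun c => (G c).bcF ht
  have hX : BC Xf := X.bcF ht
  have hr : ∀ y, |Xf y| ≤ ρ := hρ t ht
  set n := (Fintype.card ι : ℝ)
  have s1 := hasSum_sum (s := (Finset.univ : Finset ι)) fun a _ => (Casc.summable_ser (C := C) (e := e)
    (bc_update hF a ((G a).bc_op ht)) hr h1 Φ).hasSum
  have s2 := Casc.hasSum_extra (C := C) he hF hX hr h1 (X.bc_op ht) (up Φ)
  have s3 := (hasSum_sum (s := (Finset.univ : Finset ι)) fun a _ => hasSum_sum (s := Finset.univ.erase a)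
    fun b _ => (Casc.summable_ser (C := C) (e := e)
      (bc_update (bc_update hF a ((G a).bcF1 ht)) b ((G b).bcF1 ht)) hr h1
      (fun B => ind j (B a b) * Φ B)).hasSum).mul_left (1 / 2 : ℝ)
  have s4 := hasSum_sum (s := (Finset.univ : Finset ι)) fun a _ => Casc.hasSum_extra (C := C) he
    (bc_update hF a ((G a).bcF1 ht)) hX hr h1 (X.bcF1 ht)
    (fun B => ind j (B (some a) none) * up Φ B)
  have s5' := (Casc.hasSum_extra (C := C) he (bc_opt hF (X.bcF1 ht)) hX hr h1 (X.bcF1 ht)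
    (fun B => ind j (B (some none) none) * up (up Φ) B)).mul_left n
  have s5 : HasSum (fun k : ℕ => (negCoef (Fintype.card ι) k : ℝ) * ∑ i : Fin k,
      ∑ i' ∈ Finset.univ.erase i, C.mom e (fun B => ind j (B (Sum.inr i) (Sum.inr i')) * lft k Φ B)
        (Sum.elim F (Function.update (Function.update (fun _ => Xf) i (X.F1 t)) i' (X.F1 t))))
      (n * ((n + 1) * C.ser e Xf (fun B => ind j (B (some none) none) * up (up Φ) B)
        (opt (X.F1 t) (opt (X.F1 t) F)))) := by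
    rw [← hasSum_nat_add_iff' 1]
    simp only [Finset.range_one, Finset.sum_singleton, Finset.univ_eq_empty, Finset.sum_empty, mul_zero,
      sub_zero]
    rw [Fintype.card_option] at s5'
    push_cast at s5'
    refine s5'.congr_fun fun k => ?_
    simp only [Casc.mom_extra2 he hF hX (X.bcF1 ht), Finset.sum_const, Finset.card_univ,
      Fintype.card_fin, nsmul_eq_mul]
    push_cast
    rw [← mul_assoc, negCoef_succ_mul, mul_assoc]
  refine HasSum.tsum_eq ((((((s1.add s2).add s3).add s4).add (s5.mul_left (1 / 2 : ℝ)))).congr_fun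
    fun k => ?_)
  have hl : ∀ (a : ι) (f : ℝ → ℝ) (Y : Fin k → ℝ → ℝ),
      Function.update (Sum.elim F Y) (Sum.inl a) f = Sum.elim (Function.update F a f) Y :=
    fun a f Y => Sum.update_elim_inl
  have hr' : ∀ (i : Fin k) (f : ℝ → ℝ) (F' : ι → ℝ → ℝ) (Y : Fin k → ℝ → ℝ),
      Function.update (Sum.elim F' Y) (Sum.inr i) f = Sum.elim F' (Function.update Y i f) :=
    fun i f F' Y => Sum.update_elim_inr
  have hl' : ∀ (a : ι) (f : ℝ → ℝ) (F' : ι → ℝ → ℝ) (Y : Fin k → ℝ → ℝ),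
      Function.update (Sum.elim F' Y) (Sum.inl a) f = Sum.elim (Function.update F' a f) Y :=
    fun a f F' Y => Sum.update_elim_inl
  have hcross : ∀ (i : Fin k) (a : ι), C.mom e (fun B => ind j (B (Sum.inr i) (Sum.inl a)) * lft k Φ B)
      (Sum.elim (Function.update F a ((G a).F1 t)) (Function.update (fun _ => Xf) i (X.F1 t))) =
      C.mom e (fun B => ind j (B (Sum.inl a) (Sum.inr i)) * lft k Φ B)
      (Sum.elim (Function.update F a ((G a).F1 t)) (Function.update (fun _ => Xf) i (X.F1 t))) :=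
    fun i a => Casc.mom_congr (fun B hB => by rw [hB (Sum.inr i) (Sum.inl a)]) _
  simp only [Casc.momD, extG_F, Fintype.sum_sum_type, erase_inl, erase_inr, Finset.sum_disjSum]
  simp only [extG, Sum.elim_inl, Sum.elim_inr, ext, hl', hr']
  simp only [show (fun c => (G c).F t) = F from rfl, show X.F t = Xf from rfl, show lev d j t = e from rfl,
    hcross, Finset.sum_add_distrib]
  have hlf : ∀ Φ' : (ι → ι → Fin (r + 1)) → ℝ,
      lft k Φ' = fun B => Φ' fun a b => B (Sum.inl a) (Sum.inl b) := fun _ => rfl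
  simp only [hlf, up, Option.elim_some, Option.elim_none, Finset.mul_sum, mul_add]
  rw [Finset.sum_comm (γ := ι) (α := Fin k)]
  ring_nf
  conv_lhs => enter [1, 2]; rw [Finset.sum_comm]
  simp only [← Finset.sum_mul]
  ring

/-- The series is constant while the level is switched on. -/
theorem Casc.ser_const (hd : ∀ i, 0 ≤ d i) [DecidableEq ι] (Φ : (ι → ι → Fin (r + 1)) → ℝ)
    (θ : ι → Flow T) (W : Flow T) (h1 : ρ < 1) (hρ : ∀ t ∈ Icc 0 T, ∀ y, |1 - W.F t y| ≤ ρ)
    (R : ℝ → ℝ → ℝ) (hR : ∀ t ∈ Ioo 0 T, BC (R t))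
    (hW1 : ∀ t ∈ Ioo 0 T, W.F1 t = R t * W.F t)
    (hW2 : ∀ t ∈ Ioo 0 T, W.op t = ((1 - C.cdf j) / 2) • (R t * R t * W.F t))
    (hθ : ∀ a, ∀ t ∈ Ioo 0 T, (θ a).op t = (-C.cdf j) • (R t * (θ a).F1 t))
    (hpair : ∀ a b, a ≠ b → (∀ t ∈ Ioo 0 T, (θ a).F1 t = 0) ∨ (∀ t ∈ Ioo 0 T, (θ b).F1 t = 0) ∨
      ∀ B, (∀ c c', B c c' = B c' c) → j ≤ B a b → Φ B = 0) {s : ℝ} (hs : s ∈ Icc 0 T) :
    C.ser (lev d j s) (fun y => 1 - W.F s y) Φ (fun a => (θ a).F s * W.F s) =
      C.ser (lev d j 0) (fun y => 1 - W.F 0 y) Φ (fun a => (θ a).F 0 * W.F 0) := by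
  let G : ι → Flow T := fun a => (θ a).mul W
  show C.ser (lev d j s) (W.compl.F s) Φ (fun a => (G a).F s) =
    C.ser (lev d j 0) (W.compl.F 0) Φ (fun a => (G a).F 0)
  rcases eq_or_lt_of_le hs.1 with h | h
  · rw [← h]
  have hX : ∀ t ∈ Icc 0 T, ∀ y, |W.compl.F t y| ≤ ρ := hρ
  have hz : ∀ x ∈ Ioo 0 T, C.serD d j Φ G W.compl x = 0 := by
    intro x hx
    have hxI : x ∈ Icc 0 T := Ioo_subset_Icc_self hx
    set m := C.cdf j
    set R' := R x
    set w := W.F x
    have hG : ∀ a, (G a).op x =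
        (1 - m) • (R' * ((θ a).F1 x * w)) + ((1 - m) / 2) • (R' * R' * ((θ a).F x * w)) := by
      intro a
      funext y
      have e1 := congrFun (hθ a x hx) y
      have e2 := congrFun (hW2 x hx) y
      have e3 := congrFun (hW1 x hx) y
      simp only [Flow.op, Pi.add_apply, Pi.smul_apply, Pi.mul_apply, smul_eq_mul] at e1 e2 e3
      simp only [G, Flow.op, Flow.mul, Pi.add_apply, Pi.smul_apply, Pi.mul_apply, smul_eq_mul, w, R']
      linear_combination (W.F x y) * e1 + ((θ a).F x y) * e2 + ((θ a).F1 x y) * e3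
    have hG1 : ∀ a, (G a).F1 x = (θ a).F1 x * w + R' * ((θ a).F x * w) := by
      intro a
      funext y
      have e3 := congrFun (hW1 x hx) y
      simp only [Pi.mul_apply] at e3
      simp only [G, Flow.mul, Pi.add_apply, Pi.mul_apply, w, R']
      linear_combination ((θ a).F x y) * e3
    have hXop : W.compl.op x = (-((1 - m) / 2)) • (R' * R' * w) := by
      funext y
      have e2 := congrFun (hW2 x hx) y
      simp only [Flow.op, Pi.add_apply, Pi.smul_apply, Pi.mul_apply, smul_eq_mul] at e2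
      simp only [Flow.compl, Flow.op, Pi.add_apply, Pi.smul_apply, Pi.mul_apply, smul_eq_mul, w, R']
      linear_combination (-1 : ℝ) * e2
    have hX1 : W.compl.F1 x = (-1 : ℝ) • (R' * w) := by
      funext y
      have e3 := congrFun (hW1 x hx) y
      simp only [Pi.mul_apply] at e3
      simp only [Flow.compl, Pi.smul_apply, Pi.mul_apply, smul_eq_mul, w, R']
      linear_combination (-1 : ℝ) * e3
    have hF : ∀ a, (G a).F x = (θ a).F x * w := fun a => rfl
    rw [Casc.serD_eq hd Φ G W.compl h1 hX hxI]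
    simp only [hG, hG1, hXop, hX1, hF]
    exact Casc.stage_zero hd hxI.1 (W.compl.bcF hxI) (hX x hxI) h1 Φ
      (fun a => ((θ a).bcF hxI).mul (W.bcF hxI)) (fun a => ((θ a).bcF1 hxI).mul (W.bcF hxI)) (hR x hx)
      (W.bcF hxI) (by funext y; simp [w, Flow.compl]) (fun a b hab => by
        rcases hpair a b hab with h | h | h
        exacts [Or.inl (by simp [h x hx]), Or.inr (Or.inl (by simp [h x hx])), Or.inr (Or.inr h)])
  obtain ⟨x, hx, hslope⟩ := exists_hasDerivAt_eq_slope _ _ h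
    ((Casc.continuousOn_ser hd Φ G W.compl h1 hX).mono (Icc_subset_Icc_right hs.2))
    fun x hx => Casc.hasDerivAt_ser (C := C) (j := j) hd Φ G W.compl h1 hX
      ⟨hx.1, hx.2.trans_le hs.2⟩
  rw [hz x ⟨hx.1, hx.2.trans_le hs.2⟩, eq_div_iff (by linarith)] at hslope
  linarith

end Vale.Agent.P157.Low
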