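import Vale.Agent.P157.Low.CascadeSeries

/-!
Derivative, continuity and moving rule for moments while one level is switched on.
-/

namespace Vale.Agent.P157.Low

open MeasureTheory ProbabilityTheory Filter Set
open scoped Topology

variable {r : ℕ} {C : Casc r} {T : ℝ} {d : Fin (r + 1) → ℝ} {j : Fin (r + 1)}
  {ι : Type} [Fintype ι]

lemma prod_equiv {N : ℕ} (σ : ι ≃ Fin N) (F : ι → ℝ → ℝ) (x : Fin N → ℝ) :
    ∏ a, F a (x (σ a)) = ∏ p, F (σ.symm p) (x p) :=
  Fintype.prod_equiv σ _ _ fun a => by simp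

omit [Fintype ι] in
lemma update_comp_symm [DecidableEq ι] {N : ℕ} (σ : ι ≃ Fin N) (F : ι → ℝ → ℝ) (a : ι) (f : ℝ → ℝ)
    (p : Fin N) :
    Function.update F a f (σ.symm p) = Function.update (fun p => F (σ.symm p)) (σ a) f p := by
  rcases eq_or_ne p (σ a) with rfl | h
  · simp
  · rw [Function.update_of_ne h,
      Function.update_of_ne fun h' : σ.symm p = a => h (by rw [← h', Equiv.apply_symm_apply])]

/-- Derivative of a moment in the variance of the active level. -/
noncomputable def Casc.momD [DecidableEq ι] (C : Casc r) (d : Fin (r + 1) → ℝ) (j : Fin (r + 1))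
    (Φ : (ι → ι → Fin (r + 1)) → ℝ) (G : ι → Flow T) (t : ℝ) : ℝ :=
  ∑ a, C.mom (lev d j t) Φ (Function.update (fun c => (G c).F t) a ((G a).op t)) +
    (1 / 2 : ℝ) * ∑ a, ∑ b ∈ Finset.univ.erase a, C.mom (lev d j t) (fun B => ind j (B a b) * Φ B)
      (Function.update (Function.update (fun c => (G c).F t) a ((G a).F1 t)) b ((G b).F1 t))

lemma Casc.hasDerivAt_mom [DecidableEq ι] (hd : ∀ i, 0 ≤ d i) (Φ : (ι → ι → Fin (r + 1)) → ℝ)
    (G : ι → Flow T) {t : ℝ} (ht : t ∈ Ioo 0 T) :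
    HasDerivAt (fun s => C.mom (lev d j s) Φ fun c => (G c).F s) (C.momD d j Φ G t) t := by
  set σ := Fintype.equivFin ι
  set G' : Fin (Fintype.card ι) → Flow T := fun p => G (σ.symm p)
  set V : LMat r (Fintype.card ι) → ℝ := fun A =>
    ∑ a, GE (lcov (lev d j t) A) (fun x =>
        ∏ c, Function.update (fun c => (G c).F t) a ((G a).op t) c (x (σ c))) +
      (1 / 2 : ℝ) * ∑ a, ∑ b ∈ Finset.univ.erase a, ind j (A (σ a) (σ b)) * GE (lcov (lev d j t) A)
        (fun x => ∏ c, Function.update (Function.update (fun c => (G c).F t) a ((G a).F1 t)) b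
          ((G b).F1 t) c (x (σ c)))
  have hA : ∀ A, HasDerivAt
      (fun s => C.P _ A * (Φ (fun a b => A (σ a) (σ b)) *
        GE (lcov (lev d j s) A) fun x => ∏ c, (G c).F s (x (σ c))))
      (C.P _ A * (Φ (fun a b => A (σ a) (σ b)) * V A)) t := by
    intro A
    rcases eq_or_ne (C.P _ A) 0 with h | h
    · simpa [h] using hasDerivAt_const t (0 : ℝ)
    refine ((((C.good h).hasDerivAt_GE (j := j) hd G' ht).congr_of_eventuallyEq
      (Eventually.of_forall fun s => ?_)).congr_deriv ?_).const_mul _ |>.const_mul _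
    · show GE (lcov (lev d j s) A) (fun x => ∏ c, (G c).F s (x (σ c))) = _
      simp only [prod_equiv σ, G']
    · simp only [V, prod_equiv σ, update_comp_symm]
      refine congrArg₂ (· + ·) (Fintype.sum_equiv σ.symm _ _ fun p => ?_)
        (congrArg _ (Fintype.sum_equiv σ.symm _ _ fun p => ?_))
      · simp [G']
      · rw [show Finset.univ.erase (σ.symm p) = (Finset.univ.erase p).map σ.symm.toEmbedding by
          rw [Finset.map_erase, Finset.map_univ_equiv]; rfl, Finset.sum_map]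
        refine Finset.sum_congr rfl fun q _ => ?_
        simp only [ind, Equiv.coe_toEmbedding, Equiv.apply_symm_apply, ite_mul, one_mul, zero_mul, G']
  refine (HasDerivAt.fun_sum fun A _ => hA A).congr_deriv ?_
  simp only [V, Casc.momD, Casc.mom, Casc.momE, Finset.mul_sum, mul_add, Finset.sum_add_distrib]
  refine congrArg₂ (· + ·) Finset.sum_comm ?_
  rw [Finset.sum_comm]
  refine Finset.sum_congr rfl fun a _ => Finset.sum_comm.trans ?_
  refine Finset.sum_congr rfl fun b _ => Finset.sum_congr rfl fun A _ => ?_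
  ring

lemma Casc.continuousOn_mom (hd : ∀ i, 0 ≤ d i) (Φ : (ι → ι → Fin (r + 1)) → ℝ) (G : ι → Flow T) :
    ContinuousOn (fun s => C.mom (lev d j s) Φ fun c => (G c).F s) (Icc 0 T) := by
  refine continuousOn_finsetSum _ fun A _ => ?_
  rcases eq_or_ne (C.P _ A) 0 with h | h
  · simp only [h, zero_mul]; exact continuousOn_const
  refine continuousOn_const.mul (continuousOn_const.mul (((C.good h).continuousOn_GE (j := j) hd
    fun p => G ((Fintype.equivFin ι).symm p)).congr fun s _ => ?_))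
  simp only [prod_equiv (Fintype.equivFin ι)]

omit [Fintype ι] in
lemma abs_update_le [DecidableEq ι] {F : ι → ℝ → ℝ} {B : ι → ℝ} (hF : ∀ c y, |F c y| ≤ B c) (a : ι)
    {f : ℝ → ℝ} {L : ℝ} (hf : ∀ y, |f y| ≤ L * B a) (c : ι) (y : ℝ) :
    |Function.update F a f c y| ≤ Function.update B a (L * B a) c := by
  rcases eq_or_ne c a with rfl | h
  · simpa using hf y
  · simpa [Function.update_of_ne h] using hF c y

omit [Fintype ι] in
lemma prod_update_mul [DecidableEq ι] (B : ι → ℝ) (a : ι) (L : ℝ) (s : Finset ι) (ha : a ∈ s) :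
    ∏ c ∈ s, Function.update B a (L * B a) c = L * ∏ c ∈ s, B c := by
  rw [Finset.prod_update_of_mem ha, ← Finset.mul_prod_erase s B ha, Finset.sdiff_singleton_eq_erase,
    mul_assoc]

lemma Casc.abs_momD_le [DecidableEq ι] {Φ : (ι → ι → Fin (r + 1)) → ℝ} {D L : ℝ}
    (hΦ : ∀ B, |Φ B| ≤ D) (hL : 1 ≤ L) (G : ι → Flow T) {t : ℝ} {B : ι → ℝ}
    (h0 : ∀ c y, |(G c).F t y| ≤ B c) (h1 : ∀ c y, |(G c).F1 t y| ≤ L * B c)
    (h2 : ∀ c y, |(G c).op t y| ≤ L * B c) :
    |C.momD d j Φ G t| ≤ 2 * ((Fintype.card ι : ℝ) + 1) ^ 2 * (L ^ 2 * (D * ∏ c, B c)) := by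
  set K := L ^ 2 * (D * ∏ c, B c)
  have hD : 0 ≤ D := (abs_nonneg _).trans (hΦ fun _ _ => 0)
  have hB : 0 ≤ ∏ c, B c := Finset.prod_nonneg fun c _ => (abs_nonneg _).trans (h0 c 0)
  have hK : 0 ≤ K := mul_nonneg (sq_nonneg L) (mul_nonneg hD hB)
  have s1 : ∀ a, |C.mom (lev d j t) Φ (Function.update (fun c => (G c).F t) a ((G a).op t))| ≤ K := by
    intro a
    refine (Casc.abs_mom_le hΦ (abs_update_le h0 a (h2 a))).trans ?_
    rw [prod_update_mul _ _ _ _ (Finset.mem_univ a), mul_left_comm]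
    exact mul_le_mul_of_nonneg_right (le_self_pow₀ hL (by norm_num)) (mul_nonneg hD hB)
  have s2 : ∀ a, ∀ b ∈ Finset.univ.erase a, |C.mom (lev d j t) (fun B => ind j (B a b) * Φ B)
      (Function.update (Function.update (fun c => (G c).F t) a ((G a).F1 t)) b ((G b).F1 t))| ≤ K := by
    intro a b hb
    have hne : b ≠ a := Finset.ne_of_mem_erase hb
    refine (Casc.abs_mom_le (D := D) (fun B => ?_) (abs_update_le (abs_update_le h0 a (h1 a)) b
      (fun y => (h1 b y).trans_eq (by rw [Function.update_of_ne hne])))).trans ?_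
    · rw [abs_mul]
      exact (mul_le_of_le_one_left (abs_nonneg _) (abs_ind_le _ _)).trans (hΦ B)
    · rw [prod_update_mul _ _ _ _ (Finset.mem_univ b), prod_update_mul _ _ _ _ (Finset.mem_univ a)]
      exact le_of_eq (by ring)
  set n := (Fintype.card ι : ℝ)
  have hn : 0 ≤ n := Nat.cast_nonneg _
  refine (abs_add_le _ _).trans ?_
  have e1 : |∑ a, C.mom (lev d j t) Φ (Function.update (fun c => (G c).F t) a ((G a).op t))| ≤ n * K :=
    (Finset.abs_sum_le_sum_abs _ _).trans ((Finset.sum_le_card_nsmul _ _ K fun a _ => s1 a).trans_eq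
      (by simp [n]))
  have e2 : |(1 / 2 : ℝ) * ∑ a, ∑ b ∈ Finset.univ.erase a, C.mom (lev d j t)
      (fun B => ind j (B a b) * Φ B)
      (Function.update (Function.update (fun c => (G c).F t) a ((G a).F1 t)) b ((G b).F1 t))| ≤
        n * (n * K) := by
    rw [abs_mul, show |(1 / 2 : ℝ)| = 1 / 2 by norm_num]
    refine (mul_le_of_le_one_left (abs_nonneg _) (by norm_num)).trans ?_
    refine (Finset.abs_sum_le_sum_abs _ _).trans ((Finset.sum_le_card_nsmul _ _ (n * K)
      fun a _ => ?_).trans_eq (by simp [n]))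
    refine (Finset.abs_sum_le_sum_abs _ _).trans ((Finset.sum_le_card_nsmul _ _ K (s2 a)).trans ?_)
    rw [nsmul_eq_mul]
    exact mul_le_mul_of_nonneg_right (Nat.cast_le.2 (Finset.card_le_univ _)) hK
  nlinarith [e1, e2, mul_nonneg hn hK, mul_nonneg (mul_nonneg hn hn) hK]

/-- A factor may be moved between replicas meeting at the active level. -/
lemma Casc.mom_move [DecidableEq ι] (hd : ∀ i, 0 ≤ d i) {t : ℝ} (ht : 0 ≤ t)
    (Φ : (ι → ι → Fin (r + 1)) → ℝ) {a b : ι} (hΦ : ∀ B, Φ B ≠ 0 → j ≤ B a b) {F : ι → ℝ → ℝ}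
    (hF : ∀ c, BC (F c)) {u : ℝ → ℝ} (hu : BC u) :
    C.mom (lev d j t) Φ (Function.update F a (u * F a)) =
      C.mom (lev d j t) Φ (Function.update F b (u * F b)) := by
  refine Finset.sum_congr rfl fun A _ => ?_
  rcases eq_or_ne (C.P _ A) 0 with h | h
  · simp [h]
  set σ := Fintype.equivFin ι
  rcases eq_or_ne (Φ fun a b => A (σ a) (σ b)) 0 with h' | h'
  · simp [h']
  congr 2
  simp only [prod_equiv σ, update_comp_symm]
  have := (C.good h).GE_move hd ht (F := fun p => F (σ.symm p)) (fun p => hF _) hu (a := σ a)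
    (b := σ b) (hΦ _ h')
  simpa using this

end Vale.Agent.P157.Low
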