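import Vale.Agent.P157.Low.CascadeLogSer

/-!
One level of the nested averages as a flow, and the invariance of the series over that level.
-/

namespace Vale.Agent.P157.Low

open MeasureTheory ProbabilityTheory Filter Set
open scoped Topology

variable {r : ℕ} {T : ℝ} {lo hi : ℝ}

/-- A function with two bounded continuous derivatives. -/
def IsFn (f : ℝ → ℝ) : Prop := ∃ u : Fn, u.f = f

/-- One step of the nested potential. -/
noncomputable def potStep (m T : ℝ) (U : ℝ → ℝ) : ℝ → ℝ :=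
  if m = 0 then heat U T else fun y => Real.log (heat (fun x => Real.exp (m * U x)) T y) / m

/-- One step of an insertion. -/
noncomputable def insStep (m T : ℝ) (U θ : ℝ → ℝ) (y : ℝ) : ℝ :=
  heat (fun x => Real.exp (m * U x) * θ x) T y / heat (fun x => Real.exp (m * U x)) T y

/-- Composition of a function with derivatives. -/
lemma IsFn.comp {f : ℝ → ℝ} (hf : IsFn f) (φ φ1 φ2 : ℝ → ℝ) (hr : ∀ y, f y ∈ Icc lo hi)
    (h1 : ∀ x ∈ Icc lo hi, HasDerivAt φ (φ1 x) x) (h2 : ∀ x ∈ Icc lo hi, HasDerivAt φ1 (φ2 x) x)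
    (hc : ContinuousOn φ2 (Icc lo hi)) : IsFn fun y => φ (f y) := by
  obtain ⟨u, rfl⟩ := hf
  exact ⟨((Flow.ofFn 0 u).comp φ φ1 φ2 lo hi (fun _ _ => hr) h1 h2 hc).slice (t := 0) ⟨le_rfl, le_rfl⟩,
    rfl⟩

lemma IsFn.mul {f g : ℝ → ℝ} (hf : IsFn f) (hg : IsFn g) : IsFn fun y => f y * g y := by
  obtain ⟨u, rfl⟩ := hf
  obtain ⟨v, rfl⟩ := hg
  exact ⟨((Flow.ofFn 0 u).mul (Flow.ofFn 0 v)).slice (t := 0) ⟨le_rfl, le_rfl⟩, rfl⟩

lemma IsFn.one : IsFn fun _ => 1 := ⟨(Flow.one 0).slice (t := 0) ⟨le_rfl, le_rfl⟩, rfl⟩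

lemma IsFn.bc {f : ℝ → ℝ} (hf : IsFn f) : BC f := by
  obtain ⟨u, rfl⟩ := hf
  exact u.bc

lemma IsFn.exp_smul {U : ℝ → ℝ} (hU : IsFn U) (hr : ∀ y, U y ∈ Icc lo hi) (m : ℝ) :
    IsFn fun y => Real.exp (m * U y) :=
  hU.comp (fun x => Real.exp (m * x)) (fun x => m * Real.exp (m * x))
    (fun x => m * (m * Real.exp (m * x))) hr
    (fun x _ => (((hasDerivAt_id x).const_mul m).exp).congr_deriv (by simp [mul_comm]))
    (fun x _ => ((((hasDerivAt_id x).const_mul m).exp).const_mul m).congr_deriv (by simp [mul_comm]))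
    (by fun_prop)

lemma IsFn.of_Sm {θ : ℝ → ℝ} (hθ : Sm θ) : IsFn θ := ⟨Fn.ofSm hθ, rfl⟩

lemma heat_pos {g : ℝ → ℝ} {a b : ℝ} (hg : BC g) (hr : ∀ y, g y ∈ Icc a b) (ha : 0 < a) (τ y : ℝ) :
    0 < heat g τ y :=
  ha.trans_le (heat_mem_Icc hg hr τ y).1

lemma Flow.op_heatBack (u : Fn) {t : ℝ} (y : ℝ) : (Flow.heatBack T u).op t y = 0 := by
  simp [Flow.op, Flow.heatBack]
  ring

/-- The potential and the insertions of one level as flows. -/
theorem exists_stage {U : ℝ → ℝ} (hU : IsFn U) (hr : ∀ y, U y ∈ Icc lo hi) {m : ℝ} (hm : 0 ≤ m) :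
    ∃ P : Flow T, (∀ t ∈ Icc 0 T, ∀ y, P.F t y ∈ Icc lo hi) ∧ P.F T = U ∧ P.F 0 = potStep m T U ∧
      (∀ t ∈ Icc 0 T, ∀ y, P.op t y = -(m / 2) * P.F1 t y ^ 2) ∧
      ∀ θ, IsFn θ → ∃ Θ : Flow T, Θ.F T = θ ∧ Θ.F 0 = insStep m T U θ ∧
        ∀ t ∈ Icc 0 T, ∀ y, Θ.op t y = -m * (P.F1 t y * Θ.F1 t y) := by
  rcases eq_or_ne m 0 with rfl | hm0
  · obtain ⟨u, rfl⟩ := hU
    refine ⟨Flow.heatBack T u, fun t _ y => heat_mem_Icc u.bc hr _ y, ?_, ?_, fun t _ y => ?_,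
      fun θ hθ => ?_⟩
    · simp [Flow.heatBack, heat_zero]
    · simp [Flow.heatBack, potStep]
    · rw [Flow.op_heatBack]; simp
    obtain ⟨v, rfl⟩ := hθ
    refine ⟨Flow.heatBack T v, by simp [Flow.heatBack, heat_zero], ?_, fun t _ y => by
      rw [Flow.op_heatBack]; simp⟩
    funext y
    simp [Flow.heatBack, insStep, heat]
  have hmp : 0 < m := hm.lt_of_ne hm0.symm
  obtain ⟨eu, heu⟩ := hU.exp_smul hr m
  set a := Real.exp (m * lo)
  set b := Real.exp (m * hi)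
  have ha : 0 < a := Real.exp_pos _
  have her : ∀ y, eu.f y ∈ Icc a b := fun y => by
    rw [heu]
    exact ⟨Real.exp_le_exp.2 (mul_le_mul_of_nonneg_left (hr y).1 hm),
      Real.exp_le_exp.2 (mul_le_mul_of_nonneg_left (hr y).2 hm)⟩
  set E := Flow.heatBack T eu
  have hE : ∀ t ∈ Icc 0 T, ∀ y, E.F t y ∈ Icc a b := fun t _ y => heat_mem_Icc eu.bc her _ y
  have hne : ∀ x ∈ Icc a b, x ≠ 0 := fun x hx => (ha.trans_le hx.1).ne'
  let P := E.comp (fun x => Real.log x / m) (fun x => x⁻¹ / m) (fun x => -(x ^ 2)⁻¹ / m) a b hE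
    (fun x hx => (Real.hasDerivAt_log (hne x hx)).div_const m)
    (fun x hx => (hasDerivAt_inv (hne x hx)).div_const m)
    (((continuousOn_pow 2).inv₀ fun x hx => pow_ne_zero 2 (hne x hx)).neg.div_const m)
  refine ⟨P, fun t ht y => ?_, ?_, ?_, fun t ht y => ?_, fun θ hθ => ?_⟩
  · obtain ⟨h1, h2⟩ := hE t ht y
    show Real.log (E.F t y) / m ∈ Icc lo hi
    rw [mem_Icc, le_div_iff₀ hmp, div_le_iff₀ hmp, Real.le_log_iff_exp_le (ha.trans_le h1),
      Real.log_le_iff_le_exp (ha.trans_le h1), mul_comm lo, mul_comm hi]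
    exact ⟨h1, h2⟩
  · funext y
    simp [P, Flow.comp, E, Flow.heatBack, heat_zero, heu, hm0]
  · funext y
    simp [P, Flow.comp, E, Flow.heatBack, heu, potStep, hm0]
  · have hop : E.op t y = 0 := Flow.op_heatBack eu y
    have h := hne _ (hE t ht y)
    simp only [Flow.op, Pi.add_apply, Pi.smul_apply, smul_eq_mul] at hop
    simp only [P, Flow.comp, Flow.op, Pi.add_apply, Pi.smul_apply, smul_eq_mul,
      eq_neg_of_add_eq_zero_left hop]
    field_simp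
    ring
  obtain ⟨v, rfl⟩ := hθ
  obtain ⟨nv, hnv⟩ := (IsFn.mul ⟨eu, rfl⟩ ⟨v, rfl⟩ : IsFn fun y => eu.f y * v.f y)
  set N := Flow.heatBack T nv
  let I := E.comp (fun x => x⁻¹) (fun x => -(x ^ 2)⁻¹) (fun x => 2 / x ^ 3) a b hE
    (fun x hx => hasDerivAt_inv (hne x hx))
    (fun x hx => ((hasDerivAt_pow 2 x).fun_inv (pow_ne_zero 2 (hne x hx))).fun_neg.congr_deriv (by
      have := hne x hx
      simp
      field_simp))
    (continuousOn_const.div (continuousOn_pow 3) fun x hx => pow_ne_zero 3 (hne x hx))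
  refine ⟨N.mul I, ?_, ?_, fun t ht y => ?_⟩
  · funext y
    have h : eu.f y ≠ 0 := hne _ (her y)
    simp [N, I, Flow.mul, Flow.comp, E, Flow.heatBack, heat_zero, hnv]
    field_simp
  · funext y
    simp [N, I, Flow.mul, Flow.comp, E, Flow.heatBack, insStep, hnv, heu, div_eq_mul_inv]
  · have hop : E.op t y = 0 := Flow.op_heatBack eu y
    have hopn : N.op t y = 0 := Flow.op_heatBack nv y
    have h := hne _ (hE t ht y)
    simp only [Flow.op, Pi.add_apply, Pi.smul_apply, smul_eq_mul] at hop hopn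
    simp only [P, I, Flow.mul, Flow.comp, Flow.op, Pi.add_apply, Pi.smul_apply, smul_eq_mul,
      eq_neg_of_add_eq_zero_left hop, eq_neg_of_add_eq_zero_left hopn]
    field_simp
    ring

variable {C : Casc r} {d : Fin (r + 1) → ℝ} {c : ℝ} {ι : Type} [Fintype ι] [DecidableEq ι]

/-- The weight of a potential, relative to `c`. -/
noncomputable def rel (c : ℝ) (U : ℝ → ℝ) (y : ℝ) : ℝ := Real.exp (U y) / c

/-- Ratio series of a potential. -/
noncomputable def Casc.pser (C : Casc r) (e : Fin (r + 1) → ℝ) (c : ℝ) (U : ℝ → ℝ)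
    (Φ : (ι → ι → Fin (r + 1)) → ℝ) (θ : ι → ℝ → ℝ) : ℝ :=
  C.ser e (fun y => 1 - rel c U y) Φ fun a => θ a * rel c U

lemma insStep_one {U : ℝ → ℝ} (hU : IsFn U) (hr : ∀ y, U y ∈ Icc lo hi) (m : ℝ) :
    insStep m T U (fun _ => 1) = fun _ => 1 := by
  funext y
  obtain ⟨B, hB⟩ := (hU.exp_smul hr m).bc.bdd
  have hk : ∀ z, Real.exp (m * U z) ∈ Icc (Real.exp (-(|m| * (|lo| + |hi|)))) (max B 1) := fun z => by
    refine ⟨Real.exp_le_exp.2 ((neg_le_neg ?_).trans (neg_abs_le _)),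
      ((le_abs_self _).trans (hB z)).trans (le_max_left _ _)⟩
    rw [abs_mul]
    refine mul_le_mul_of_nonneg_left (abs_le.2 ⟨?_, ?_⟩) (abs_nonneg m)
    · linarith [(hr z).1, neg_abs_le lo, abs_nonneg hi]
    · linarith [(hr z).2, le_abs_self hi, abs_nonneg lo]
  simp only [insStep, mul_one]
  exact div_self (heat_pos (hU.exp_smul hr m).bc hk (Real.exp_pos _) T y).ne'

/-- The flow of the relative weight. -/
lemma exists_rel (P : Flow T) (hr : ∀ t ∈ Icc 0 T, ∀ y, P.F t y ∈ Icc lo hi) {m : ℝ}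
    (hP : ∀ t ∈ Icc 0 T, ∀ y, P.op t y = -(m / 2) * P.F1 t y ^ 2) (c : ℝ) :
    ∃ W : Flow T, (∀ t, W.F t = rel c (P.F t)) ∧ (∀ t ∈ Ioo 0 T, W.F1 t = P.F1 t * W.F t) ∧
      ∀ t ∈ Ioo 0 T, W.op t = ((1 - m) / 2) • (P.F1 t * P.F1 t * W.F t) := by
  refine ⟨P.comp (fun x => Real.exp x / c) (fun x => Real.exp x / c) (fun x => Real.exp x / c) lo hi hr
    (fun x _ => (Real.hasDerivAt_exp x).div_const c) (fun x _ => (Real.hasDerivAt_exp x).div_const c)
    (Real.continuous_exp.continuousOn.div_const c), fun t => rfl, fun t _ => ?_, fun t ht => ?_⟩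
  · funext y
    simp [Flow.comp, mul_comm]
  · funext y
    have h := hP t (Ioo_subset_Icc_self ht) y
    simp only [Flow.op, Pi.add_apply, Pi.smul_apply, smul_eq_mul] at h
    simp only [Flow.comp, Flow.op, Pi.add_apply, Pi.smul_apply, Pi.mul_apply, smul_eq_mul]
    linear_combination (Real.exp (P.F t y) / c) * h

/-- One level does not change the ratio series. -/
theorem Casc.pser_step (hd : ∀ i, 0 ≤ d i) {j : Fin (r + 1)} {U : ℝ → ℝ} (hU : IsFn U)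
    (hr : ∀ y, U y ∈ Icc lo hi) {ρ : ℝ} (h1 : ρ < 1)
    (hρ : ∀ x ∈ Icc lo hi, |1 - Real.exp x / c| ≤ ρ) (hm : 0 ≤ C.cdf j)
    (Φ : (ι → ι → Fin (r + 1)) → ℝ) {θ : ι → ℝ → ℝ} (hθ : ∀ a, IsFn (θ a))
    (hpair : ∀ a b, a ≠ b → (θ a = fun _ => 1) ∨ (θ b = fun _ => 1) ∨
      ∀ B, (∀ c c', B c c' = B c' c) → j ≤ B a b → Φ B = 0) :
    C.pser (lev d j (d j)) c U Φ θ =
      C.pser (lev d j 0) c (potStep (C.cdf j) (d j) U) Φ
        fun a => insStep (C.cdf j) (d j) U (θ a) := by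
  obtain ⟨P, hPr, hPT, hP0, hPop, hins⟩ := exists_stage (T := d j) hU hr hm
  obtain ⟨W, hW, hW1, hW2⟩ := exists_rel P hPr hPop c
  have hex : ∀ a, ∃ Θ : Flow (d j), Θ.F (d j) = θ a ∧ Θ.F 0 = insStep (C.cdf j) (d j) U (θ a) ∧
      (∀ t ∈ Icc 0 (d j), ∀ y, Θ.op t y = -C.cdf j * (P.F1 t y * Θ.F1 t y)) ∧
      ((θ a = fun _ => 1) → ∀ t ∈ Ioo 0 (d j), Θ.F1 t = 0) := by
    intro a
    by_cases h : θ a = fun _ => 1
    · refine ⟨Flow.one (d j), h.symm, ?_, fun t _ y => by simp [Flow.op, Flow.one, Flow.ofFn],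
        fun _ t _ => rfl⟩
      rw [h, insStep_one hU hr]
      rfl
    · obtain ⟨Θ, e1, e2, e3⟩ := hins _ (hθ a)
      exact ⟨Θ, e1, e2, e3, fun h' => absurd h' h⟩
  choose Θ e1 e2 e3 e4 using hex
  have hWρ : ∀ t ∈ Icc 0 (d j), ∀ y, |1 - W.F t y| ≤ ρ := fun t ht y => by
    rw [hW]; exact hρ _ (hPr t ht y)
  have h := Casc.ser_const (C := C) (j := j) hd Φ Θ W h1 hWρ P.F1
    (fun t ht => P.bcF1 (Ioo_subset_Icc_self ht)) hW1 hW2
    (fun a t ht => funext fun y => by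
      rw [e3 a t (Ioo_subset_Icc_self ht) y]; simp)
    (fun a b hab => by
      rcases hpair a b hab with h | h | h
      exacts [Or.inl (e4 a h), Or.inr (Or.inl (e4 b h)), Or.inr (Or.inr h)])
    (s := d j) ⟨hd j, le_rfl⟩
  simpa only [Casc.pser, hW, hPT, hP0, e1, e2] using h

/-- One level does not change the log series. -/
theorem Casc.lser_step (hd : ∀ i, 0 ≤ d i) {j : Fin (r + 1)} {U : ℝ → ℝ} (hU : IsFn U)
    (hr : ∀ y, U y ∈ Icc lo hi) {ρ : ℝ} (h1 : ρ < 1)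
    (hρ : ∀ x ∈ Icc lo hi, |1 - Real.exp x / c| ≤ ρ) (hm : 0 ≤ C.cdf j) :
    C.lser (lev d j (d j)) (fun y => 1 - rel c U y) =
      C.lser (lev d j 0) (fun y => 1 - rel c (potStep (C.cdf j) (d j) U) y) := by
  obtain ⟨P, hPr, hPT, hP0, hPop, _⟩ := exists_stage (T := d j) hU hr hm
  obtain ⟨W, hW, hW1, hW2⟩ := exists_rel P hPr hPop c
  have hWρ : ∀ t ∈ Icc 0 (d j), ∀ y, |1 - W.F t y| ≤ ρ := fun t ht y => by
    rw [hW]; exact hρ _ (hPr t ht y)
  have h := Casc.lser_const (C := C) (j := j) hd W h1 hWρ P.F1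
    (fun t ht => P.bcF1 (Ioo_subset_Icc_self ht)) hW1 hW2 (s := d j) ⟨hd j, le_rfl⟩
  simpa only [hW, hPT, hP0] using h

end Vale.Agent.P157.Low
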