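import Vale.Agent.P157.Low.CubeFacts
import Vale.Agent.P157.SecondMoment

/-!
Sums over pairs of patterns, nonnegative sums over patterns, and fluctuations of the log-partition
function with a Poisson number of patterns.
-/

namespace Vale.Agent.P157.Low

open MeasureTheory ProbabilityTheory Filter
open scoped RealInnerProductSpace Topology

variable {f : ℝ → ℝ} {B : ℝ} {P : ℕ}

lemma poiLaw_id {lam : ℝ} (hl : 0 ≤ lam) : ∫ M : ℕ, (M : ℝ) ∂poiLaw lam = lam := by
  have h := poisson_palm lam.toNNReal fun _ => (1 : ℝ)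
  simpa [poiLaw, Real.coe_toNNReal _ hl] using h

lemma integrable_poiLaw_pow (lam : ℝ) (j : ℕ) :
    Integrable (fun M : ℕ => (M : ℝ) ^ j) (poiLaw lam) :=
  integrable_poisson_of_le (C := 1) (j := j) fun n => by
    rw [one_mul, abs_of_nonneg (by positivity)]
    exact pow_le_pow_left₀ (Nat.cast_nonneg _) (by linarith) j

lemma poiLaw_variance {lam : ℝ} (hl : 0 ≤ lam) :
    ∫ M : ℕ, ((M : ℝ) - lam) ^ 2 ∂poiLaw lam = lam := by
  have h1 : Integrable (fun M : ℕ => (M : ℝ)) (poiLaw lam) := by
    simpa using integrable_poiLaw_pow lam 1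
  have hsq : ∫ M : ℕ, (M : ℝ) ^ 2 ∂poiLaw lam = lam ^ 2 + lam := by
    have h := poisson_palm lam.toNNReal fun n => (n : ℝ)
    simp only [Nat.cast_add, Nat.cast_one] at h
    rw [Real.coe_toNNReal _ hl] at h
    calc ∫ M : ℕ, (M : ℝ) ^ 2 ∂poiLaw lam = ∫ M : ℕ, (M : ℝ) * M ∂poiLaw lam := by simp only [sq]
      _ = lam * ∫ M : ℕ, ((M : ℝ) + 1) ∂poiLaw lam := h
      _ = lam * (lam + 1) := by
        rw [integral_add h1 (integrable_const _), poiLaw_id hl]; simp
      _ = _ := by ring
  have e : ∀ M : ℕ, ((M : ℝ) - lam) ^ 2 = (M : ℝ) ^ 2 - 2 * lam * M + lam ^ 2 := fun M => by ring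
  simp only [e]
  rw [integral_add ((integrable_poiLaw_pow lam 2).sub' (h1.const_mul _)) (integrable_const _),
    integral_sub (integrable_poiLaw_pow lam 2) (h1.const_mul _), integral_const_mul, poiLaw_id hl, hsq]
  simp
  ring

section Palm

variable {N : ℕ}

/-- Replica averages of a twice tilted system. -/
lemma tiltF₂_avgRep (hf : Pot f B) (lam : ℝ) (k : ℕ) (x : Fin P → ℝ) {n : ℕ}
    (Θ : (pSys hf N lam (k + 1 + 1) x).Ω → (Fin n → Fin (N + 1) → Bool) → ℝ)
    (hΘ : ∀ r, Measurable fun ω => Θ ω r) :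
    (((pSys hf N lam k x).tiltF hf).tiltF hf).avgRep n
        (fun p r => Θ (appendPat (appendPat p.1, p.2)) r) =
      (pSys hf N lam (k + 1 + 1) x).avgRep n Θ := by
  have hmp : MeasurePreserving (fun p : ((pSys hf N lam k x).Ω × Sp (N + 1)) × Sp (N + 1) =>
      appendPat (appendPat p.1, p.2))
      (((pSys hf N lam k x).law.prod (stdGaussian (Sp (N + 1)))).prod (stdGaussian (Sp (N + 1))))
      (pSys hf N lam (k + 1 + 1) x).law :=
    (measurePreserving_appendPat (N := N) hf lam (k + 1) x).comp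
      ((measurePreserving_appendPat (N := N) hf lam k x).prod (MeasurePreserving.id (stdGaussian (Sp (N + 1)))))
  rw [pSys_avgRep hf lam (k + 1 + 1) x]
  refine Eq.trans ?_ ((integral_map hmp.measurable.aemeasurable
    (f := fun ω => repE ((pSys hf N lam (k + 1 + 1) x).w ω) (Θ ω)) ?_).symm.trans (by rw [hmp.map_eq]))
  · refine integral_congr_ae (Eventually.of_forall fun p => ?_)
    refine (integral_pi_gibbs_cube ((((pSys hf N lam k x).tiltF hf).tiltF hf).wt p) _).trans ?_
    refine congrArg (fun w => repE w (Θ (appendPat (appendPat p.1, p.2)))) (funext fun r => ?_)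
    rw [← tiltF_w hf N lam (k + 1) x (appendPat p.1, p.2) r, ← tiltF_w hf N lam k x p.1 r]
    rfl
  · exact (measurable_repE (measurable_pSys_w hf lam (k + 1 + 1) x) hΘ).aestronglyMeasurable

/-- A sum over ordered pairs of patterns is an average at two more patterns. -/
theorem pSys_palm₂ (hf : Pot f B) (N : ℕ) {lam : ℝ} (hl : 0 ≤ lam) (x : Fin P → ℝ) {n : ℕ}
    (Θ Θ' : (Fin n → ℝ) → ℝ) (hΘ : Measurable Θ) (hΘb : ∃ C, ∀ y, |Θ y| ≤ C)
    (hΘ' : Measurable Θ') (hΘb' : ∃ C, ∀ y, |Θ' y| ≤ C) :
    (pSys hf N lam 0 x).avgRep n (fun ω r =>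
        ∑ a ∈ Finset.range (cnt ω), ∑ b ∈ (Finset.range (cnt ω)).erase a,
          Θ (fun l => pat ω a (r l)) * Θ' fun l => pat ω b (r l)) =
      lam ^ 2 * (((pSys hf N lam 0 x).tiltF hf).tiltF hf).avgRep n (fun p r =>
        Θ (fun l => ⟪p.1.2, cubeVec (N + 1) (r l)⟫) * Θ' fun l => ⟪p.2, cubeVec (N + 1) (r l)⟫) := by
  obtain ⟨C, hC⟩ := hΘb
  obtain ⟨C', hC'⟩ := hΘb'
  have hC0 : 0 ≤ C := (abs_nonneg _).trans (hC fun _ => 0)
  have hD0 : 0 ≤ C * C' := mul_nonneg hC0 ((abs_nonneg _).trans (hC' fun _ => 0))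
  set G := fun (g : ℕ → Sp (N + 1)) (a b : ℕ) (r : Fin n → Fin (N + 1) → Bool) =>
    Θ (fun l => ⟪g a, cubeVec (N + 1) (r l)⟫) * Θ' (fun l => ⟪g b, cubeVec (N + 1) (r l)⟫) with hG
  have hGm : ∀ a b r, Measurable fun g : ℕ → Sp (N + 1) => G g a b r := fun a b r =>
    (hΘ.comp (measurable_pi_lambda _ fun l =>
      Measurable.inner (measurable_pi_apply a) measurable_const)).mul
    (hΘ'.comp (measurable_pi_lambda _ fun l =>
      Measurable.inner (measurable_pi_apply b) measurable_const))
  have hGb : ∀ g a b r, |G g a b r| ≤ C * C' := fun g a b r => by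
    simp only [hG]
    rw [abs_mul]
    exact mul_le_mul (hC _) (hC' _) (abs_nonneg _) hC0
  set π := patLaw (N + 1)
  set γ := stdGaussian (PertSpace (N + 1) P)
  set I : ℕ → ℝ := fun m => ∫ p, repE (cw f N x m p.1 p.2) (G p.1 (m - 2) (m - 1)) ∂π.prod γ
  have hint : ∀ M a b, Integrable (fun p => repE (cw f N x M p.1 p.2) (G p.1 a b)) (π.prod γ) :=
    fun M a b => Integrable.mono' (integrable_const (C * C'))
      (measurable_repE (measurable_cw_fixed hf x M) fun r =>
        (hGm a b r).comp measurable_fst).aestronglyMeasurable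
      (Eventually.of_forall fun p => (Real.norm_eq_abs _).trans_le
        (abs_repE_le (cw_pos x M p.1 p.2) (hGb p.1 a b)))
  have hswap : ∀ M a b, a < M → b < M → a ≠ b →
      ∫ p, repE (cw f N x M p.1 p.2) (G p.1 a b) ∂π.prod γ = I M := fun M a b ha hb hab => by
    simp only [I]
    rw [integral_prod_symm _ (hint M a b), integral_prod_symm _ (hint M (M - 2) (M - 1))]
    refine integral_congr_ae (Eventually.of_forall fun J => ?_)
    set s := Equiv.swap (M - 2) a
    set e : Equiv.Perm ℕ := (Equiv.swap (M - 1) (s b)).trans s with he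
    have hne : M - 2 ≠ M - 1 := by omega
    have hsb : s b ≠ M - 2 := fun h => hab (by
      have h' := congrArg s h
      rw [Equiv.swap_apply_self, Equiv.swap_apply_left] at h'
      exact h'.symm)
    have e1 : e (M - 1) = b := by
      rw [he, Equiv.trans_apply, Equiv.swap_apply_left, Equiv.swap_apply_self]
    have e2 : e (M - 2) = a := by
      rw [he, Equiv.trans_apply, Equiv.swap_apply_of_ne_of_ne hne (Ne.symm hsb), Equiv.swap_apply_left]
    have hsbM : s b < M := by
      rcases eq_or_ne b (M - 2) with h | h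
      · simpa [s, h] using ha
      · rcases eq_or_ne b a with h' | h'
        · exact absurd h'.symm hab
        · simpa [s, Equiv.swap_apply_of_ne_of_ne h h'] using hb
    have hmove : ∀ c, e c ≠ c → c < M := fun c hc => by
      by_contra hcM
      refine hc ?_
      have h1 : c ≠ M - 1 := by omega
      have h2 : c ≠ s b := by omega
      have h3 : c ≠ M - 2 := by omega
      have h4 : c ≠ a := by omega
      rw [he, Equiv.trans_apply, Equiv.swap_apply_of_ne_of_ne h1 h2,
        Equiv.swap_apply_of_ne_of_ne h3 h4]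
    have h := integral_cw_perm (N := N) hf x (M := M) e hmove (fun g => G g (M - 2) (M - 1))
      (fun r => hGm (M - 2) (M - 1) r) J
    simpa [G, Function.comp_apply, e1, e2] using h
  have hL : (pSys hf N lam 0 x).avgRep n (fun ω r =>
        ∑ a ∈ Finset.range (cnt ω), ∑ b ∈ (Finset.range (cnt ω)).erase a,
          Θ (fun l => pat ω a (r l)) * Θ' fun l => pat ω b (r l)) =
      lam ^ 2 * ∫ M, I (M + 1 + 1) ∂poiLaw lam := by
    refine (pSys_avgRep hf lam 0 x _).trans ?_
    refine (integral_pSys_law hf lam 0 x (integrable_pSys_of_le hf lam 0 x (C := C * C') (j := 2)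
      (measurable_repE (measurable_pSys_w hf lam 0 x) fun r => ?_) fun ω => ?_)).trans ?_
    on_goal 3 =>
      have e : ∀ M : ℕ, ∫ p, repE (cw f N x (M + 0) p.1 p.2)
          (fun r => ∑ a ∈ Finset.range (M + 0), ∑ b ∈ (Finset.range (M + 0)).erase a,
            G p.1 a b r) ∂π.prod γ = (M : ℝ) * (((M : ℝ) - 1) * I M) := fun M => by
        simp only [Nat.add_zero, repE_sum]
        rw [integral_finsetSum _ fun a _ => integrable_finsetSum _ fun b _ => hint M a b]
        rw [Finset.sum_congr rfl fun a ha => (show _ = ((M : ℝ) - 1) * I M by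
          rw [integral_finsetSum _ fun b _ => hint M a b, Finset.sum_congr rfl fun b hb =>
              hswap M a b (Finset.mem_range.1 ha) (Finset.mem_range.1 (Finset.mem_of_mem_erase hb))
                (Finset.ne_of_mem_erase hb).symm,
            Finset.sum_const, Finset.card_erase_of_mem ha, Finset.card_range, nsmul_eq_mul,
            Nat.cast_sub (by have := Finset.mem_range.1 ha; omega), Nat.cast_one])]
        rw [Finset.sum_const, Finset.card_range, nsmul_eq_mul]
      refine (integral_congr_ae (Eventually.of_forall e)).trans ?_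
      have h1 := poisson_palm lam.toNNReal fun m => ((m : ℝ) - 1) * I m
      have h2 := poisson_palm lam.toNNReal fun m => I (m + 1)
      rw [Real.coe_toNNReal _ hl] at h1 h2
      refine h1.trans ?_
      simp only [Nat.cast_add, Nat.cast_one, add_sub_cancel_right]
      rw [h2, sq, mul_assoc]
      rfl
    · exact (measurable_from_prod_countable_right (f := fun q : ℕ × (ℕ → Sp (N + 1)) =>
        ∑ a ∈ Finset.range (q.1 + 0), ∑ b ∈ (Finset.range (q.1 + 0)).erase a, G q.2 a b r) fun M =>
          Finset.measurable_sum (Finset.range (M + 0)) fun a _ =>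
            Finset.measurable_sum ((Finset.range (M + 0)).erase a) fun b _ => hGm a b r).comp
        measurable_fst
    · refine (abs_repE_le (fun r => ((pSys hf N lam 0 x).wt ω).pos r) fun r => ?_).trans
        (mul_le_mul_of_nonneg_left (by nlinarith [Nat.cast_nonneg (α := ℝ) ω.1.1]) hD0 :
          (C * C') * ((ω.1.1 : ℝ) * ω.1.1) ≤ _)
      refine (Finset.abs_sum_le_sum_abs _ _).trans ((Finset.sum_le_sum fun a _ =>
        (Finset.abs_sum_le_sum_abs _ _).trans ((Finset.sum_le_sum_of_subset_of_nonneg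
          (Finset.erase_subset _ _) fun b _ _ => abs_nonneg _).trans
            (Finset.sum_le_sum fun b _ => hGb ω.1.2 a b r))).trans_eq ?_)
      simp [cnt]
      ring
  rw [hL]
  congr 1
  set Θ1 : (pSys hf N lam (0 + 1 + 1) x).Ω → (Fin n → Fin (N + 1) → Bool) → ℝ :=
    fun ω r => G ω.1.2 ω.1.1 (ω.1.1 + 1) r
  have hm1 : ∀ r, Measurable fun ω => Θ1 ω r := fun r =>
    (measurable_from_prod_countable_right (f := fun q : ℕ × (ℕ → Sp (N + 1)) => G q.2 q.1 (q.1 + 1) r)
      fun M => hGm M (M + 1) r).comp measurable_fst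
  have e := tiltF₂_avgRep (N := N) hf lam 0 x Θ1 hm1
  have e' : (((pSys hf N lam 0 x).tiltF hf).tiltF hf).avgRep n (fun p r =>
      Θ (fun l => ⟪p.1.2, cubeVec (N + 1) (r l)⟫) * Θ' fun l => ⟪p.2, cubeVec (N + 1) (r l)⟫) =
      (((pSys hf N lam 0 x).tiltF hf).tiltF hf).avgRep n
        (fun p r => Θ1 (appendPat (appendPat p.1, p.2)) r) := by
    refine integral_congr_ae (Eventually.of_forall fun p =>
      integral_congr_ae (Eventually.of_forall fun r => ?_))
    simp [Θ1, G, appendPat]
    have hu : ∀ (g : ℕ → Sp (N + 1)) (M : ℕ) z z',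
        z = Function.update (Function.update g M z) (M + 1) z' M ∧
          z' = Function.update (Function.update g M z) (M + 1) z' (M + 1) := fun g M z z' => by
      simp
    exact congrArg₂ (fun (u u' : Sp (N + 1)) => Θ (fun l => ⟪u, cubeVec (N + 1) (r l)⟫) *
      Θ' fun l => ⟪u', cubeVec (N + 1) (r l)⟫) (hu _ _ _ _).1 (hu _ _ _ _).2
  rw [e']
  refine Eq.trans ?_ e.symm
  refine Eq.trans ?_ (pSys_avgRep hf lam (0 + 1 + 1) x Θ1).symm
  refine Eq.trans ?_ (integral_pSys_law hf lam (0 + 1 + 1) x (integrable_pSys_of_le hf lam (0 + 1 + 1) x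
    (C := C * C') (j := 0) (measurable_repE (measurable_pSys_w hf lam (0 + 1 + 1) x) hm1) fun ω => by
      simpa using abs_repE_le (fun r => ((pSys hf N lam (0 + 1 + 1) x).wt ω).pos r)
        (hGb ω.1.2 ω.1.1 (ω.1.1 + 1)))).symm
  rfl

end Palm

section SumLe

variable {N : ℕ}

lemma measurePreserving_pat (a : ℕ) (σ : Fin (N + 1) → Bool) :
    MeasurePreserving (fun g : ℕ → Sp (N + 1) => ⟪g a, cubeVec (N + 1) σ⟫) (patLaw (N + 1))
      (gaussianReal 0 1) :=
  (measurePreserving_inner (norm_cubeVec (Nat.succ_pos N) σ)).comp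
    ⟨measurable_pi_apply a, Measure.infinitePi_map_eval _ a⟩

/-- Nonnegative sums over the patterns cost at most a constant times their Gaussian average. -/
theorem pSys_sum_le (hf : Pot f B) (N : ℕ) {lam : ℝ} (hl : 0 ≤ lam) (x : Fin P → ℝ) (j : ℕ)
    {ψ : ℝ → ℝ} (hψ : Measurable ψ) (h0 : ∀ y, 0 ≤ ψ y)
    (hi : Integrable ψ (gaussianReal 0 1)) :
    let S := pSys hf N lam 0 x
    let Θ := fun (ω : S.Ω) (r : Fin 1 → Fin (N + 1) → Bool) =>
      (cnt ω : ℝ) ^ j * ∑ a ∈ Finset.range (cnt ω), ψ (pat ω a (r 0))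
    Integrable (fun ω => ∫ r, Θ ω r ∂Measure.pi fun _ : Fin 1 => gibbs S.ref (S.w ω)) S.law ∧
      S.avgRep 1 Θ ≤ Real.exp (2 * B) * (∫ y, ψ y ∂gaussianReal 0 1) *
        ∫ M, (M : ℝ) ^ (j + 1) ∂poiLaw lam := by
  intro S Θ
  have _ := hl
  have hint_eq : ∀ ω, ∫ r, Θ ω r ∂Measure.pi (fun _ : Fin 1 => gibbs S.ref (S.w ω)) =
      repE (S.w ω) (Θ ω) := fun ω => integral_pi_gibbs_cube (S.wt ω) (Θ ω)
  set Eψ := ∫ y, ψ y ∂gaussianReal 0 1 with hEψ
  set π := patLaw (N + 1)
  set γ := stdGaussian (PertSpace (N + 1) P)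
  have hψr : ∀ a (σ : Fin (N + 1) → Bool),
      Measurable fun g : ℕ → Sp (N + 1) => ψ ⟪g a, cubeVec (N + 1) σ⟫ := fun a σ =>
    hψ.comp (Measurable.inner (measurable_pi_apply a) measurable_const)
  have hψint : ∀ a σ, Integrable (fun g : ℕ → Sp (N + 1) => ψ ⟪g a, cubeVec (N + 1) σ⟫) π ∧
      ∫ g, ψ ⟪g a, cubeVec (N + 1) σ⟫ ∂π = Eψ := fun a σ => by
    have hmp := measurePreserving_pat (N := N) a σ
    refine ⟨(hmp.integrable_comp hi.aestronglyMeasurable).2 hi, ?_⟩
    rw [← hmp.map_eq] at hEψ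
    rw [hEψ, integral_map hmp.measurable.aemeasurable hψ.aestronglyMeasurable]
  have hsingle : ∀ (w : (Fin (N + 1) → Bool) → ℝ), (∀ σ, 0 < w σ) → ∀ h : (Fin (N + 1) → Bool) → ℝ,
      (∀ σ, 0 ≤ h σ) → repE w (fun r : Fin 1 → Fin (N + 1) → Bool => h (r 0)) ≤ ∑ σ, h σ :=
    fun w hw h hh => (repE_mono hw fun r => Finset.single_le_sum (fun σ _ => hh σ)
      (Finset.mem_univ (r 0))).trans_eq (repE_const hw _)
  have hm : Measurable fun ω => repE (S.w ω) (Θ ω) :=
    measurable_repE (measurable_pSys_w hf lam 0 x) fun r =>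
      (measurable_from_prod_countable_right (f := fun q : ℕ × (ℕ → Sp (N + 1)) =>
        ((q.1 + 0 : ℕ) : ℝ) ^ j * ∑ a ∈ Finset.range (q.1 + 0), ψ ⟪q.2 a, cubeVec (N + 1) (r 0)⟫)
        fun M => (Finset.measurable_sum (Finset.range (M + 0)) fun a _ => hψr a (r 0)).const_mul (((M + 0 : ℕ) : ℝ) ^ j)).comp
          measurable_fst
  -- domination by the unweighted sum
  set Ψ : ℕ × (ℕ → Sp (N + 1)) → ℝ := fun q =>
    (q.1 : ℝ) ^ j * ∑ a ∈ Finset.range q.1, ∑ σ, ψ ⟪q.2 a, cubeVec (N + 1) σ⟫ with hΨ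
  have hΨm : Measurable Ψ :=
    measurable_from_prod_countable_right fun M => (Finset.measurable_sum (Finset.range M) fun a _ =>
      Finset.measurable_sum Finset.univ fun σ _ => hψr a σ).const_mul ((M : ℝ) ^ j)
  have hΨ0 : ∀ q, 0 ≤ Ψ q := fun q => mul_nonneg (by positivity)
    (Finset.sum_nonneg fun a _ => Finset.sum_nonneg fun σ _ => h0 _)
  have hΨi : Integrable Ψ ((poiLaw lam).prod π) := by
    refine (integrable_prod_iff hΨm.aestronglyMeasurable).2 ⟨Eventually.of_forall fun M =>
      (integrable_finsetSum (Finset.range M) fun a _ =>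
        integrable_finsetSum Finset.univ fun σ _ => (hψint a σ).1).const_mul ((M : ℝ) ^ j),
      ?_⟩
    have e : ∀ M : ℕ, ∫ g, ‖Ψ (M, g)‖ ∂π =
        (Fintype.card (Fin (N + 1) → Bool) : ℝ) * Eψ * (M : ℝ) ^ (j + 1) := fun M => by
      simp only [Real.norm_eq_abs, abs_of_nonneg (hΨ0 _)]
      simp only [hΨ]
      rw [integral_const_mul, integral_finsetSum _ fun a _ =>
        integrable_finsetSum _ fun σ _ => (hψint a σ).1]
      simp only [fun a => integral_finsetSum (μ := π) Finset.univ
        fun σ (_ : σ ∈ Finset.univ) => (hψint a σ).1, fun a σ => (hψint a σ).2, Finset.sum_const,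
        Finset.card_range, Finset.card_univ, nsmul_eq_mul]
      ring
    simp only [e]
    exact (integrable_poiLaw_pow lam (j + 1)).const_mul _
  have hH0 : ∀ ω, 0 ≤ repE (S.w ω) (Θ ω) := fun ω =>
    repE_nonneg (fun r => (S.wt ω).pos r) fun r =>
      mul_nonneg (by positivity) (Finset.sum_nonneg fun a _ => h0 _)
  have hHi : Integrable (fun ω => repE (S.w ω) (Θ ω)) S.law := by
    refine (hΨi.comp_fst γ).mono' hm.aestronglyMeasurable (Eventually.of_forall fun ω => ?_)
    rw [Real.norm_eq_abs, abs_of_nonneg (hH0 ω)]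
    show repE (cw f N x (ω.1.1 + 0) ω.1.2 ω.2) (fun r : Fin 1 → Fin (N + 1) → Bool =>
      ((ω.1.1 + 0 : ℕ) : ℝ) ^ j * ∑ a ∈ Finset.range (ω.1.1 + 0), ψ ⟪ω.1.2 a, cubeVec (N + 1) (r 0)⟫) ≤
        (ω.1.1 : ℝ) ^ j * ∑ a ∈ Finset.range ω.1.1, ∑ σ, ψ ⟪ω.1.2 a, cubeVec (N + 1) σ⟫
    rw [Nat.add_zero ω.1.1, repE_const_mul]
    refine mul_le_mul_of_nonneg_left ?_ (pow_nonneg (Nat.cast_nonneg _) j)
    rw [repE_sum]
    exact Finset.sum_le_sum fun a _ =>
      hsingle _ (cw_pos x ω.1.1 ω.1.2 ω.2) (fun σ => ψ ⟪ω.1.2 a, cubeVec (N + 1) σ⟫) fun σ => h0 _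
  refine ⟨hHi.congr (Eventually.of_forall fun ω => (hint_eq ω).symm), ?_⟩
  -- one pattern at a time
  have hone_int : ∀ M a, Integrable (fun p : (ℕ → Sp (N + 1)) × PertSpace (N + 1) P =>
      repE (cw f N x M p.1 p.2) fun r : Fin 1 → Fin (N + 1) → Bool => ψ ⟪p.1 a, cubeVec (N + 1) (r 0)⟫)
      (π.prod γ) := fun M a => by
    refine ((integrable_finsetSum Finset.univ fun σ _ => (hψint a σ).1).comp_fst γ).mono'
      (measurable_repE (measurable_cw_fixed hf x M) fun r =>
        (hψr a (r 0)).comp measurable_fst).aestronglyMeasurable (Eventually.of_forall fun p => ?_)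
    rw [Real.norm_eq_abs, abs_of_nonneg (repE_nonneg (cw_pos x M p.1 p.2) fun r => h0 _)]
    exact hsingle _ (cw_pos x M p.1 p.2) (fun σ => ψ ⟪p.1 a, cubeVec (N + 1) σ⟫) fun σ => h0 _
  have hone : ∀ m a, a < m + 1 → ∫ p, repE (cw f N x (m + 1) p.1 p.2)
      (fun r : Fin 1 → Fin (N + 1) → Bool => ψ ⟪p.1 a, cubeVec (N + 1) (r 0)⟫) ∂π.prod γ ≤
        Real.exp (2 * B) * Eψ := by
    intro m a ha
    rw [integral_prod_symm _ (hone_int (m + 1) a)]
    have hJ : ∀ J, ∫ g, repE (cw f N x (m + 1) g J)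
        (fun r : Fin 1 → Fin (N + 1) → Bool => ψ ⟪g a, cubeVec (N + 1) (r 0)⟫) ∂π ≤
          Real.exp (2 * B) * Eψ := by
      intro J
      have h := integral_cw_perm (N := N) hf x (M := m + 1) (Equiv.swap a m) (fun b hb => by
        rcases eq_or_ne b a with rfl | h1
        · exact ha
        · rcases eq_or_ne b m with rfl | h2
          · omega
          · exact absurd (Equiv.swap_apply_of_ne_of_ne h1 h2) hb)
        (fun g (r : Fin 1 → Fin (N + 1) → Bool) => ψ ⟪g m, cubeVec (N + 1) (r 0)⟫)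
        (fun r => hψr m (r 0)) J
      simp only [Function.comp_apply, Equiv.swap_apply_right] at h
      rw [h]
      set F := fun g : ℕ → Sp (N + 1) => repE (cw f N x (m + 1) g J)
        fun r : Fin 1 → Fin (N + 1) → Bool => ψ ⟪g m, cubeVec (N + 1) (r 0)⟫ with hF
      have hwm : ∀ r, Measurable fun g => cw f N x (m + 1) g J r := fun r =>
        Measurable.comp (g := fun p : (ℕ → Sp (N + 1)) × PertSpace (N + 1) P => cw f N x (m + 1) p.1 p.2 r)
          (f := fun g : ℕ → Sp (N + 1) => (g, J)) (measurable_cw_fixed hf x (m + 1) r)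
          (measurable_id.prodMk measurable_const)
      have hFi : Integrable F π := by
        refine (integrable_finsetSum Finset.univ fun σ _ => (hψint m σ).1).mono'
          (measurable_repE hwm fun r => hψr m (r 0)).aestronglyMeasurable
          (Eventually.of_forall fun g => ?_)
        rw [Real.norm_eq_abs, hF, abs_of_nonneg (repE_nonneg (cw_pos x _ g J) fun r => h0 _)]
        exact hsingle _ (cw_pos x _ g J) (fun σ => ψ ⟪g m, cubeVec (N + 1) σ⟫) fun σ => h0 _
      obtain ⟨h2i, h2⟩ := integral_update_pattern (γ := stdGaussian (Sp (N + 1))) m hFi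
      show ∫ g, F g ∂(Measure.infinitePi fun _ : ℕ => stdGaussian (Sp (N + 1))) ≤ _
      rw [← h2]
      refine (integral_mono h2i.integral_prod_left (integrable_const (Real.exp (2 * B) * Eψ))
        fun g => ?_).trans_eq (by simp)
      have hz : ∀ σ, Integrable (fun z : Sp (N + 1) => ψ ⟪z, cubeVec (N + 1) σ⟫)
          (stdGaussian (Sp (N + 1))) ∧
          ∫ z, ψ ⟪z, cubeVec (N + 1) σ⟫ ∂stdGaussian (Sp (N + 1)) = Eψ := fun σ => by
        have hmp := measurePreserving_inner (E := Sp (N + 1)) (norm_cubeVec (Nat.succ_pos N) σ)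
        refine ⟨(hmp.integrable_comp hi.aestronglyMeasurable).2 hi, ?_⟩
        rw [← hmp.map_eq] at hEψ
        rw [hEψ, integral_map hmp.measurable.aemeasurable hψ.aestronglyMeasurable]
      have hrep : Integrable (fun z => repE (cw f N x m g J)
          fun r : Fin 1 → Fin (N + 1) → Bool => ψ ⟪z, cubeVec (N + 1) (r 0)⟫)
          (stdGaussian (Sp (N + 1))) :=
        (integrable_finsetSum _ fun r _ => (hz (r 0)).1.const_mul _).div_const _
      have hwu : ∀ z, F (Function.update g m z) ≤ Real.exp (2 * B) * repE (cw f N x m g J)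
          (fun r : Fin 1 → Fin (N + 1) → Bool => ψ ⟪z, cubeVec (N + 1) (r 0)⟫) := fun z => by
        simp only [hF, Function.update_self]
        rw [show cw f N x (m + 1) (Function.update g m z) J =
          fun σ => cw f N x m g J σ * Real.exp (f ⟪z, cubeVec (N + 1) σ⟫) from
          funext fun σ => cw_succ x m g z J σ]
        refine (repE_mul_le (cw_pos x m g J) (Real.exp_pos (-B)) (D := Real.exp B)
          (fun σ => expW_mem hf _) fun r => h0 _).trans_eq ?_
        rw [pow_one, ← Real.exp_sub]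
        ring_nf
      show ∫ z, F (Function.update g m z) ∂stdGaussian (Sp (N + 1)) ≤ Real.exp (2 * B) * Eψ
      by_cases hFz : Integrable (fun z => F (Function.update g m z)) (stdGaussian (Sp (N + 1)))
      · refine (integral_mono hFz (hrep.const_mul _) hwu).trans_eq ?_
        rw [integral_const_mul]
        congr 1
        simp only [repE]
        rw [integral_div, integral_finsetSum _ fun r _ => (hz (r 0)).1.const_mul _]
        simp only [integral_const_mul, fun σ => (hz σ).2]
        exact repE_const (n := 1) (cw_pos x m g J) Eψ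
      · rw [integral_undef hFz]
        exact mul_nonneg (Real.exp_pos _).le (integral_nonneg h0)
    refine (integral_mono (hone_int (m + 1) a).integral_prod_right (integrable_const _) hJ).trans_eq ?_
    simp
  have hcomb : S.avgRep 1 Θ = ∫ M : ℕ, (M : ℝ) ^ j * ∑ a ∈ Finset.range M,
      ∫ p, repE (cw f N x M p.1 p.2)
        (fun r : Fin 1 → Fin (N + 1) → Bool => ψ ⟪p.1 a, cubeVec (N + 1) (r 0)⟫) ∂π.prod γ
        ∂poiLaw lam := by
    rw [pSys_avgRep, integral_pSys_law hf lam 0 x hHi]
    refine integral_congr_ae (Eventually.of_forall fun M => ?_)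
    simp only [Θ, cnt, pat, Nat.add_zero]
    rw [← integral_finsetSum _ fun a _ => hone_int M a, ← integral_const_mul]
    refine integral_congr_ae (Eventually.of_forall fun p => ?_)
    show repE (cw f N x M p.1 p.2) _ = _
    rw [repE_const_mul, repE_sum]
  rw [hcomb, ← integral_const_mul]
  refine integral_mono_of_nonneg (Eventually.of_forall fun M => mul_nonneg (by positivity)
    (Finset.sum_nonneg fun a _ => integral_nonneg fun p => repE_nonneg (cw_pos x M p.1 p.2) fun r => h0 _))
    ((integrable_poiLaw_pow lam (j + 1)).const_mul _) (Eventually.of_forall fun M => ?_)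
  simp only
  rw [pow_succ, mul_left_comm]
  refine mul_le_mul_of_nonneg_left ?_ (by positivity)
  rcases Nat.eq_zero_or_pos M with rfl | hM
  · simp
  obtain ⟨m, rfl⟩ : ∃ m, M = m + 1 := ⟨M - 1, by omega⟩
  refine (Finset.sum_le_card_nsmul _ _ _ fun a ha => hone m a (Finset.mem_range.1 ha)).trans_eq ?_
  rw [Finset.card_range, nsmul_eq_mul]
  ring

end SumLe

section Fluct

variable {N : ℕ}

lemma abs_le_amgm (y : ℝ) {t : ℝ} (ht : 0 < t) : |y| ≤ y ^ 2 / (2 * t) + t / 2 := by
  rw [div_add_div _ _ (by positivity) (by norm_num), le_div_iff₀ (by positivity)]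
  nlinarith [sq_nonneg (|y| - t), sq_abs y]

/-- Fluctuations of the unperturbed log-partition function under any reference tilt. -/
theorem baseSys_fluct (hf : Pot f B) {N : ℕ} {lam : ℝ} (hl : 0 ≤ lam)
    {F : (Fin (N + 1) → Bool) → ℝ} :
    Integrable (fun ω => logI (baseSys hf N lam 0).ref
        (fun a => (baseSys hf N lam 0).w ω a * Real.exp (F a))) (baseSys hf N lam 0).law ∧
      ∫ ω, |logI (baseSys hf N lam 0).ref (fun a => (baseSys hf N lam 0).w ω a * Real.exp (F a)) -
          ∫ ω', logI (baseSys hf N lam 0).ref (fun a => (baseSys hf N lam 0).w ω' a * Real.exp (F a))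
            ∂(baseSys hf N lam 0).law| ∂(baseSys hf N lam 0).law ≤
        6 * (B + 1) * (Real.sqrt lam + 1) := by
  set μ := cubeMeasure (N + 1)
  set v := cubeVec (N + 1)
  have hv : Measurable v := measurable_of_finite _
  set w : (Fin (N + 1) → Bool) → ℝ := fun a => Real.exp (F a)
  have hw : Wt w := Wt.exp (measurable_of_finite F) (β := ∑ a, |F a|) fun a =>
    Finset.single_le_sum (fun b _ => abs_nonneg (F b)) (Finset.mem_univ a)
  set π := patLaw (N + 1)
  set Lm : ℕ → ℝ := fun M => L μ f v M w with hLm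
  set H : ℕ × (ℕ → Sp (N + 1)) → ℝ := fun ω => logI (baseSys hf N lam 0).ref
    (fun a => (baseSys hf N lam 0).w ω a * Real.exp (F a)) with hH
  show Integrable H ((poiLaw lam).prod π) ∧
    ∫ ω, |H ω - ∫ ω', H ω' ∂(poiLaw lam).prod π| ∂(poiLaw lam).prod π ≤ _
  have hHz : ∀ (M : ℕ) g, H (M, g) = logZ μ f v w (fun a : Fin M => g a) := fun M g => by
    simp only [hH, logI, logZ]
    congr 1
    refine integral_congr_ae (Eventually.of_forall fun a => ?_)
    simp only [baseSys, Nat.add_zero]
    rw [mul_comm, ← Fin.sum_univ_eq_sum_range (fun b => f ⟪g b, cubeVec (N + 1) a⟫) M]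
  have hB := hf.nonneg
  have hfirst : ∀ M : ℕ, MeasurePreserving (fun (g : ℕ → Sp (N + 1)) (a : Fin M) => g a) π
      (Measure.pi fun _ : Fin M => stdGaussian (Sp (N + 1))) := fun M =>
    ⟨measurable_pi_lambda _ fun a => measurable_pi_apply _, map_first_patterns M⟩
  have hHm : Measurable H := measurable_from_prod_countable_right fun M => by
    rw [funext (hHz M)]
    exact (measurable_logZ (μ := μ) hf hv hw.meas).comp (hfirst M).measurable
  have hHb : ∀ q : ℕ × (ℕ → Sp (N + 1)), |H q| ≤ |logI μ w| + q.1 * B := fun q => by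
    rw [show q = (q.1, q.2) from rfl, hHz]
    have h := abs_logZ_sub (μ := μ) hf hv hw (fun a : Fin q.1 => q.2 a)
    have := abs_sub_abs_le_abs_sub (logZ μ f v w fun a : Fin q.1 => q.2 a) (logI μ w)
    linarith
  have hc : Integrable (fun M : ℕ => |logI μ w| + (M : ℝ) * B) (poiLaw lam) := by
    refine (integrable_const _).add (Integrable.mul_const ?_ B)
    simpa using integrable_poiLaw_pow lam 1
  have hHi : Integrable H ((poiLaw lam).prod π) :=
    (hc.comp_fst π).mono' hHm.aestronglyMeasurable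
      (Eventually.of_forall fun q => (Real.norm_eq_abs _).trans_le (hHb q))
  refine ⟨hHi, ?_⟩
  have hmean : ∀ M, ∫ g, H (M, g) ∂π = Lm M := fun M => by
    simp only [hHz, hLm]
    rw [L_eq_integral hf hv M w hw]
    show _ = ∫ g, logZ μ f v w g ∂Measure.pi fun _ : Fin M => stdGaussian (Sp (N + 1))
    rw [← (hfirst M).map_eq, integral_map (hfirst M).measurable.aemeasurable
        (measurable_logZ (μ := μ) hf hv hw.meas).aestronglyMeasurable]
  have hsec : ∀ M, Integrable (fun g => H (M, g)) π := fun M =>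
    Integrable.of_bound (hHm.comp measurable_prodMk_left).aestronglyMeasurable (|logI μ w| + M * B)
      (Eventually.of_forall fun g => (Real.norm_eq_abs _).trans_le (hHb (M, g)))
  set m := ∫ ω, H ω ∂(poiLaw lam).prod π with hm
  have hmL : m = ∫ M, Lm M ∂poiLaw lam := by
    rw [hm, integral_prod _ hHi]
    exact integral_congr_ae (Eventually.of_forall hmean)
  set s := Real.sqrt lam + 1 with hs
  have hs0 : 0 < s := by positivity
  have hls : lam ≤ s ^ 2 := by
    rw [hs]; nlinarith [Real.sq_sqrt hl, Real.sqrt_nonneg lam]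
  set t := 2 * (B + 1) * s with ht
  have ht0 : 0 < t := by rw [ht]; positivity
  -- fluctuation at a fixed count
  have hfix : ∀ M : ℕ, ∫ g, |H (M, g) - Lm M| ∂π ≤ 4 * B ^ 2 / (2 * t) * M + t / 2 := fun M => by
    have hsq : Integrable (fun g => (H (M, g) - Lm M) ^ 2) π :=
      Integrable.of_bound (((hHm.comp measurable_prodMk_left).sub_const _).pow_const 2).aestronglyMeasurable
        ((|logI μ w| + M * B + |Lm M|) ^ 2) (Eventually.of_forall fun g => by
          rw [Real.norm_eq_abs, abs_pow]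
          exact pow_le_pow_left₀ (abs_nonneg _)
            ((abs_sub _ _).trans (by linarith [hHb (M, g)])) 2)
    refine (integral_mono ((hsec M).sub (integrable_const _)).abs
      ((hsq.div_const (2 * t)).add (integrable_const (t / 2)))
      fun g => abs_le_amgm _ ht0).trans ?_
    simp only [Pi.add_apply]
    rw [integral_add (hsq.div_const _) (integrable_const _), integral_div, integral_const, probReal_univ,
      one_smul, mul_comm (4 * B ^ 2 / (2 * t)), ← mul_div_assoc, mul_comm (M : ℝ)]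
    refine add_le_add (div_le_div_of_nonneg_right ?_ (by positivity)) le_rfl
    have hv2 := variance_logZ (μ := μ) hf hv M w hw
    rw [← (hfirst M).map_eq, integral_map (hfirst M).measurable.aemeasurable
      (((measurable_logZ (μ := μ) hf hv hw.meas).sub_const _).pow_const 2).aestronglyMeasurable] at hv2
    simpa only [hHz, hLm] using hv2
  -- fluctuation of the count
  set c0 := Lm ⌊lam⌋₊
  have hcount : ∀ M : ℕ, |Lm M - c0| ≤ (1 + B) * (|(M : ℝ) - lam| + 1) := fun M => by
    refine (L_lipschitz (μ := μ) hf hv hw M ⌊lam⌋₊).trans (mul_le_mul_of_nonneg_left ?_ (by linarith))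
    have h1 := Nat.floor_le hl
    have h2 := Nat.lt_floor_add_one lam
    refine (abs_sub_le (M : ℝ) lam ⌊lam⌋₊).trans (add_le_add le_rfl ?_)
    rw [abs_of_nonneg (by linarith)]
    linarith
  have hM1 : Integrable (fun M : ℕ => |(M : ℝ) - lam|) (poiLaw lam) :=
    (Integrable.sub (by simpa using integrable_poiLaw_pow lam 1) (integrable_const lam)).abs
  have hcnt : ∫ M : ℕ, |(M : ℝ) - lam| ∂poiLaw lam ≤ s := by
    have h2 : Integrable (fun M : ℕ => ((M : ℝ) - lam) ^ 2) (poiLaw lam) :=
      integrable_poisson_of_le (C := (1 + lam) ^ 2) (j := 2) fun n => by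
        rw [abs_pow, ← mul_pow]
        refine pow_le_pow_left₀ (abs_nonneg _) (abs_le.2 ⟨?_, ?_⟩) 2 <;>
          nlinarith [mul_nonneg hl (Nat.cast_nonneg (α := ℝ) n)]
    refine (integral_mono hM1 ((h2.div_const (2 * s)).add (integrable_const (s / 2)))
      fun M => abs_le_amgm _ hs0).trans ?_
    simp only [Pi.add_apply]
    rw [integral_add (h2.div_const _) (integrable_const _), integral_div, integral_const, probReal_univ,
      one_smul, poiLaw_variance hl]
    have : lam / (2 * s) ≤ s / 2 := by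
      rw [div_le_div_iff₀ (by positivity) (by norm_num)]; nlinarith
    linarith
  have hLmi : Integrable Lm (poiLaw lam) := hHi.integral_prod_left.congr (Eventually.of_forall hmean)
  have hLc : Integrable (fun M => |Lm M - c0|) (poiLaw lam) := (hLmi.sub (integrable_const _)).abs
  have hEc : ∫ M, |Lm M - c0| ∂poiLaw lam ≤ (1 + B) * (s + 1) := by
    refine (integral_mono hLc ((hM1.add (integrable_const 1)).const_mul _) hcount).trans ?_
    simp only [Pi.add_apply]
    rw [integral_const_mul, integral_add hM1 (integrable_const _)]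
    simp only [integral_const, probReal_univ, one_smul]
    exact mul_le_mul_of_nonneg_left (by linarith) (by linarith)
  have hcm : |c0 - m| ≤ (1 + B) * (s + 1) := by
    refine le_trans ?_ hEc
    rw [hmL, abs_sub_comm, show (∫ M, Lm M ∂poiLaw lam) - c0 = ∫ M, (Lm M - c0) ∂poiLaw lam by
      rw [integral_sub hLmi (integrable_const _)]; simp]
    exact abs_integral_le_integral_abs
  clear_value Lm c0 t s
  have hbound : Integrable (fun M : ℕ => 4 * B ^ 2 / (2 * t) * (M : ℝ) + t / 2 + |Lm M - c0| + |c0 - m|)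
      (poiLaw lam) :=
    (((Integrable.const_mul (by simpa using integrable_poiLaw_pow lam 1) _).add (integrable_const _)).add
      hLc).add (integrable_const _)
  rw [integral_prod (fun ω => |H ω - m|) ((hHi.sub (integrable_const m)).abs)]
  refine (integral_mono ((hHi.sub (integrable_const m)).abs.integral_prod_left) hbound
    fun M => ?_).trans ?_
  · have i1 : Integrable (fun g => |H (M, g) - Lm M|) π := ((hsec M).sub (integrable_const _)).abs
    calc ∫ g, |H (M, g) - m| ∂π ≤ ∫ g, (|H (M, g) - Lm M| + (|Lm M - c0| + |c0 - m|)) ∂π :=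
          integral_mono ((hsec M).sub (integrable_const _)).abs (i1.add (integrable_const _)) fun g =>
            (abs_sub_le _ (Lm M) _).trans (add_le_add le_rfl (abs_sub_le _ c0 _))
      _ = (∫ g, |H (M, g) - Lm M| ∂π) + (|Lm M - c0| + |c0 - m|) := by
          rw [integral_add i1 (integrable_const _)]; simp
      _ ≤ _ := by linarith [hfix M]
  · have hid : Integrable (fun M : ℕ => (M : ℝ)) (poiLaw lam) := by
      simpa using integrable_poiLaw_pow lam 1
    have i1 : Integrable (fun M : ℕ => 4 * B ^ 2 / (2 * t) * (M : ℝ) + t / 2) (poiLaw lam) :=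
      (hid.const_mul (4 * B ^ 2 / (2 * t))).add (integrable_const (t / 2))
    have i2 : Integrable (fun M : ℕ => 4 * B ^ 2 / (2 * t) * (M : ℝ) + t / 2 + |Lm M - c0|) (poiLaw lam) :=
      i1.add hLc
    rw [integral_add i2 (integrable_const _), integral_add i1 hLc,
      integral_add (hid.const_mul (4 * B ^ 2 / (2 * t))) (integrable_const _), integral_const_mul,
      poiLaw_id hl]
    simp only [integral_const, probReal_univ, one_smul]
    have h3 : 4 * B ^ 2 / (2 * t) * lam ≤ (B + 1) * s := by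
      rw [div_mul_eq_mul_div, div_le_iff₀ (by positivity), ht]
      nlinarith [mul_le_mul (by nlinarith : B ^ 2 ≤ (B + 1) ^ 2) hls hl (sq_nonneg (B + 1))]
    rw [show t / 2 = (B + 1) * s by rw [ht]; ring]
    have hs1 : 1 ≤ s := by rw [hs]; linarith [Real.sqrt_nonneg lam]
    have : (B + 1) * 1 ≤ (B + 1) * s := mul_le_mul_of_nonneg_left hs1 (by linarith)
    linarith

end Fluct

end Vale.Agent.P157.Low
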