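import Vale.Agent.P157.Low.Defs

/-!
Closure properties of functions with bounded derivatives.
-/

namespace Vale.Agent.P157.Low

open MeasureTheory

/-- Bounded, with `k` bounded derivatives. -/
def BdD : ℕ → (ℝ → ℝ) → Prop
  | 0, G => Continuous G ∧ ∃ C, ∀ x, |G x| ≤ C
  | k + 1, G => Differentiable ℝ G ∧ (∃ C, ∀ x, |G x| ≤ C) ∧ BdD k (deriv G)

namespace BdD

variable {k : ℕ} {F G : ℝ → ℝ}

lemma cont : ∀ {k : ℕ} {G : ℝ → ℝ}, BdD k G → Continuous G
  | 0, _, h => h.1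
  | _ + 1, _, h => h.1.continuous

lemma bdd : ∀ {k : ℕ} {G : ℝ → ℝ}, BdD k G → ∃ C, ∀ x, |G x| ≤ C
  | 0, _, h => h.2
  | _ + 1, _, h => h.2.1

lemma down : ∀ {k : ℕ} {G : ℝ → ℝ}, BdD (k + 1) G → BdD k G
  | 0, _, h => ⟨h.1.continuous, h.2.1⟩
  | _ + 1, _, h => ⟨h.1, h.2.1, down h.2.2⟩

lemma const : ∀ (k : ℕ) (a : ℝ), BdD k fun _ => a
  | 0, a => ⟨continuous_const, |a|, fun _ => le_rfl⟩
  | k + 1, a => ⟨differentiable_const a, ⟨|a|, fun _ => le_rfl⟩, by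
      rw [deriv_const']; exact const k 0⟩

lemma add : ∀ {k : ℕ} {F G : ℝ → ℝ}, BdD k F → BdD k G → BdD k fun x => F x + G x
  | 0, F, G, hF, hG => ⟨hF.1.add hG.1, by
      obtain ⟨⟨a, ha⟩, b, hb⟩ := hF.2, hG.2
      exact ⟨a + b, fun x => (abs_add_le _ _).trans (add_le_add (ha x) (hb x))⟩⟩
  | k + 1, F, G, hF, hG => ⟨hF.1.add hG.1, by
      obtain ⟨⟨a, ha⟩, b, hb⟩ := hF.2.1, hG.2.1
      exact ⟨a + b, fun x => (abs_add_le _ _).trans (add_le_add (ha x) (hb x))⟩, by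
      rw [show deriv (fun x => F x + G x) = fun x => deriv F x + deriv G x from
        funext fun x => deriv_fun_add (hF.1 x) (hG.1 x)]
      exact add hF.2.2 hG.2.2⟩

lemma mul : ∀ {k : ℕ} {F G : ℝ → ℝ}, BdD k F → BdD k G → BdD k fun x => F x * G x
  | 0, F, G, hF, hG => ⟨hF.1.mul hG.1, by
      obtain ⟨⟨a, ha⟩, b, hb⟩ := hF.2, hG.2
      exact ⟨a * b, fun x => by
        rw [abs_mul]; exact mul_le_mul (ha x) (hb x) (abs_nonneg _) ((abs_nonneg _).trans (ha x))⟩⟩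
  | k + 1, F, G, hF, hG => ⟨hF.1.mul hG.1, by
      obtain ⟨⟨a, ha⟩, b, hb⟩ := hF.2.1, hG.2.1
      exact ⟨a * b, fun x => by
        rw [abs_mul]; exact mul_le_mul (ha x) (hb x) (abs_nonneg _) ((abs_nonneg _).trans (ha x))⟩, by
      rw [show deriv (fun x => F x * G x) = fun x => deriv F x * G x + F x * deriv G x from
        funext fun x => deriv_fun_mul (hF.1 x) (hG.1 x)]
      exact add (mul hF.2.2 hG.down) (mul hF.down hG.2.2)⟩

lemma sub (hF : BdD k F) (hG : BdD k G) : BdD k fun x => F x - G x := by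
  simpa [sub_eq_add_neg, neg_mul] using hF.add ((BdD.const k (-1)).mul hG)

lemma sq (hF : BdD k F) : BdD k fun x => F x ^ 2 := by
  simpa [pow_two] using hF.mul hF

lemma exp : ∀ {k : ℕ} {G : ℝ → ℝ}, BdD k G → BdD k fun x => Real.exp (G x)
  | 0, G, hG => ⟨hG.1.rexp, by
      obtain ⟨a, ha⟩ := hG.2
      exact ⟨Real.exp a, fun x => by
        rw [Real.abs_exp]; exact Real.exp_le_exp.2 (abs_le.1 (ha x)).2⟩⟩
  | k + 1, G, hG => ⟨hG.1.exp, by
      obtain ⟨a, ha⟩ := hG.2.1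
      exact ⟨Real.exp a, fun x => by
        rw [Real.abs_exp]; exact Real.exp_le_exp.2 (abs_le.1 (ha x)).2⟩, by
      rw [show deriv (fun x => Real.exp (G x)) = fun x => Real.exp (G x) * deriv G x from
        funext fun x => deriv_exp (hG.1 x)]
      exact mul (exp hG.down) hG.2.2⟩

lemma inv : ∀ {k : ℕ} {G : ℝ → ℝ} {δ : ℝ}, BdD k G → 0 < δ → (∀ x, δ ≤ G x) → BdD k fun x => (G x)⁻¹
  | 0, G, δ, hG, hδ, h => ⟨hG.1.inv₀ fun x => (hδ.trans_le (h x)).ne', δ⁻¹, fun x => by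
      rw [abs_inv, abs_of_pos (hδ.trans_le (h x))]; exact inv_anti₀ hδ (h x)⟩
  | k + 1, G, δ, hG, hδ, h => ⟨hG.1.inv fun x => (hδ.trans_le (h x)).ne', ⟨δ⁻¹, fun x => by
      rw [abs_inv, abs_of_pos (hδ.trans_le (h x))]; exact inv_anti₀ hδ (h x)⟩, by
      rw [show deriv (fun x => (G x)⁻¹) = fun x => (-1) * deriv G x * ((G x)⁻¹ * (G x)⁻¹) from
        funext fun x => by
          rw [deriv_fun_inv'' (hG.1 x) (hδ.trans_le (h x)).ne']; field_simp]
      exact mul (mul (const k _) hG.2.2) (mul (inv hG.down hδ h) (inv hG.down hδ h))⟩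

lemma div {δ : ℝ} (hF : BdD k F) (hG : BdD k G) (hδ : 0 < δ) (h : ∀ x, δ ≤ G x) :
    BdD k fun x => F x / G x := by
  simpa [div_eq_mul_inv] using hF.mul (hG.inv hδ h)

lemma trig : ∀ (k : ℕ) (a b t : ℝ), BdD k fun x => a * Real.sin (t * x) + b * Real.cos (t * x) := by
  intro k
  induction k with
  | zero => exact fun a b t => ⟨by fun_prop, |a| + |b|, bound a b t⟩
  | succ k ih =>
    intro a b t
    refine ⟨by fun_prop, ⟨|a| + |b|, bound a b t⟩, ?_⟩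
    rw [show deriv (fun x => a * Real.sin (t * x) + b * Real.cos (t * x)) =
        fun x => -(b * t) * Real.sin (t * x) + (a * t) * Real.cos (t * x) from funext fun x => by
      rw [(((((hasDerivAt_id' x).const_mul t).sin).const_mul a).fun_add
        ((((hasDerivAt_id' x).const_mul t).cos).const_mul b)).deriv]
      ring]
    exact ih _ _ _
where
  bound (a b t x : ℝ) : |a * Real.sin (t * x) + b * Real.cos (t * x)| ≤ |a| + |b| := by
    refine (abs_add_le _ _).trans (add_le_add ?_ ?_) <;> rw [abs_mul] <;>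
      refine mul_le_of_le_one_right (abs_nonneg _) ?_
    · exact Real.abs_sin_le_one _
    · exact Real.abs_cos_le_one _

lemma contDiff : ∀ {k : ℕ} {G : ℝ → ℝ}, BdD k G → ContDiff ℝ k G
  | 0, G, h => by simpa using h.1
  | k + 1, G, h => by
    push_cast
    exact contDiff_succ_iff_deriv.2 ⟨h.1, by simp, contDiff h.2.2⟩

lemma iterated : ∀ {k : ℕ} {G : ℝ → ℝ}, BdD k G → ∀ i ≤ k, ∃ C, ∀ x, |iteratedDeriv i G x| ≤ C
  | k, G, h, 0, _ => by simpa using h.bdd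
  | k + 1, G, h, i + 1, hi => by
    rw [iteratedDeriv_succ']
    exact iterated h.2.2 i (Nat.le_of_succ_le_succ hi)

lemma of_bound : ∀ {k : ℕ} {G : ℝ → ℝ}, ContDiff ℝ k G →
    (∀ i ≤ k, ∃ C, ∀ x, |iteratedDeriv i G x| ≤ C) → BdD k G
  | 0, G, h, hb => ⟨h.continuous, by simpa using hb 0 le_rfl⟩
  | k + 1, G, h, hb => by
    push_cast at h
    rw [contDiff_succ_iff_deriv] at h
    exact ⟨h.1, by simpa using hb 0 (Nat.zero_le _), of_bound h.2.2 fun i hi => by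
      simpa [iteratedDeriv_succ'] using hb (i + 1) (Nat.succ_le_succ hi)⟩

lemma toSm (h : BdD 3 G) : Sm G := by
  refine ⟨h.contDiff, ?_⟩
  obtain ⟨a, ha⟩ := h.iterated 0 (by norm_num)
  obtain ⟨b, hb⟩ := h.iterated 1 (by norm_num)
  obtain ⟨c, hc⟩ := h.iterated 2 (by norm_num)
  obtain ⟨d, hd⟩ := h.iterated 3 le_rfl
  refine ⟨max (max a b) (max c d), fun i hi x => ?_⟩
  interval_cases i
  · exact (ha x).trans (by simp)
  · exact (hb x).trans (by simp)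
  · exact (hc x).trans (by simp)
  · exact (hd x).trans (by simp)

end BdD

lemma Sm.bdD {G : ℝ → ℝ} (h : Sm G) : BdD 3 G := by
  obtain ⟨C, hC⟩ := h.bdd
  exact BdD.of_bound h.smooth fun i hi => ⟨C, hC i hi⟩

lemma Smf.bdD {f : ℝ → ℝ} (h : Smf f) : BdD 5 f := by
  obtain ⟨C, hC⟩ := h.bdd
  exact BdD.of_bound h.smooth fun i hi => ⟨C, hC i hi⟩

lemma Smf.bdD_deriv {f : ℝ → ℝ} (h : Smf f) : BdD 3 (deriv f) := h.bdD.2.2.down

lemma Smf.bdD_deriv₂ {f : ℝ → ℝ} (h : Smf f) : BdD 3 (deriv (deriv f)) := h.bdD.2.2.2.2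

end Vale.Agent.P157.Low
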