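import Vale.Agent.P157.Gauss

/-!
Gaussian integration by parts along a vector.
-/

namespace Vale.Agent.P157.Low

open MeasureTheory ProbabilityTheory Complex
open scoped RealInnerProductSpace

variable {E : Type} [NormedAddCommGroup E] [InnerProductSpace ℝ E] [FiniteDimensional ℝ E]
  [MeasurableSpace E] [BorelSpace E]

/-- A Gaussian vector is its part orthogonal to a unit vector plus an independent part along it. -/
lemma stdGaussian_split {v : E} (hv : ‖v‖ = 1) :
    ((stdGaussian E).prod (gaussianReal 0 1)).map (fun p => p.1 - ⟪p.1, v⟫ • v + p.2 • v) =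
      stdGaussian E := by
  have : IsProbabilityMeasure
      (((stdGaussian E).prod (gaussianReal 0 1)).map (fun p : E × ℝ => p.1 - ⟪p.1, v⟫ • v + p.2 • v)) :=
    Measure.isProbabilityMeasure_map (Measurable.aemeasurable (by fun_prop))
  refine Measure.ext_of_charFun ?_
  funext t
  rw [charFun_apply, integral_map (Measurable.aemeasurable (by fun_prop))
    (Continuous.aestronglyMeasurable (by fun_prop))]
  have hvv : ⟪v, v⟫ = (1 : ℝ) := by rw [real_inner_self_eq_norm_sq, hv, one_pow]
  have e : ∀ p : E × ℝ, cexp ((⟪p.1 - ⟪p.1, v⟫ • v + p.2 • v, t⟫ : ℝ) * I) =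
      cexp ((⟪p.1, t - ⟪v, t⟫ • v⟫ : ℝ) * I) * cexp ((⟪v, t⟫ * p.2 : ℝ) * I) := fun p => by
    rw [← Complex.exp_add, inner_add_left, inner_sub_left, real_inner_smul_left, real_inner_smul_left,
      inner_sub_right, real_inner_smul_right]
    push_cast
    ring_nf
  simp only [e]
  rw [integral_prod_mul (fun g : E => cexp ((⟪g, t - ⟪v, t⟫ • v⟫ : ℝ) * I))
    (fun z : ℝ => cexp ((⟪v, t⟫ * z : ℝ) * I)), integral_cexp_inner, integral_cexp_gaussian,
    charFun_stdGaussian, ← Complex.exp_add]
  have hn : ‖t - ⟪v, t⟫ • v‖ ^ 2 + ⟪v, t⟫ ^ 2 = ‖t‖ ^ 2 := by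
    rw [norm_sub_sq_real, real_inner_smul_right, norm_smul, hv, Real.norm_eq_abs, mul_one, sq_abs,
      real_inner_comm v t]
    ring
  congr 1
  have : ((‖t - ⟪v, t⟫ • v‖ : ℝ) : ℂ) ^ 2 + ((⟪v, t⟫ : ℝ) : ℂ) ^ 2 = ((‖t‖ : ℝ) : ℂ) ^ 2 := by
    exact_mod_cast hn
  linear_combination -this / 2

/-- Stein's identity on the line. -/
lemma stein_real {F F' : ℝ → ℝ} (hd : ∀ x, HasDerivAt F (F' x) x)
    (h0 : Integrable F (gaussianReal 0 1)) (h1 : Integrable F' (gaussianReal 0 1))
    (h2 : Integrable (fun y => F y * y) (gaussianReal 0 1)) :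
    ∫ y, F y * y ∂gaussianReal 0 1 = ∫ y, F' y ∂gaussianReal 0 1 := by
  set p := gaussianPDFReal 0 1 with hp
  have tr : ∀ g : ℝ → ℝ, Integrable g (gaussianReal 0 1) → Integrable (fun y => g y * p y) := by
    intro g hg
    rw [gaussianReal_of_var_ne_zero 0 one_ne_zero, integrable_withDensity_iff (measurable_gaussianPDF 0 1)
      (Filter.Eventually.of_forall fun _ => gaussianPDF_lt_top)] at hg
    simpa [toReal_gaussianPDF] using hg
  have hpd : ∀ x, HasDerivAt p (-(x * p x)) x := fun x => by
    have h := ((((hasDerivAt_pow 2 x).neg).div_const 2).exp).const_mul (√(2 * Real.pi))⁻¹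
    simp only [hp, gaussianPDFReal_def, sub_zero, NNReal.coe_one, mul_one]
    refine h.congr_deriv ?_
    simp
    ring
  have h := integral_mul_deriv_eq_deriv_mul_of_integrable (u := F) (v := p) (u' := F')
    (v' := fun x => -(x * p x)) (fun x _ => hd x) (fun x _ => hpd x)
    ((tr _ h2).neg.congr (Filter.Eventually.of_forall fun x => by simp; ring))
    (tr _ h1) (tr _ h0)
  have e : ∀ g : ℝ → ℝ, ∫ y, g y ∂gaussianReal 0 1 = ∫ y, g y * p y := fun g => by
    rw [integral_gaussianReal_eq_integral_smul one_ne_zero]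
    exact integral_congr_ae (Filter.Eventually.of_forall fun y => by simp [hp, mul_comm])
  rw [e, e, ← neg_inj, ← integral_neg, ← h]
  exact integral_congr_ae (Filter.Eventually.of_forall fun y => by ring)

/-- Gaussian integration by parts along a unit vector, for bounded functions with bounded
derivative. -/
theorem stein_unit {v : E} (hv : ‖v‖ = 1) {G G' : E → ℝ} (hG : Measurable G) (hG' : Measurable G')
    (hd : ∀ g, HasDerivAt (fun t : ℝ => G (g + t • v)) (G' g) 0) {C : ℝ}
    (hb : ∀ g, |G g| ≤ C) (hb' : ∀ g, |G' g| ≤ C) :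
    ∫ g, ⟪g, v⟫ * G g ∂stdGaussian E = ∫ g, G' g ∂stdGaussian E := by
  set φ : E × ℝ → E := fun p => p.1 - ⟪p.1, v⟫ • v + p.2 • v with hφ
  have hφm : Measurable φ := by fun_prop
  have hvv : ⟪v, v⟫ = (1 : ℝ) := by rw [real_inner_self_eq_norm_sq, hv, one_pow]
  have hin : ∀ p, ⟪φ p, v⟫ = p.2 := fun p => by
    simp [hφ, inner_add_left, inner_sub_left, real_inner_smul_left, hv]
  have key : ∀ (H : E → ℝ), Measurable H → ∀ D : ℝ, (∀ g, |H g| ≤ D * (1 + ‖g‖)) →
      ∫ g, H g ∂stdGaussian E = ∫ g, ∫ t, H (φ (g, t)) ∂gaussianReal 0 1 ∂stdGaussian E := by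
    intro H hH D hD
    have hi : Integrable H (stdGaussian E) :=
      Integrable.mono' (((integrable_const (1 : ℝ)).add (by simpa using integrable_norm_pow (E := E) 1)).const_mul D)
        hH.aestronglyMeasurable (Filter.Eventually.of_forall fun g => by simpa using hD g)
    have hi2 : Integrable (fun p => H (φ p)) ((stdGaussian E).prod (gaussianReal 0 1)) := by
      rw [← stdGaussian_split hv] at hi
      exact hi.comp_measurable hφm
    rw [← integral_prod _ hi2]
    conv_lhs => rw [← stdGaussian_split hv]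
    exact integral_map hφm.aemeasurable hH.aestronglyMeasurable
  rw [key (fun g => ⟪g, v⟫ * G g) (by fun_prop) C (fun g => by
      rw [abs_mul, mul_comm C]
      refine mul_le_mul ((abs_real_inner_le_norm g v).trans (by rw [hv, mul_one]; linarith [norm_nonneg g]))
        (hb g) (abs_nonneg _) (by positivity)),
    key G' hG' C (fun g => (hb' g).trans (le_mul_of_one_le_right ((abs_nonneg _).trans (hb g))
      (by linarith [norm_nonneg g])))]
  refine integral_congr_ae (Filter.Eventually.of_forall fun g => ?_)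
  have hmt : Measurable fun t : ℝ => φ (g, t) := by fun_prop
  have hbnd : ∀ (H : E → ℝ), Measurable H → (∀ g, |H g| ≤ C) →
      Integrable (fun t => H (φ (g, t))) (gaussianReal 0 1) := fun H hH hb =>
    Integrable.mono' (integrable_const C) (hH.comp hmt).aestronglyMeasurable
      (Filter.Eventually.of_forall fun t => by simpa using hb _)
  have hd' : ∀ t, HasDerivAt (fun t => G (φ (g, t))) (G' (φ (g, t))) t := fun t => by
    have h := HasDerivAt.comp t (h := fun s => s - t) (h₂ := fun s => G (φ (g, t) + s • v))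
      (by simpa using hd (φ (g, t))) ((hasDerivAt_id' t).sub_const t)
    have e : (fun s => G (φ (g, s))) = (fun s => G (φ (g, t) + s • v)) ∘ fun s => s - t := by
      funext s
      simp only [hφ, Function.comp_apply, sub_smul]
      congr 1
      abel
    rw [e]
    simpa using h
  simp only [hin]
  have h := stein_real hd' (hbnd G hG hb) (hbnd G' hG' hb')
    ((((IsGaussian.integrable_id (μ := gaussianReal 0 1)).abs).const_mul C).mono'
      ((hG.comp hmt).mul measurable_id).aestronglyMeasurable
      (Filter.Eventually.of_forall fun t => by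
        simp only [Real.norm_eq_abs, abs_mul, id]
        exact mul_le_mul_of_nonneg_right (hb _) (abs_nonneg _)))
  simpa [mul_comm] using h

end Vale.Agent.P157.Low
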