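import Vale.Agent.P157.Low.CubeFacts
import Vale.Agent.P157.Low.Stein
import Vale.Agent.P157.Low.SmCalc

/-!
Averages at one added pattern as integrals of finite sums, and integration by parts in that pattern.
-/

namespace Vale.Agent.P157.Low

open MeasureTheory ProbabilityTheory Filter
open scoped RealInnerProductSpace

variable {f : ℝ → ℝ} {B : ℝ} {N P : ℕ}

lemma repE_add {n : ℕ} (w : (Fin N → Bool) → ℝ) (h h' : (Fin n → Fin N → Bool) → ℝ) :
    repE w (fun r => h r + h' r) = repE w h + repE w h' := by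
  simp only [repE, mul_add, Finset.sum_add_distrib, add_div]

lemma repE_one (w : (Fin N → Bool) → ℝ) (h : (Fin 1 → Fin N → Bool) → ℝ) :
    repE w h = ∑ σ, w σ * h (fun _ => σ) / ∑ τ, w τ := by
  rw [repE, pow_one, Finset.sum_div, ← Equiv.sum_comp (Equiv.funUnique (Fin 1) (Fin N → Bool)).symm]
  refine Finset.sum_congr rfl fun σ _ => ?_
  have : ((Equiv.funUnique (Fin 1) (Fin N → Bool)).symm σ : Fin 1 → Fin N → Bool) = fun _ => σ := rfl
  rw [this, Fin.prod_univ_one]

lemma repE_two (w : (Fin N → Bool) → ℝ) (h : (Fin 2 → Fin N → Bool) → ℝ) :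
    repE w h = ∑ σ, ∑ τ, w σ * w τ * h ![σ, τ] / (∑ υ, w υ) ^ 2 := by
  rw [repE, Finset.sum_div, ← Equiv.sum_comp (finTwoArrowEquiv (Fin N → Bool)).symm,
    Fintype.sum_prod_type]
  refine Finset.sum_congr rfl fun σ _ => Finset.sum_congr rfl fun τ _ => ?_
  simp [finTwoArrowEquiv, Fin.prod_univ_two]

variable (hf : Pot f B) (lam : ℝ) (x : Fin P → ℝ)

/-- The weight of a configuration at one added pattern. -/
noncomputable def addW (p : (pSys hf N lam 0 x).Ω × Sp (N + 1)) (σ : Fin (N + 1) → Bool) : ℝ :=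
  (pSys hf N lam 0 x).w p.1 σ * expW f ⟪p.2, cubeVec (N + 1) σ⟫

/-- Average at one added pattern. -/
noncomputable def tiltE {n : ℕ} (Θ : Sp (N + 1) → (Fin n → Fin (N + 1) → Bool) → ℝ) : ℝ :=
  ∫ p, repE (addW hf lam x p) (Θ p.2) ∂(pSys hf N lam 0 x).law.prod (stdGaussian (Sp (N + 1)))

lemma addW_pos (p : (pSys hf N lam 0 x).Ω × Sp (N + 1)) (σ : Fin (N + 1) → Bool) :
    0 < addW hf lam x p σ :=
  mul_pos (((pSys hf N lam 0 x).wt p.1).pos σ) (Real.exp_pos _)

lemma tiltF_avgRep_eq {n : ℕ} (Θ : Sp (N + 1) → (Fin n → Fin (N + 1) → Bool) → ℝ) :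
    ((pSys hf N lam 0 x).tiltF hf).avgRep n (fun p r => Θ p.2 r) = tiltE hf lam x Θ :=
  integral_congr_ae (Eventually.of_forall fun p =>
    integral_pi_gibbs_cube (((pSys hf N lam 0 x).tiltF hf).wt p) (Θ p.2))

lemma integrable_repE_addW {n : ℕ} {Θ : Sp (N + 1) → (Fin n → Fin (N + 1) → Bool) → ℝ}
    (hm : ∀ r, Measurable fun g => Θ g r) {C : ℝ} (hb : ∀ g r, |Θ g r| ≤ C * (1 + ‖g‖) ^ 2) :
    Integrable (fun p => repE (addW hf lam x p) (Θ p.2))
      ((pSys hf N lam 0 x).law.prod (stdGaussian (Sp (N + 1)))) := by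
  have hd : Integrable (fun g : Sp (N + 1) => C * (1 + ‖g‖) ^ 2) (stdGaussian (Sp (N + 1))) := by
    have h := (((integrable_const (1 : ℝ)).add ((integrable_norm_pow (E := Sp (N + 1)) 1).const_mul 2)).add
      (integrable_norm_pow (E := Sp (N + 1)) 2)).const_mul C
    refine h.congr (Eventually.of_forall fun g => ?_)
    simp only [Pi.add_apply]
    ring
  refine (hd.comp_snd (pSys hf N lam 0 x).law).mono' (Measurable.aestronglyMeasurable ?_)
    (Eventually.of_forall fun p => ?_)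
  · exact measurable_repE (fun σ => ((measurable_pSys_w hf lam 0 x σ).comp measurable_fst).mul
      ((measurable_expW hf).comp (measurable_snd.inner measurable_const)))
      fun r => (hm r).comp measurable_snd
  · exact (Real.norm_eq_abs _).trans_le (abs_repE_le (addW_pos hf lam x p) (hb p.2))

lemma tiltE_add {n : ℕ} {Θ Θ' : Sp (N + 1) → (Fin n → Fin (N + 1) → Bool) → ℝ}
    (hm : ∀ r, Measurable fun g => Θ g r) {C : ℝ} (hb : ∀ g r, |Θ g r| ≤ C * (1 + ‖g‖) ^ 2)
    (hm' : ∀ r, Measurable fun g => Θ' g r) {C' : ℝ} (hb' : ∀ g r, |Θ' g r| ≤ C' * (1 + ‖g‖) ^ 2) :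
    tiltE hf lam x (fun g r => Θ g r + Θ' g r) = tiltE hf lam x Θ + tiltE hf lam x Θ' := by
  simp only [tiltE, repE_add]
  exact integral_add (integrable_repE_addW hf lam x hm hb) (integrable_repE_addW hf lam x hm' hb')

lemma tiltE_const_mul {n : ℕ} (a : ℝ) (Θ : Sp (N + 1) → (Fin n → Fin (N + 1) → Bool) → ℝ) :
    tiltE hf lam x (fun g r => a * Θ g r) = a * tiltE hf lam x Θ := by
  simp only [tiltE, repE_const_mul, integral_const_mul]

lemma abs_tiltE_le_mul {n : ℕ} {Θ Θ' : Sp (N + 1) → (Fin n → Fin (N + 1) → Bool) → ℝ} {a : ℝ}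
    (h : ∀ g r, |Θ g r| ≤ a * Θ' g r) (hm' : ∀ r, Measurable fun g => Θ' g r) {C' : ℝ}
    (hb' : ∀ g r, |Θ' g r| ≤ C' * (1 + ‖g‖) ^ 2) :
    |tiltE hf lam x Θ| ≤ a * tiltE hf lam x Θ' := by
  simp only [tiltE, ← integral_const_mul]
  rw [← Real.norm_eq_abs]
  refine norm_integral_le_of_norm_le ((integrable_repE_addW hf lam x hm' hb').const_mul a)
    (Eventually.of_forall fun p => (Real.norm_eq_abs _).trans_le (abs_le.2 ⟨?_, ?_⟩))
  · rw [← neg_mul, ← repE_const_mul]
    exact repE_mono (addW_pos hf lam x p) fun r => by linarith [(abs_le.1 (h p.2 r)).1]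
  · rw [← repE_const_mul]
    exact repE_mono (addW_pos hf lam x p) fun r => (abs_le.1 (h p.2 r)).2

lemma abs_inner_cube_le (g : Sp (N + 1)) (σ : Fin (N + 1) → Bool) :
    |⟪g, cubeVec (N + 1) σ⟫| ≤ ‖g‖ := by
  simpa [norm_cubeVec (Nat.succ_pos N)] using abs_real_inner_le_norm g (cubeVec (N + 1) σ)

/-- The second moment of the field at the added pattern. -/
lemma tiltE_sq_le :
    tiltE hf lam x (fun g (r : Fin 1 → Fin (N + 1) → Bool) => ⟪g, cubeVec (N + 1) (r 0)⟫ ^ 2) ≤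
      Real.exp (2 * B) := by
  set v := cubeVec (N + 1)
  have hm : ∀ r : Fin 1 → Fin (N + 1) → Bool, Measurable fun g : Sp (N + 1) => ⟪g, v (r 0)⟫ ^ 2 :=
    fun r => (measurable_id.inner measurable_const).pow_const 2
  have hi := integrable_repE_addW hf lam x (C := 1) hm fun g r => by
    rw [abs_pow, one_mul]
    exact pow_le_pow_left₀ (abs_nonneg _) ((abs_inner_cube_le g _).trans (by linarith [norm_nonneg g])) 2
  rw [tiltE, integral_prod _ hi]
  refine (le_abs_self _).trans ((Real.norm_eq_abs _).symm.trans_le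
    ((norm_integral_le_of_norm_le_const (C := Real.exp (2 * B))
      (Eventually.of_forall fun ω => ?_)).trans (by simp)))
  set w : (Fin (N + 1) → Bool) → ℝ := (pSys hf N lam 0 x).w ω
  have hw : ∀ σ, 0 < w σ := ((pSys hf N lam 0 x).wt ω).pos
  have h0 : ∀ g, 0 ≤ repE (addW hf lam x (ω, g))
      (fun r : Fin 1 → Fin (N + 1) → Bool => ⟪g, v (r 0)⟫ ^ 2) := fun g =>
    repE_nonneg (addW_pos hf lam x _) fun r => sq_nonneg _
  have h1 : ∀ g, repE (addW hf lam x (ω, g)) (fun r : Fin 1 → Fin (N + 1) → Bool => ⟪g, v (r 0)⟫ ^ 2) ≤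
      Real.exp (2 * B) * repE w (fun r : Fin 1 → Fin (N + 1) → Bool => ⟪g, v (r 0)⟫ ^ 2) := fun g => by
    refine (repE_mul_le hw (Real.exp_pos (-B)) (u := fun σ => expW f ⟪g, v σ⟫)
      (fun σ => expW_mem hf _) fun r => sq_nonneg _).trans_eq ?_
    rw [pow_one, ← Real.exp_sub]
    ring_nf
  have hterm : ∀ σ, Integrable (fun g : Sp (N + 1) => w σ * ⟪g, v σ⟫ ^ 2 / ∑ τ, w τ)
      (stdGaussian (Sp (N + 1))) := fun σ => by
    refine (((integrable_norm_pow (E := Sp (N + 1)) 2).mono' (Measurable.aestronglyMeasurable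
      ((measurable_id.inner measurable_const).pow_const 2)) (Eventually.of_forall fun g => ?_)).const_mul
        (w σ)).div_const _
    rw [Real.norm_eq_abs, abs_pow]
    exact pow_le_pow_left₀ (abs_nonneg _) (abs_inner_cube_le g σ) 2
  have hri : Integrable (fun g => repE w (fun r : Fin 1 → Fin (N + 1) → Bool => ⟪g, v (r 0)⟫ ^ 2))
      (stdGaussian (Sp (N + 1))) := by
    simp only [repE_one]
    exact integrable_finsetSum _ fun σ _ => hterm σ
  have hval : ∫ g, repE w (fun r : Fin 1 → Fin (N + 1) → Bool => ⟪g, v (r 0)⟫ ^ 2)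
      ∂stdGaussian (Sp (N + 1)) = 1 := by
    simp only [repE_one]
    rw [integral_finsetSum _ fun σ _ => hterm σ]
    simp only [integral_div, integral_const_mul, integral_inner_sq, v, norm_cubeVec (Nat.succ_pos N),
      one_pow, mul_one, ← Finset.sum_div]
    exact div_self (sum_pos_wt hw).ne'
  rw [Real.norm_eq_abs, abs_of_nonneg (integral_nonneg h0)]
  refine (integral_mono_of_nonneg (Eventually.of_forall h0) (hri.const_mul _)
    (Eventually.of_forall h1)).trans_eq ?_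
  rw [integral_const_mul, hval, mul_one]

/-- Integration by parts in the added pattern. -/
lemma tiltE_stein {F : ℝ → ℝ} (hF : BdD 1 F) (hd : BdD 1 f) :
    tiltE hf lam x (fun g (r : Fin 1 → Fin (N + 1) → Bool) =>
        ⟪g, cubeVec (N + 1) (r 0)⟫ * F ⟪g, cubeVec (N + 1) (r 0)⟫) =
      tiltE hf lam x (fun g (r : Fin 1 → Fin (N + 1) → Bool) =>
        deriv F ⟪g, cubeVec (N + 1) (r 0)⟫ +
          F ⟪g, cubeVec (N + 1) (r 0)⟫ * deriv f ⟪g, cubeVec (N + 1) (r 0)⟫) -
      tiltE hf lam x (fun g (r : Fin 2 → Fin (N + 1) → Bool) =>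
        ⟪cubeVec (N + 1) (r 0), cubeVec (N + 1) (r 1)⟫ *
          (F ⟪g, cubeVec (N + 1) (r 0)⟫ * deriv f ⟪g, cubeVec (N + 1) (r 1)⟫)) := by
  obtain ⟨hFd, ⟨a, ha⟩, -, a', ha'⟩ := hF
  obtain ⟨hfd, -, hf'c, b, hb⟩ := hd
  have hFc := hFd.continuous
  have hfc := hfd.continuous
  have hF'm : Measurable (deriv F) := measurable_deriv F
  have hf'm : Measurable (deriv f) := hf'c.measurable
  have ha0 : 0 ≤ a := (abs_nonneg _).trans (ha 0)
  have hb0 : 0 ≤ b := (abs_nonneg _).trans (hb 0)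
  have ha'0 : 0 ≤ a' := (abs_nonneg _).trans (ha' 0)
  set v := cubeVec (N + 1) with hv
  have hin : ∀ σ τ, |⟪v σ, v τ⟫| ≤ 1 := fun σ τ => by
    simpa [hv, norm_cubeVec (Nat.succ_pos N)] using abs_real_inner_le_norm (v σ) (v τ)
  set Θ₁ := fun g (r : Fin 1 → Fin (N + 1) → Bool) => ⟪g, v (r 0)⟫ * F ⟪g, v (r 0)⟫ with hΘ₁
  set Θ₂ := fun g (r : Fin 1 → Fin (N + 1) → Bool) =>
    deriv F ⟪g, v (r 0)⟫ + F ⟪g, v (r 0)⟫ * deriv f ⟪g, v (r 0)⟫ with hΘ₂
  set Θ₃ := fun g (r : Fin 2 → Fin (N + 1) → Bool) =>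
    ⟪v (r 0), v (r 1)⟫ * (F ⟪g, v (r 0)⟫ * deriv f ⟪g, v (r 1)⟫) with hΘ₃
  have i1 := integrable_repE_addW hf lam x (Θ := Θ₁) (C := a)
    (fun r => by simp only [hΘ₁]; fun_prop) fun g r => by
      simp only [hΘ₁, abs_mul]
      refine (mul_le_mul (abs_inner_cube_le g _) (ha _) (abs_nonneg _) (norm_nonneg _)).trans ?_
      rw [mul_comm]
      exact mul_le_mul_of_nonneg_left (by nlinarith [norm_nonneg g]) ha0
  have i2 := integrable_repE_addW hf lam x (Θ := Θ₂) (C := a' + a * b)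
    (fun r => by simp only [hΘ₂]; fun_prop) fun g r => by
      simp only [hΘ₂]
      refine (abs_add_le _ _).trans ((add_le_add (ha' _) ?_).trans
        (le_mul_of_one_le_right (by positivity) (by nlinarith [norm_nonneg g])))
      rw [abs_mul]
      exact mul_le_mul (ha _) (hb _) (abs_nonneg _) ha0
  have i3 := integrable_repE_addW hf lam x (Θ := Θ₃) (C := a * b)
    (fun r => by simp only [hΘ₃]; fun_prop) fun g r => by
      simp only [hΘ₃, abs_mul]
      refine ((mul_le_mul (hin _ _) (mul_le_mul (ha _) (hb _) (abs_nonneg _) ha0) (by positivity)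
        zero_le_one).trans_eq (one_mul _)).trans
        (le_mul_of_one_le_right (by positivity) (by nlinarith [norm_nonneg g]))
  show ∫ p, repE (addW hf lam x p) (Θ₁ p.2) ∂_ =
    (∫ p, repE (addW hf lam x p) (Θ₂ p.2) ∂_) - ∫ p, repE (addW hf lam x p) (Θ₃ p.2) ∂_
  rw [integral_prod _ i1, integral_prod _ i2, integral_prod _ i3,
    ← integral_sub i2.integral_prod_left i3.integral_prod_left]
  refine integral_congr_ae ?_
  filter_upwards [i2.prod_right_ae, i3.prod_right_ae] with ω j2 j3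
  rw [← integral_sub j2 j3]
  set w : (Fin (N + 1) → Bool) → ℝ := (pSys hf N lam 0 x).w ω
  have hw : ∀ σ, 0 < w σ := ((pSys hf N lam 0 x).wt ω).pos
  set e : Sp (N + 1) → (Fin (N + 1) → Bool) → ℝ := fun g σ => w σ * Real.exp (f ⟪g, v σ⟫) with he
  have hwe : ∀ g, addW hf lam x (ω, g) = e g := fun g => rfl
  set Z := fun g => ∑ τ, e g τ with hZdef
  have hep : ∀ g σ, 0 < e g σ := fun g σ => mul_pos (hw σ) (Real.exp_pos _)
  have hZ : ∀ g, 0 < Z g := fun g => sum_pos_wt (hep g)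
  have heZ : ∀ g σ, e g σ / Z g ≤ 1 := fun g σ => by
    rw [div_le_one (hZ g)]
    exact Finset.single_le_sum (fun τ _ => (hep g τ).le) (Finset.mem_univ σ)
  set U := fun g σ => ∑ τ, e g τ * (deriv f ⟪g, v τ⟫ * ⟪v σ, v τ⟫) with hU
  set G := fun σ g => e g σ * F ⟪g, v σ⟫ / Z g with hG
  set G' := fun σ g => e g σ * (deriv F ⟪g, v σ⟫ + F ⟪g, v σ⟫ * deriv f ⟪g, v σ⟫) / Z g -
    e g σ / Z g * (F ⟪g, v σ⟫ * (U g σ / Z g)) with hG'
  have hUZ : ∀ g σ, |U g σ / Z g| ≤ b := fun g σ => by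
    rw [abs_div, abs_of_pos (hZ g), div_le_iff₀ (hZ g), hZdef, Finset.mul_sum]
    refine (Finset.abs_sum_le_sum_abs _ _).trans (Finset.sum_le_sum fun τ _ => ?_)
    have h1 := hep g τ
    generalize e g τ = t at h1 ⊢
    rw [abs_mul, abs_mul, abs_of_pos h1, mul_comm b]
    exact mul_le_mul_of_nonneg_left
      ((mul_le_mul (hb _) (hin _ _) (abs_nonneg _) hb0).trans_eq (mul_one b)) h1.le
  have hem : ∀ σ, Measurable fun g => e g σ := fun σ => by simp only [he]; fun_prop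
  have hZm : Measurable Z := Finset.measurable_sum _ fun τ _ => hem τ
  have hGm : ∀ σ, Measurable (G σ) := fun σ => by simp only [hG]; fun_prop
  have hUm : ∀ σ, Measurable fun g => U g σ := fun σ =>
    Finset.measurable_sum _ fun τ _ => (hem τ).mul (by fun_prop)
  have hG'm : ∀ σ, Measurable (G' σ) := fun σ => by
    have := hUm σ
    simp only [hG']; fun_prop
  set C := a + (a' + a * b) + a * b with hC
  have hGb : ∀ σ g, |G σ g| ≤ C := fun σ g => by
    simp only [hG]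
    rw [mul_div_right_comm, abs_mul, abs_of_pos (div_pos (hep g σ) (hZ g))]
    exact ((mul_le_mul (heZ g σ) (ha _) (abs_nonneg _) zero_le_one).trans_eq (one_mul a)).trans
      (by nlinarith)
  have hG'b : ∀ σ g, |G' σ g| ≤ C := fun σ g => by
    simp only [hG']
    rw [mul_div_right_comm]
    refine (abs_sub _ _).trans ?_
    rw [abs_mul, abs_mul, abs_of_pos (div_pos (hep g σ) (hZ g))]
    refine (add_le_add ((mul_le_mul (heZ g σ) ((abs_add_le _ _).trans (add_le_add (ha' _) ?_))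
      (abs_nonneg _) zero_le_one).trans_eq (one_mul (a' + a * b)))
      ((mul_le_mul (heZ g σ) ?_ (abs_nonneg _) zero_le_one).trans_eq (one_mul (a * b)))).trans
      (by rw [hC]; linarith)
    · rw [abs_mul]; exact mul_le_mul (ha _) (hb _) (abs_nonneg _) ha0
    · rw [abs_mul]; exact mul_le_mul (ha _) (hUZ g σ) (abs_nonneg _) ha0
  have hderiv : ∀ σ g, HasDerivAt (fun t : ℝ => G σ (g + t • v σ)) (G' σ g) 0 := fun σ g => by
    have hl : ∀ τ, HasDerivAt (fun t : ℝ => ⟪g + t • v σ, v τ⟫) ⟪v σ, v τ⟫ 0 := fun τ => by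
      simp only [inner_add_left, real_inner_smul_left]
      simpa using ((hasDerivAt_id' (0 : ℝ)).mul_const ⟪v σ, v τ⟫).const_add ⟪g, v τ⟫
    have hat : ∀ {H : ℝ → ℝ} (_ : Differentiable ℝ H) τ,
        HasDerivAt (fun t : ℝ => H ⟪g + t • v σ, v τ⟫) (deriv H ⟪g, v τ⟫ * ⟪v σ, v τ⟫) 0 :=
      fun {H} hH τ => HasDerivAt.comp (0 : ℝ) (h₂ := H)
        (by simpa using (hH ⟪g, v τ⟫).hasDerivAt) (hl τ)
    have he' : ∀ τ, HasDerivAt (fun t : ℝ => e (g + t • v σ) τ)
        (e g τ * (deriv f ⟪g, v τ⟫ * ⟪v σ, v τ⟫)) 0 := fun τ => by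
      have := ((hat hfd τ).exp).const_mul (w τ)
      simpa [he, mul_assoc] using this
    have hZ' : HasDerivAt (fun t : ℝ => Z (g + t • v σ)) (U g σ) 0 :=
      HasDerivAt.fun_sum fun τ _ => he' τ
    have hvv : ⟪v σ, v σ⟫ = (1 : ℝ) := by
      rw [real_inner_self_eq_norm_sq, hv, norm_cubeVec (Nat.succ_pos N), one_pow]
    refine (((he' σ).fun_mul (hat hFd σ)).fun_div hZ' (by simpa using (hZ g).ne')).congr_deriv ?_
    simp only [hG', zero_smul, add_zero, hvv, mul_one]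
    have := (hZ g).ne'
    field_simp
    ring
  have key : ∀ σ, ∫ g, ⟪g, v σ⟫ * G σ g ∂stdGaussian (Sp (N + 1)) =
      ∫ g, G' σ g ∂stdGaussian (Sp (N + 1)) := fun σ =>
    stein_unit (by rw [hv]; exact norm_cubeVec (Nat.succ_pos N) σ) (hGm σ) (hG'm σ) (hderiv σ)
      (hGb σ) (hG'b σ)
  have hL : ∀ g, repE (addW hf lam x (ω, g)) (Θ₁ g) = ∑ σ, ⟪g, v σ⟫ * G σ g := fun g => by
    rw [hwe, repE_one]
    refine Finset.sum_congr rfl fun σ _ => ?_
    simp only [hΘ₁, hG, hZdef]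
    ring
  have hR : ∀ g, repE (addW hf lam x (ω, g)) (Θ₂ g) - repE (addW hf lam x (ω, g)) (Θ₃ g) =
      ∑ σ, G' σ g := fun g => by
    rw [hwe, repE_one, repE_two, ← Finset.sum_sub_distrib]
    refine Finset.sum_congr rfl fun σ _ => ?_
    simp only [hΘ₂, hΘ₃, hG', hU, Matrix.cons_val_zero, Matrix.cons_val_one, hZdef]
    congr 1
    simp only [Finset.sum_div, Finset.mul_sum]
    refine Finset.sum_congr rfl fun τ _ => ?_
    ring
  simp only [hL, hR]
  rw [integral_finsetSum _ fun σ _ => ?_, integral_finsetSum _ fun σ _ =>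
    Integrable.of_bound (hG'm σ).aestronglyMeasurable C
      (Eventually.of_forall fun g => (Real.norm_eq_abs _).trans_le (hG'b σ g))]
  · exact Finset.sum_congr rfl fun σ _ => key σ
  · refine ((integrable_norm_pow (E := Sp (N + 1)) 1).mul_const C).mono'
      (((measurable_id.inner measurable_const).mul (hGm σ)).aestronglyMeasurable)
      (Eventually.of_forall fun g => ?_)
    rw [Real.norm_eq_abs, abs_mul, pow_one]
    exact mul_le_mul (abs_inner_cube_le g σ) (hGb σ g) (abs_nonneg _) (norm_nonneg g)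

end Vale.Agent.P157.Low
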