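import Vale.Agent.P157.Low.TiltLimit
import Vale.Agent.P157.Low.SmCalc

/-!
One and two insertions in limit arrays, and two tilts in a row.
-/

namespace Vale.Agent.P157.Low

open MeasureTheory ProbabilityTheory Filter
open scoped RealInnerProductSpace Topology

variable {A : Arr} {c : ℝ} {W : ℝ → ℝ}

lemma Weight.exists_lower (hW : Weight c W) : ∃ δ, 0 < δ ∧ ∀ y, δ ≤ W y := by
  obtain ⟨ρ, hρ, hn⟩ := hW.near
  refine ⟨c * (1 - ρ), mul_pos hW.cpos (by linarith), fun y => ?_⟩
  have h : 1 - ρ ≤ W y / c := by linarith [(abs_le.1 (hn y)).2]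
  rw [le_div_iff₀ hW.cpos] at h
  linarith

/-- The tilted average of `θ` over noise of variance `s`. -/
noncomputable def quot (W θ : ℝ → ℝ) (s y : ℝ) : ℝ :=
  heat (fun x => θ x * W x) s y / heat W s y

lemma sm_quot (hW : Weight c W) {θ : ℝ → ℝ} (hθ : BdD 3 θ) (s : ℝ) : Sm (quot W θ s) := by
  obtain ⟨δ, hδ, h⟩ := (hW.heat s).exists_lower
  exact ((Sm.heat (hθ.mul hW.smooth.bdD).toSm s).bdD.div (hW.heat s).smooth.bdD hδ h).toSm

lemma quot_one (hW : Weight c W) (s : ℝ) : quot W (fun _ => 1) s = fun _ => 1 := by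
  funext y
  obtain ⟨δ, hδ, h⟩ := (hW.heat s).exists_lower
  simp only [quot, one_mul]
  exact div_self (hδ.trans_le (h y)).ne'

lemma quot_update (W : ℝ → ℝ) (s : ℝ) {n : ℕ} (θ : Fin n → ℝ → ℝ) (a : Fin n) (g : ℝ → ℝ) :
    (fun l y => Low.heat (fun x => Function.update θ a g l x * W x) s y / Low.heat W s y) =
      Function.update (fun l => quot W (θ l) s) a (quot W g s) := by
  funext l y
  rcases eq_or_ne l a with rfl | h
  · simp [quot]
  · simp [quot, Function.update_of_ne h]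

/-- The value of one insertion in a discretisation. -/
noncomputable def Discr.one {K : ℕ} (D : Discr A K) (W θ : ℝ → ℝ) : ℝ :=
  insUp D.C.cdf (incr D.q) (fun y => Real.log (Low.heat W D.rest y)) (quot W θ D.rest) (D.r + 1) 0

/-- The value of two insertions meeting at a level of a discretisation. -/
noncomputable def Discr.two {K : ℕ} (D : Discr A K) (W θ θ' : ℝ → ℝ) (j : Fin (D.r + 1)) : ℝ :=
  pairRoot D.C.cdf (incr D.q) (fun y => Real.log (Low.heat W D.rest y)) (quot W θ D.rest)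
    (quot W θ' D.rest) j

lemma tendsto_single (D : ∀ K, Discr A (K + 2)) (hW : Weight c W) {θ : ℝ → ℝ} (hθ : BdD 3 θ) :
    Tendsto (fun K => (D K).one W θ) atTop
      (𝓝 (ratioArr A c W (fun _ : Mat 1 => (1 : ℝ)) (fun _ => θ))) := by
  refine (tendsto_ratio D hW continuous_const ⟨1, fun _ => by simp⟩ (fun _ : Fin 1 => θ)
    (fun _ => hθ.cont) (fun _ => hθ.bdd)).congr fun K => ?_
  have e : (fun (_ : Fin 1) => quot W θ (D K).rest) =
      Function.update (fun _ _ => 1) 0 (quot W θ (D K).rest) := by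
    funext l
    rw [Subsingleton.elim l 0, Function.update_self]
  have h := (D K).C.ratio_single (D K).incr_nonneg (hW.heat (D K).rest)
    (sm_quot hW hθ (D K).rest) (n := 1) (fun _ => 1) 0
  simp only [mul_one, (D K).C.total, one_mul] at h
  exact (congrArg (fun t => (D K).C.ratio (incr (D K).q) c (Low.heat W (D K).rest) (fun _ => 1) t) e).trans h

/-- One insertion is a constant: it factors out of every limit. -/
theorem ratioArr_single (hW : Weight c W) {θ : ℝ → ℝ} (hθ : BdD 3 θ) {n : ℕ} {Φ : Mat n → ℝ}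
    (hΦ : Continuous Φ) (hΦb : ∃ C, ∀ R, |Φ R| ≤ C) (a : Fin n) :
    ratioArr A c W Φ (Function.update (fun _ _ => 1) a θ) =
      (∫ R, Φ R ∂A.law n) * ratioArr A c W (fun _ : Mat 1 => (1 : ℝ)) (fun _ => θ) := by
  obtain ⟨D0, hD0⟩ := hΦb
  set D : ∀ K, Discr A (K + 2) := fun K => (A.exists_discr (Nat.le_add_left 2 K)).some
  have hc : ∀ l, Continuous (Function.update (fun _ _ => (1 : ℝ)) a θ l) := fun l => by
    rcases eq_or_ne l a with rfl | h
    · simpa using hθ.cont
    · simpa [Function.update_of_ne h] using continuous_const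
  have hb : ∀ l, ∃ C, ∀ y, |Function.update (fun _ _ => (1 : ℝ)) a θ l y| ≤ C := fun l => by
    rcases eq_or_ne l a with rfl | h
    · simpa using hθ.bdd
    · exact ⟨1, fun y => by simp [Function.update_of_ne h]⟩
  refine tendsto_nhds_unique (tendsto_ratio D hW hΦ ⟨D0, hD0⟩ _ hc hb)
    (((tendsto_discr D hΦ hD0).mul (tendsto_single D hW hθ)).congr fun K => ?_)
  rw [quot_update W]
  simp only [quot_one hW]
  exact ((D K).C.ratio_single (D K).incr_nonneg (hW.heat (D K).rest) (sm_quot hW hθ (D K).rest) _ a).symm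

/-- Two insertions at distinct replicas, as a limit over discretisations. -/
theorem tendsto_pair (D : ∀ K, Discr A (K + 2)) (hW : Weight c W) {θ θ' : ℝ → ℝ} (hθ : BdD 3 θ)
    (hθ' : BdD 3 θ') {Φ : Mat 2 → ℝ} (hΦ : Continuous Φ) (hΦb : ∃ C, ∀ R, |Φ R| ≤ C) :
    Tendsto (fun K => ∑ B, (D K).C.P 2 B * (Φ (qmat (D K).q B) * (D K).two W θ θ' (B 0 1))) atTop
      (𝓝 (ratioArr A c W Φ ![θ, θ'])) := by
  have e : (![θ, θ'] : Fin 2 → ℝ → ℝ) = Function.update (Function.update (fun _ _ => 1) 0 θ) 1 θ' := by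
    funext l
    fin_cases l <;> simp [Function.update]
  refine (tendsto_ratio D hW hΦ hΦb ![θ, θ'] (fun l => by fin_cases l <;> simp [hθ.cont, hθ'.cont])
    (fun l => by fin_cases l <;> simp [hθ.bdd, hθ'.bdd])).congr fun K => ?_
  rw [e, quot_update W]
  have : (fun l => quot W (Function.update (fun (_ : Fin 2) _ => (1 : ℝ)) 0 θ l) (D K).rest) =
      Function.update (fun _ _ => 1) 0 (quot W θ (D K).rest) := by
    funext l
    rcases eq_or_ne l 0 with rfl | h
    · simp
    · simp [Function.update_of_ne h, quot_one hW]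
  rw [this]
  exact (D K).C.ratio_pair (D K).incr_nonneg (hW.heat (D K).rest) (sm_quot hW hθ (D K).rest)
    (sm_quot hW hθ' (D K).rest) _ (by decide)

lemma abs_avgRep_le (T : Sys) {n : ℕ} {Θ : T.Ω → (Fin n → T.X) → ℝ} {C : ℝ}
    (h : ∀ ω x, |Θ ω x| ≤ C) : |T.avgRep n Θ| ≤ C := by
  rw [← Real.norm_eq_abs]
  refine (norm_integral_le_of_norm_le_const (C := C) (Eventually.of_forall fun ω => ?_)).trans
    (by simp)
  have := isProbabilityMeasure_gibbs (μ := T.ref) (T.wt ω)
  exact (norm_integral_le_of_norm_le_const (C := C)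
    (Eventually.of_forall fun x => (Real.norm_eq_abs _).trans_le (h ω x))).trans (by simp)

variable {S : ℕ → Sys} {δ B : ℝ}

/-- At two tilts in a row, insertions at the two patterns factor. -/
theorem Conv.insert_two (h : Conv S A) (hW : Weight c W) (hm : Measurable W) (hδ : 0 < δ)
    (hb : ∀ y, δ ≤ W y ∧ W y ≤ B) {θ θ' : ℝ → ℝ} (hθ : BdD 3 θ) (hθ' : BdD 3 θ') :
    Tendsto (fun j => (((S j).tilt W hm hδ hb).tilt W hm hδ hb).avgRep 1
        (fun p x => θ ⟪p.1.2, (S j).v (x 0)⟫ * θ' ⟪p.2, (S j).v (x 0)⟫)) atTop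
      (𝓝 (ratioArr A c W (fun _ : Mat 1 => (1 : ℝ)) (fun _ => θ) *
        ratioArr A c W (fun _ : Mat 1 => (1 : ℝ)) (fun _ => θ'))) := by
  have hWc : Continuous W := hW.smooth.smooth.continuous
  obtain ⟨ρ, hρ, hnear⟩ := hW.near
  have hρ0 : 0 ≤ ρ := (abs_nonneg _).trans (hnear 0)
  obtain ⟨E, hE⟩ := hθ.bdd
  obtain ⟨E', hE'⟩ := hθ'.bdd
  choose G hGc hGb hG using fun k : ℕ => exists_GE_ext
    (continuous_ratioTerm (c := c) (k := k) hWc (θ := fun _ : Fin 1 => θ') fun _ => hθ'.cont)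
    (abs_ratioTerm_le hnear (D := fun _ : Fin 1 => E') fun _ => hE')
  set m := ratioArr A c W (fun _ : Mat 1 => (1 : ℝ)) (fun _ => θ) with hmdef
  set M := E * ∏ _l : Fin 1, E' * (1 + ρ) with hM
  set T : ℕ → Sys := fun j => (S j).tilt W hm hδ hb with hT
  have hprod : ∀ (k : ℕ) (u : Fin (1 + k) → ℝ),
      ∏ l, Function.update (fun _ _ => (1 : ℝ)) (Fin.castAdd k 0) θ l (u l) = θ (u (Fin.castAdd k 0)) :=
    fun k u => by
      rw [Fintype.prod_eq_single (Fin.castAdd k 0)]
      · simp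
      · intro l hl
        simp [Function.update_of_ne hl]
  have key : ∀ j, ((T j).tilt W hm hδ hb).avgRep 1
      (fun p x => θ ⟪p.1.2, (S j).v (x 0)⟫ * θ' ⟪p.2, (S j).v (x 0)⟫) =
        ∑' k : ℕ, (negCoef 1 k : ℝ) * (T j).avgRep (1 + k) (fun p x =>
          G k ((S j).gram x) * ∏ l, Function.update (fun _ _ => (1 : ℝ)) (Fin.castAdd k 0) θ l
            ⟪p.2, (S j).v (x l)⟫) := by
    intro j
    have h1 := (T j).tilt_series hm hδ hb hρ hW.cpos hnear (n := 1)
      (Θ := fun p x => θ ⟪p.2, (S j).v (x 0)⟫)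
      (hθ.cont.measurable.comp ((measurable_snd.comp measurable_fst).inner
        ((S j).measV.comp ((measurable_pi_apply 0).comp measurable_snd))))
      ⟨E, fun _ _ => hE _⟩ (fun _ => θ') (fun _ => hθ'.cont.measurable) fun _ => ⟨E', hE'⟩
    simp only [Fin.prod_univ_one] at h1
    refine h1.trans (tsum_congr fun k => ?_)
    congr 1
    refine integral_congr_ae (Eventually.of_forall fun p =>
      integral_congr_ae (Eventually.of_forall fun x => ?_))
    simp only [hprod, hG k _ ((S j).posSemidef_gram x)]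
    exact mul_comm _ _
  have hlim : ∀ k, Tendsto (fun j => (T j).avgRep (1 + k) (fun p x =>
      G k ((S j).gram x) * ∏ l, Function.update (fun _ _ => (1 : ℝ)) (Fin.castAdd k 0) θ l
        ⟪p.2, (S j).v (x l)⟫)) atTop (𝓝 ((∫ R, G k R ∂A.law (1 + k)) * m)) := fun k => by
    rw [hmdef, ← ratioArr_single hW hθ (hGc k) ⟨_, hGb k⟩ (Fin.castAdd k 0)]
    exact h.insert hW hm hδ hb (hGc k) ⟨_, hGb k⟩ _
      (fun l => by
        rcases eq_or_ne l (Fin.castAdd k 0) with rfl | hl
        · simpa using hθ.cont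
        · simpa [Function.update_of_ne hl] using continuous_const)
      (fun l => by
        rcases eq_or_ne l (Fin.castAdd k 0) with rfl | hl
        · simpa using hθ.bdd
        · exact ⟨1, fun y => by simp [Function.update_of_ne hl]⟩)
  have hval : ∑' k : ℕ, (negCoef 1 k : ℝ) * ((∫ R, G k R ∂A.law (1 + k)) * m) =
      m * ratioArr A c W (fun _ : Mat 1 => (1 : ℝ)) (fun _ => θ') := by
    rw [ratioArr, ← tsum_mul_left]
    refine tsum_congr fun k => ?_
    rw [integral_congr_ae (g := fun R => (1 : ℝ) * GE R (ratioTerm c W fun _ : Fin 1 => θ'))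
      ((A.ae_posSemidef (1 + k)).mono fun R hR => by simp only [one_mul, hG k R hR])]
    ring
  rw [← hval]
  show Tendsto (fun j => ((T j).tilt W hm hδ hb).avgRep 1
      (fun p x => θ ⟪p.1.2, (S j).v (x 0)⟫ * θ' ⟪p.2, (S j).v (x 0)⟫)) atTop _
  simp only [key]
  refine tendsto_tsum_of_dominated_convergence (summable_negCoef 1 hρ0 hρ M) (fun k => (hlim k).const_mul _)
    (Eventually.of_forall fun j k => ?_)
  rw [Real.norm_eq_abs, abs_mul, Nat.abs_cast]
  refine mul_le_mul_of_nonneg_left (abs_avgRep_le _ fun p x => ?_) (Nat.cast_nonneg' _)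
  rw [hprod, abs_mul, hM, mul_assoc, mul_comm]
  exact mul_le_mul (hE _) (hGb k _) (abs_nonneg _) ((abs_nonneg _).trans (hE 0))

end Vale.Agent.P157.Low
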