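import Vale.Agent.P157.Low.Gain
import Vale.Agent.P157.Low.CubePairs
import Vale.Agent.P157.Low.DriftValues
import Vale.Agent.P157.Low.DriftTilt

/-!
The drift of the new spin: the second-order terms concentrate.
-/

namespace Vale.Agent.P157.Low

open MeasureTheory ProbabilityTheory Filter
open scoped RealInnerProductSpace Topology

variable {f : ℝ → ℝ} {B : ℝ} {A : Arr} {N P : ℕ}

/-- The second-order term of one pattern. -/
noncomputable def driftF (f : ℝ → ℝ) (y : ℝ) : ℝ := deriv (deriv f) y - y * deriv f y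

/-- The second-order term with the field truncated at scale `t⁻¹`. -/
noncomputable def driftT (f : ℝ → ℝ) (t y : ℝ) : ℝ :=
  deriv (deriv f) y - t⁻¹ * Real.sin (t * y) * deriv f y

lemma abs_sub_sin_le (u : ℝ) : |u - Real.sin u| ≤ 2 * u ^ 2 := by
  rcases le_or_gt |u| 1 with h | h
  · have h1 := abs_le.1 (Real.sin_bound h)
    have h0 := abs_nonneg u
    have h2 : |u| ^ 4 ≤ u ^ 2 := by rw [← sq_abs u]; nlinarith [pow_le_one₀ (n := 2) h0 h, sq_nonneg |u|]
    have h3 : |u ^ 3| ≤ u ^ 2 := by rw [abs_pow, ← sq_abs u]; nlinarith [sq_nonneg |u|]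
    obtain ⟨h4, h5⟩ := abs_le.1 h3
    rw [abs_le]
    constructor <;> nlinarith
  · refine (abs_sub _ _).trans ?_
    nlinarith [Real.abs_sin_le_one u, sq_abs u]

lemma abs_drift_sub_le {t b : ℝ} (ht : 0 < t) (hb : ∀ y, |deriv f y| ≤ b) (y : ℝ) :
    |driftF f y - driftT f t y| ≤ 2 * b * t * y ^ 2 := by
  have e : driftF f y - driftT f t y = -(t⁻¹ * (t * y - Real.sin (t * y))) * deriv f y := by
    simp only [driftF, driftT]
    field_simp
    ring
  rw [e, abs_mul, abs_neg, abs_mul, abs_of_pos (inv_pos.2 ht)]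
  refine (mul_le_mul (mul_le_mul_of_nonneg_left (abs_sub_sin_le (t * y)) (inv_pos.2 ht).le) (hb y)
    (abs_nonneg _) (by positivity)).trans_eq ?_
  field_simp

lemma bdD_driftT (hs : Smf f) (t : ℝ) : BdD 3 (driftT f t) := by
  have h : BdD 3 fun y => t⁻¹ * Real.sin (t * y) := by
    simpa using BdD.trig 3 t⁻¹ 0 t
  exact hs.bdD_deriv₂.sub (h.mul hs.bdD_deriv)

lemma weight_expW_drift (hf : Pot f B) (hs : Smf f) : Weight (Real.exp B) (expW f) := by
  refine ⟨hs.bdD.down.down.exp.toSm, Real.exp_pos B, 1 - Real.exp (-(2 * B)), ?_, fun y => ?_⟩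
  · linarith [Real.exp_pos (-(2 * B))]
  · obtain ⟨h1, h2⟩ := abs_le.1 (hf.bound y)
    have e : expW f y / Real.exp B = Real.exp (f y - B) := by rw [expW, Real.exp_sub]
    rw [e, abs_le]
    have h3 : Real.exp (-(2 * B)) ≤ Real.exp (f y - B) := Real.exp_le_exp.2 (by linarith)
    have h4 : Real.exp (f y - B) ≤ 1 := Real.exp_le_one_iff.2 (by linarith)
    constructor <;> linarith

/-- The drift at one added pattern is pairing minus diagonal. -/
lemma tiltE_driftF (hf : Pot f B) (hs : Smf f) (lam : ℝ) (x : Fin P → ℝ) :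
    tiltE hf lam x (fun g (r : Fin 1 → Fin (N + 1) → Bool) => driftF f ⟪g, cubeVec (N + 1) (r 0)⟫) =
      tiltE hf lam x (fun g (r : Fin 2 → Fin (N + 1) → Bool) =>
        ⟪cubeVec (N + 1) (r 0), cubeVec (N + 1) (r 1)⟫ *
          (deriv f ⟪g, cubeVec (N + 1) (r 0)⟫ * deriv f ⟪g, cubeVec (N + 1) (r 1)⟫)) -
      tiltE hf lam x (fun g (r : Fin 1 → Fin (N + 1) → Bool) =>
        deriv f ⟪g, cubeVec (N + 1) (r 0)⟫ ^ 2) := by
  obtain ⟨a, ha⟩ := hs.bdD_deriv.bdd
  obtain ⟨a2, ha2⟩ := hs.bdD_deriv₂.bdd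
  have ha0 : 0 ≤ a := (abs_nonneg _).trans (ha 0)
  have ha20 : 0 ≤ a2 := (abs_nonneg _).trans (ha2 0)
  have h1 : Measurable (deriv f) := measurable_deriv f
  have h2 : Measurable (deriv (deriv f)) := measurable_deriv _
  set v := cubeVec (N + 1)
  have hone : ∀ g : Sp (N + 1), 1 ≤ (1 + ‖g‖) ^ 2 := fun g => by nlinarith [norm_nonneg g]
  have e := tiltE_stein hf lam x (N := N) (F := deriv f) hs.bdD_deriv.down.down hs.bdD.down.down.down.down
  rw [tiltE_add hf lam x (Θ := fun g (r : Fin 1 → Fin (N + 1) → Bool) => deriv (deriv f) ⟪g, v (r 0)⟫)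
    (C := a2) (fun r => by fun_prop) (fun g r => (ha2 _).trans (le_mul_of_one_le_right ha20 (hone g)))
    (Θ' := fun g r => deriv f ⟪g, v (r 0)⟫ * deriv f ⟪g, v (r 0)⟫) (C' := a * a) (fun r => by fun_prop)
    (fun g r => by
      rw [abs_mul]
      exact (mul_le_mul (ha _) (ha _) (abs_nonneg _) ha0).trans
        (le_mul_of_one_le_right (by positivity) (hone g)))] at e
  have hsplit := tiltE_add hf lam x
    (Θ := fun g (r : Fin 1 → Fin (N + 1) → Bool) => deriv (deriv f) ⟪g, v (r 0)⟫) (C := a2)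
    (fun r => by fun_prop) (fun g r => (ha2 _).trans (le_mul_of_one_le_right ha20 (hone g)))
    (Θ' := fun g r => -1 * (⟪g, v (r 0)⟫ * deriv f ⟪g, v (r 0)⟫)) (C' := a) (fun r => by fun_prop)
    (fun g r => by
      rw [abs_mul, abs_neg, abs_one, one_mul, abs_mul, mul_comm a]
      refine mul_le_mul ((abs_inner_cube_le g _).trans ?_) (ha _) (abs_nonneg _) (by positivity)
      nlinarith [norm_nonneg g])
  rw [tiltE_const_mul] at hsplit
  have hd : (fun g (r : Fin 1 → Fin (N + 1) → Bool) => driftF f ⟪g, v (r 0)⟫) =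
      fun g r => deriv (deriv f) ⟪g, v (r 0)⟫ + -1 * (⟪g, v (r 0)⟫ * deriv f ⟪g, v (r 0)⟫) := by
    funext g r; simp only [driftF]; ring
  have hq : (fun g (r : Fin 1 → Fin (N + 1) → Bool) => deriv f ⟪g, v (r 0)⟫ * deriv f ⟪g, v (r 0)⟫) =
      fun g r => deriv f ⟪g, v (r 0)⟫ ^ 2 := by
    funext g r; ring
  rw [hq] at e
  rw [hd, hsplit, e]
  ring

/-- The overlap clipped to `[-1, 1]`. -/
noncomputable def clipR (R : Mat 2) : ℝ := max (-1) (min 1 (R 0 1))

lemma continuous_clipR : Continuous clipR := by unfold clipR; fun_prop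

lemma abs_clipR_le (R : Mat 2) : |clipR R| ≤ 1 :=
  abs_le.2 ⟨le_max_left _ _, max_le (by norm_num) (min_le_left _ _)⟩

lemma clipR_eq {R : Mat 2} (h : |R 0 1| ≤ 1) : clipR R = R 0 1 := by
  obtain ⟨h1, h2⟩ := abs_le.1 h
  rw [clipR, min_eq_right h2, max_eq_right h1]

/-- Pairing minus diagonal of a limit array. -/
noncomputable def driftVal (f : ℝ → ℝ) (B : ℝ) (A : Arr) : ℝ :=
  ratioArr A (Real.exp B) (expW f) clipR ![deriv f, deriv f] -
    ratioArr A (Real.exp B) (expW f) (fun _ : Mat 1 => (1 : ℝ)) (fun _ => fun y => deriv f y ^ 2)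

lemma tendsto_discr_drift (hf : Pot f B) (hs : Smf f) (D : ∀ K, Discr A (K + 2)) :
    Tendsto (fun K => (D K).pairing f - (D K).rdiag f) atTop (𝓝 (driftVal f B A)) := by
  have hW := weight_expW_drift hf hs
  have hd : ∀ x, deriv (fun z => Real.exp (f z)) x = Real.exp (f x) * deriv f x := fun x =>
    deriv_exp (hs.bdD.1 x)
  refine ((tendsto_pair D hW hs.bdD_deriv hs.bdD_deriv continuous_clipR ⟨1, abs_clipR_le⟩).sub
    (tendsto_single D hW hs.bdD_deriv.sq)).congr fun K => ?_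
  have hu : (fun y => Real.log (Low.heat (expW f) (D K).rest y)) =
      fun y => Real.log (topW f (D K).q y) := rfl
  have ht : quot (expW f) (deriv f) (D K).rest = topD f (D K).q := by
    funext y
    simp only [quot, topD, topW, Discr.rest, expW]
    congr 1
    exact congrArg (fun F => Low.heat F _ y) (funext fun x => by rw [hd x]; ring)
  have ht2 : quot (expW f) (fun y => deriv f y ^ 2) (D K).rest = fun y =>
      Low.heat (fun x => deriv (fun z => Real.exp (f z)) x ^ 2 / Real.exp (f x))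
        (1 - (D K).q (Fin.last (D K).r)) y / topW f (D K).q y := by
    funext y
    simp only [quot, topW, Discr.rest, hd, expW]
    congr 1
    refine congrArg (fun F => Low.heat F _ y) (funext fun x => ?_)
    have := (Real.exp_pos (f x)).ne'
    field_simp
  congr 1
  · refine Finset.sum_congr rfl fun C _ => ?_
    have hq : clipR (qmat (D K).q C) = (D K).q (C 0 1) := by
      have h0 := (D K).rangeq (C 0 1)
      have h1 : (0 : ℝ) ≤ 1 / ((K + 2 : ℕ) : ℝ) := by positivity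
      have e : qmat (D K).q C 0 1 = (D K).q (C 0 1) := by simp [qmat]
      rw [clipR_eq (by rw [e, abs_le]; constructor <;> linarith [h0.1, h0.2]), e]
    rw [hq, Discr.two, hu, ht]
    rfl
  · rw [Discr.one, hu, ht2]
    rfl

lemma integrable_pow_gauss (n : ℕ) : Integrable (fun y : ℝ => y ^ n) (gaussianReal 0 1) := by
  refine ((memLp_id_gaussianReal' (μ := 0) (v := 1) (n : ENNReal) (by simp)).integrable_norm_pow').mono'
    (by fun_prop) (Eventually.of_forall fun y => ?_)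
  simp

lemma integral_count_sq {lam : ℝ} (hl : 0 ≤ lam) :
    ∫ M, (M : ℝ) ^ (1 + 1) ∂poiLaw lam = lam * (lam + 1) := by
  have h0 : Integrable (fun n : ℕ => (n : ℝ)) (poissonMeasure lam.toNNReal) :=
    integrable_poisson_of_le (C := 1) (j := 1) fun n => by simp
  have h1 : ∫ n : ℕ, (n : ℝ) ∂poissonMeasure lam.toNNReal = lam := by
    have h := poisson_palm lam.toNNReal (fun _ => (1 : ℝ))
    simpa [Real.coe_toNNReal _ hl] using h
  have h2 := poisson_palm lam.toNNReal (fun n => (n : ℝ))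
  rw [poiLaw]
  simp only [pow_succ, pow_zero, one_mul]
  rw [h2, Real.coe_toNNReal _ hl]
  push_cast
  rw [integral_add h0 (integrable_const _), h1]
  simp

/-- Second moment of the recentred sum of the truncated terms. -/
lemma avgRep_drift_sq (hf : Pot f B) (hs : Smf f) (t : ℝ) {lam : ℝ} (hl : 0 ≤ lam) (x : Fin P → ℝ)
    (ε a : ℝ) :
    (pSys hf N lam 0 x).avgRep 1 (fun ω r =>
      (ε * (∑ b ∈ Finset.range (cnt ω), driftT f t (pat ω b (r 0))) - a) ^ 2) =
      ε ^ 2 * (lam * ((pSys hf N lam 0 x).tiltF hf).avgRep 1 (fun p r =>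
        driftT f t ⟪p.2, cubeVec (N + 1) (r 0)⟫ ^ 2) +
        lam ^ 2 * (((pSys hf N lam 0 x).tiltF hf).tiltF hf).avgRep 1 (fun p r =>
          driftT f t ⟪p.1.2, cubeVec (N + 1) (r 0)⟫ * driftT f t ⟪p.2, cubeVec (N + 1) (r 0)⟫)) -
      2 * a * ε * (lam * ((pSys hf N lam 0 x).tiltF hf).avgRep 1 (fun p r =>
        driftT f t ⟪p.2, cubeVec (N + 1) (r 0)⟫)) +
      a ^ 2 := by
  set φ := driftT f t
  have hφ : Measurable φ := (bdD_driftT hs t).cont.measurable
  obtain ⟨C, hC⟩ := (bdD_driftT hs t).bdd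
  have hC0 : 0 ≤ C := (abs_nonneg _).trans (hC 0)
  have p1 := pSys_palm hf N hl x (n := 1) (fun y => φ (y 0)) (hφ.comp (measurable_pi_apply 0))
    ⟨C, fun y => hC _⟩ (fun _ => 1) measurable_const ⟨1, fun _ => by simp⟩
  have p2 := pSys_palm hf N hl x (n := 1) (fun y => φ (y 0) ^ 2)
    ((hφ.comp (measurable_pi_apply 0)).pow_const 2)
    ⟨C ^ 2, fun y => by rw [abs_pow]; exact pow_le_pow_left₀ (abs_nonneg _) (hC _) 2⟩
    (fun _ => 1) measurable_const ⟨1, fun _ => by simp⟩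
  have p3 := pSys_palm₂ hf N hl x (n := 1) (fun y => φ (y 0)) (fun y => φ (y 0))
    (hφ.comp (measurable_pi_apply 0)) ⟨C, fun y => hC _⟩ (hφ.comp (measurable_pi_apply 0)) ⟨C, fun y => hC _⟩
  simp only [one_mul] at p1 p2
  rw [← p1, ← p2, ← p3]
  refine Eq.trans (pSys_avgRep hf lam 0 x _) ?_
  set w : (pSys hf N lam 0 x).Ω → (Fin (N + 1) → Bool) → ℝ := (pSys hf N lam 0 x).w
  set H1 := fun (ω : (pSys hf N lam 0 x).Ω) => repE (w ω) fun r : Fin 1 → Fin (N + 1) → Bool =>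
    ∑ b ∈ Finset.range (cnt ω), φ (pat ω b (r 0))
  set H2 := fun (ω : (pSys hf N lam 0 x).Ω) => repE (w ω) fun r : Fin 1 → Fin (N + 1) → Bool =>
    ∑ b ∈ Finset.range (cnt ω), φ (pat ω b (r 0)) ^ 2
  set H3 := fun (ω : (pSys hf N lam 0 x).Ω) => repE (w ω) fun r : Fin 1 → Fin (N + 1) → Bool =>
    ∑ b ∈ Finset.range (cnt ω), ∑ b' ∈ (Finset.range (cnt ω)).erase b,
      φ (pat ω b (r 0)) * φ (pat ω b' (r 0))
  have hpm : ∀ (G : ℕ → (ℕ → Sp (N + 1)) → ℝ), (∀ M, Measurable (G M)) →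
      Measurable fun ω : (pSys hf N lam 0 x).Ω => G (cnt ω) ω.1.2 := fun G hG =>
    (measurable_from_prod_countable_right (f := fun q : ℕ × (ℕ → Sp (N + 1)) => G (q.1 + 0) q.2)
      fun M => hG (M + 0)).comp measurable_fst
  have hpat : ∀ (b : ℕ) (σ : Fin (N + 1) → Bool),
      Measurable fun g : ℕ → Sp (N + 1) => φ ⟪g b, cubeVec (N + 1) σ⟫ :=
    fun b σ => hφ.comp (Measurable.inner (measurable_pi_apply b) measurable_const)
  have hw : ∀ ω, ∀ σ, 0 < w ω σ := fun ω => ((pSys hf N lam 0 x).wt ω).pos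
  have b1 : ∀ (ω : (pSys hf N lam 0 x).Ω) (r : Fin 1 → Fin (N + 1) → Bool),
      |∑ b ∈ Finset.range (cnt ω), φ (pat ω b (r 0))| ≤ C * ((ω.1.1 : ℝ) + 1) := fun ω r => by
    refine (Finset.abs_sum_le_sum_abs _ _).trans ((Finset.sum_le_sum fun b _ => hC _).trans ?_)
    simp [cnt]; nlinarith
  have i1 : Integrable H1 (pSys hf N lam 0 x).law := integrable_pSys_of_le hf lam 0 x (C := C) (j := 1)
    (measurable_repE (measurable_pSys_w hf lam 0 x) fun r => hpm
      (fun M g => ∑ b ∈ Finset.range M, φ ⟪g b, cubeVec (N + 1) (r 0)⟫)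
      fun M => Finset.measurable_sum _ fun b _ => hpat b _)
    fun ω => by rw [pow_one]; exact abs_repE_le (hw ω) (b1 ω)
  have i2 : Integrable H2 (pSys hf N lam 0 x).law :=
    integrable_pSys_of_le hf lam 0 x (C := C ^ 2) (j := 1)
    (measurable_repE (measurable_pSys_w hf lam 0 x) fun r => hpm
      (fun M g => ∑ b ∈ Finset.range M, φ ⟪g b, cubeVec (N + 1) (r 0)⟫ ^ 2)
      fun M => Finset.measurable_sum _ fun b _ => (hpat b _).pow_const 2)
    fun ω => by
      rw [pow_one]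
      refine abs_repE_le (hw ω) fun r => (Finset.abs_sum_le_sum_abs _ _).trans
        ((Finset.sum_le_sum fun b _ => (abs_pow _ 2).trans_le
          (pow_le_pow_left₀ (abs_nonneg _) (hC _) 2)).trans ?_)
      simp [cnt]; nlinarith
  have hsq : ∀ (s : Finset ℕ) (u : ℕ → ℝ),
      (∑ b ∈ s, u b) ^ 2 = ∑ b ∈ s, u b ^ 2 + ∑ b ∈ s, ∑ b' ∈ s.erase b, u b * u b' := fun s u => by
    rw [pow_two, Finset.sum_mul_sum, ← Finset.sum_add_distrib]
    exact Finset.sum_congr rfl fun b hb => by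
      rw [pow_two]; exact (Finset.add_sum_erase s (fun b' => u b * u b') hb).symm
  have i3 : Integrable H3 (pSys hf N lam 0 x).law :=
    integrable_pSys_of_le hf lam 0 x (C := 2 * C ^ 2) (j := 2)
    (measurable_repE (measurable_pSys_w hf lam 0 x) fun r => hpm
      (fun M g => ∑ b ∈ Finset.range M, ∑ b' ∈ (Finset.range M).erase b,
        φ ⟪g b, cubeVec (N + 1) (r 0)⟫ * φ ⟪g b', cubeVec (N + 1) (r 0)⟫)
      fun M => Finset.measurable_sum _ fun b _ => Finset.measurable_sum _ fun b' _ =>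
        (hpat b _).mul (hpat b' _))
    fun ω => abs_repE_le (hw ω) fun r => by
      have h1 := hsq (Finset.range (cnt ω)) fun b => φ (pat ω b (r 0))
      have h2 : |∑ b ∈ Finset.range (cnt ω), φ (pat ω b (r 0)) ^ 2| ≤ C ^ 2 * ((ω.1.1 : ℝ) + 1) := by
        refine (Finset.abs_sum_le_sum_abs _ _).trans
          ((Finset.sum_le_sum fun b _ => (abs_pow _ 2).trans_le
            (pow_le_pow_left₀ (abs_nonneg _) (hC _) 2)).trans ?_)
        simp [cnt]; nlinarith
      have h3 := pow_le_pow_left₀ (abs_nonneg _) (b1 ω r) 2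
      rw [sq_abs] at h3
      have h4 : (1 : ℝ) ≤ (ω.1.1 : ℝ) + 1 := by simp
      rw [abs_le]
      obtain ⟨h5, h6⟩ := abs_le.1 h2
      constructor <;> nlinarith [sq_nonneg C, sq_nonneg (∑ b ∈ Finset.range (cnt ω), φ (pat ω b (r 0))),
        mul_le_mul_of_nonneg_left h4 (mul_nonneg (sq_nonneg C) (by positivity : (0:ℝ) ≤ (ω.1.1 : ℝ) + 1))]
  have key : ∀ ω, repE (w ω) (fun r : Fin 1 → Fin (N + 1) → Bool =>
      (ε * (∑ b ∈ Finset.range (cnt ω), φ (pat ω b (r 0))) - a) ^ 2) =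
      ε ^ 2 * (H2 ω + H3 ω) - 2 * a * ε * H1 ω + a ^ 2 := fun ω => by
    have e : (fun r : Fin 1 → Fin (N + 1) → Bool =>
        (ε * (∑ b ∈ Finset.range (cnt ω), φ (pat ω b (r 0))) - a) ^ 2) = fun r =>
        ε ^ 2 * (∑ b ∈ Finset.range (cnt ω), φ (pat ω b (r 0)) ^ 2 +
          ∑ b ∈ Finset.range (cnt ω), ∑ b' ∈ (Finset.range (cnt ω)).erase b,
            φ (pat ω b (r 0)) * φ (pat ω b' (r 0))) +
        ((-(2 * a * ε)) * (∑ b ∈ Finset.range (cnt ω), φ (pat ω b (r 0))) + a ^ 2) := by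
      funext r
      rw [← hsq]
      ring
    rw [e, repE_add, repE_const_mul, repE_add, repE_add, repE_const_mul, repE_const (hw ω)]
    ring
  refine (integral_congr_ae (Eventually.of_forall key)).trans (Eq.trans ?_
    (congrArg₂ (fun u v => ε ^ 2 * u - 2 * a * ε * v + a ^ 2)
      (congrArg₂ (· + ·) (pSys_avgRep hf lam 0 x _).symm (pSys_avgRep hf lam 0 x _).symm)
      (pSys_avgRep hf lam 0 x _).symm))
  show ∫ ω, ε ^ 2 * (H2 ω + H3 ω) - 2 * a * ε * H1 ω + a ^ 2 ∂(pSys hf N lam 0 x).law =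
    ε ^ 2 * ((∫ ω, H2 ω ∂(pSys hf N lam 0 x).law) + ∫ ω, H3 ω ∂(pSys hf N lam 0 x).law) -
      2 * a * ε * (∫ ω, H1 ω ∂(pSys hf N lam 0 x).law) + a ^ 2
  have j1 : Integrable (fun ω => ε ^ 2 * (H2 ω + H3 ω)) (pSys hf N lam 0 x).law :=
    (i2.add i3).const_mul _
  have j2 : Integrable (fun ω => 2 * a * ε * H1 ω) (pSys hf N lam 0 x).law := i1.const_mul _
  have j12 : Integrable (fun ω => ε ^ 2 * (H2 ω + H3 ω) - 2 * a * ε * H1 ω)
      (pSys hf N lam 0 x).law := j1.sub j2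
  rw [integral_add j12 (integrable_const _), integral_sub j1 j2, integral_const_mul,
    integral_const_mul, integral_add i2 i3]
  simp

/-- The truncation costs little in mean square. -/
lemma avgRep_drift_le (hf : Pot f B) (hs : Smf f) {t b : ℝ} (ht : 0 < t)
    (hb : ∀ y, |deriv f y| ≤ b) {lam : ℝ} (hl : 0 ≤ lam) (x : Fin P → ℝ) (ε a : ℝ) :
    (pSys hf N lam 0 x).avgRep 1 (fun ω r =>
      (ε * (∑ c ∈ Finset.range (cnt ω), driftF f (pat ω c (r 0))) - a) ^ 2) ≤
      2 * (pSys hf N lam 0 x).avgRep 1 (fun ω r =>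
      (ε * (∑ c ∈ Finset.range (cnt ω), driftT f t (pat ω c (r 0))) - a) ^ 2) +
        2 * ε ^ 2 * (Real.exp (2 * B) * (4 * b ^ 2 * t ^ 2 * ∫ y, y ^ 4 ∂gaussianReal 0 1) *
          (lam * (lam + 1))) := by
  set ψ := fun y : ℝ => 4 * b ^ 2 * t ^ 2 * y ^ 4 with hψ
  have h := pSys_sum_le hf N hl x 1 (ψ := ψ) (by fun_prop) (fun y => by simp only [hψ]; positivity)
    ((integrable_pow_gauss 4).const_mul _)
  obtain ⟨hi, hle⟩ := h
  rw [integral_count_sq hl] at hle
  simp only [hψ, integral_const_mul] at hle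
  refine le_trans ?_ (add_le_add le_rfl (mul_le_mul_of_nonneg_left hle (by positivity)))
  refine le_of_eq_of_le (pSys_avgRep hf lam 0 x _) (le_of_le_of_eq ?_
    (congrArg₂ (fun u v => 2 * u + 2 * ε ^ 2 * v) (pSys_avgRep hf lam 0 x _).symm
      (pSys_avgRep hf lam 0 x _).symm))
  set w : (pSys hf N lam 0 x).Ω → (Fin (N + 1) → Bool) → ℝ := (pSys hf N lam 0 x).w
  have hw : ∀ ω, ∀ σ, 0 < w ω σ := fun ω => ((pSys hf N lam 0 x).wt ω).pos
  have hφ := (bdD_driftT hs t).cont.measurable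
  obtain ⟨C, hC⟩ := (bdD_driftT hs t).bdd
  have hC0 : 0 ≤ C := (abs_nonneg _).trans (hC 0)
  have i1 : Integrable (fun ω => repE (w ω) fun r : Fin 1 → Fin (N + 1) → Bool =>
      (ε * (∑ c ∈ Finset.range (cnt ω), driftT f t (pat ω c (r 0))) - a) ^ 2)
      (pSys hf N lam 0 x).law := by
    refine integrable_pSys_of_le hf lam 0 x (C := (|ε| * C + |a|) ^ 2) (j := 2)
      (measurable_repE (measurable_pSys_w hf lam 0 x) fun r => ?_) fun ω => abs_repE_le (hw ω) fun r => ?_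
    · refine (Measurable.const_mul ?_ ε).sub_const a |>.pow_const 2
      exact (measurable_from_prod_countable_right (f := fun q : ℕ × (ℕ → Sp (N + 1)) =>
        ∑ c ∈ Finset.range (q.1 + 0), driftT f t ⟪q.2 c, cubeVec (N + 1) (r 0)⟫) fun M =>
          Finset.measurable_sum (Finset.range (M + 0)) fun c _ =>
            hφ.comp (Measurable.inner (measurable_pi_apply c) measurable_const)).comp measurable_fst
    · rw [abs_pow, ← mul_pow]
      refine pow_le_pow_left₀ (abs_nonneg _) ((abs_sub _ _).trans ?_) 2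
      rw [abs_mul]
      have h1 : |∑ c ∈ Finset.range (cnt ω), driftT f t (pat ω c (r 0))| ≤ C * (ω.1.1 : ℝ) := by
        refine (Finset.abs_sum_le_sum_abs _ _).trans ((Finset.sum_le_sum fun c _ => hC _).trans ?_)
        simp [cnt, mul_comm]
      nlinarith [mul_le_mul_of_nonneg_left h1 (abs_nonneg ε), abs_nonneg a, abs_nonneg ε,
        mul_nonneg (abs_nonneg ε) hC0, Nat.cast_nonneg (α := ℝ) ω.1.1]
  have i2 : Integrable (fun ω => repE (w ω) fun r : Fin 1 → Fin (N + 1) → Bool =>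
      (cnt ω : ℝ) ^ 1 * ∑ c ∈ Finset.range (cnt ω), 4 * b ^ 2 * t ^ 2 * pat ω c (r 0) ^ 4)
      (pSys hf N lam 0 x).law :=
    hi.congr (Eventually.of_forall fun ω => integral_pi_gibbs_cube ((pSys hf N lam 0 x).wt ω) _)
  rw [← integral_const_mul, ← integral_const_mul]
  refine le_of_le_of_eq ?_ (integral_add (i1.const_mul 2) (i2.const_mul (2 * ε ^ 2)))
  refine integral_mono_of_nonneg (Eventually.of_forall fun ω => repE_nonneg (hw ω) fun r => sq_nonneg _)
    ((i1.const_mul 2).add (i2.const_mul _)) (Eventually.of_forall fun ω => ?_)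
  refine le_of_le_of_eq ?_ ((repE_add _ _ _).trans
    (congrArg₂ (· + ·) (repE_const_mul _ _) (repE_const_mul _ _)))
  refine repE_mono (hw ω) fun r => ?_
  set T := ∑ c ∈ Finset.range (cnt ω), driftT f t (pat ω c (r 0))
  set F := ∑ c ∈ Finset.range (cnt ω), driftF f (pat ω c (r 0))
  have hd : (F - T) ^ 2 ≤
      (cnt ω : ℝ) ^ 1 * ∑ c ∈ Finset.range (cnt ω), 4 * b ^ 2 * t ^ 2 * pat ω c (r 0) ^ 4 := by
    simp only [F, T, ← Finset.sum_sub_distrib, pow_one]
    refine (sq_sum_le_card_mul_sum_sq (s := Finset.range (cnt ω))).trans ?_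
    rw [Finset.card_range]
    refine mul_le_mul_of_nonneg_left (Finset.sum_le_sum fun c _ => ?_) (Nat.cast_nonneg _)
    refine (sq_le_sq.2 ((abs_drift_sub_le ht hb _).trans (le_abs_self _))).trans_eq ?_
    ring
  calc (ε * F - a) ^ 2 = ((ε * T - a) + ε * (F - T)) ^ 2 := by ring
    _ ≤ 2 * (ε * T - a) ^ 2 + 2 * ε ^ 2 * (F - T) ^ 2 := by
        nlinarith [sq_nonneg ((ε * T - a) - ε * (F - T))]
    _ ≤ _ := add_le_add le_rfl (mul_le_mul_of_nonneg_left hd (by positivity))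

/-- The truncated mean is near pairing minus diagonal. -/
lemma abs_driftT_sub_le (hf : Pot f B) (hs : Smf f) {t b : ℝ} (ht : 0 < t)
    (hb : ∀ y, |deriv f y| ≤ b) {Ns : ℕ → ℕ} (Ps : ℕ → ℕ) (xs : ∀ j, Fin (Ps j) → ℝ) (ls : ℕ → ℝ)
    (h : Conv (fun j => pSys hf (Ns j) (ls j) 0 (xs j)) A) :
    |ratioArr A (Real.exp B) (expW f) (fun _ : Mat 1 => (1 : ℝ)) (fun _ => driftT f t) -
      driftVal f B A| ≤ 2 * b * t * Real.exp (2 * B) := by
  have hW := weight_expW_drift hf hs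
  have hm := measurable_expW hf
  have hT := bdD_driftT hs t
  obtain ⟨a2, ha2⟩ := hs.bdD_deriv₂.bdd
  obtain ⟨C, hC⟩ := hT.bdd
  have hb0 : 0 ≤ b := (abs_nonneg _).trans (hb 0)
  have l1 := h.insert hW hm (Real.exp_pos (-B)) (expW_mem hf) (Φ := fun _ : Mat 1 => (1 : ℝ))
    continuous_const ⟨1, fun _ => by simp⟩ (fun _ => driftT f t) (fun _ => hT.cont) fun _ => hT.bdd
  have l2 := h.insert hW hm (Real.exp_pos (-B)) (expW_mem hf) continuous_clipR ⟨1, abs_clipR_le⟩
    ![deriv f, deriv f] (fun l => by fin_cases l <;> simp [hs.bdD_deriv.cont])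
    (fun l => by fin_cases l <;> simp [hs.bdD_deriv.bdd])
  have l3 := h.insert hW hm (Real.exp_pos (-B)) (expW_mem hf) (Φ := fun _ : Mat 1 => (1 : ℝ))
    continuous_const ⟨1, fun _ => by simp⟩ (fun _ => fun y => deriv f y ^ 2)
    (fun _ => hs.bdD_deriv.sq.cont) fun _ => hs.bdD_deriv.sq.bdd
  refine le_of_tendsto (l1.sub (l2.sub l3)).abs (Eventually.of_forall fun j => ?_)
  set v := cubeVec (Ns j + 1)
  have e1 := tiltF_avgRep_eq (N := Ns j) hf (ls j) (xs j) (n := 1) fun g r => driftT f t ⟪g, v (r 0)⟫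
  have e2 := tiltF_avgRep_eq (N := Ns j) hf (ls j) (xs j) (n := 2) fun g r =>
    ⟪v (r 0), v (r 1)⟫ * (deriv f ⟪g, v (r 0)⟫ * deriv f ⟪g, v (r 1)⟫)
  have e3 := tiltF_avgRep_eq (N := Ns j) hf (ls j) (xs j) (n := 1) fun g r => deriv f ⟪g, v (r 0)⟫ ^ 2
  have hc : ∀ r : Fin 2 → Fin (Ns j + 1) → Bool,
      clipR ((pSys hf (Ns j) (ls j) 0 (xs j)).gram r) = ⟪v (r 0), v (r 1)⟫ := fun r =>
    clipR_eq ((pSys hf (Ns j) (ls j) 0 (xs j)).abs_gram_le r 0 1)
  have e2' : ((pSys hf (Ns j) (ls j) 0 (xs j)).tiltF hf).avgRep 2 (fun p r =>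
      clipR ((pSys hf (Ns j) (ls j) 0 (xs j)).gram r) *
        (deriv f ⟪p.2, v (r 0)⟫ * deriv f ⟪p.2, v (r 1)⟫)) = _ :=
    (congrArg _ (funext fun p => funext fun r => congrArg (· * _) (hc r))).trans e2
  simp only [one_mul, Fin.prod_univ_one, Fin.prod_univ_two, Matrix.cons_val_zero, Matrix.cons_val_one]
  refine le_of_eq_of_le (congrArg abs (congrArg₂ (· - ·) e1 (congrArg₂ (· - ·) e2' e3))) ?_
  rw [← tiltE_driftF hf hs (ls j) (xs j)]
  have hsplit := tiltE_add hf (ls j) (xs j) (N := Ns j)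
    (Θ := fun g (r : Fin 1 → Fin (Ns j + 1) → Bool) => driftT f t ⟪g, v (r 0)⟫) (C := C)
    (fun r => hT.cont.measurable.comp (measurable_id.inner measurable_const))
    (fun g r => (hC _).trans (le_mul_of_one_le_right ((abs_nonneg _).trans (hC 0))
      (by nlinarith [norm_nonneg g])))
    (Θ' := fun g r => -1 * driftF f ⟪g, v (r 0)⟫) (C' := a2 + b)
    (fun r => by
      unfold driftF
      exact (((measurable_deriv _).sub (measurable_id.mul (measurable_deriv f))).comp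
        (measurable_id.inner measurable_const)).const_mul _)
    (fun g r => by
      rw [abs_mul, abs_neg, abs_one, one_mul, driftF]
      refine (abs_sub _ _).trans ?_
      rw [abs_mul]
      refine (add_le_add (ha2 _) (mul_le_mul (abs_inner_cube_le g _) (hb _) (abs_nonneg _)
        (norm_nonneg _))).trans ?_
      have h1 : 1 ≤ (1 + ‖g‖) ^ 2 := by nlinarith [norm_nonneg g]
      have h2 : ‖g‖ ≤ (1 + ‖g‖) ^ 2 := by nlinarith [norm_nonneg g]
      nlinarith [mul_le_mul_of_nonneg_left h1 ((abs_nonneg _).trans (ha2 0)),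
        mul_le_mul_of_nonneg_left h2 hb0])
  rw [tiltE_const_mul] at hsplit
  rw [sub_eq_add_neg, ← neg_one_mul, ← hsplit]
  refine (abs_tiltE_le_mul hf (ls j) (xs j)
    (Θ' := fun g (r : Fin 1 → Fin (Ns j + 1) → Bool) => ⟪g, v (r 0)⟫ ^ 2) (a := 2 * b * t) (C' := 1)
    (fun g r => ?_) (fun r => (measurable_id.inner measurable_const).pow_const 2) fun g r => ?_).trans
      (mul_le_mul_of_nonneg_left (tiltE_sq_le hf (ls j) (xs j)) (by positivity))
  · rw [neg_one_mul, ← sub_eq_add_neg, abs_sub_comm]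
    exact abs_drift_sub_le ht hb _
  · rw [abs_pow, one_mul]
    exact pow_le_pow_left₀ (abs_nonneg _) ((abs_inner_cube_le g _).trans (by linarith [norm_nonneg g])) 2

/-- The second-order terms concentrate at the difference of pairing and diagonal conjugate. -/
theorem drift_limit (hf : Pot f B) (hs : Smf f) {α : ℝ} (hα : 0 < α) {Ns : ℕ → ℕ}
    (hN : Tendsto Ns atTop atTop) (Ps : ℕ → ℕ) (xs : ∀ j, Fin (Ps j) → ℝ)
    (h : Conv (fun j => pSys hf (Ns j) (α * ((Ns j : ℝ) + 2)) 0 (xs j)) A)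
    (D : ∀ K, Discr A (K + 2)) {η : ℝ} (hη : 0 < η) :
    ∀ᶠ K in atTop, ∀ᶠ j in atTop,
      (pSys hf (Ns j) (α * ((Ns j : ℝ) + 2)) 0 (xs j)).avgRep 1 (fun ω r =>
        ((1 / ((Ns j : ℝ) + 2)) * (∑ a ∈ Finset.range (cnt ω),
            (deriv (deriv f) (pat ω a (r 0)) - pat ω a (r 0) * deriv f (pat ω a (r 0)))) -
          α * ((D K).pairing f - (D K).rdiag f)) ^ 2) ≤ η := by
  obtain ⟨b, hb⟩ := hs.bdD_deriv.bdd
  have hb0 : 0 ≤ b := (abs_nonneg _).trans (hb 0)
  set K4 := ∫ y, y ^ 4 ∂gaussianReal 0 1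
  set E := Real.exp (2 * B)
  set c1 := 2 * E * (4 * b ^ 2 * K4) * (α + α ^ 2) with hc1
  set c2 := 2 * α ^ 2 * (2 * (2 * b * E) ^ 2) with hc2
  obtain ⟨t, ht, htb⟩ : ∃ t, 0 < t ∧ (c1 + c2) * t ^ 2 < η / 2 := by
    have h : Tendsto (fun t : ℝ => (c1 + c2) * t ^ 2) (𝓝[>] 0) (𝓝 0) := by
      have : Tendsto (fun t : ℝ => (c1 + c2) * t ^ 2) (𝓝 0) (𝓝 ((c1 + c2) * 0 ^ 2)) :=
        (by fun_prop : Continuous fun t : ℝ => (c1 + c2) * t ^ 2).tendsto 0
      simpa using this.mono_left nhdsWithin_le_nhds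
    exact ((eventually_mem_nhdsWithin : ∀ᶠ s in 𝓝[>] (0 : ℝ), s ∈ Set.Ioi 0).and
      (h.eventually (gt_mem_nhds (half_pos hη)))).exists
  set m := ratioArr A (Real.exp B) (expW f) (fun _ : Mat 1 => (1 : ℝ)) (fun _ => driftT f t)
  set l := driftVal f B A
  have hml := abs_driftT_sub_le hf hs ht hb Ps xs (fun j => α * ((Ns j : ℝ) + 2)) h
  obtain ⟨C, hC⟩ := (bdD_driftT hs t).bdd
  have hK : Tendsto (fun K => 4 * α ^ 2 * ((D K).pairing f - (D K).rdiag f - l) ^ 2) atTop (𝓝 0) := by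
    simpa [l] using (((tendsto_discr_drift hf hs D).sub_const l).pow 2).const_mul (4 * α ^ 2)
  filter_upwards [hK.eventually (gt_mem_nhds (half_pos hη))] with K hKb
  set L := (D K).pairing f - (D K).rdiag f
  set lam := fun j => α * ((Ns j : ℝ) + 2)
  set ε := fun j => 1 / ((Ns j : ℝ) + 2)
  have hle : ∀ j, ε j * lam j = α := fun j => by
    simp only [ε, lam]
    field_simp
  have hl : ∀ j, 0 ≤ lam j := fun j => mul_nonneg hα.le (by positivity)
  have hW := weight_expW_drift hf hs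
  have hm := measurable_expW hf
  have l1 := h.insert hW hm (Real.exp_pos (-B)) (expW_mem hf) (Φ := fun _ : Mat 1 => (1 : ℝ))
    continuous_const ⟨1, fun _ => by simp⟩ (fun _ => driftT f t) (fun _ => (bdD_driftT hs t).cont)
    fun _ => (bdD_driftT hs t).bdd
  simp only [one_mul, Fin.prod_univ_one] at l1
  have l2 := h.insert_two hW hm (Real.exp_pos (-B)) (expW_mem hf) (bdD_driftT hs t) (bdD_driftT hs t)
  have hε : Tendsto ε atTop (𝓝 0) := by
    have : Tendsto (fun j => ((Ns j : ℝ) + 2)) atTop atTop :=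
      tendsto_atTop_add_const_right _ _ (tendsto_natCast_atTop_atTop.comp hN)
    simpa [ε, one_div, Function.comp_def] using tendsto_inv_atTop_zero.comp this
  set S := fun j => pSys hf (Ns j) (lam j) 0 (xs j)
  have hdiag : Tendsto (fun j => α * ε j * ((S j).tiltF hf).avgRep 1
      (fun p r => driftT f t ⟪p.2, cubeVec (Ns j + 1) (r 0)⟫ ^ 2)) atTop (𝓝 0) := by
    refine squeeze_zero_norm (a := fun j => α * ε j * C ^ 2) (fun j => ?_)
      (by simpa using (hε.const_mul α).mul_const (C ^ 2))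
    rw [Real.norm_eq_abs, abs_mul, abs_of_nonneg (mul_nonneg hα.le (by positivity : (0:ℝ) ≤ ε j))]
    refine mul_le_mul_of_nonneg_left (abs_avgRep_le _ fun p r => ?_) (mul_nonneg hα.le (by positivity))
    rw [abs_pow]
    exact pow_le_pow_left₀ (abs_nonneg _) (hC _) 2
  have htrunc : Tendsto (fun j => (S j).avgRep 1 (fun ω r =>
      (ε j * (∑ a ∈ Finset.range (cnt ω), driftT f t (pat ω a (r 0))) - α * L) ^ 2)) atTop
      (𝓝 ((α * L - α * m) ^ 2)) := by
    have h2 := ((hdiag.add (l2.const_mul (α ^ 2))).sub (l1.const_mul (2 * (α * L) * α))).add_const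
      ((α * L) ^ 2)
    rw [show (α * L - α * m) ^ 2 = 0 + α ^ 2 * (m * m) - 2 * (α * L) * α * m + (α * L) ^ 2 by ring]
    refine h2.congr fun j => ?_
    have alg : ∀ d u w : ℝ, α * ε j * d + α ^ 2 * u - 2 * (α * L) * α * w + (α * L) ^ 2 =
        ε j ^ 2 * (lam j * d + lam j ^ 2 * u) - 2 * (α * L) * ε j * (lam j * w) + (α * L) ^ 2 :=
      fun d u w => by
        linear_combination (2 * (α * L) * w - ε j * d - (α + ε j * lam j) * u) * hle j
    exact (alg _ _ _).trans (avgRep_drift_sq hf hs t (hl j) (xs j) (ε j) (α * L)).symm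
  have hfin : 2 * (α * L - α * m) ^ 2 + c1 * t ^ 2 < η := by
    have h3 : (m - l) ^ 2 ≤ (2 * b * t * E) ^ 2 :=
      sq_le_sq.2 (hml.trans (le_abs_self _))
    have h4 := sq_nonneg ((L - l) + (m - l))
    have h5 : (α * L - α * m) ^ 2 ≤ 2 * α ^ 2 * (L - l) ^ 2 + 2 * α ^ 2 * (2 * b * t * E) ^ 2 := by
      have := mul_le_mul_of_nonneg_left h3 (sq_nonneg α)
      nlinarith [mul_nonneg (sq_nonneg α) h4]
    have h6 : c2 * t ^ 2 = 2 * (2 * α ^ 2 * (2 * b * t * E) ^ 2) := by rw [hc2]; ring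
    nlinarith
  filter_upwards [((htrunc.const_mul 2).add_const (c1 * t ^ 2)).eventually (gt_mem_nhds hfin)] with j hj
  refine le_of_lt (lt_of_le_of_lt ?_ hj)
  refine (avgRep_drift_le hf hs ht hb (hl j) (xs j) (ε j) (α * L)).trans (add_le_add le_rfl ?_)
  have e := hle j
  have h1 : ε j ≤ 1 := by
    simp only [ε]
    rw [div_le_one (by positivity)]
    linarith [Nat.cast_nonneg (α := ℝ) (Ns j)]
  have h2 : ε j ^ 2 * (lam j * (lam j + 1)) ≤ α + α ^ 2 := by
    have : ε j ^ 2 * (lam j * (lam j + 1)) = (ε j * lam j) ^ 2 + ε j * (ε j * lam j) := by ring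
    rw [this, e]
    nlinarith
  have hK4 : 0 ≤ K4 := integral_nonneg fun y => by positivity
  calc 2 * ε j ^ 2 * (E * (4 * b ^ 2 * t ^ 2 * K4) * (lam j * (lam j + 1)))
      = 2 * E * (4 * b ^ 2 * K4) * t ^ 2 * (ε j ^ 2 * (lam j * (lam j + 1))) := by ring
    _ ≤ 2 * E * (4 * b ^ 2 * K4) * t ^ 2 * (α + α ^ 2) := mul_le_mul_of_nonneg_left h2 (by positivity)
    _ = c1 * t ^ 2 := by rw [hc1]; ring

end Vale.Agent.P157.Low
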