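import Vale.Agent.P157.Low.Defs
import Vale.Agent.P157.Low.Stein
import Vale.Agent.P157.RSB.Average

/-!
The nested values of the levels as the nested log-moment functionals on the line, and Parisi's
recursions in the same form.
-/

namespace Vale.Agent.P157.Low

open MeasureTheory ProbabilityTheory

/-- The field of variance `d i` at level `i`. -/
noncomputable def sigd {ι : Type} (d : ι → ℝ) (i : ι) (z : ℝ) : ℝ := Real.sqrt (d i) * z

/-- The levels above the root, from the outermost one. -/
def lv (r : ℕ) : List (Fin (r + 1)) := List.ofFn Fin.succ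

variable {r : ℕ}

lemma length_lv (r : ℕ) : (lv r).length = r := List.length_ofFn

lemma mem_lv {i : Fin (r + 1)} : i ∈ lv r ↔ i ≠ 0 := by
  simp only [lv, List.mem_ofFn]
  exact ⟨fun ⟨t, ht⟩ => ht ▸ Fin.succ_ne_zero t, fun h => ⟨i.pred h, Fin.succ_pred i h⟩⟩

lemma drop_lv {k : ℕ} (hk : k + 1 ≤ r) :
    (lv r).drop (r - (k + 1)) = (⟨r - k, by omega⟩ : Fin (r + 1)) :: (lv r).drop (r - k) := by
  rw [List.drop_eq_getElem_cons (by rw [length_lv]; omega)]
  congr 1
  · simp only [lv, List.getElem_ofFn]
    ext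
    simp only [Fin.val_succ]
    omega
  · congr 1
    omega

lemma shift_sigd {ι : Type} (d : ι → ℝ) (i : ι) : RSB.Shift (gaussianReal 0 1) (sigd d i) := by
  have hm : Measurable (sigd d i) := by unfold sigd; fun_prop
  refine ⟨hm, fun c => ?_⟩
  refine Integrable.mono' ((integrable_exp_mul_gaussianReal (c * Real.sqrt (d i))).add
    (integrable_exp_mul_gaussianReal (-(c * Real.sqrt (d i)))))
    (hm.norm.const_mul c).exp.aestronglyMeasurable (Filter.Eventually.of_forall fun z => ?_)
  have e : c * |Real.sqrt (d i) * z| = (c * Real.sqrt (d i)) * |z| := by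
    rw [abs_mul, abs_of_nonneg (Real.sqrt_nonneg _)]; ring
  rw [Real.norm_eq_abs, Real.abs_exp, sigd, Real.norm_eq_abs, e, Pi.add_apply]
  rcases abs_cases z with ⟨h, _⟩ | ⟨h, _⟩ <;> rw [h]
  · linarith [Real.exp_pos (-(c * Real.sqrt (d i)) * z)]
  · rw [mul_neg, ← neg_mul]
    linarith [Real.exp_pos ((c * Real.sqrt (d i)) * z)]

lemma good_lv {m : Fin (r + 1) → ℝ} (hm : ∀ j, j ≠ 0 → 0 < m j) (d : Fin (r + 1) → ℝ) :
    RSB.Good (gaussianReal 0 1) m (sigd d) (lv r) :=
  fun i hi => ⟨hm i (mem_lv.1 hi), shift_sigd d i⟩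

lemma good_drop {ι : Type} {m : ι → ℝ} {σ : ι → ℝ → ℝ} {l : List ι} (h : RSB.Good (gaussianReal 0 1) m σ l) (n : ℕ) :
    RSB.Good (gaussianReal 0 1) m σ (l.drop n) :=
  fun i hi => h i (List.mem_of_mem_drop hi)

section values

variable {m d : Fin (r + 1) → ℝ} {u θ : ℝ → ℝ}

lemma potUp_eq (hm : ∀ j, j ≠ 0 → m j ≠ 0) : ∀ k, k ≤ r →
    potUp m d u k = fun y => RSB.casc (gaussianReal 0 1) m (sigd d) ((lv r).drop (r - k)) u y
  | 0, _ => by
    funext y
    rw [potUp, Nat.sub_zero, List.drop_of_length_le (length_lv r).le]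
    rfl
  | k + 1, hk => by
    have hne : (⟨r - k, by omega⟩ : Fin (r + 1)) ≠ 0 := by
      rw [ne_eq, Fin.ext_iff, Fin.val_zero]
      show ¬(r - k = 0)
      omega
    simp only [potUp, show k ≤ r by omega, dite_true, hm _ hne, if_false, drop_lv hk, RSB.casc,
      RSB.lexp, heat, sigd, potUp_eq hm k (by omega)]

lemma insUp_eq (hm : ∀ j, j ≠ 0 → m j ≠ 0) : ∀ k, k ≤ r →
    insUp m d u θ k = fun y => RSB.cmean (gaussianReal 0 1) m (sigd d) ((lv r).drop (r - k)) u θ y
  | 0, _ => by
    funext y
    rw [insUp, Nat.sub_zero, List.drop_of_length_le (length_lv r).le]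
    rfl
  | k + 1, hk => by
    simp only [insUp, show k ≤ r by omega, dite_true, drop_lv hk, RSB.cmean, RSB.tilt,
      potUp_eq (u := u) (d := d) hm k (by omega), insUp_eq hm k (by omega), heat, sigd,
      smul_eq_mul, inv_mul_eq_div]

lemma heat_const (c τ y : ℝ) : heat (fun _ => c) τ y = c := by
  simp [heat]

lemma potUp_root (hm : ∀ j, j ≠ 0 → m j ≠ 0) (h0 : m 0 = 0) :
    potUp m d u (r + 1) 0 = ∫ z, RSB.casc (gaussianReal 0 1) m (sigd d) (lv r) u (Real.sqrt (d 0) * z) ∂gaussianReal 0 1 := by
  simp only [potUp, le_refl, dite_true, potUp_eq (u := u) (d := d) hm r le_rfl, Nat.sub_self, List.drop_zero,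
    Fin.zero_eta]
  simp only [h0, if_true, heat, zero_add]

lemma insUp_root (hm : ∀ j, j ≠ 0 → m j ≠ 0) (h0 : m 0 = 0) :
    insUp m d u θ (r + 1) 0 = ∫ z, RSB.cmean (gaussianReal 0 1) m (sigd d) (lv r) u θ (Real.sqrt (d 0) * z) ∂gaussianReal 0 1 := by
  simp only [insUp, le_refl, dite_true, insUp_eq (u := u) (θ := θ) (d := d) hm r le_rfl, Nat.sub_self,
    List.drop_zero, Fin.zero_eta]
  simp [h0, heat]

lemma pairRoot_eq (hm : ∀ j, j ≠ 0 → m j ≠ 0) (h0 : m 0 = 0) (j : Fin (r + 1)) :
    pairRoot m d u θ θ j =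
      ∫ z, RSB.csq (gaussianReal 0 1) m (sigd d) (lv r) u θ j (Real.sqrt (d 0) * z) ∂gaussianReal 0 1 := by
  obtain ⟨j, hj⟩ := j
  set m' : Fin (j + 1) → ℝ := fun i => m ⟨i, by omega⟩
  set d' : Fin (j + 1) → ℝ := fun i => d ⟨i, by omega⟩
  set U := potUp m d u (r - j) with hU
  set η : ℝ → ℝ := fun y => insUp m d u θ (r - j) y * insUp m d u θ (r - j) y with hη
  have h1 : ∀ k, k ≤ j → potUp m' d' U k = potUp m d u (r - j + k) ∧
      insUp m' d' U η k = fun y => RSB.csq (gaussianReal 0 1) m (sigd d) ((lv r).drop (j - k)) u θ k y := by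
    intro k
    induction k with
    | zero =>
      intro _
      refine ⟨rfl, funext fun y => ?_⟩
      simp only [insUp, hη, insUp_eq (u := u) (θ := θ) (d := d) hm (r - j) (by omega),
        show r - (r - j) = j by omega, Nat.sub_zero, RSB.csq_zero, Real.norm_eq_abs, sq_abs]
      exact (sq _).symm
    | succ k ih =>
      intro hk
      obtain ⟨ihP, ihI⟩ := ih (by omega)
      have eidx : r - (r - j + k) = j - k := by omega
      have hne : m' ⟨j - k, by omega⟩ ≠ 0 := hm _ (by
        rw [ne_eq, Fin.ext_iff, Fin.val_zero]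
        show ¬(j - k = 0)
        omega)
      constructor
      · rw [← Nat.add_assoc]
        funext y
        simp only [potUp, show k ≤ j by omega, show r - j + k ≤ r by omega, dite_true, hne, if_false, ihP]
        simp only [m', d', eidx] at hne ⊢
        simp only [hne, if_false]
      · funext y
        have hdrop : (lv r).drop (j - (k + 1)) =
            (⟨j - k, by omega⟩ : Fin (r + 1)) :: (lv r).drop (j - k) := by
          have h := drop_lv (r := r) (k := r - (j - k)) (by omega)
          simp only [show r - (r - (j - k) + 1) = j - (k + 1) by omega,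
            show r - (r - (j - k)) = j - k by omega] at h
          exact h
        simp only [insUp, show k ≤ j by omega, dite_true, ihP, ihI, hdrop, RSB.csq, RSB.tilt,
          potUp_eq (u := u) (d := d) hm (r - j + k) (by omega), eidx, heat, sigd, m', d',
          smul_eq_mul, inv_mul_eq_div]
  obtain ⟨-, hI⟩ := h1 j le_rfl
  show insUp m' d' U η (j + 1) 0 = _
  have e0 : m' 0 = 0 := h0
  simp only [insUp, le_refl, dite_true, hI, Nat.sub_self, List.drop_zero, Fin.zero_eta]
  simp [e0, heat, d']

end values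

/-! ### Parisi's recursions -/

section rsb

variable {ι : Type} {f : ℝ → ℝ} {s : ℝ} {m d : ι → ℝ}

lemma rsbPot_eq : ∀ (l : List ι) (y : ℝ), rsbPot f (l.map fun i => (m i, d i)) s y =
    RSB.casc (gaussianReal 0 1) m (sigd d) l (rsbPot f [] s) y
  | [], _ => rfl
  | i :: l, y => by simp only [List.map_cons, rsbPot, RSB.casc, RSB.lexp, rsbPot_eq l, sigd]

lemma rsbSlope_eq : ∀ (l : List ι) (y : ℝ), rsbSlope f (l.map fun i => (m i, d i)) s y =
    RSB.cmean (gaussianReal 0 1) m (sigd d) l (rsbPot f [] s) (rsbSlope f [] s) y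
  | [], _ => rfl
  | i :: l, y => by
    simp only [List.map_cons, rsbSlope, RSB.cmean, RSB.tilt, rsbPot_eq l, rsbSlope_eq l, sigd,
      smul_eq_mul, inv_mul_eq_div]

lemma rsbSq_eq : ∀ (l : List ι) (j : ℕ) (y : ℝ), rsbSq f (l.map fun i => (m i, d i)) s j y =
    RSB.csq (gaussianReal 0 1) m (sigd d) l (rsbPot f [] s) (rsbSlope f [] s) j y
  | l, 0, y => by
    rw [RSB.csq_zero, Real.norm_eq_abs, sq_abs, ← rsbSlope_eq]
    simp only [rsbSq]
  | [], _ + 1, _ => rfl
  | i :: l, j + 1, y => by
    simp only [List.map_cons, rsbSq, RSB.csq, RSB.tilt, rsbPot_eq l, rsbSq_eq l, sigd,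
      smul_eq_mul, inv_mul_eq_div]

lemma rsbSpin_eq : ∀ (l : List ι) (R : ℕ → ℝ),
    (∀ (t : ℕ) (ht : t < l.length), d (l[t]'ht) = R (t + 1) - R t) → ∀ (dl : ι → ℝ) (x : ℝ),
      rsbSpin (l.map fun i => (m i, dl i)) R x =
        RSB.casc (gaussianReal 0 1) m (sigd d) l (fun y => Real.log (Real.cosh y)) x
  | [], _, _, _, _ => rfl
  | i :: l, R, h, dl, x => by
    have h0 := h 0 (by simp)
    simp only [List.getElem_cons_zero, zero_add] at h0
    have ih := rsbSpin_eq l (fun j => R (j + 1))
      (fun t ht => by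
        have h' := h (t + 1) (by simpa using ht)
        rwa [List.getElem_cons_succ] at h') dl
    simp only [List.map_cons, rsbSpin, RSB.casc, RSB.lexp, ih, sigd, h0]

end rsb

/-! ### Gaussian shifts -/

/-- An exponential factor shifts a standard Gaussian average. -/
lemma gauss_tilt (F : ℝ → ℝ) (a : ℝ) :
    ∫ z, Real.exp (a * z) * F z ∂gaussianReal 0 1 = Real.exp (a ^ 2 / 2) * ∫ z, F (z + a) ∂gaussianReal 0 1 := by
  rw [integral_gaussianReal_eq_integral_smul one_ne_zero, integral_gaussianReal_eq_integral_smul one_ne_zero,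
    ← integral_const_mul, ← integral_add_right_eq_self _ a]
  refine integral_congr_ae (Filter.Eventually.of_forall fun z => ?_)
  have e : Real.exp (-(z + a) ^ 2 / 2) * Real.exp (a * (z + a)) =
      Real.exp (a ^ 2 / 2) * Real.exp (-z ^ 2 / 2) := by
    rw [← Real.exp_add, ← Real.exp_add]; ring_nf
  simp only [gaussianPDFReal_def, sub_zero, NNReal.coe_one, mul_one, smul_eq_mul]
  linear_combination ((√(2 * Real.pi))⁻¹ * F (z + a)) * e

lemma integral_exp_gauss (a : ℝ) : ∫ z, Real.exp (a * z) ∂gaussianReal 0 1 = Real.exp (a ^ 2 / 2) := by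
  simpa using gauss_tilt (fun _ => 1) a

lemma integral_cosh_gauss (c y : ℝ) {s : ℝ} (hs : 0 ≤ s) :
    ∫ z, Real.cosh (c * (y + Real.sqrt s * z)) ∂gaussianReal 0 1 = Real.exp (c ^ 2 * s / 2) * Real.cosh (c * y) := by
  have e : ∀ z, Real.cosh (c * (y + Real.sqrt s * z)) =
      Real.exp (c * y) / 2 * Real.exp ((c * Real.sqrt s) * z) +
        Real.exp (-(c * y)) / 2 * Real.exp ((-(c * Real.sqrt s)) * z) := fun z => by
    rw [Real.cosh_eq, div_mul_eq_mul_div, div_mul_eq_mul_div, ← Real.exp_add, ← Real.exp_add, ← add_div]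
    ring_nf
  simp only [e]
  rw [integral_add ((integrable_exp_mul_gaussianReal _).const_mul _)
    ((integrable_exp_mul_gaussianReal _).const_mul _), integral_const_mul, integral_const_mul,
    integral_exp_gauss, integral_exp_gauss, neg_sq, mul_pow, Real.sq_sqrt hs, Real.cosh_eq]
  ring

lemma lip_integrable {G : ℝ → ℝ} {K : ℝ} (hG : RSB.Lip K G) (x c : ℝ) :
    Integrable (fun z => G (x + c * z)) (gaussianReal 0 1) := by
  refine Integrable.mono' (g := fun z => |G x| + K * |c| * |z|)
    ((integrable_const _).add ((IsGaussian.integrable_id (μ := (gaussianReal 0 1))).abs.const_mul _))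
    (hG.meas.comp (by fun_prop)).aestronglyMeasurable (Filter.Eventually.of_forall fun z => ?_)
  rw [Real.norm_eq_abs]
  have h := hG.lip x (c * z)
  rw [Real.norm_eq_abs, abs_mul, ← mul_assoc] at h
  linarith [abs_sub_abs_le_abs_sub (G (x + c * z)) (G x)]

/-- A function with bounded derivative is Lipschitz. -/
lemma lip_of_hasDerivAt {G G' : ℝ → ℝ} (h : ∀ x, HasDerivAt G (G' x) x) {K : ℝ}
    (hb : ∀ x, |G' x| ≤ K) : RSB.Lip K G := by
  have hd : Differentiable ℝ G := fun x => (h x).differentiableAt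
  refine ⟨hd.continuous.measurable, (abs_nonneg _).trans (hb 0), fun x y => ?_⟩
  have h1 := Convex.norm_image_sub_le_of_norm_hasDerivWithin_le (fun z _ => (h z).hasDerivWithinAt)
    (fun z _ => (Real.norm_eq_abs _).le.trans (hb z)) convex_univ (Set.mem_univ x) (Set.mem_univ (x + y))
  simpa [Real.norm_eq_abs] using h1

/-- One Gaussian level of exponent one. -/
lemma lip_logHeat {G : ℝ → ℝ} {K : ℝ} (hG : RSB.Lip K G) (s : ℝ) :
    RSB.Lip K fun y => RSB.lexp (gaussianReal 0 1) 1 fun z => G (y + Real.sqrt s * z) :=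
  RSB.Lip.casc (m := fun _ : Unit => (1 : ℝ)) (σ := sigd fun _ => s) (ls := [()])
    (fun _ _ => ⟨one_pos, shift_sigd _ _⟩) hG

/-! ### Comparisons of the nested values -/

section compare

variable {ι : Type} {m : ι → ℝ} {σ : ι → ℝ → ℝ} {K : ℝ} {G F F' : ℝ → ℝ}

lemma csq_length : ∀ (l : List ι) (x : ℝ), RSB.csq (gaussianReal 0 1) m σ l G F l.length x =
    RSB.cmean (gaussianReal 0 1) m σ l G (fun y => F y ^ 2) x
  | [], x => by simp [RSB.csq, RSB.cmean]
  | i :: l, x => by simp only [List.length_cons, RSB.csq, RSB.cmean, csq_length l]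

lemma cmean_mono {C : ℝ} (hG : RSB.Lip K G) (hF : Measurable F) (hF' : Measurable F')
    (hC : ∀ x, |F x| ≤ C) (hC' : ∀ x, |F' x| ≤ C) (hle : ∀ x, F x ≤ F' x) :
    ∀ {l : List ι}, RSB.Good (gaussianReal 0 1) m σ l → ∀ x,
      RSB.cmean (gaussianReal 0 1) m σ l G F x ≤ RSB.cmean (gaussianReal 0 1) m σ l G F' x
  | [], _, x => hle x
  | i :: l, h, x => by
    have hsh : Measurable fun z => x + σ i z := (RSB.good_cons.1 h).1.2.meas.const_add x
    have hgl := (RSB.good_cons.1 h).2
    have hint : ∀ H : ℝ → ℝ, Measurable H → (∀ y, |H y| ≤ C) →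
        Integrable (fun z => Real.exp (m i * RSB.casc (gaussianReal 0 1) m σ l G (x + σ i z)) *
          RSB.cmean (gaussianReal 0 1) m σ l G H (x + σ i z)) (gaussianReal 0 1) := fun H hH hb => by
      simpa only [smul_eq_mul, Function.comp_apply] using (RSB.casc_wgt h hG x).integrable_smul
        ((RSB.measurable_cmean hG hH hgl).comp hsh).aestronglyMeasurable
        fun z => RSB.norm_cmean_le hG (fun y => (Real.norm_eq_abs _).le.trans (hb y)) hgl _
    exact RSB.tilt_mono (RSB.casc_wgt h hG x) (hint F hF hC) (hint F' hF' hC')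
      fun z => cmean_mono hG hF hF' hC hC' hle hgl _

/-- An exponential perturbation grows at most exponentially in the variance along the levels. -/
lemma casc_perturb {d : ι → ℝ} {G' : ℝ → ℝ} (hG : RSB.Lip 1 G) (hG' : RSB.Lip 1 G') {A : ℝ} (hA : 0 ≤ A)
    (hle : ∀ x, G x - A * Real.cosh (2 * x) ≤ G' x) :
    ∀ {l : List ι}, RSB.Good (gaussianReal 0 1) m (sigd d) l → (∀ i ∈ l, m i ≤ 1 ∧ 0 ≤ d i) → ∀ x,
      RSB.casc (gaussianReal 0 1) m (sigd d) l G x -
          A * Real.exp (4 * (l.map d).sum) * Real.cosh (2 * x) ≤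
        RSB.casc (gaussianReal 0 1) m (sigd d) l G' x
  | [], _, _, x => by simpa [RSB.casc] using hle x
  | i :: l, h, hb, x => by
    obtain ⟨⟨hm, hs⟩, hgl⟩ := RSB.good_cons.1 h
    obtain ⟨hm1, hd⟩ := hb i (List.mem_cons_self ..)
    have ih := casc_perturb hG hG' hA hle hgl fun j hj => hb j (List.mem_cons_of_mem _ hj)
    set U := RSB.casc (gaussianReal 0 1) m (sigd d) l G with hU
    set V := RSB.casc (gaussianReal 0 1) m (sigd d) l G' with hV
    have hUl : RSB.Lip 1 U := hG.casc hgl
    have wV := RSB.casc_wgt h hG' x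
    have wU := RSB.casc_wgt h hG x
    set a := Real.sqrt (d i) with ha
    set K := A * Real.exp (4 * (l.map d).sum) with hK
    have hK0 : 0 ≤ K := by positivity
    set w : ℝ → ℝ := fun z => Real.exp (m i * U (x + a * z)) with hw
    have hwi : Integrable w (gaussianReal 0 1) := wU.int
    have hwpos : 0 < ∫ z, w z ∂gaussianReal 0 1 := wU.pos
    -- one exponential
    have key : ∀ p : ℝ, |p| = 2 → Integrable (fun z => w z * Real.exp (p * (x + a * z))) (gaussianReal 0 1) ∧
        ∫ z, w z * Real.exp (p * (x + a * z)) ∂gaussianReal 0 1 ≤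
          Real.exp (4 * d i) * Real.exp (p * x) * ∫ z, w z ∂gaussianReal 0 1 := by
      intro p hp
      constructor
      · have hL : RSB.Lip (1 + 2) fun y => m i * U y + p * y :=
          ⟨(hUl.meas.const_mul _).add (measurable_const_mul _), by norm_num, fun y z => by
            rw [show m i * U (y + z) + p * (y + z) - (m i * U y + p * y) = m i * (U (y + z) - U y) + p * z
              by ring, Real.norm_eq_abs]
            refine (abs_add_le _ _).trans ?_
            rw [abs_mul, abs_mul, hp, add_mul]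
            refine add_le_add_left ?_ _
            refine (mul_le_mul_of_nonneg_right ((abs_of_pos hm).le.trans hm1) (abs_nonneg _)).trans ?_
            simpa [Real.norm_eq_abs] using hUl.lip y z⟩
        have := (hL.wgt hs x 1).int
        simpa [hw, sigd, ← ha, Real.exp_add] using this
      · have e : ∀ z, w z * Real.exp (p * (x + a * z)) =
            Real.exp (p * x) * (Real.exp ((p * a) * z) * w z) := fun z => by
          rw [mul_add, Real.exp_add]; ring_nf
        simp only [e]
        rw [integral_const_mul, gauss_tilt]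
        have hshift : ∀ z, w (z + p * a) ≤ Real.exp (2 * d i) * w z := fun z => by
          simp only [hw, ← Real.exp_add, Real.exp_le_exp]
          have hl := hUl.lip (x + a * z) (a * (p * a))
          rw [Real.norm_eq_abs, one_mul] at hl
          have e2 : |a * (p * a)| = 2 * d i := by
            rw [show a * (p * a) = p * (a * a) by ring, ha, Real.mul_self_sqrt hd, abs_mul, hp,
              abs_of_nonneg hd]
          rw [e2, show x + a * z + a * (p * a) = x + a * (z + p * a) by ring] at hl
          have := (abs_le.1 hl).2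
          nlinarith
        have hmono : ∫ z, w (z + p * a) ∂gaussianReal 0 1 ≤ ∫ z, Real.exp (2 * d i) * w z ∂gaussianReal 0 1 :=
          integral_mono_of_nonneg (Filter.Eventually.of_forall fun z => (Real.exp_pos _).le)
            (hwi.const_mul _) (Filter.Eventually.of_forall hshift)
        rw [integral_const_mul] at hmono
        have e3 : Real.exp ((p * a) ^ 2 / 2) = Real.exp (2 * d i) := by
          rw [mul_pow, ha, Real.sq_sqrt hd, ← sq_abs, hp]; ring_nf
        rw [e3, show 4 * d i = 2 * d i + 2 * d i by ring, Real.exp_add (2 * d i)]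
        calc Real.exp (p * x) * (Real.exp (2 * d i) * ∫ z, w (z + p * a) ∂gaussianReal 0 1)
            ≤ Real.exp (p * x) *
                (Real.exp (2 * d i) * (Real.exp (2 * d i) * ∫ z, w z ∂gaussianReal 0 1)) := by
              gcongr
          _ = _ := by ring
    obtain ⟨i1, k1⟩ := key 2 (by norm_num)
    obtain ⟨i2, k2⟩ := key (-2) (by norm_num)
    have ec : ∀ z, w z * Real.cosh (2 * (x + a * z)) =
        1 / 2 * (w z * Real.exp (2 * (x + a * z))) + 1 / 2 * (w z * Real.exp (-2 * (x + a * z))) := fun z => by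
      rw [Real.cosh_eq]; ring_nf
    have hci : Integrable (fun z => w z * Real.cosh (2 * (x + a * z))) (gaussianReal 0 1) := by
      simp only [ec]
      exact (i1.const_mul _).add (i2.const_mul _)
    have hcb : ∫ z, w z * Real.cosh (2 * (x + a * z)) ∂gaussianReal 0 1 ≤
        Real.exp (4 * d i) * Real.cosh (2 * x) * ∫ z, w z ∂gaussianReal 0 1 := by
      simp only [ec]
      rw [integral_add (i1.const_mul _) (i2.const_mul _), integral_const_mul, integral_const_mul]
      refine (add_le_add (mul_le_mul_of_nonneg_left k1 (by norm_num))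
        (mul_le_mul_of_nonneg_left k2 (by norm_num))).trans (le_of_eq ?_)
      rw [Real.cosh_eq]; ring_nf
    -- convexity of the exponential
    set H := (∫ z, w z * Real.cosh (2 * (x + a * z)) ∂gaussianReal 0 1) / ∫ z, w z ∂gaussianReal 0 1 with hH
    have hpt : ∀ z, Real.exp (-(m i * K * H)) *
        (w z - m i * K * (w z * Real.cosh (2 * (x + a * z))) + m i * K * H * w z) ≤
          Real.exp (m i * V (x + a * z)) := fun z => by
      set c := Real.cosh (2 * (x + a * z))
      have h1 := Real.add_one_le_exp (-(m i * K * c) + m i * K * H)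
      have h2 : Real.exp (m i * (U (x + a * z) - K * c)) ≤ Real.exp (m i * V (x + a * z)) :=
        Real.exp_le_exp.2 (mul_le_mul_of_nonneg_left (ih _) hm.le)
      refine le_trans ?_ h2
      calc Real.exp (-(m i * K * H)) * (w z - m i * K * (w z * c) + m i * K * H * w z)
          = Real.exp (-(m i * K * H)) * w z * (-(m i * K * c) + m i * K * H + 1) := by ring
        _ ≤ Real.exp (-(m i * K * H)) * w z * Real.exp (-(m i * K * c) + m i * K * H) :=
            mul_le_mul_of_nonneg_left h1 (mul_nonneg (Real.exp_pos _).le (Real.exp_pos _).le)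
        _ = _ := by simp only [hw, ← Real.exp_add]; ring_nf
    have hl := integral_mono (((hwi.sub (hci.const_mul (m i * K))).add (hwi.const_mul (m i * K * H))).const_mul
      (Real.exp (-(m i * K * H)))) wV.int hpt
    simp only [Pi.sub_apply, Pi.add_apply] at hl
    have e1 := integral_add (hwi.sub (hci.const_mul (m i * K))) (hwi.const_mul (m i * K * H))
    simp only [Pi.sub_apply] at e1
    rw [integral_const_mul, e1, integral_sub hwi (hci.const_mul (m i * K)), integral_const_mul,
      integral_const_mul] at hl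
    have hHI : H * ∫ z, w z ∂gaussianReal 0 1 = ∫ z, w z * Real.cosh (2 * (x + a * z)) ∂gaussianReal 0 1 :=
      div_mul_cancel₀ _ hwpos.ne'
    have hl' : Real.exp (-(m i * K * H)) * ∫ z, w z ∂gaussianReal 0 1 ≤
        ∫ z, Real.exp (m i * V (x + a * z)) ∂gaussianReal 0 1 := by
      refine le_trans (le_of_eq ?_) hl
      rw [mul_assoc (m i * K) H, hHI]; ring
    have hlog := Real.log_le_log (mul_pos (Real.exp_pos _) hwpos) hl'
    rw [Real.log_mul (Real.exp_pos _).ne' hwpos.ne', Real.log_exp] at hlog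
    have hHb : H ≤ Real.exp (4 * d i) * Real.cosh (2 * x) := by
      rw [hH, div_le_iff₀ hwpos]; exact hcb
    have hfin : K * H ≤ A * Real.exp (4 * ((i :: l).map d).sum) * Real.cosh (2 * x) := by
      refine (mul_le_mul_of_nonneg_left hHb hK0).trans (le_of_eq ?_)
      rw [List.map_cons, List.sum_cons, mul_add, Real.exp_add, hK]; ring
    simp only [RSB.casc, RSB.lexp, sigd]
    have hdiv := div_le_div_of_nonneg_right hlog hm.le
    rw [add_div, show -(m i * K * H) / m i = -(K * H) by field_simp] at hdiv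
    simp only [hw, ← ha, ← hU, ← hV] at hdiv ⊢
    linarith

end compare

end Vale.Agent.P157.Low
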