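import Vale.Agent.P157.Low.Gauss2
import Vale.Agent.P157.Low.ParisiX
import Vale.Agent.P157.RSB.Defs

/-!
The discrete values in terms of Parisi's functional.
-/

namespace Vale.Agent.P157.Low

open MeasureTheory ProbabilityTheory

variable {r : ℕ}

/-- The inner levels as a list of exponents and increments. -/
noncomputable def levels (m q : Fin (r + 1) → ℝ) : List (ℝ × ℝ) :=
  List.ofFn fun i : Fin r => (m i.succ, incr q i.succ)

/-- The smoothed weight of `f` at rest `1 - q (last r)`. -/
noncomputable def topW (f : ℝ → ℝ) (q : Fin (r + 1) → ℝ) : ℝ → ℝ :=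
  heat (fun x => Real.exp (f x)) (1 - q (Fin.last r))

/-- The insertion of the logarithmic derivative. -/
noncomputable def topD (f : ℝ → ℝ) (q : Fin (r + 1) → ℝ) (y : ℝ) : ℝ :=
  heat (deriv fun x => Real.exp (f x)) (1 - q (Fin.last r)) y / topW f q y

/-- The conjugate overlaps of a discretisation. -/
noncomputable def conj (f : ℝ → ℝ) (m q : Fin (r + 1) → ℝ) (j : Fin (r + 1)) : ℝ :=
  pairRoot m (incr q) (fun y => Real.log (topW f q y)) (topD f q) (topD f q) j

/-- The diagonal conjugate overlap. -/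
noncomputable def conjDiag (f : ℝ → ℝ) (m q : Fin (r + 1) → ℝ) : ℝ :=
  insUp m (incr q) (fun y => Real.log (topW f q y))
    (fun y => heat (fun x => deriv (fun z => Real.exp (f z)) x ^ 2 / Real.exp (f x))
      (1 - q (Fin.last r)) y / topW f q y) (r + 1) 0

/-- Conditions on exponents and overlaps of levels. -/
structure LevelParam (m q : Fin (r + 1) → ℝ) : Prop where
  zero : m 0 = 0
  pos : ∀ j, j ≠ 0 → 0 < m j ∧ m j ≤ 1
  monom : Monotone m
  monoq : Monotone q
  rangeq : ∀ j, 0 ≤ q j ∧ q j < 1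

/-- The smooth truncation of `cosh`. -/
noncomputable def coshT (L x : ℝ) : ℝ := Real.cosh (L * Real.tanh (x / L))

/-! ### The top of the recursion -/

section top

variable {f : ℝ → ℝ} {D : ℝ} {m q : Fin (r + 1) → ℝ}

lemma levels_eq (m q : Fin (r + 1) → ℝ) :
    levels m q = (lv r).map fun i => (m i, incr q i) := by
  simp only [levels, lv, List.map_ofFn]
  rfl

lemma incr_zero (v : Fin (r + 1) → ℝ) : incr v 0 = v 0 := by simp [incr]

lemma incr_succ (v : Fin (r + 1) → ℝ) (i : Fin r) : incr v i.succ = v i.succ - v i.castSucc := by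
  simp [incr, Fin.val_succ, Fin.castSucc, Fin.castAdd, Fin.castLE]

lemma sum_lv_incr (v : Fin (r + 1) → ℝ) : ((lv r).map (incr v)).sum = v (Fin.last r) - v 0 := by
  rw [lv, List.map_ofFn, List.sum_ofFn]
  simp only [Function.comp_apply, incr_succ, Finset.sum_sub_distrib]
  linarith [Fin.sum_univ_succ v, Fin.sum_univ_castSucc v]

lemma incr_nonneg {v : Fin (r + 1) → ℝ} (hv : Monotone v) (h0 : 0 ≤ v 0) (i : Fin (r + 1)) :
    0 ≤ incr v i := by
  refine Fin.cases (by rwa [incr_zero]) (fun t => ?_) i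
  rw [incr_succ, sub_nonneg]
  exact hv (Fin.le_iff_val_le_val.2 (by simp))

lemma LevelParam.pos' (h : LevelParam m q) : ∀ j, j ≠ 0 → 0 < m j := fun j hj => (h.pos j hj).1

lemma LevelParam.ne (h : LevelParam m q) : ∀ j, j ≠ 0 → m j ≠ 0 := fun j hj => (h.pos' j hj).ne'

lemma LevelParam.rsbRest_eq (_h : LevelParam m q) : rsbRest (q 0) (levels m q) = 1 - q (Fin.last r) := by
  rw [rsbRest, levels_eq, List.map_map]
  rw [show (Prod.snd ∘ fun i => (m i, incr q i)) = incr q from rfl, sum_lv_incr]
  ring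

lemma LevelParam.rsbParam (h : LevelParam m q) : RsbParam (q 0) (levels m q) := by
  refine ⟨(h.rangeq 0).1, ?_, ?_, ?_⟩
  · rw [levels, List.map_ofFn]
    refine List.isChain_iff_getElem.2 fun i hi => ?_
    simp only [List.getElem_ofFn, Function.comp_apply]
    exact h.monom (Fin.le_iff_val_le_val.2 (by simp))
  · intro p hp
    simp only [levels, List.mem_ofFn] at hp
    obtain ⟨i, rfl⟩ := hp
    exact ⟨(h.pos _ (Fin.succ_ne_zero i)).1, (h.pos _ (Fin.succ_ne_zero i)).2,
      incr_nonneg h.monoq (h.rangeq 0).1 _⟩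
  · have := h.rsbRest_eq
    rw [rsbRest] at this
    linarith [(h.rangeq (Fin.last r)).2]

lemma Smf.differentiable (hf : Smf f) : Differentiable ℝ f := hf.smooth.differentiable (by norm_num)

lemma Smf.continuous_deriv (hf : Smf f) : Continuous (deriv f) := hf.smooth.continuous_deriv (by norm_num)

lemma lip_f (hf : Smf f) (hD : ∀ x, |deriv f x| ≤ D) : RSB.Lip D f :=
  lip_of_hasDerivAt (fun x => (hf.differentiable x).hasDerivAt) hD

lemma deriv_exp_f (hf : Smf f) (x : ℝ) :
    deriv (fun z => Real.exp (f z)) x = Real.exp (f x) * deriv f x :=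
  ((hf.differentiable x).hasDerivAt.exp).deriv

lemma wgt_f (hf : Smf f) (hD : ∀ x, |deriv f x| ≤ D) (s y : ℝ) :
    RSB.Wgt (gaussianReal 0 1) 1 fun z => f (y + Real.sqrt s * z) :=
  (lip_f hf hD).wgt (shift_sigd (fun _ : Unit => s) ()) y 1

lemma rsbPot_nil (f : ℝ → ℝ) (q : Fin (r + 1) → ℝ) :
    (fun y => Real.log (topW f q y)) = rsbPot f [] (1 - q (Fin.last r)) := rfl

lemma lip_top (hf : Smf f) (hD : ∀ x, |deriv f x| ≤ D) (q : Fin (r + 1) → ℝ) :
    RSB.Lip D fun y => Real.log (topW f q y) := by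
  have h := lip_logHeat (lip_f hf hD) (1 - q (Fin.last r))
  simpa [RSB.lexp, topW, heat] using h

lemma topD_tilt (hf : Smf f) (q : Fin (r + 1) → ℝ) (y : ℝ) :
    topD f q y = RSB.tilt (gaussianReal 0 1) 1 (fun z => f (y + Real.sqrt (1 - q (Fin.last r)) * z))
      fun z => deriv f (y + Real.sqrt (1 - q (Fin.last r)) * z) := by
  simp only [topD, topW, heat, RSB.tilt, deriv_exp_f hf, one_mul, smul_eq_mul, inv_mul_eq_div]

/-- The insertion on the diagonal. -/
noncomputable def topSq (f : ℝ → ℝ) (q : Fin (r + 1) → ℝ) (y : ℝ) : ℝ :=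
  heat (fun x => deriv (fun z => Real.exp (f z)) x ^ 2 / Real.exp (f x)) (1 - q (Fin.last r)) y / topW f q y

lemma topSq_tilt (hf : Smf f) (q : Fin (r + 1) → ℝ) (y : ℝ) :
    topSq f q y = RSB.tilt (gaussianReal 0 1) 1 (fun z => f (y + Real.sqrt (1 - q (Fin.last r)) * z))
      fun z => deriv f (y + Real.sqrt (1 - q (Fin.last r)) * z) ^ 2 := by
  have e : ∀ x, deriv (fun z => Real.exp (f z)) x ^ 2 / Real.exp (f x) =
      Real.exp (f x) * deriv f x ^ 2 := fun x => by
    rw [deriv_exp_f hf, mul_pow, sq (Real.exp (f x)), mul_assoc,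
      mul_div_cancel_left₀ _ (Real.exp_pos _).ne']
  simp only [topSq, topW, heat, RSB.tilt, e, one_mul, smul_eq_mul, inv_mul_eq_div]

lemma top_facts (hf : Smf f) (hD : ∀ x, |deriv f x| ≤ D) (q : Fin (r + 1) → ℝ) :
    Measurable (topD f q) ∧ Measurable (topSq f q) ∧
      ∀ y, |topD f q y| ≤ D ∧ |topSq f q y| ≤ D ^ 2 ∧ topD f q y ^ 2 ≤ topSq f q y := by
  have hXm : Measurable fun p : ℝ × ℝ => f (p.1 + Real.sqrt (1 - q (Fin.last r)) * p.2) :=
    hf.differentiable.continuous.measurable.comp (by fun_prop)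
  have hFm : Measurable fun p : ℝ × ℝ => deriv f (p.1 + Real.sqrt (1 - q (Fin.last r)) * p.2) :=
    hf.continuous_deriv.measurable.comp (by fun_prop)
  refine ⟨?_, ?_, fun y => ⟨?_, ?_, ?_⟩⟩
  · rw [funext (topD_tilt hf q)]
    exact RSB.measurable_tilt (γ := gaussianReal 0 1)
      (X := fun y z => f (y + Real.sqrt (1 - q (Fin.last r)) * z))
      (F := fun y z => deriv f (y + Real.sqrt (1 - q (Fin.last r)) * z)) hXm hFm 1
  · rw [funext (topSq_tilt hf q)]
    exact RSB.measurable_tilt (γ := gaussianReal 0 1)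
      (X := fun y z => f (y + Real.sqrt (1 - q (Fin.last r)) * z))
      (F := fun y z => deriv f (y + Real.sqrt (1 - q (Fin.last r)) * z) ^ 2) hXm (hFm.pow_const 2) 1
  · rw [topD_tilt hf]
    exact (Real.norm_eq_abs _).symm.le.trans
      (RSB.norm_tilt_le (wgt_f hf hD _ y) fun z => (Real.norm_eq_abs _).le.trans (hD _))
  · rw [topSq_tilt hf]
    exact (Real.norm_eq_abs _).symm.le.trans (RSB.norm_tilt_le (wgt_f hf hD _ y) fun z => by
      rw [Real.norm_eq_abs, abs_pow]; exact pow_le_pow_left₀ (abs_nonneg _) (hD _) 2)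
  · rw [topD_tilt hf, topSq_tilt hf]
    exact RSB.sq_tilt_le (wgt_f hf hD _ y) (hFm.comp measurable_prodMk_left) fun z => hD _

lemma topD_eq_slope (hf : Smf f) (hD : ∀ x, |deriv f x| ≤ D) {q : Fin (r + 1) → ℝ}
    (hq : q (Fin.last r) < 1) : topD f q = rsbSlope f [] (1 - q (Fin.last r)) := by
  funext y
  obtain ⟨B, hB⟩ := hf.bdd
  have hBf : ∀ x, |f x| ≤ B := fun x => by simpa using hB 0 (by norm_num) x
  set a := Real.sqrt (1 - q (Fin.last r)) with ha
  have ha0 : a ≠ 0 := Real.sqrt_ne_zero'.2 (by linarith)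
  have hm : Measurable fun z => Real.exp (f (y + a * z)) :=
    (hf.differentiable.continuous.measurable.comp (by fun_prop)).exp
  have hm' : Measurable fun z => Real.exp (f (y + a * z)) * deriv f (y + a * z) :=
    hm.mul (hf.continuous_deriv.measurable.comp (by fun_prop))
  have hb : ∀ z, Real.exp (f (y + a * z)) ≤ Real.exp B := fun z => Real.exp_le_exp.2 (abs_le.1 (hBf _)).2
  have h := stein_real (F := fun z => Real.exp (f (y + a * z)))
    (F' := fun z => a * (Real.exp (f (y + a * z)) * deriv f (y + a * z)))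
    (fun z => by
      have h1 : HasDerivAt (fun z => y + a * z) a z := by
        simpa using ((hasDerivAt_id z).const_mul a).const_add y
      exact (((hf.differentiable _).hasDerivAt.comp z h1).exp).congr_deriv
        (by simp only [Function.comp_apply]; ring))
    (Integrable.mono' (integrable_const (Real.exp B)) hm.aestronglyMeasurable
      (Filter.Eventually.of_forall fun z => by rw [Real.norm_eq_abs, Real.abs_exp]; exact hb z))
    ((Integrable.mono' (integrable_const (Real.exp B * D)) hm'.aestronglyMeasurable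
      (Filter.Eventually.of_forall fun z => by
        rw [Real.norm_eq_abs, abs_mul, Real.abs_exp]
        exact mul_le_mul (hb z) (hD _) (abs_nonneg _) (Real.exp_pos _).le)).const_mul a)
    ((((IsGaussian.integrable_id (μ := gaussianReal 0 1)).abs).const_mul (Real.exp B)).mono'
      (hm.mul measurable_id).aestronglyMeasurable (Filter.Eventually.of_forall fun z => by
        simp only [Real.norm_eq_abs, abs_mul, Real.abs_exp, id]
        exact mul_le_mul_of_nonneg_right (hb z) (abs_nonneg _)))
  rw [integral_const_mul] at h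
  simp only [rsbSlope, topD, topW, heat, deriv_exp_f hf, ← ha]
  rw [show ∫ z, z * Real.exp (f (y + a * z)) ∂gaussianReal 0 1 =
      ∫ z, Real.exp (f (y + a * z)) * z ∂gaussianReal 0 1 from integral_congr_ae
        (Filter.Eventually.of_forall fun z => mul_comm _ _), h, mul_div_cancel_left₀ _ ha0]

lemma conj_eq (h : LevelParam m q) (j : Fin (r + 1)) : conj f m q j =
    ∫ z, RSB.csq (gaussianReal 0 1) m (sigd (incr q)) (lv r) (fun y => Real.log (topW f q y))
      (topD f q) j (Real.sqrt (q 0) * z) ∂gaussianReal 0 1 := by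
  rw [conj, pairRoot_eq h.ne h.zero, incr_zero]

lemma conjDiag_eq (h : LevelParam m q) : conjDiag f m q =
    ∫ z, RSB.cmean (gaussianReal 0 1) m (sigd (incr q)) (lv r) (fun y => Real.log (topW f q y))
      (topSq f q) (Real.sqrt (q 0) * z) ∂gaussianReal 0 1 := by
  rw [← incr_zero q]
  exact insUp_root h.ne h.zero

lemma conj_eq_overlap (hf : Smf f) (hD : ∀ x, |deriv f x| ≤ D) (h : LevelParam m q) (j : Fin (r + 1)) :
    conj f m q j = rsbOverlap f (q 0) (levels m q) j := by
  rw [conj_eq h, rsbOverlap, h.rsbRest_eq, levels_eq, topD_eq_slope hf hD (h.rangeq _).2, rsbPot_nil]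
  exact integral_congr_ae (Filter.Eventually.of_forall fun z => (rsbSq_eq _ _ _).symm)

end top

/-- Conjugate overlaps increase up to the diagonal one, and are bounded by the squared slope. -/
theorem conj_props {f : ℝ → ℝ} (hf : Smf f) {m q : Fin (r + 1) → ℝ} (h : LevelParam m q) {D : ℝ}
    (hD : ∀ x, |deriv f x| ≤ D) :
    Monotone (conj f m q) ∧ 0 ≤ conj f m q 0 ∧ conj f m q (Fin.last r) ≤ conjDiag f m q ∧
      conjDiag f m q ≤ D ^ 2 := by
  have hlip := lip_top hf hD q
  obtain ⟨hθm, hθ2m, hθ⟩ := top_facts hf hD q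
  have hg := good_lv h.pos' (incr q)
  have hn : ∀ y, ‖topD f q y‖ ≤ D := fun y => (Real.norm_eq_abs _).le.trans (hθ y).1
  have hn2 : ∀ y, ‖topSq f q y‖ ≤ D ^ 2 := fun y => (Real.norm_eq_abs _).le.trans (hθ y).2.1
  have hint : ∀ j, Integrable (fun z => RSB.csq (gaussianReal 0 1) m (sigd (incr q)) (lv r)
      (fun y => Real.log (topW f q y)) (topD f q) j (Real.sqrt (q 0) * z)) (gaussianReal 0 1) := fun j =>
    Integrable.mono' (integrable_const (D ^ 2))
      ((RSB.measurable_csq hlip hθm hg j).comp (by fun_prop)).aestronglyMeasurable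
      (Filter.Eventually.of_forall fun z => (Real.norm_eq_abs _).le.trans (RSB.abs_csq_le hlip hn hg j _))
  have hint2 : Integrable (fun z => RSB.cmean (gaussianReal 0 1) m (sigd (incr q)) (lv r)
      (fun y => Real.log (topW f q y)) (topSq f q) (Real.sqrt (q 0) * z)) (gaussianReal 0 1) :=
    Integrable.mono' (integrable_const (D ^ 2))
      ((RSB.measurable_cmean hlip hθ2m hg).comp (by fun_prop)).aestronglyMeasurable
      (Filter.Eventually.of_forall fun z => RSB.norm_cmean_le hlip hn2 hg _)
  refine ⟨Fin.monotone_iff_le_succ.2 fun i => ?_, ?_, ?_, ?_⟩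
  · rw [conj_eq h, conj_eq h]
    refine integral_mono (hint _) (hint _) fun z => ?_
    simp only [Fin.val_castSucc, Fin.val_succ]
    exact RSB.csq_le_succ hlip hθm hn hg i (by rw [length_lv]; exact i.isLt) _
  · rw [conj_eq h]
    exact integral_nonneg fun z => by
      simp only [Fin.val_zero, RSB.csq_zero]
      exact sq_nonneg _
  · rw [conj_eq h, conjDiag_eq h]
    refine integral_mono (hint _) hint2 fun z => ?_
    rw [Fin.val_last]
    have e := csq_length (m := m) (σ := sigd (incr q)) (G := fun y => Real.log (topW f q y)) (F := topD f q)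
      (lv r) (Real.sqrt (q 0) * z)
    rw [length_lv] at e
    rw [e]
    exact cmean_mono (C := D ^ 2) hlip (hθm.pow_const 2) hθ2m
      (fun y => by rw [abs_pow]; exact pow_le_pow_left₀ (abs_nonneg _) (hθ y).1 2)
      (fun y => (hθ y).2.1) (fun y => (hθ y).2.2) hg _
  · rw [conjDiag_eq h]
    refine (integral_mono hint2 (integrable_const (D ^ 2)) fun z => ?_).trans (le_of_eq (by simp))
    exact (le_abs_self _).trans ((Real.norm_eq_abs _).symm.le.trans (RSB.norm_cmean_le hlip hn2 hg _))

/-! ### The truncated hyperbolic cosine -/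

lemma hasDerivAt_tanh_low (x : ℝ) : HasDerivAt Real.tanh (1 - Real.tanh x ^ 2) x := by
  have hc := (Real.cosh_pos x).ne'
  have h := (Real.hasDerivAt_sinh x).div (Real.hasDerivAt_cosh x) hc
  rw [show Real.tanh = fun x => Real.sinh x / Real.cosh x from funext Real.tanh_eq_sinh_div_cosh]
  refine h.congr_deriv ?_
  field_simp

lemma lip_logCosh : RSB.Lip 1 fun y => Real.log (Real.cosh y) :=
  lip_of_hasDerivAt (fun x => (Real.hasDerivAt_cosh x).log (Real.cosh_pos x).ne') fun x => by
    rw [← Real.tanh_eq_sinh_div_cosh]; exact (Real.abs_tanh_lt_one x).le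

lemma lip_squash {L : ℝ} (hL : 0 < L) : RSB.Lip 1 fun x => L * Real.tanh (x / L) := by
  refine lip_of_hasDerivAt (G' := fun x => 1 - Real.tanh (x / L) ^ 2) (fun x => ?_) fun x => ?_
  · refine (((hasDerivAt_tanh_low _).comp x ((hasDerivAt_id x).div_const L)).const_mul L).congr_deriv ?_
    simp only [id_eq]
    field_simp
  · rw [abs_le]
    have h := Real.abs_tanh_lt_one (x / L)
    have h2 : Real.tanh (x / L) ^ 2 ≤ 1 := by
      rw [← sq_abs]; exact pow_le_one₀ (abs_nonneg _) h.le
    constructor <;> nlinarith [sq_nonneg (Real.tanh (x / L))]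

lemma lip_logCoshT {L : ℝ} (hL : 0 < L) : RSB.Lip 1 fun x => Real.log (coshT L x) := by
  refine ⟨((Real.continuous_cosh.measurable.comp (lip_squash hL).meas)).log, zero_le_one, fun x y => ?_⟩
  have h1 := (lip_squash hL).lip x y
  have h2 := lip_logCosh.lip (L * Real.tanh (x / L)) (L * Real.tanh ((x + y) / L) - L * Real.tanh (x / L))
  rw [add_sub_cancel, one_mul] at h2
  simpa [coshT] using h2.trans h1

lemma coshT_ge {L : ℝ} (hL : 0 < L) (x : ℝ) :
    Real.cosh x - 2 / L * Real.cosh (2 * x) ≤ coshT L x := by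
  wlog hx : 0 ≤ x generalizing x
  · have h := this (-x) (by linarith)
    rwa [coshT, Real.cosh_neg, mul_neg, Real.cosh_neg, neg_div, Real.tanh_neg, mul_neg,
      Real.cosh_neg, ← coshT] at h
  set y := L * Real.tanh (x / L) with hy
  have hyx : y ≤ x := by
    have h := (lip_squash hL).lip 0 x
    simp only [zero_add, zero_div, Real.tanh_zero, mul_zero, sub_zero, one_mul, Real.norm_eq_abs,
      abs_of_nonneg hx] at h
    exact (le_abs_self _).trans h
  have hlow : ∀ t : ℝ, 0 ≤ t → t - t ^ 2 ≤ Real.tanh t := fun t ht => by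
    have h1 : t - t ^ 2 ≤ t / (1 + t) := by
      rw [le_div_iff₀ (by linarith)]; nlinarith [pow_nonneg ht 3]
    refine h1.trans ?_
    have h2 := Real.add_one_le_exp (2 * t)
    rw [Real.tanh_eq, div_le_div_iff₀ (by linarith) (add_pos (Real.exp_pos _) (Real.exp_pos _))]
    have h3 : Real.exp t = Real.exp (2 * t) * Real.exp (-t) := by rw [← Real.exp_add]; ring_nf
    nlinarith [mul_le_mul_of_nonneg_right h2 (Real.exp_pos (-t)).le]
  have hgap : x - y ≤ x ^ 2 / L := by
    have h := mul_le_mul_of_nonneg_left (hlow (x / L) (div_nonneg hx hL.le)) hL.le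
    rw [← hy, show L * (x / L - (x / L) ^ 2) = x - x ^ 2 / L by field_simp] at h
    linarith
  have hy0 : 0 ≤ y := by
    have : 0 ≤ Real.tanh (x / L) := by
      rw [Real.tanh_eq_sinh_div_cosh]
      exact div_nonneg (Real.sinh_nonneg_iff.2 (div_nonneg hx hL.le)) (Real.cosh_pos _).le
    positivity
  have e1 : Real.exp x - Real.exp y ≤ (x - y) * Real.exp x := by
    have h := mul_le_mul_of_nonneg_left (Real.add_one_le_exp (y - x)) (Real.exp_pos x).le
    rw [← Real.exp_add, add_sub_cancel] at h
    linarith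
  have e2 : Real.exp (-x) ≤ Real.exp (-y) := Real.exp_le_exp.2 (by linarith)
  have e3 : x ^ 2 ≤ 2 * Real.exp x := by nlinarith [Real.quadratic_le_exp_of_nonneg hx]
  have e4 : (x - y) * Real.exp x ≤ 2 * Real.exp (2 * x) / L := by
    refine (mul_le_mul_of_nonneg_right (hgap.trans (div_le_div_of_nonneg_right e3 hL.le))
      (Real.exp_pos _).le).trans (le_of_eq ?_)
    rw [two_mul x, Real.exp_add]; ring
  have e5 : Real.exp (2 * x) / L ≤ 2 / L * Real.cosh (2 * x) := by
    rw [Real.cosh_eq, div_mul_eq_mul_div]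
    exact div_le_div_of_nonneg_right (by linarith [Real.exp_pos (-(2 * x))]) hL.le
  rw [mul_div_assoc] at e4
  simp only [coshT, ← hy, Real.cosh_eq x, Real.cosh_eq y]
  linarith

lemma logHeat_coshT {L : ℝ} (hL : 0 < L) (s : ℝ) :
    RSB.Lip 1 fun y => Real.log (heat (coshT L) s y) := by
  have e : ∀ x, Real.exp (Real.log (coshT L x)) = coshT L x := fun x => Real.exp_log (Real.cosh_pos _)
  simpa [RSB.lexp, heat, e] using lip_logHeat (lip_logCoshT hL) s

lemma logHeat_ge {L : ℝ} (hL : 0 < L) {s : ℝ} (hs : 0 ≤ s) (y : ℝ) :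
    Real.log (Real.cosh y) + s / 2 - 2 / L * Real.exp (2 * s) * Real.cosh (2 * y) ≤
      Real.log (heat (coshT L) s y) := by
  set g : ℝ → ℝ := fun z => y + Real.sqrt s * z with hg
  have hic : ∀ c : ℝ, Integrable (fun z => Real.cosh (c * g z)) (gaussianReal 0 1) := fun c => by
    refine ((((integrable_exp_mul_gaussianReal (c * Real.sqrt s)).const_mul (Real.exp (c * y) / 2))).add
      ((integrable_exp_mul_gaussianReal (-(c * Real.sqrt s))).const_mul (Real.exp (-(c * y)) / 2))).congr
      (Filter.Eventually.of_forall fun z => ?_)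
    simp only [Pi.add_apply, hg]
    rw [Real.cosh_eq, div_mul_eq_mul_div, div_mul_eq_mul_div, ← Real.exp_add, ← Real.exp_add, ← add_div]
    ring_nf
  have hmT : Measurable fun z => coshT L (g z) :=
    Real.continuous_cosh.measurable.comp ((lip_squash hL).meas.comp (by fun_prop))
  have hiT : Integrable (fun z => coshT L (g z)) (gaussianReal 0 1) :=
    Integrable.mono' (hic 1) hmT.aestronglyMeasurable (Filter.Eventually.of_forall fun z => by
      rw [Real.norm_eq_abs, coshT, abs_of_pos (Real.cosh_pos _), one_mul, Real.cosh_le_cosh]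
      simpa using (lip_squash hL).lip 0 (g z))
  have h1 : 1 ≤ heat (coshT L) s y := by
    refine le_trans (le_of_eq ?_) (integral_mono (integrable_const (1 : ℝ)) hiT fun z => Real.one_le_cosh _)
    simp
  have h2 : Real.exp (s / 2) * Real.cosh y - 2 / L * (Real.exp (2 * s) * Real.cosh (2 * y)) ≤
      heat (coshT L) s y := by
    have h := integral_mono ((hic 1).sub ((hic 2).const_mul (2 / L))) hiT fun z => by
      simpa using coshT_ge hL (g z)
    simp only [Pi.sub_apply] at h
    rw [integral_sub (hic 1) ((hic 2).const_mul _), integral_const_mul] at h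
    simp only [hg, integral_cosh_gauss _ y hs] at h
    refine le_trans (le_of_eq ?_) h
    ring_nf
  have hpos : 0 < heat (coshT L) s y := one_pos.trans_le h1
  have e := Real.log_le_sub_one_of_pos (div_pos (mul_pos (Real.exp_pos (s / 2)) (Real.cosh_pos y)) hpos)
  rw [Real.log_div (mul_pos (Real.exp_pos _) (Real.cosh_pos y)).ne' hpos.ne',
    Real.log_mul (Real.exp_pos _).ne' (Real.cosh_pos y).ne', Real.log_exp, div_sub_one hpos.ne'] at e
  have hk : 0 ≤ 2 / L * (Real.exp (2 * s) * Real.cosh (2 * y)) := by positivity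
  have e' : (Real.exp (s / 2) * Real.cosh y - heat (coshT L) s y) / heat (coshT L) s y ≤
      2 / L * (Real.exp (2 * s) * Real.cosh (2 * y)) :=
    (div_le_iff₀ hpos).2 ((sub_le_comm.1 h2).trans (le_mul_of_one_le_right hk h1))
  linarith

/-! ### The pairing -/

lemma pair_sum : ∀ (r : ℕ) (m q : Fin (r + 1) → ℝ) (R : ℕ → ℝ),
    ∑ j : Fin (r + 1), ((if h : (j : ℕ) + 1 ≤ r then m ⟨(j : ℕ) + 1, by omega⟩ else 1) - m j) * (q j * R j) =
      R r - rsbPair (levels m q) (q 0) R - m 0 * (q 0 * R 0)
  | 0, m, q, R => by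
    simp [levels, rsbPair]
    ring
  | r + 1, m, q, R => by
    have ih := pair_sum r (fun i => m i.succ) (fun i => q i.succ) fun j => R (j + 1)
    have el : levels m q = (m (Fin.succ 0), incr q (Fin.succ 0)) ::
        levels (fun i => m i.succ) (fun i => q i.succ) := by
      rw [levels, List.ofFn_succ]
      simp only [levels, incr_succ, Fin.succ_castSucc]
    rw [Fin.sum_univ_succ, el]
    simp only [rsbPair, incr_succ, Fin.castSucc_zero, add_sub_cancel, Fin.val_zero, Fin.val_succ,
      zero_add, Nat.add_le_add_iff_right, Nat.le_add_left, dite_true]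
    rw [show (⟨1, by omega⟩ : Fin (r + 1 + 1)) = Fin.succ 0 from Fin.ext (by simp)]
    simp only [Fin.succ_mk, zero_add] at ih
    rw [ih]
    ring

/-- The cavity value is bounded below by Parisi's functional. -/
theorem value_ge_parisi {f : ℝ → ℝ} (hf : Smf f) {α : ℝ} (hα : 0 ≤ α) {D : ℝ}
    (hD : ∀ x, |deriv f x| ≤ D) {ε : ℝ} (hε : 0 < ε) :
    ∃ L0, 0 < L0 ∧ ∀ L, L0 ≤ L → ∀ (r : ℕ) (m q : Fin (r + 1) → ℝ), LevelParam m q →
      RsbParam (q 0) (levels m q) ∧
      parisiIsing f α (q 0) (levels m q) - ε ≤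
        α * potUp m (incr q) (fun y => Real.log (topW f q y)) (r + 1) 0 +
          α / 2 * ((∑ j : Fin (r + 1), ((if h : (j : ℕ) + 1 ≤ r then m ⟨(j : ℕ) + 1, by omega⟩ else 1) - m j) *
              (q j * conj f m q j)) - conjDiag f m q) +
          potUp m (incr fun j => α * conj f m q j)
            (fun y => Real.log (heat (coshT L) (α * (conjDiag f m q - conj f m q (Fin.last r))) y))
            (r + 1) 0 := by
  set c := 2 * Real.exp (4 * (α * D ^ 2)) / ε with hc
  have hc0 : 0 < c := by positivity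
  refine ⟨c, hc0, fun L hL r m q h => ⟨h.rsbParam, ?_⟩⟩
  have hLpos : 0 < L := hc0.trans_le hL
  obtain ⟨hmono, h0, hlast, hdiag⟩ := conj_props hf h hD
  set R : ℕ → ℝ := rsbOverlap f (q 0) (levels m q) with hR
  have hRj : ∀ j : Fin (r + 1), conj f m q j = R j := fun j => conj_eq_overlap hf hD h j
  -- the energy
  have hE : potUp m (incr q) (fun y => Real.log (topW f q y)) (r + 1) 0 =
      rsbEnergy f (q 0) (levels m q) := by
    rw [potUp_root h.ne h.zero, incr_zero, rsbEnergy, h.rsbRest_eq, levels_eq, rsbPot_nil]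
    exact integral_congr_ae (Filter.Eventually.of_forall fun z => (rsbPot_eq _ _).symm)
  -- the pairing
  have hP : (∑ j : Fin (r + 1), ((if h : (j : ℕ) + 1 ≤ r then m ⟨(j : ℕ) + 1, by omega⟩ else 1) - m j) *
      (q j * conj f m q j)) = conj f m q (Fin.last r) - rsbPair (levels m q) (q 0) R := by
    simp only [hRj]
    rw [pair_sum r m q R, h.zero, Fin.val_last]
    ring
  -- the spins
  set v : Fin (r + 1) → ℝ := fun j => α * conj f m q j with hv
  have hvm : Monotone v := fun a b hab => mul_le_mul_of_nonneg_left (hmono hab) hα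
  have hv0 : 0 ≤ v 0 := mul_nonneg hα h0
  set s := α * (conjDiag f m q - conj f m q (Fin.last r)) with hs
  have hs0 : 0 ≤ s := mul_nonneg hα (sub_nonneg.2 hlast)
  set G : ℝ → ℝ := fun y => Real.log (Real.cosh y) with hG
  have hGs : RSB.Lip 1 fun y => G y + s / 2 :=
    ⟨lip_logCosh.meas.add_const _, zero_le_one, fun x y => by
      simpa using lip_logCosh.lip x y⟩
  set G' : ℝ → ℝ := fun y => Real.log (heat (coshT L) s y) with hG'
  have hG'l : RSB.Lip 1 G' := logHeat_coshT hLpos s
  set A := 2 / L * Real.exp (2 * s) with hA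
  have hA0 : 0 ≤ A := by positivity
  have hg := good_lv h.pos' (incr v)
  have hpert : ∀ x, RSB.casc (gaussianReal 0 1) m (sigd (incr v)) (lv r) G x + s / 2 -
      A * Real.exp (4 * ((lv r).map (incr v)).sum) * Real.cosh (2 * x) ≤
        RSB.casc (gaussianReal 0 1) m (sigd (incr v)) (lv r) G' x := fun x => by
    rw [← RSB.casc_add_const lip_logCosh (s / 2) hg]
    exact casc_perturb hGs hG'l hA0 (fun y => logHeat_ge hLpos hs0 y) hg
      (fun i hi => ⟨(h.pos i (mem_lv.1 hi)).2, incr_nonneg hvm hv0 i⟩) x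
  have hroot := potUp_root (m := m) (d := incr v) (u := G') h.ne h.zero
  rw [incr_zero] at hroot
  set K := A * Real.exp (4 * ((lv r).map (incr v)).sum) with hK
  set a := Real.sqrt (v 0)
  have iG : Integrable (fun z => RSB.casc (gaussianReal 0 1) m (sigd (incr v)) (lv r) G (a * z))
      (gaussianReal 0 1) := by simpa using lip_integrable (lip_logCosh.casc hg) 0 a
  have iG' : Integrable (fun z => RSB.casc (gaussianReal 0 1) m (sigd (incr v)) (lv r) G' (a * z))
      (gaussianReal 0 1) := by simpa using lip_integrable (hG'l.casc hg) 0 a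
  have iC : Integrable (fun z => Real.cosh (2 * (a * z))) (gaussianReal 0 1) := by
    refine (((integrable_exp_mul_gaussianReal (2 * a)).div_const 2).add
      ((integrable_exp_mul_gaussianReal (-(2 * a))).div_const 2)).congr
      (Filter.Eventually.of_forall fun z => ?_)
    simp only [Pi.add_apply]
    rw [Real.cosh_eq, ← add_div]
    ring_nf
  have hint := integral_mono (((iG.add (integrable_const (s / 2))).sub (iC.const_mul K))) iG'
    fun z => hpert (a * z)
  simp only [Pi.sub_apply, Pi.add_apply] at hint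
  have e1 := integral_add iG (integrable_const (s / 2))
  have e2 := integral_sub (iG.add (integrable_const (s / 2))) (iC.const_mul K)
  simp only [Pi.add_apply] at e1 e2
  rw [e2, e1, integral_const_mul] at hint
  have hcosh : ∫ z, Real.cosh (2 * (a * z)) ∂gaussianReal 0 1 = Real.exp (2 * v 0) := by
    have := integral_cosh_gauss 2 0 hv0
    simp only [zero_add, mul_zero, Real.cosh_zero, mul_one] at this
    rw [this]
    ring_nf
  have hKb : K * Real.exp (2 * v 0) ≤ ε := by
    have hexp : Real.exp (2 * s) * Real.exp (4 * ((lv r).map (incr v)).sum) * Real.exp (2 * v 0) ≤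
        Real.exp (4 * (α * D ^ 2)) := by
      rw [sum_lv_incr, ← Real.exp_add, ← Real.exp_add, Real.exp_le_exp]
      have hb := mul_le_mul_of_nonneg_left hdiag hα
      simp only [hs, hv] at hs0 hv0 ⊢
      linarith
    rw [hK, hA]
    refine le_trans (le_of_eq (by ring)) ((mul_le_mul_of_nonneg_left hexp (by positivity : 0 ≤ 2 / L)).trans ?_)
    rw [hc, div_le_iff₀ hε] at hL
    rw [div_mul_eq_mul_div, div_le_iff₀ hLpos]
    linarith
  rw [hcosh] at hint
  simp only [integral_const, probReal_univ, one_smul] at hint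
  -- the spin term of the functional
  have hspin : ∫ x, rsbSpin (levels m q) (fun j => α * R j) (Real.sqrt (α * R 0) * x) ∂gaussianReal 0 1 =
      ∫ z, RSB.casc (gaussianReal 0 1) m (sigd (incr v)) (lv r) G (a * z) ∂gaussianReal 0 1 := by
    have e0 : α * R 0 = v 0 := by simp only [hv, hRj, Fin.val_zero]
    rw [levels_eq, e0]
    refine integral_congr_ae (Filter.Eventually.of_forall fun z => ?_)
    refine rsbSpin_eq _ _ (fun t ht => ?_) _ _
    rw [length_lv] at ht
    simp only [lv, List.getElem_ofFn, incr_succ, hv, hRj, Fin.val_succ, Fin.val_castSucc]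
  rw [parisiIsing, ← hR, hE, hP, hspin, hroot]
  simp only [hs] at hint
  linarith

end Vale.Agent.P157.Low
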