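import Vale.Agent.P157.Low.Finite
import Vale.Agent.P157.Low.Parisi

/-!
The pointwise lower bound for adding a spin with a small second-order remainder.
-/

namespace Vale.Agent.P157.Low

open MeasureTheory

variable {N : ℕ}

lemma repE_one_eq (w : (Fin N → Bool) → ℝ) (h : (Fin N → Bool) → ℝ) :
    repE (n := 1) w (fun r => h (r 0)) = (∑ σ, w σ * h σ) / ∑ σ, w σ := by
  rw [repE, pow_one]
  congr 1
  refine Fintype.sum_equiv (Equiv.funUnique (Fin 1) (Fin N → Bool)) _ _ fun r => ?_
  simp

lemma one_le_coshT (L x : ℝ) : 1 ≤ coshT L x := Real.one_le_cosh _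

lemma coshT_le_cosh {L : ℝ} (hL : 0 < L) (x : ℝ) : coshT L x ≤ Real.cosh x := by
  unfold coshT
  rw [Real.cosh_le_cosh, abs_mul, abs_of_pos hL]
  have h : |Real.tanh (x / L)| ≤ |x / L| := by
    have key : ∀ z : ℝ, 0 ≤ z → Real.tanh z ≤ z := fun z hz => by
      rw [Real.tanh_eq_sinh_div_cosh, div_le_iff₀ (Real.cosh_pos z)]
      have hc : ∀ t, HasDerivAt (fun t => t * Real.cosh t - Real.sinh t) (t * Real.sinh t) t := fun t => by
        refine (((hasDerivAt_id t).mul (Real.hasDerivAt_cosh t)).sub (Real.hasDerivAt_sinh t)).congr_deriv ?_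
        simp
      have hm : MonotoneOn (fun t => t * Real.cosh t - Real.sinh t) (Set.Ici 0) :=
        monotoneOn_of_hasDerivWithinAt_nonneg (convex_Ici 0) (by fun_prop)
          (fun t _ => (hc t).hasDerivWithinAt) fun t ht => by
            rw [interior_Ici] at ht
            exact mul_nonneg ht.le (Real.sinh_nonneg_iff.2 ht.le)
      have := hm Set.self_mem_Ici (Set.mem_Ici.2 hz) hz
      simpa using this
    rcases le_total 0 (x / L) with h | h
    · rw [abs_of_nonneg h, abs_of_nonneg]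
      · exact key _ h
      · rw [Real.tanh_eq_sinh_div_cosh]
        exact div_nonneg (Real.sinh_nonneg_iff.2 h) (Real.cosh_pos _).le
    · have h' := key (-(x / L)) (by linarith)
      rw [Real.tanh_neg] at h'
      rw [abs_of_nonpos h, abs_of_nonpos]
      · exact h'
      · rw [Real.tanh_eq_sinh_div_cosh]
        exact div_nonpos_of_nonpos_of_nonneg (Real.sinh_nonpos_iff.2 h) (Real.cosh_pos _).le
  calc L * |Real.tanh (x / L)| ≤ L * |x / L| := mul_le_mul_of_nonneg_left h hL.le
    _ = |x| := by rw [abs_div, abs_of_pos hL]; field_simp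

/-- Adding a spin whose exponent is a field plus a remainder near `d / 2`. -/
theorem cavity_point {w : (Fin N → Bool) → ℝ} (hw : Wt w) (ξ : (Fin N → Bool) → ℝ)
    (Δ : (Fin N → Bool) → Bool → ℝ) (U : (Fin N → Bool) → ℝ) (d : ℝ) {L t : ℝ} (hL : 0 < L) (ht : 0 < t)
    (hU : ∀ σ s, (Δ σ s - (if s then ξ σ else -ξ σ) - d / 2) ^ 2 ≤ U σ) :
    Real.log (∫ σ, coshT L (ξ σ) ∂gibbs (cubeMeasure N) w) + d / 2 -
        t * repE (n := 1) w (fun r => U (r 0)) -
        repE (n := 1) w (fun r => Real.cosh (2 * ξ (r 0))) / (4 * t) ≤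
      Real.log ((∫ σ, w σ * Real.exp (Δ σ true) ∂cubeMeasure N +
          ∫ σ, w σ * Real.exp (Δ σ false) ∂cubeMeasure N) / 2) - logI (cubeMeasure N) w := by
  set W := ∑ σ, w σ with hW
  have hW0 : 0 < W := sum_pos_wt hw.pos
  set sg := fun (σ : Fin N → Bool) (s : Bool) => if s then ξ σ else -ξ σ
  set p := fun σ => w σ / (2 * W)
  have hp0 : ∀ σ, 0 < p σ := fun σ => div_pos (hw.pos σ) (by positivity)
  set u := fun σ s => Δ σ s - sg σ s - d / 2
  set Z := ∑ σ, ∑ s, p σ * Real.exp (sg σ s) with hZdef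
  have hZc : Z = (∑ σ, w σ * Real.cosh (ξ σ)) / W := by
    rw [hZdef, Finset.sum_div]
    refine Finset.sum_congr rfl fun σ _ => ?_
    simp only [Fintype.sum_bool, sg, p, if_true, Bool.false_eq_true, if_false, Real.cosh_eq]
    field_simp
  have hZ1 : 1 ≤ Z := by
    rw [hZc, le_div_iff₀ hW0, one_mul, hW]
    exact Finset.sum_le_sum fun σ _ => le_mul_of_one_le_right (hw.pos σ).le (Real.one_le_cosh _)
  set T := ∑ σ, ∑ s, p σ * Real.exp (Δ σ s)
  set m := (∑ σ, ∑ s, p σ * Real.exp (sg σ s) * u σ s) / Z with hm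
  -- the tangent line of the exponential
  have hjen : Z * Real.exp (d / 2 + m) ≤ T := by
    have e : ∑ σ, ∑ s, p σ * Real.exp (sg σ s) * (Real.exp (d / 2 + m) * (1 + (u σ s - m))) =
        Z * Real.exp (d / 2 + m) := by
      have : ∀ σ s, p σ * Real.exp (sg σ s) * (Real.exp (d / 2 + m) * (1 + (u σ s - m))) =
          Real.exp (d / 2 + m) * (1 - m) * (p σ * Real.exp (sg σ s)) +
            Real.exp (d / 2 + m) * (p σ * Real.exp (sg σ s) * u σ s) := fun σ s => by ring
      have a1 : ∀ c : ℝ, (∑ σ, ∑ s, c * (p σ * Real.exp (sg σ s))) = c * Z := fun c => by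
        rw [hZdef, Finset.mul_sum]
        simp only [Finset.mul_sum]
      have a2 : ∀ c : ℝ, (∑ σ, ∑ s, c * (p σ * Real.exp (sg σ s) * u σ s)) = c * (m * Z) := fun c => by
        rw [hm, div_mul_cancel₀ _ (by linarith : Z ≠ 0)]
        simp only [Finset.mul_sum]
      simp only [this, Finset.sum_add_distrib, a1, a2]
      ring
    rw [← e]
    refine Finset.sum_le_sum fun σ _ => Finset.sum_le_sum fun s _ => ?_
    have hd : Real.exp (Δ σ s) = Real.exp (sg σ s) * (Real.exp (d / 2 + m) * Real.exp (u σ s - m)) := by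
      rw [← Real.exp_add, ← Real.exp_add]; congr 1; simp only [u]; ring
    rw [hd, ← mul_assoc (p σ)]
    refine mul_le_mul_of_nonneg_left (mul_le_mul_of_nonneg_left ?_ (Real.exp_pos _).le)
      (mul_nonneg (hp0 σ).le (Real.exp_pos _).le)
    linarith [Real.add_one_le_exp (u σ s - m)]
  have hm0 : -m ≤ t * repE (n := 1) w (fun r => U (r 0)) +
      repE (n := 1) w (fun r => Real.cosh (2 * ξ (r 0))) / (4 * t) := by
    rw [repE_one_eq w U, repE_one_eq w fun σ => Real.cosh (2 * ξ σ), hm]
    have h1 : -(∑ σ, ∑ s, p σ * Real.exp (sg σ s) * u σ s) ≤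
        t * ((∑ σ, w σ * U σ) / W) + (∑ σ, w σ * Real.cosh (2 * ξ σ)) / W / (4 * t) := by
      rw [← Finset.sum_neg_distrib, ← mul_div_assoc, Finset.mul_sum, Finset.sum_div, Finset.sum_div,
        Finset.sum_div, ← Finset.sum_add_distrib]
      refine Finset.sum_le_sum fun σ _ => ?_
      have key : ∀ s, -(Real.exp (sg σ s) * u σ s) ≤ t * U σ + Real.exp (2 * sg σ s) / (4 * t) := fun s => by
        have h2 : Real.exp (2 * sg σ s) = Real.exp (sg σ s) ^ 2 := by rw [← Real.exp_nat_mul]; norm_num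
        rw [h2]
        have hsq := mul_le_mul_of_nonneg_left (hU σ s) ht.le
        have h3 : 0 ≤ (2 * t * u σ s + Real.exp (sg σ s)) ^ 2 / (4 * t) := by positivity
        have h4 : (2 * t * u σ s + Real.exp (sg σ s)) ^ 2 / (4 * t) =
            t * u σ s ^ 2 + Real.exp (sg σ s) * u σ s + Real.exp (sg σ s) ^ 2 / (4 * t) := by
          field_simp; ring
        simp only [u, sg] at *
        linarith
      rw [Fintype.sum_bool]
      have k1 := mul_le_mul_of_nonneg_left (key true) (hp0 σ).le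
      have k2 := mul_le_mul_of_nonneg_left (key false) (hp0 σ).le
      have ec : p σ * (Real.exp (2 * sg σ true) / (4 * t)) + p σ * (Real.exp (2 * sg σ false) / (4 * t)) =
          w σ * Real.cosh (2 * ξ σ) / W / (4 * t) := by
        simp only [sg, p, if_true, Bool.false_eq_true, if_false, Real.cosh_eq, mul_neg]
        field_simp
      have eu : p σ * (t * U σ) + p σ * (t * U σ) = t * (w σ * U σ) / W := by
        simp only [p]; field_simp; ring
      have e3 : ∀ s, p σ * (t * U σ + Real.exp (2 * sg σ s) / (4 * t)) =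
          p σ * (t * U σ) + p σ * (Real.exp (2 * sg σ s) / (4 * t)) := fun s => by ring
      have e4 : ∀ s, p σ * -(Real.exp (sg σ s) * u σ s) = -(p σ * Real.exp (sg σ s) * u σ s) := fun s => by ring
      rw [e3, e4] at k1 k2
      linarith
    have hR : 0 ≤ t * ((∑ σ, w σ * U σ) / W) + (∑ σ, w σ * Real.cosh (2 * ξ σ)) / W / (4 * t) :=
      add_nonneg (mul_nonneg ht.le (div_nonneg (Finset.sum_nonneg fun σ _ =>
        mul_nonneg (hw.pos σ).le ((sq_nonneg _).trans (hU σ true))) hW0.le))
        (div_nonneg (div_nonneg (Finset.sum_nonneg fun σ _ =>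
          mul_nonneg (hw.pos σ).le (Real.cosh_pos _).le) hW0.le) (by positivity))
    rw [← neg_div, div_le_iff₀ (by linarith : (0 : ℝ) < Z)]
    exact h1.trans (le_mul_of_one_le_right hR hZ1)
  have hG : ∫ σ, coshT L (ξ σ) ∂gibbs (cubeMeasure N) w = (∑ σ, w σ * coshT L (ξ σ)) / W := by
    rw [integral_gibbs hw, integral_cube, integral_cube, div_div_div_cancel_right₀ (by positivity)]
  have hT : Real.log ((∫ σ, w σ * Real.exp (Δ σ true) ∂cubeMeasure N +
      ∫ σ, w σ * Real.exp (Δ σ false) ∂cubeMeasure N) / 2) - logI (cubeMeasure N) w = Real.log T := by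
    have hpos : ∀ s, 0 < ∫ σ, w σ * Real.exp (Δ σ s) ∂cubeMeasure N := fun s => by
      rw [integral_cube]
      exact div_pos (Finset.sum_pos (fun σ _ => mul_pos (hw.pos σ) (Real.exp_pos _)) Finset.univ_nonempty)
        (by positivity)
    rw [logI, ← Real.log_div (by have := hpos true; have := hpos false; positivity) (hw.integral_pos).ne']
    congr 1
    simp only [integral_cube, T, Fintype.sum_bool, p, div_mul_eq_mul_div, Finset.sum_add_distrib,
      ← Finset.sum_div]
    rw [← hW]
    field_simp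
  rw [hT, hG]
  have h2 : (∑ σ, w σ * coshT L (ξ σ)) / W ≤ Z := by
    rw [hZc]
    exact div_le_div_of_nonneg_right
      (Finset.sum_le_sum fun σ _ => mul_le_mul_of_nonneg_left (coshT_le_cosh hL _) (hw.pos σ).le) hW0.le
  have h3 : 0 < (∑ σ, w σ * coshT L (ξ σ)) / W :=
    div_pos (Finset.sum_pos (fun σ _ => mul_pos (hw.pos σ) (zero_lt_one.trans_le (one_le_coshT _ _)))
      Finset.univ_nonempty) hW0
  have h4 := Real.log_le_log (by positivity) hjen
  rw [Real.log_mul (by linarith) (Real.exp_pos _).ne', Real.log_exp] at h4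
  linarith [Real.log_le_log h3 h2]

end Vale.Agent.P157.Low
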