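import Mathlib

/-!
Sequences of independent patterns and Poisson numbers of them.
-/

namespace Vale.Agent.P157.Low

open MeasureTheory ProbabilityTheory
open scoped NNReal Nat

variable {E : Type} [MeasurableSpace E] {γ : Measure E} [IsProbabilityMeasure γ]

lemma measurable_update_pattern (M : ℕ) :
    Measurable fun p : (ℕ → E) × E => Function.update p.1 M p.2 := by
  refine measurable_pi_lambda _ fun i => ?_
  by_cases h : i = M
  · subst h; simpa using measurable_snd
  · simpa [h, Function.comp_def] using (measurable_pi_apply i).comp measurable_fst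

/-- Replacing one pattern by an independent one keeps the law. -/
lemma map_update_pattern (M : ℕ) :
    ((Measure.infinitePi fun _ : ℕ => γ).prod γ).map (fun p => Function.update p.1 M p.2) =
      Measure.infinitePi fun _ : ℕ => γ := by
  refine Measure.eq_infinitePi _ fun s t ht => ?_
  rw [Measure.map_apply (measurable_update_pattern M) (.pi s.countable_toSet fun i _ => ht i)]
  classical
  have : (fun p : (ℕ → E) × E => Function.update p.1 M p.2) ⁻¹' Set.pi s t =
      Set.pi (s.erase M) t ×ˢ (if M ∈ s then t M else Set.univ) := by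
    ext p
    simp only [Set.mem_preimage, Set.mem_pi, SetLike.mem_coe, Set.mem_prod, Finset.mem_erase]
    constructor
    · intro h
      refine ⟨fun i hi => by simpa [hi.1] using h i hi.2, ?_⟩
      split_ifs with hM
      · simpa using h M hM
      · trivial
    · intro h i hi
      by_cases hiM : i = M
      · subst hiM; simpa [hi] using h.2
      · simpa [hiM] using h.1 i ⟨hiM, hi⟩
  rw [this, Measure.prod_prod, Measure.infinitePi_pi _ fun i _ => ht i]
  split_ifs with hM
  · rw [← Finset.prod_erase_mul _ _ hM]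
  · simp [Finset.erase_eq_of_notMem hM]

lemma integral_update_pattern (M : ℕ) {F : (ℕ → E) → ℝ}
    (hF : Integrable F (Measure.infinitePi fun _ : ℕ => γ)) :
    Integrable (fun p => F (Function.update p.1 M p.2)) ((Measure.infinitePi fun _ : ℕ => γ).prod γ) ∧
      ∫ g, ∫ z, F (Function.update g M z) ∂γ ∂(Measure.infinitePi fun _ : ℕ => γ) =
        ∫ g, F g ∂(Measure.infinitePi fun _ : ℕ => γ) := by
  have hm := measurable_update_pattern (E := E) M
  have hi : Integrable (fun p => F (Function.update p.1 M p.2))
      ((Measure.infinitePi fun _ : ℕ => γ).prod γ) := by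
    rw [← map_update_pattern (γ := γ) M] at hF
    exact hF.comp_measurable hm
  refine ⟨hi, ?_⟩
  rw [← integral_prod _ hi]
  conv_rhs => rw [← map_update_pattern (γ := γ) M]
  rw [integral_map hm.aemeasurable]
  rw [map_update_pattern]
  exact hF.aestronglyMeasurable

/-- Permuting patterns keeps the law. -/
lemma map_comp_perm (e : Equiv.Perm ℕ) :
    (Measure.infinitePi fun _ : ℕ => γ).map (fun g => g ∘ e) = Measure.infinitePi fun _ : ℕ => γ := by
  have h := Measure.infinitePi_map_piCongrLeft (μ := fun _ : ℕ => γ) e.symm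
  refine (congrArg (fun f => (Measure.infinitePi fun _ : ℕ => γ).map f) ?_).trans h
  funext g i
  simp [MeasurableEquiv.coe_piCongrLeft, Equiv.piCongrLeft_apply]

lemma integral_comp_perm (e : Equiv.Perm ℕ) {F : (ℕ → E) → ℝ}
    (hF : AEStronglyMeasurable F (Measure.infinitePi fun _ : ℕ => γ)) :
    ∫ g, F (g ∘ e) ∂(Measure.infinitePi fun _ : ℕ => γ) =
      ∫ g, F g ∂(Measure.infinitePi fun _ : ℕ => γ) := by
  conv_rhs => rw [← map_comp_perm (γ := γ) e]
  rw [integral_map (Measurable.aemeasurable (by fun_prop))]
  rwa [map_comp_perm]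

/-- The first patterns have the product law. -/
lemma map_first_patterns (M : ℕ) :
    (Measure.infinitePi fun _ : ℕ => γ).map (fun g (a : Fin M) => g a) =
      Measure.pi fun _ : Fin M => γ := by
  refine (Measure.pi_eq fun t ht => ?_).symm
  rw [Measure.map_apply (by fun_prop) (.univ_pi ht)]
  classical
  have : (fun g (a : Fin M) => g (a : ℕ)) ⁻¹' Set.pi Set.univ t =
      Set.pi (Finset.range M : Set ℕ) (fun i => if h : i < M then t ⟨i, h⟩ else Set.univ) := by
    ext g
    simp only [Set.mem_preimage, Set.mem_pi, Set.mem_univ, true_implies, Finset.coe_range, Set.mem_Iio]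
    exact ⟨fun h i hi => by simpa [hi] using h ⟨i, hi⟩, fun h a => by simpa using h a a.2⟩
  rw [this, Measure.infinitePi_pi, ← Fin.prod_univ_eq_prod_range]
  · exact Finset.prod_congr rfl fun a _ => by simp
  · intro i hi
    simp [Finset.mem_range.1 hi, ht]

/-- Integrability against a Poisson law. -/
lemma integrable_poisson_of_le {r : ℝ≥0} {F : ℕ → ℝ} {C : ℝ} {j : ℕ}
    (h : ∀ n, |F n| ≤ C * ((n : ℝ) + 1) ^ j) : Integrable F (poissonMeasure r) := by
  rw [integrable_poissonMeasure_iff]
  refine Summable.of_nonneg_of_le (fun n => by positivity)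
    (fun n => mul_le_mul_of_nonneg_left (h n) (by positivity)) ?_
  have hb : ∀ n : ℕ, ((n : ℝ) + 1) ^ j ≤ Real.exp j ^ n * 1 := fun n => by
    rw [mul_one, ← Real.exp_nat_mul, mul_comm, Real.exp_nat_mul]
    exact pow_le_pow_left₀ (by positivity) (Real.add_one_le_exp _) _
  have hC : 0 ≤ C := by simpa using (abs_nonneg _).trans (h 0)
  refine Summable.of_nonneg_of_le (fun n => by positivity)
    (fun n => mul_le_mul_of_nonneg_left (mul_le_mul_of_nonneg_left (hb n) hC) (by positivity)) ?_
  refine ((NormedSpace.expSeries_div_summable ((r : ℝ) * Real.exp j)).mul_left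
    (Real.exp (-r) * C)).congr fun n => ?_
  rw [mul_pow]
  ring

/-- A pattern count against a Poisson law is the mean times the count raised by one. -/
lemma poisson_palm (r : ℝ≥0) (F : ℕ → ℝ) :
    ∫ n : ℕ, (n : ℝ) * F n ∂poissonMeasure r = r * ∫ n, F (n + 1) ∂poissonMeasure r := by
  have key : ∀ n : ℕ, Real.exp (-r) * (r : ℝ) ^ (n + 1) / (n + 1)! * (((n + 1 : ℕ) : ℝ) * F (n + 1)) =
      (r : ℝ) * (Real.exp (-r) * (r : ℝ) ^ n / n ! * F (n + 1)) := fun n => by
    have : ((n ! : ℕ) : ℝ) ≠ 0 := by positivity
    rw [Nat.factorial_succ]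
    push_cast
    field_simp
    ring
  rw [integral_poissonMeasure, integral_poissonMeasure, ← tsum_mul_left]
  simp only [smul_eq_mul]
  by_cases hs : Summable fun n : ℕ => Real.exp (-r) * (r : ℝ) ^ n / n ! * ((n : ℝ) * F n)
  · rw [hs.tsum_eq_zero_add]
    simp only [key, CharP.cast_eq_zero, zero_mul, mul_zero, zero_add]
  · rw [tsum_eq_zero_of_not_summable hs, tsum_eq_zero_of_not_summable]
    intro h
    refine hs ((summable_nat_add_iff 1).1 (h.congr fun n => (key n).symm))

/-- Poisson numbers add. -/
lemma poisson_add (r s : ℝ≥0) {F : ℕ → ℝ} (hF : Integrable F (poissonMeasure (r + s))) :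
    ∫ a, ∫ b, F (a + b) ∂poissonMeasure s ∂poissonMeasure r = ∫ n, F n ∂poissonMeasure (r + s) := by
  rw [← poissonMeasure_conv_poissonMeasure] at hF ⊢
  rw [integral_conv hF]

end Vale.Agent.P157.Low
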