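import Vale.Agent.P157.Low.CubeSys
import Vale.Agent.P157.Low.Patterns

/-!
Moments of sums over the cavity fields.
-/

namespace Vale.Agent.P157.Low

open MeasureTheory ProbabilityTheory

lemma integrable_field_eval {q : ℝ → ℝ} (a : ℕ) (hq : Integrable q (gaussianReal 0 1)) :
    Integrable (fun h : ℕ → ℝ => q (h a)) fieldLaw :=
  (measurePreserving_eval_infinitePi (fun _ : ℕ => gaussianReal 0 1) a).integrable_comp_of_integrable hq

lemma integral_field_eval {q : ℝ → ℝ} (a : ℕ) (hq : AEStronglyMeasurable q (gaussianReal 0 1)) :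
    ∫ h, q (h a) ∂fieldLaw = ∫ z, q z ∂gaussianReal 0 1 := by
  have hmp := measurePreserving_eval_infinitePi (fun _ : ℕ => gaussianReal 0 1) a
  conv_rhs => rw [← hmp.map_eq]
  rw [integral_map hmp.measurable.aemeasurable (by rw [hmp.map_eq]; exact hq)]
  rfl

/-- The exponential moment of a linear combination of the fields. -/
lemma integral_exp_fields (M : ℕ) (c : ℕ → ℝ) :
    Integrable (fun h : ℕ → ℝ => Real.exp (∑ a ∈ Finset.range M, c a * h a)) fieldLaw ∧
      ∫ h, Real.exp (∑ a ∈ Finset.range M, c a * h a) ∂fieldLaw =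
        Real.exp ((∑ a ∈ Finset.range M, c a ^ 2) / 2) := by
  have hmp : MeasurePreserving (fun h : ℕ → ℝ => fun a : Fin M => h a) fieldLaw
      (Measure.pi fun _ : Fin M => gaussianReal 0 1) :=
    ⟨by fun_prop, map_first_patterns (γ := gaussianReal 0 1) M⟩
  have hi : Integrable (fun z : Fin M → ℝ => ∏ a : Fin M, Real.exp (c a * z a))
      (Measure.pi fun _ : Fin M => gaussianReal 0 1) :=
    Integrable.fintype_prod (f := fun (a : Fin M) (z : ℝ) => Real.exp (c a * z))
      fun a => integrable_exp_mul_gaussianReal (c a)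
  have e : ∀ h : ℕ → ℝ, Real.exp (∑ a ∈ Finset.range M, c a * h a) =
      ∏ a : Fin M, Real.exp (c a * h a) := fun h => by
    rw [Real.exp_sum]
    exact (Fin.prod_univ_eq_prod_range (fun a => Real.exp (c a * h a)) M).symm
  simp only [e]
  refine ⟨hmp.integrable_comp_of_integrable hi, ?_⟩
  have h1 : ∫ h, ∏ a : Fin M, Real.exp (c a * h a) ∂fieldLaw =
      ∫ z, ∏ a : Fin M, Real.exp (c a * z a) ∂Measure.pi fun _ : Fin M => gaussianReal 0 1 := by
    conv_rhs => rw [← hmp.map_eq]
    rw [integral_map hmp.measurable.aemeasurable (by rw [hmp.map_eq]; exact hi.aestronglyMeasurable)]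
  rw [h1, integral_fintype_prod_eq_prod (μ := fun _ : Fin M => gaussianReal 0 1)
      (fun (a : Fin M) (z : ℝ) => Real.exp (c a * z)), ← Fin.sum_univ_eq_sum_range (fun a => c a ^ 2) M,
    Finset.sum_div, Real.exp_sum]
  refine Finset.prod_congr rfl fun a _ => ?_
  have h := mgf_gaussianReal (p := gaussianReal 0 1) (X := id) (μ := 0) (v := 1) Measure.map_id (c a)
  simp only [mgf, id] at h
  rw [h]
  norm_num

lemma integral_field_cosh (M : ℕ) (c : ℕ → ℝ) :
    Integrable (fun h : ℕ → ℝ => Real.cosh (∑ a ∈ Finset.range M, c a * h a)) fieldLaw ∧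
      ∫ h, Real.cosh (∑ a ∈ Finset.range M, c a * h a) ∂fieldLaw =
        Real.exp ((∑ a ∈ Finset.range M, c a ^ 2) / 2) := by
  obtain ⟨i1, e1⟩ := integral_exp_fields M c
  obtain ⟨i2, e2⟩ := integral_exp_fields M fun a => -c a
  simp only [neg_mul, Finset.sum_neg_distrib, neg_sq] at i2 e2
  simp only [Real.cosh_eq]
  refine ⟨(i1.add i2).div_const 2, ?_⟩
  rw [integral_div, integral_add i1 i2, e1, e2]
  ring

/-- Centred functions of different fields are orthogonal. -/
lemma integral_sq_sum_centred {q : ℝ → ℝ} (hq : Measurable q) (h2 : MemLp q 2 (gaussianReal 0 1))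
    (h0 : ∫ z, q z ∂gaussianReal 0 1 = 0) (c : ℕ → ℝ) : ∀ M,
    Integrable (fun h : ℕ → ℝ => (∑ a ∈ Finset.range M, c a * q (h a)) ^ 2) fieldLaw ∧
      ∫ h, (∑ a ∈ Finset.range M, c a * q (h a)) ^ 2 ∂fieldLaw =
        (∑ a ∈ Finset.range M, c a ^ 2) * ∫ z, q z ^ 2 ∂gaussianReal 0 1
  | 0 => by simp
  | M + 1 => by
    obtain ⟨ih, ie⟩ := integral_sq_sum_centred hq h2 h0 c M
    set S := fun h : ℕ → ℝ => ∑ a ∈ Finset.range M, c a * q (h a)
    have hSm : Measurable S := Finset.measurable_sum _ fun a _ => (hq.comp (measurable_pi_apply a)).const_mul _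
    have hq2 : Integrable (fun h : ℕ → ℝ => q (h M) ^ 2) fieldLaw :=
      integrable_field_eval (q := fun z => q z ^ 2) M h2.integrable_sq
    have hS2 : MemLp S 2 fieldLaw := (memLp_two_iff_integrable_sq hSm.aestronglyMeasurable).2 ih
    have hqM : MemLp (fun h : ℕ → ℝ => q (h M)) 2 fieldLaw :=
      (memLp_two_iff_integrable_sq (hq.comp (measurable_pi_apply M)).aestronglyMeasurable).2 hq2
    have hx : Integrable (fun h => S h * q (h M)) fieldLaw := hS2.integrable_mul hqM
    have hx0 : ∫ h, S h * q (h M) ∂fieldLaw = 0 := by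
      rw [fieldLaw] at hx ⊢
      rw [← (integral_update_pattern M hx).2]
      have : ∀ (h : ℕ → ℝ) z, S (Function.update h M z) = S h := fun h z =>
        Finset.sum_congr rfl fun a ha => by rw [Function.update_of_ne (Finset.mem_range.1 ha).ne]
      simp only [this, Function.update_self, integral_const_mul, h0, mul_zero, integral_zero]
    have e : ∀ h, (∑ a ∈ Finset.range (M + 1), c a * q (h a)) ^ 2 =
        S h ^ 2 + 2 * c M * (S h * q (h M)) + c M ^ 2 * q (h M) ^ 2 := fun h => by
      rw [Finset.sum_range_succ]; ring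
    simp only [e]
    refine ⟨(ih.add (hx.const_mul _)).add (hq2.const_mul _), ?_⟩
    have i2 : Integrable (fun h => S h ^ 2 + 2 * c M * (S h * q (h M))) fieldLaw := ih.add (hx.const_mul _)
    rw [integral_add i2 (hq2.const_mul _), integral_add ih (hx.const_mul _),
      integral_const_mul, integral_const_mul, hx0, ie,
      integral_field_eval (q := fun z => q z ^ 2) M h2.integrable_sq.aestronglyMeasurable,
      Finset.sum_range_succ]
    ring

end Vale.Agent.P157.Low
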