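import Vale.Agent.P157.Low.CubeSys
import Vale.Agent.P157.Low.Patterns

/-!
Moments of the pattern count.
-/

namespace Vale.Agent.P157.Low

open MeasureTheory ProbabilityTheory
open scoped NNReal Nat

lemma integral_poiLaw_id {lam : ℝ} (hl : 0 ≤ lam) :
    Integrable (fun M : ℕ => (M : ℝ)) (poiLaw lam) ∧ ∫ M : ℕ, (M : ℝ) ∂poiLaw lam = lam := by
  refine ⟨integrable_poisson_of_le (C := 1) (j := 1) fun n => by simp, ?_⟩
  have h := poisson_palm lam.toNNReal fun _ => (1 : ℝ)
  simp only [mul_one, integral_const, probReal_univ, one_smul, Real.coe_toNNReal _ hl] at h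
  exact h

lemma integral_poiLaw_sq {lam : ℝ} (hl : 0 ≤ lam) :
    Integrable (fun M : ℕ => (M : ℝ) ^ 2) (poiLaw lam) ∧
      ∫ M : ℕ, (M : ℝ) ^ 2 ∂poiLaw lam = lam ^ 2 + lam := by
  have i1 := (integral_poiLaw_id hl).1
  refine ⟨integrable_poisson_of_le (C := 1) (j := 2) fun n => by
    rw [abs_of_nonneg (by positivity), one_mul]
    exact pow_le_pow_left₀ (Nat.cast_nonneg _) (by linarith) 2, ?_⟩
  have h := poisson_palm lam.toNNReal fun n => (n : ℝ)
  have e : ∫ n : ℕ, ((n + 1 : ℕ) : ℝ) ∂poiLaw lam = lam + 1 := by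
    push_cast
    rw [integral_add i1 (integrable_const _), (integral_poiLaw_id hl).2]
    simp
  simp only [← sq, Real.coe_toNNReal _ hl] at h
  show ∫ M : ℕ, (M : ℝ) ^ 2 ∂poissonMeasure lam.toNNReal = _
  rw [h]
  change lam * ∫ n : ℕ, ((n + 1 : ℕ) : ℝ) ∂poiLaw lam = _
  rw [e]
  ring

/-- The exponential moment of the count. -/
lemma integral_poiLaw_exp {lam : ℝ} (hl : 0 ≤ lam) (b : ℝ) :
    Integrable (fun M : ℕ => Real.exp (b * M)) (poiLaw lam) ∧
      ∫ M : ℕ, Real.exp (b * M) ∂poiLaw lam = Real.exp (lam * (Real.exp b - 1)) := by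
  set r := lam.toNNReal with hr
  have hr' : (r : ℝ) = lam := Real.coe_toNNReal _ hl
  have e : ∀ n : ℕ, Real.exp (-r) * (r : ℝ) ^ n / n ! * Real.exp (b * n) =
      Real.exp (-r) * (((r : ℝ) * Real.exp b) ^ n / n !) := fun n => by
    rw [mul_pow, ← Real.exp_nat_mul, mul_comm (b : ℝ)]
    ring
  have hs : HasSum (fun n : ℕ => Real.exp (-r) * (r : ℝ) ^ n / n ! * Real.exp (b * n))
      (Real.exp (-r) * Real.exp ((r : ℝ) * Real.exp b)) := by
    simp only [e]
    have := (NormedSpace.expSeries_div_hasSum_exp ((r : ℝ) * Real.exp b)).mul_left (Real.exp (-r))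
    simpa [← Real.exp_eq_exp_ℝ] using this
  have hi : Integrable (fun M : ℕ => Real.exp (b * M)) (poissonMeasure r) := by
    rw [integrable_poissonMeasure_iff]
    simpa [Real.abs_exp] using hs.summable
  refine ⟨hi, ?_⟩
  show ∫ M : ℕ, Real.exp (b * M) ∂poissonMeasure r = _
  rw [integral_poissonMeasure]
  simp only [smul_eq_mul]
  rw [hs.tsum_eq, ← Real.exp_add, hr']
  congr 1
  ring

end Vale.Agent.P157.Low
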