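import Vale.Agent.P157.Low.SpinPatterns

/-!
The spin term and the spin value as series in covariance matrices.
-/

namespace Vale.Agent.P157.Low

open MeasureTheory ProbabilityTheory Filter
open scoped RealInnerProductSpace Topology

attribute [local instance] Arr.prob

lemma hasDerivAt_tanh (x : ℝ) : HasDerivAt Real.tanh (1 - Real.tanh x ^ 2) x := by
  have h := (Real.hasDerivAt_sinh x).div (Real.hasDerivAt_cosh x) (Real.cosh_pos x).ne'
  have e : Real.tanh = fun x => Real.sinh x / Real.cosh x := funext Real.tanh_eq_sinh_div_cosh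
  rw [e]
  refine h.congr_deriv ?_
  have := (Real.cosh_pos x).ne'
  field_simp

lemma bdD_tanh (L : ℝ) : ∀ k : ℕ, BdD k fun x => Real.tanh (x / L)
  | 0 => ⟨(continuous_iff_continuousAt.2 fun y => (hasDerivAt_tanh y).continuousAt).comp
      (continuous_id.div_const L), 1, fun x => (Real.abs_tanh_lt_one _).le⟩
  | k + 1 => by
    have hd : ∀ x, HasDerivAt (fun x => Real.tanh (x / L))
        ((1 - Real.tanh (x / L) ^ 2) * (1 / L)) x := fun x =>
      (hasDerivAt_tanh _).comp x ((hasDerivAt_id x).div_const L)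
    refine ⟨fun x => (hd x).differentiableAt, ⟨1, fun x => (Real.abs_tanh_lt_one _).le⟩, ?_⟩
    rw [show deriv (fun x => Real.tanh (x / L)) =
      fun x => (1 - Real.tanh (x / L) ^ 2) * (1 / L) from funext fun x => (hd x).deriv]
    exact ((BdD.const k 1).sub (bdD_tanh L k).sq).mul (BdD.const k _)

lemma sm_coshT (L : ℝ) : Sm (coshT L) := by
  refine BdD.toSm ?_
  rw [show coshT L = fun x => (Real.exp (L * Real.tanh (x / L)) + Real.exp (-L * Real.tanh (x / L))) *
    (1 / 2) from funext fun x => by
      simp only [coshT, Real.cosh_eq, neg_mul]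
      ring]
  exact (((BdD.const 3 L).mul (bdD_tanh L 3)).exp.add
    ((BdD.const 3 (-L)).mul (bdD_tanh L 3)).exp).mul (BdD.const 3 _)

/-- Centre of the values of the truncated cosine. -/
noncomputable def cmid (L : ℝ) : ℝ := (1 + Real.cosh L) / 2

/-- Relative spread of the values of the truncated cosine. -/
noncomputable def spread (L : ℝ) : ℝ := (Real.cosh L - 1) / (Real.cosh L + 1)

lemma cmid_pos (L : ℝ) : 0 < cmid L := by
  have := Real.cosh_pos L
  unfold cmid
  linarith

lemma spread_nonneg (L : ℝ) : 0 ≤ spread L := by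
  have := Real.one_le_cosh L
  exact div_nonneg (by linarith) (by linarith)

lemma spread_lt_one (L : ℝ) : spread L < 1 := by
  have := Real.one_le_cosh L
  rw [spread, div_lt_one (by linarith)]
  linarith

lemma abs_one_sub_coshT (L y : ℝ) : |1 - coshT L y / cmid L| ≤ spread L := by
  have h1 := Real.one_le_cosh L
  have h2 : coshT L y ≤ Real.cosh L := Real.cosh_le_cosh.2 <| by
    rw [abs_mul]
    exact mul_le_of_le_one_right (abs_nonneg L) (Real.abs_tanh_lt_one _).le
  have h3 : 1 ≤ coshT L y := Real.one_le_cosh _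
  have e : 1 - coshT L y / cmid L = (1 + Real.cosh L - 2 * coshT L y) / (Real.cosh L + 1) := by
    unfold cmid
    field_simp
    ring
  rw [e, abs_div, abs_of_pos (show (0 : ℝ) < Real.cosh L + 1 by linarith), spread]
  exact div_le_div_of_nonneg_right (abs_le.2 ⟨by linarith, by linarith⟩) (by linarith)

lemma weight_coshT (L : ℝ) : Weight (cmid L) (coshT L) where
  smooth := sm_coshT L
  cpos := cmid_pos L
  near := ⟨spread L, spread_lt_one L, abs_one_sub_coshT L⟩

/-- The integrand of a term of the log series of the truncated cosine. -/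
noncomputable def coshProd (L : ℝ) (n : ℕ) (h : Fin n → ℝ) : ℝ := ∏ l, (1 - coshT L (h l) / cmid L)

/-- Continuous extensions of the averages of the terms of the log series. -/
lemma exists_ext_cosh (L : ℝ) :
    ∃ G : ∀ n, Mat n → ℝ, (∀ n, Continuous (G n)) ∧ (∀ n R, |G n R| ≤ spread L ^ n) ∧
      ∀ n R, (Matrix.of R).PosSemidef → G n R = GE R (coshProd L n) := by
  have hc : Continuous (coshT L) := (sm_coshT L).bdD.cont
  choose G h1 h2 h3 using fun n => exists_GE_ext (Θ := coshProd L n)
    (by unfold coshProd; fun_prop) (B := spread L ^ n) fun h => by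
      rw [coshProd, Finset.abs_prod]
      simpa using Finset.prod_le_prod (s := Finset.univ) (fun l _ => abs_nonneg _)
        fun (l : Fin n) _ => abs_one_sub_coshT L (h l)
  exact ⟨G, h1, h2, h3⟩

variable {f : ℝ → ℝ} {B : ℝ}

/-- The covariance of the field of the new spin. -/
noncomputable def spinCov {hf : Pot f B} {N : ℕ} {lam : ℝ} {P : ℕ} {x : Fin P → ℝ} {n : ℕ}
    (ω : (pSys hf N lam 0 x).Ω) (r : Fin n → Fin (N + 1) → Bool) : Mat n :=
  fun a b => patSum (fun _ : Fin 2 => deriv f) ω fun i => r (![a, b] i)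

lemma measurable_patSum {hf : Pot f B} {N : ℕ} {lam : ℝ} {P : ℕ} {x : Fin P → ℝ} {n : ℕ}
    {θ : Fin n → ℝ → ℝ} (hθ : ∀ l, Measurable (θ l)) (r : Fin n → Fin (N + 1) → Bool) :
    Measurable fun ω : (pSys hf N lam 0 x).Ω => patSum θ ω r := by
  have h : Measurable fun q : ℕ × (pSys hf N lam 0 x).Ω =>
      ∑ a ∈ Finset.range q.1, ∏ l, θ l (pat q.2 a (r l)) :=
    measurable_from_prod_countable_right fun M => Finset.measurable_sum (Finset.range M)
      fun a _ => Finset.measurable_prod _ fun l _ => (hθ l).comp (measurable_pat a (r l))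
  exact (h.comp (measurable_cnt.prodMk measurable_id)).const_mul _

lemma measurable_spinCov {hf : Pot f B} {N : ℕ} {lam : ℝ} {P : ℕ} {x : Fin P → ℝ} {n : ℕ}
    (hd : Measurable (deriv f)) :
    Measurable (Function.uncurry fun (ω : (pSys hf N lam 0 x).Ω)
      (r : Fin n → (pSys hf N lam 0 x).X) => spinCov ω r) :=
  measurable_from_prod_countable_left fun r => measurable_pi_lambda _ fun a =>
    measurable_pi_lambda _ fun b => measurable_patSum (fun _ => hd) fun i => r (![a, b] i)

lemma Sys.measurable_integral_pi (S : Sys) {n : ℕ} {Θ : S.Ω → (Fin n → S.X) → ℝ}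
    (hm : Measurable (Function.uncurry Θ)) :
    Measurable fun ω => ∫ x, Θ ω x ∂Measure.pi fun _ : Fin n => gibbs S.ref (S.w ω) := by
  simp only [integral_pi_gibbs_rep (S.wt _)]
  refine Measurable.div ?_ (S.measurable_mass.pow_const n)
  exact (((Finset.measurable_prod _ fun l _ => S.measW.comp
    (measurable_fst.prodMk ((measurable_pi_apply l).comp measurable_snd))).mul
      hm).stronglyMeasurable.integral_prod_right' (ν := Measure.pi fun _ : Fin n => S.ref)).measurable

/-- The spin term as a series. -/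
lemma spinTerm_eq (hf : Pot f B) (hs : Smf f) (α : ℝ) (N : ℕ) {P : ℕ} (x : Fin P → ℝ) (L : ℝ)
    {G : ∀ n, Mat n → ℝ} (hGc : ∀ n, Continuous (G n)) (hGb : ∀ n R, |G n R| ≤ spread L ^ n)
    (hG : ∀ n R, (Matrix.of R).PosSemidef → G n R = GE R (coshProd L n)) :
    let S := pSys hf N (α * ((N : ℝ) + 2)) 0 x
    ∫ ω, ∫ h, Real.log (∫ r, coshT L (Real.sqrt (1 / ((N : ℝ) + 2)) *
        ∑ a ∈ Finset.range (cnt (k := 0) (x := x) ω), h a * deriv f (pat ω a r))
          ∂gibbs S.ref (S.w ω)) ∂fieldLaw ∂S.law = Real.log (cmid L) - ∑' k : ℕ,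
      (pSys hf N (α * ((N : ℝ) + 2)) 0 x).avgRep (k + 1) (fun ω r => G (k + 1) (spinCov ω r)) /
        ((k : ℝ) + 1) := by
  intro S
  have key : ∀ ω : S.Ω, ∫ h, Real.log (∫ r, coshT L (Real.sqrt (1 / ((N : ℝ) + 2)) *
      ∑ a ∈ Finset.range (cnt ω), h a * deriv f (pat ω a r)) ∂gibbs S.ref (S.w ω)) ∂fieldLaw =
      Real.log (cmid L) - ∑' k : ℕ, (∫ r, G (k + 1) (spinCov ω r)
        ∂Measure.pi fun _ : Fin (k + 1) => gibbs S.ref (S.w ω)) / ((k : ℝ) + 1) := fun ω => by
    have := isProbabilityMeasure_gibbs (μ := S.ref) (S.wt ω)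
    set s := Real.sqrt (1 / ((N : ℝ) + 2))
    set u : S.X → EuclideanSpace ℝ (Fin (cnt ω)) := fun r =>
      WithLp.toLp 2 fun a : Fin (cnt ω) => s * deriv f (pat ω a r)
    set F : EuclideanSpace ℝ (Fin (cnt ω)) → ℝ := fun g =>
      Real.log (∫ r, coshT L ⟪g, u r⟫ ∂gibbs S.ref (S.w ω))
    have hu : Measurable u := measurable_of_finite _
    have hF : Measurable F :=
      ((Measurable.stronglyMeasurable (f := fun p : EuclideanSpace ℝ (Fin (cnt ω)) × S.X =>
        coshT L ⟪p.1, u p.2⟫) ((sm_coshT L).bdD.cont.measurable.comp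
          (measurable_fst.inner (hu.comp measurable_snd)))).integral_prod_right'.measurable).log
    have e1 : ∀ h : ℕ → ℝ, Real.log (∫ r, coshT L (s *
        ∑ a ∈ Finset.range (cnt ω), h a * deriv f (pat ω a r)) ∂gibbs S.ref (S.w ω)) =
        F (WithLp.toLp 2 fun a : Fin (cnt ω) => h a) := fun h => by
      simp only [F, u, PiLp.inner_apply, RCLike.inner_apply, conj_trivial]
      congr 2
      funext r
      congr 1
      rw [Finset.mul_sum, ← Fin.sum_univ_eq_sum_range]
      exact Finset.sum_congr rfl fun a _ => by ring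
    simp only [e1]
    rw [fieldLaw, ← integral_map (μ := Measure.infinitePi fun _ : ℕ => gaussianReal 0 1)
        (φ := fun h (a : Fin (cnt ω)) => h a) (f := fun g => F (WithLp.toLp 2 g))
        (Measurable.aemeasurable (by fun_prop)) (hF.comp (by fun_prop)).aestronglyMeasurable,
      map_first_patterns (γ := gaussianReal 0 1),
      ← integral_map (φ := WithLp.toLp 2) (f := F) (Measurable.aemeasurable (by fun_prop))
        hF.aestronglyMeasurable, map_pi_eq_stdGaussian,
      log_series (gibbs S.ref (S.w ω)) hu (sm_coshT L).bdD.cont.measurable (spread_lt_one L)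
        (cmid_pos L) (abs_one_sub_coshT L), logSer]
    congr 1
    refine tsum_congr fun k => ?_
    congr 1
    refine integral_congr_ae (Eventually.of_forall fun r => ?_)
    have hQ : spinCov ω r = fun a b => ⟪u (r a), u (r b)⟫ := by
      funext a b
      simp only [spinCov, patSum, u, PiLp.inner_apply, RCLike.inner_apply, conj_trivial,
        Fin.prod_univ_two, Matrix.cons_val_zero, Matrix.cons_val_one, Finset.mul_sum]
      rw [← Fin.sum_univ_eq_sum_range]
      refine Finset.sum_congr rfl fun i _ => ?_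
      have hs2 : s * s = 1 / ((N : ℝ) + 2) := Real.mul_self_sqrt (by positivity)
      linear_combination -(deriv f (pat ω i (r a)) * deriv f (pat ω i (r b))) * hs2
    show _ = G (k + 1) (spinCov ω r)
    exact ((congrArg (G (k + 1)) hQ).trans
      (hG (k + 1) _ (Matrix.posSemidef_gram ℝ fun a => u (r a)))).symm
  have hm : ∀ k : ℕ, Measurable (Function.uncurry fun (ω : S.Ω) (r : Fin (k + 1) → S.X) =>
      G (k + 1) (spinCov ω r)) := fun k =>
    (hGc _).measurable.comp (measurable_spinCov hs.bdD_deriv.cont.measurable)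
  have hb : ∀ k (ω : S.Ω), |(∫ r, G (k + 1) (spinCov ω r)
      ∂Measure.pi fun _ : Fin (k + 1) => gibbs S.ref (S.w ω)) / ((k : ℝ) + 1)| ≤
      spread L ^ (k + 1) := fun k ω => by
    have := isProbabilityMeasure_gibbs (μ := S.ref) (S.wt ω)
    rw [abs_div, abs_of_pos (show (0 : ℝ) < (k : ℝ) + 1 by positivity)]
    refine (div_le_self (abs_nonneg _) (by simp)).trans ?_
    exact (Real.norm_eq_abs _).symm.le.trans ((norm_integral_le_of_norm_le_const
      (Eventually.of_forall fun r => (Real.norm_eq_abs _).le.trans (hGb _ _))).trans_eq (by simp))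
  have hmeas : ∀ k : ℕ, Measurable fun ω : S.Ω => (∫ r, G (k + 1) (spinCov ω r)
      ∂Measure.pi fun _ : Fin (k + 1) => gibbs S.ref (S.w ω)) / ((k : ℝ) + 1) := fun k =>
    (S.measurable_integral_pi (hm k)).div_const _
  have hsum : Summable fun k : ℕ => spread L ^ (k + 1) :=
    (summable_nat_add_iff 1).2 (summable_geometric_of_lt_one (spread_nonneg L) (spread_lt_one L))
  have hS := hasSum_integral_of_dominated_convergence (μ := S.law)
    (F := fun k (ω : S.Ω) => (∫ r, G (k + 1) (spinCov ω r)
      ∂Measure.pi fun _ : Fin (k + 1) => gibbs S.ref (S.w ω)) / ((k : ℝ) + 1))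
    (fun k _ => spread L ^ (k + 1)) (fun k => (hmeas k).aestronglyMeasurable)
    (fun k => Eventually.of_forall fun ω => (Real.norm_eq_abs _).le.trans (hb k ω))
    (Eventually.of_forall fun _ => hsum) (integrable_const _)
    (Eventually.of_forall fun ω =>
      (Summable.of_norm_bounded hsum fun k => (Real.norm_eq_abs _).le.trans (hb k ω)).hasSum)
  have hint : Integrable (fun ω : S.Ω => ∑' k : ℕ, (∫ r, G (k + 1) (spinCov ω r)
      ∂Measure.pi fun _ : Fin (k + 1) => gibbs S.ref (S.w ω)) / ((k : ℝ) + 1)) S.law :=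
    Integrable.of_bound (Measurable.tsum hmeas).aestronglyMeasurable
      (∑' k : ℕ, spread L ^ (k + 1))
      (Eventually.of_forall fun ω => tsum_of_norm_bounded hsum.hasSum fun k =>
        (Real.norm_eq_abs _).le.trans (hb k ω))
  simp only [key]
  rw [integral_sub (integrable_const _) hint, ← hS.tsum_eq]
  simp only [integral_const, probReal_univ, smul_eq_mul, one_mul, integral_div]
  rfl

variable {A : Arr} {K : ℕ}

/-- The covariance of the field of the new spin along a discretisation. -/
noncomputable def Discr.spinMat (D : Discr A K) (f : ℝ → ℝ) (α : ℝ) {n : ℕ} (R : Mat n) : Mat n :=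
  fun a b => if a = b then α * D.rdiag f else α * D.rval f (D.τ (R a b))

/-- The spin value as a series. -/
lemma Discr.spinVal_eq (D : Discr A (K + 2)) (hs : Smf f) {α : ℝ} (hα : 0 ≤ α) (L : ℝ)
    {G : ∀ n, Mat n → ℝ} (hG : ∀ n R, (Matrix.of R).PosSemidef → G n R = GE R (coshProd L n)) :
    D.spinVal f α L = Real.log (cmid L) - ∑' k : ℕ,
      (∫ R, G (k + 1) (D.spinMat f α R) ∂A.law (k + 1)) / ((k : ℝ) + 1) := by
  obtain ⟨Dv, hD⟩ := hs.bdD_deriv.bdd
  set s := α * (D.rdiag f - D.rval f (Fin.last D.r))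
  have hs0 : 0 ≤ s := mul_nonneg hα (sub_nonneg.2 (D.rval_mem hs hD _).2)
  set d := incr fun j => α * D.rval f j
  have hd : ∀ j, 0 ≤ d j := Low.incr_nonneg
    (fun i j hij => mul_le_mul_of_nonneg_left ((conj_props hs (D.levelParam (by omega)) hD).1 hij) hα)
    (mul_nonneg hα (D.rval_mem hs hD 0).1)
  have hc := (sm_coshT L).bdD.cont.measurable
  rw [Discr.spinVal, ← D.C.logVal_eq hd ((weight_coshT L).heat s), Casc.logVal, logSer]
  congr 1
  refine tsum_congr fun k => congrArg (· / _) ?_
  set M : LMat D.r (k + 1) → Mat (k + 1) := fun E a b =>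
    if a = b then α * D.rdiag f else α * D.rval f (E a b)
  have e : ∀ R : Mat (k + 1), D.spinMat f α R = M (lift D.τ R) := fun R => by
    funext a b
    simp only [Discr.spinMat, M, lift]
    split_ifs <;> rfl
  simp only [e]
  rw [D.law (k + 1) fun E => G (k + 1) (M E)]
  refine Finset.sum_congr rfl fun E _ => ?_
  rcases eq_or_ne (D.C.P (k + 1) E) 0 with hE | hE
  · simp [hE]
  congr 1
  have hps := posSemidef_lcov hd (D.C.symm _ E hE) (D.C.diag _ E hE) (D.C.ultra _ E hE)
  have hM : M E = fun a b => lcov d E a b + if a = b then s else 0 := by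
    funext a b
    rw [lcov_incr]
    simp only [M, s]
    split_ifs with h
    · subst h
      rw [D.C.diag _ E hE]
      ring
    · ring
  rw [hM, hG _ _ (posSemidef_add_diag hps hs0)]
  unfold coshProd
  rw [GE_add_diag hps hs0 (fun _ x => 1 - coshT L x / cmid L) (fun _ => (hc.div_const _).const_sub 1)
    fun _ => ⟨spread L, abs_one_sub_coshT L⟩]
  simp only [heat_res hc (abs_one_sub_coshT L)]

end Vale.Agent.P157.Low
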