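import Vale.Agent.P157.Low.Gain
import Vale.Agent.P157.Low.SpinSeries

/-!
The spin term: the field of the new spin becomes a cascade field.
-/

namespace Vale.Agent.P157.Low

open MeasureTheory ProbabilityTheory Filter
open scoped RealInnerProductSpace Topology

variable {f : ℝ → ℝ} {B : ℝ} {A : Arr}

attribute [local instance] Arr.prob

/-- A bounded continuous function is controlled near a compact set by the squared distance. -/
lemma exists_quad_modulus {n : ℕ} {G : Mat n → ℝ} (hG : Continuous G) (hGb : ∀ R, |G R| ≤ 1)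
    {η : ℝ} (hη : 0 < η) (R0 : ℝ) :
    ∃ C, 0 ≤ C ∧ ∀ z y : Mat n, (∀ a b, |y a b| ≤ R0) →
      |G z - G y| ≤ η + C * ∑ a, ∑ b, (z a b - y a b) ^ 2 := by
  have hK : IsCompact {y : Mat n | ∀ a b, |y a b| ≤ R0} := by
    refine (isCompact_univ_pi fun _ : Fin n => isCompact_univ_pi fun _ : Fin n =>
      (isCompact_Icc : IsCompact (Set.Icc (-R0) R0))).of_isClosed_subset ?_
      fun y hy a _ b _ => abs_le.1 (hy a b)
    simp only [Set.ofPred_forall]
    exact isClosed_iInter fun a => isClosed_iInter fun b => isClosed_le (by fun_prop) continuous_const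
  obtain ⟨δ, hδ, h⟩ := Metric.mem_uniformity_dist.1
    (hK.uniformContinuousAt_of_continuousAt G (fun _ _ => hG.continuousAt) (Metric.dist_mem_uniformity hη))
  refine ⟨2 / δ ^ 2, by positivity, fun z y hy => ?_⟩
  have hnn : 0 ≤ ∑ a, ∑ b, (z a b - y a b) ^ 2 :=
    Finset.sum_nonneg fun a _ => Finset.sum_nonneg fun b _ => sq_nonneg _
  rcases lt_or_ge (dist y z) δ with hd | hd
  · have h2 : dist (G y) (G z) < η := h hd hy
    rw [Real.dist_eq, abs_sub_comm] at h2
    nlinarith [mul_nonneg (show 0 ≤ 2 / δ ^ 2 by positivity) hnn]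
  · obtain ⟨a, b, hab⟩ : ∃ a b, δ ≤ |z a b - y a b| := by
      by_contra! hc
      refine hd.not_gt ((dist_pi_lt_iff hδ).2 fun a => (dist_pi_lt_iff hδ).2 fun b => ?_)
      rw [Real.dist_eq, abs_sub_comm]
      exact hc a b
    have h1 : δ ^ 2 ≤ ∑ a, ∑ b, (z a b - y a b) ^ 2 := by
      refine le_trans ?_ (Finset.single_le_sum (f := fun a => ∑ b, (z a b - y a b) ^ 2)
        (fun a _ => Finset.sum_nonneg fun b _ => sq_nonneg _) (Finset.mem_univ a))
      refine le_trans ?_ (Finset.single_le_sum (f := fun b => (z a b - y a b) ^ 2)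
        (fun b _ => sq_nonneg _) (Finset.mem_univ b))
      rw [← sq_abs (z a b - y a b)]
      exact pow_le_pow_left₀ hδ.le hab 2
    have h2 : (2 : ℝ) ≤ 2 / δ ^ 2 * ∑ a, ∑ b, (z a b - y a b) ^ 2 := by
      rw [div_mul_eq_mul_div, le_div_iff₀ (by positivity)]
      exact mul_le_mul_of_nonneg_left h1 zero_le_two
    linarith [abs_sub (G z) (G y), hGb z, hGb y]

/-- A continuous function of the overlaps close in the mean to a step function. -/
lemma exists_continuous_near (A : Arr) {r : ℕ} {τ : ℝ → Fin (r + 1)} (hτ : Measurable τ)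
    (v : Fin (r + 1) → ℝ) {C : ℝ} (hv : ∀ j, |v j| ≤ C) {δ : ℝ} (hδ : 0 < δ) :
    ∃ ψ : ℝ → ℝ, Continuous ψ ∧ (∀ t, |ψ t| ≤ C) ∧
      ∫ R, |ψ (R 0 1) - v (τ (R 0 1))| ∂A.law 2 ≤ δ := by
  set φ := fun t => v (τ t)
  have hφ : Measurable φ := (measurable_of_finite v).comp hτ
  have hm : Measurable fun R : Mat 2 => R 0 1 := by fun_prop
  have := Measure.isProbabilityMeasure_map (μ := A.law 2) hm.aemeasurable
  obtain ⟨g, hg, -⟩ := (Integrable.of_bound (μ := (A.law 2).map fun R => R 0 1) hφ.aestronglyMeasurable C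
    (Eventually.of_forall fun t => (Real.norm_eq_abs _).le.trans (hv _))).exists_boundedContinuous_integral_sub_le hδ
  have hC : 0 ≤ C := (abs_nonneg _).trans (hv 0)
  refine ⟨fun t => max (-C) (min C (g t)), by fun_prop,
    fun t => abs_le.2 ⟨le_max_left _ _, max_le (by linarith) (min_le_left _ _)⟩, le_trans ?_ hg⟩
  rw [integral_map hm.aemeasurable
    (show Measurable fun t => ‖φ t - g t‖ from (hφ.sub g.continuous.measurable).norm).aestronglyMeasurable]
  refine integral_mono_of_nonneg (Eventually.of_forall fun R => abs_nonneg _)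
    (Integrable.of_bound ((hφ.sub g.continuous.measurable).norm.comp hm).aestronglyMeasurable
      (C + ‖g‖) (Eventually.of_forall fun R => ?_)) (Eventually.of_forall fun R => ?_)
  · rw [norm_norm]
    exact (norm_sub_le _ _).trans (add_le_add ((Real.norm_eq_abs _).le.trans (hv _)) (g.norm_coe_le_norm _))
  · simp only [Real.norm_eq_abs, φ]
    obtain ⟨v1, v2⟩ := abs_le.1 (hv (τ (R 0 1)))
    have key : ∀ t : ℝ, |max (-C) (min C t) - v (τ (R 0 1))| ≤ |v (τ (R 0 1)) - t| := fun t => by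
      have h1 := le_abs_self (v (τ (R 0 1)) - t)
      have h2 := neg_abs_le (v (τ (R 0 1)) - t)
      rw [abs_le, max_def, min_def]
      split_ifs <;> constructor <;> linarith
    exact key _

/-- A continuous function of the overlaps and a constant as a covariance. -/
def psiMat {n : ℕ} (ψ : ℝ → ℝ) (c : ℝ) (R : Mat n) : Mat n :=
  fun a b => if a = b then c else ψ (R a b)

lemma continuous_psiMat {n : ℕ} {ψ : ℝ → ℝ} (hψ : Continuous ψ) (c : ℝ) :
    Continuous (psiMat (n := n) ψ c) :=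
  continuous_pi fun a => continuous_pi fun b => by
    unfold psiMat
    split_ifs <;> fun_prop

/-- The difference of averages of a controlled function in a finite system. -/
lemma abs_avgRep_sub_le (S : Sys) {n : ℕ} {G : Mat n → ℝ} (hG : Continuous G) (hGb : ∀ R, |G R| ≤ 1)
    {η C R0 : ℝ} (hC : ∀ z y : Mat n, (∀ a b, |y a b| ≤ R0) →
      |G z - G y| ≤ η + C * ∑ a, ∑ b, (z a b - y a b) ^ 2)
    {Z : S.Ω → (Fin n → S.X) → Mat n} (hZ : Measurable (Function.uncurry Z)) {F : Mat n → Mat n}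
    (hF : Continuous F) (hFb : ∀ R a b, |F R a b| ≤ R0) {g : S.Ω → ℝ} (hg : Integrable g S.law)
    (hZb : ∀ ω x a b, (Z ω x a b - F (S.gram x) a b) ^ 2 ≤ g ω) :
    |S.avgRep n (fun ω x => G (Z ω x)) - S.expect (fun R => G (F R))| ≤
      η + C * ∑ a, ∑ b, S.avgRep n (fun ω x => (Z ω x a b - F (S.gram x) a b) ^ 2) := by
  have hFm : Measurable fun p : S.Ω × (Fin n → S.X) => F (S.gram p.2) :=
    hF.measurable.comp ((S.measurable_gram n).comp measurable_snd)
  have i1 := S.integrable_repLaw (Θ := fun ω x => G (Z ω x)) (hG.measurable.comp hZ) fun ω x => hGb _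
  have i2 := S.integrable_repLaw (Θ := fun _ x => G (F (S.gram x))) (hG.measurable.comp hFm)
    fun ω x => hGb _
  have hdm : ∀ a b, Measurable fun p : S.Ω × (Fin n → S.X) =>
      (Z p.1 p.2 a b - F (S.gram p.2) a b) ^ 2 := fun a b =>
    (((measurable_pi_apply b).comp ((measurable_pi_apply a).comp hZ)).sub
      ((measurable_pi_apply b).comp ((measurable_pi_apply a).comp hFm))).pow_const 2
  have i3 : ∀ a b, Integrable (fun p : S.Ω × (Fin n → S.X) =>
      (Z p.1 p.2 a b - F (S.gram p.2) a b) ^ 2) (S.repLaw n) := fun a b =>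
    S.integrable_repLaw_of_le hg (Θ := fun ω x => (Z ω x a b - F (S.gram x) a b) ^ 2) (hdm a b)
      fun ω x => by rw [abs_of_nonneg (sq_nonneg _)]; exact hZb ω x a b
  rw [Sys.expect, S.avgRep_eq_of_integrable i1, S.avgRep_eq_of_integrable i2,
    Finset.sum_congr rfl fun a _ => Finset.sum_congr rfl fun b _ =>
      S.avgRep_eq_of_integrable (Θ := fun ω x => (Z ω x a b - F (S.gram x) a b) ^ 2) (i3 a b),
    ← Real.norm_eq_abs]
  have i5 := fun a => integrable_finsetSum Finset.univ fun b (_ : b ∈ Finset.univ) => i3 a b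
  have i6 := integrable_finsetSum Finset.univ fun a (_ : a ∈ Finset.univ) => i5 a
  rw [← integral_sub]
  · refine (norm_integral_le_of_norm_le ((integrable_const η).add (i6.const_mul C))
      (Eventually.of_forall fun p => (Real.norm_eq_abs _).le.trans (hC _ _ (hFb _)))).trans_eq ?_
    simp only [Pi.add_apply]
    rw [integral_add (integrable_const η) (i6.const_mul C), integral_const_mul,
      integral_finsetSum _ fun a _ => i5 a]
    simp only [integral_const, probReal_univ, smul_eq_mul, one_mul]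
    exact congrArg (fun z => η + C * z) (Finset.sum_congr rfl fun a _ =>
      integral_finsetSum _ fun b _ => i3 a b)
  · exact i1
  · exact i2

lemma sq_patSum_sub_le {hf : Pot f B} {N : ℕ} {lam : ℝ} {P : ℕ} {x : Fin P → ℝ} {n : ℕ}
    {θ : Fin n → ℝ → ℝ} {C : ℝ} (hθ : ∀ y : Fin n → ℝ, |∏ l, θ l (y l)| ≤ C) {v R0 : ℝ}
    (hv : |v| ≤ R0) (ω : (pSys hf N lam 0 x).Ω) (r : Fin n → Fin (N + 1) → Bool) :
    (patSum θ ω r - v) ^ 2 ≤ (C + R0) ^ 2 * ((cnt ω : ℝ) + 1) ^ 2 := by
  have hC : 0 ≤ C := (abs_nonneg _).trans (hθ fun _ => 0)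
  have hR : 0 ≤ R0 := (abs_nonneg _).trans hv
  have hn := Nat.cast_nonneg (α := ℝ) (cnt ω)
  have hs : |patSum θ ω r| ≤ (cnt ω : ℝ) * C := by
    have hε : 1 / ((N : ℝ) + 2) ≤ 1 := by
      rw [div_le_one (by positivity)]
      linarith [Nat.cast_nonneg (α := ℝ) N]
    rw [patSum, abs_mul, abs_of_nonneg (show (0 : ℝ) ≤ 1 / ((N : ℝ) + 2) by positivity)]
    refine (mul_le_of_le_one_left (abs_nonneg _) hε).trans ?_
    refine (Finset.abs_sum_le_sum_abs _ _).trans
      ((Finset.sum_le_card_nsmul _ _ _ fun a _ => hθ _).trans_eq ?_)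
    rw [Finset.card_range, nsmul_eq_mul]
  rw [← mul_pow, ← sq_abs]
  refine pow_le_pow_left₀ (abs_nonneg _) ((abs_sub _ _).trans ?_) 2
  nlinarith [mul_nonneg hR hn]

variable {Ns Ps : ℕ → ℕ} {xs : ∀ j, Fin (Ps j) → ℝ} {α : ℝ}

/-- The diagonal and off-diagonal entries of the field covariance concentrate. -/
lemma exists_entry_bounds (hf : Pot f B) (hs : Smf f) (hα : 0 < α) (hN : Tendsto Ns atTop atTop)
    (h : Conv (fun j => pSys hf (Ns j) (α * ((Ns j : ℝ) + 2)) 0 (xs j)) A) (D : ∀ K, Discr A (K + 2))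
    {Dv : ℝ} (hD : ∀ x, |deriv f x| ≤ Dv) :
    ∃ L e, 0 ≤ L ∧ Tendsto e atTop (𝓝 (0 : ℝ)) ∧ ∀ K (ψ : ℝ → ℝ), Continuous ψ →
      (∀ t, |ψ t| ≤ Dv ^ 2) → ∀ δ, 0 < δ → ∀ᶠ j in atTop, ∀ n (a b : Fin n),
        (pSys hf (Ns j) (α * ((Ns j : ℝ) + 2)) 0 (xs j)).avgRep n (fun ω x =>
          (spinCov ω x a b - psiMat (fun t => α * ψ t) (α * (D K).rdiag f)
            ((pSys hf (Ns j) (α * ((Ns j : ℝ) + 2)) 0 (xs j)).gram x) a b) ^ 2) ≤
        α ^ 2 * (L * (∫ R, |ψ (R 0 1) - (D K).rval f ((D K).τ (R 0 1))| ∂A.law 2) + e K) + δ := by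
  have hd := hs.bdD_deriv.cont
  obtain ⟨L1, e1, -, he1, hb1⟩ := exists_patSum_bound hf hs hα hN h D
    (θ := fun _ : Fin 1 => fun z => deriv f z ^ 2) (fun _ => hd.pow 2) (C := Dv ^ 2)
    (fun _ y => by rw [abs_pow]; exact pow_le_pow_left₀ (abs_nonneg _) (hD y) 2)
    (fun K _ => (D K).rdiag f) (C' := Dv ^ 2)
    (fun K _ => abs_le.2 ⟨by linarith [((D K).rdiag_mem hs hD).1, sq_nonneg Dv], ((D K).rdiag_mem hs hD).2⟩)
    fun K k Φ => (D K).ratio_diag hf hs k Φ
  have hrv : ∀ K j, |(D K).rval f j| ≤ Dv ^ 2 := fun K j => by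
    obtain ⟨h1, h2⟩ := (D K).rval_mem hs hD j
    exact abs_le.2 ⟨by linarith [sq_nonneg Dv], h2.trans ((D K).rdiag_mem hs hD).2⟩
  obtain ⟨L2, e2, hL2, he2, hb2⟩ := exists_patSum_bound hf hs hα hN h D
    (θ := fun _ : Fin 2 => deriv f) (fun _ => hd) (C := Dv) (fun _ y => hD y)
    (fun K E => (D K).rval f (E 0 1)) (C' := Dv ^ 2) (fun K E => hrv K _)
    fun K k Φ => (D K).ratio_val hf hs k Φ
  refine ⟨L2, fun K => |e1 K| + |e2 K|, hL2, by simpa using he1.abs.add he2.abs,
    fun K ψ hψ hψb δ hδ => ?_⟩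
  have hI : 0 ≤ ∫ R, |ψ (R 0 1) - (D K).rval f ((D K).τ (R 0 1))| ∂A.law 2 :=
    integral_nonneg fun R => abs_nonneg _
  have h1 := hb1 K (fun _ => (D K).rdiag f) continuous_const
    (fun _ => abs_le.2 ⟨by linarith [((D K).rdiag_mem hs hD).1, sq_nonneg Dv], ((D K).rdiag_mem hs hD).2⟩)
    δ hδ
  have h2 := hb2 K (fun R => ψ (R 0 1)) (hψ.comp (by fun_prop)) (fun R => hψb _) δ hδ
  filter_upwards [h1, h2] with j hj1 hj2 n a b
  set S := pSys hf (Ns j) (α * ((Ns j : ℝ) + 2)) 0 (xs j)
  have hlift : ∀ R : Mat 2, lift (D K).τ R 0 1 = (D K).τ (R 0 1) := fun R => by simp [lift]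
  simp only [hlift, sub_self, abs_zero, integral_zero, mul_zero, zero_add] at hj1 hj2
  by_cases hab : a = b
  · subst hab
    have hinj : Function.Injective ![a] := fun i k _ => Subsingleton.elim i k
    have e : (fun ω x => (spinCov ω x a a -
        psiMat (fun t => α * ψ t) (α * (D K).rdiag f) (S.gram x) a a) ^ 2) =
        fun ω x => (fun (ω : S.Ω) (y : Fin 1 → S.X) =>
          (patSum (fun _ : Fin 1 => fun z => deriv f z ^ 2) ω y - α * (D K).rdiag f) ^ 2) ω
            fun i => x (![a] i) := by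
      funext ω x
      simp only [spinCov, psiMat, if_true, patSum, Fin.prod_univ_two, Fin.prod_univ_one,
        Matrix.cons_val_zero, Matrix.cons_val_one, Matrix.cons_val_fin_one, sq]
    refine ((congrArg (S.avgRep n) e).trans (S.avgRep_marg hinj (Θ := fun ω y =>
      (patSum (fun _ : Fin 1 => fun z => deriv f z ^ 2) ω y - α * (D K).rdiag f) ^ 2) ?_)).trans_le ?_
    · exact measurable_from_prod_countable_left fun r =>
        ((measurable_patSum (fun _ => (hd.pow 2).measurable) r).sub_const _).pow_const 2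
    · refine hj1.trans ((add_le_add_iff_right δ).2 (mul_le_mul_of_nonneg_left ?_ (sq_nonneg α)))
      nlinarith [le_abs_self (e1 K), abs_nonneg (e2 K), mul_nonneg hL2 hI]
  · have hinj : Function.Injective ![a, b] := fun i k hik => by
      fin_cases i <;> fin_cases k <;> simp_all
    have e : (fun ω x => (spinCov ω x a b -
        psiMat (fun t => α * ψ t) (α * (D K).rdiag f) (S.gram x) a b) ^ 2) =
        fun ω x => (fun (ω : S.Ω) (y : Fin 2 → S.X) =>
          (patSum (fun _ : Fin 2 => deriv f) ω y - α * ψ (S.gram y 0 1)) ^ 2) ω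
            fun i => x (![a, b] i) := by
      funext ω x
      simp only [spinCov, psiMat, if_neg hab]
      rfl
    refine ((congrArg (S.avgRep n) e).trans (S.avgRep_marg hinj (Θ := fun ω y =>
      (patSum (fun _ : Fin 2 => deriv f) ω y - α * ψ (S.gram y 0 1)) ^ 2) ?_)).trans_le ?_
    · exact measurable_from_prod_countable_left fun r =>
        show Measurable fun ω : S.Ω =>
            (patSum (fun _ : Fin 2 => deriv f) ω r - α * ψ (S.gram r 0 1)) ^ 2 from
          ((measurable_patSum (fun _ => hd.measurable) r).sub_const _).pow_const 2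
    · refine hj2.trans ((add_le_add_iff_right δ).2 (mul_le_mul_of_nonneg_left ?_ (sq_nonneg α)))
      linarith [le_abs_self (e2 K), abs_nonneg (e1 K)]

/-- Each term of the series converges. -/
lemma eventually_term_close (hf : Pot f B) (hs : Smf f) (hα : 0 < α) (hN : Tendsto Ns atTop atTop)
    (h : Conv (fun j => pSys hf (Ns j) (α * ((Ns j : ℝ) + 2)) 0 (xs j)) A) (D : ∀ K, Discr A (K + 2))
    {n : ℕ} {G : Mat n → ℝ} (hG : Continuous G) (hGb : ∀ R, |G R| ≤ 1) {δ : ℝ} (hδ : 0 < δ) :
    ∀ᶠ K in atTop, ∀ᶠ j in atTop,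
      |(pSys hf (Ns j) (α * ((Ns j : ℝ) + 2)) 0 (xs j)).avgRep n (fun ω r => G (spinCov ω r)) -
        ∫ R, G ((D K).spinMat f α R) ∂A.law n| ≤ δ := by
  obtain ⟨Dv, hD⟩ := hs.bdD_deriv.bdd
  obtain ⟨L, e, hL, he, hb⟩ := exists_entry_bounds hf hs hα hN h D hD
  obtain ⟨C, hC0, hC⟩ := exists_quad_modulus hG hGb (show 0 < δ / 5 by linarith) (α * Dv ^ 2)
  set W := C * (n : ℝ) ^ 2
  set κ := δ / (5 * (W * (α ^ 2 * (L + 2 * Dv ^ 2 + 1) + 1) + 1))
  have hW0 : 0 ≤ W := by positivity
  have hκ : 0 < κ := by positivity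
  filter_upwards [he.eventually (gt_mem_nhds hκ)] with K hK
  have hrv : ∀ j, |(D K).rval f j| ≤ Dv ^ 2 := fun j => by
    obtain ⟨h1, h2⟩ := (D K).rval_mem hs hD j
    exact abs_le.2 ⟨by linarith [sq_nonneg Dv], h2.trans ((D K).rdiag_mem hs hD).2⟩
  have hrd : |(D K).rdiag f| ≤ Dv ^ 2 :=
    abs_le.2 ⟨by linarith [((D K).rdiag_mem hs hD).1, sq_nonneg Dv], ((D K).rdiag_mem hs hD).2⟩
  obtain ⟨ψ, hψ, hψb, hψd⟩ := exists_continuous_near A (D K).measτ (fun j => (D K).rval f j) hrv hκ
  set F : Mat n → Mat n := psiMat (fun t => α * ψ t) (α * (D K).rdiag f)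
  have hFc : Continuous F := continuous_psiMat (hψ.const_mul α) _
  have hFb : ∀ R a b, |F R a b| ≤ α * Dv ^ 2 := fun R a b => by
    simp only [F, psiMat]
    split_ifs <;> rw [abs_mul, abs_of_pos hα]
    exacts [mul_le_mul_of_nonneg_left hrd hα.le, mul_le_mul_of_nonneg_left (hψb _) hα.le]
  have hsum : ∀ (g : Fin n → Fin n → ℝ) (v : ℝ), (∀ a b, g a b ≤ v) →
      C * ∑ a, ∑ b, g a b ≤ W * v := fun g v hv => by
    refine (mul_le_mul_of_nonneg_left
      (Finset.sum_le_sum fun a _ => Finset.sum_le_sum fun b _ => hv a b) hC0).trans_eq ?_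
    simp [W, sq]
    ring
  -- the array side
  have hmid : |∫ R, G (F R) ∂A.law n - ∫ R, G ((D K).spinMat f α R) ∂A.law n| ≤
      δ / 5 + W * (α ^ 2 * (2 * Dv ^ 2) * κ) := by
    have hmM : Measurable fun R : Mat n => (D K).spinMat f α R := by
      refine measurable_pi_lambda _ fun a => measurable_pi_lambda _ fun b => ?_
      simp only [Discr.spinMat]
      split_ifs
      · fun_prop
      · exact ((measurable_of_finite fun j => (D K).rval f j).comp
          ((D K).measτ.comp ((measurable_pi_apply b).comp (measurable_pi_apply a)))).const_mul α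
    have hMb : ∀ (R : Mat n) (a b : Fin n), |(D K).spinMat f α R a b| ≤ α * Dv ^ 2 := fun R a b => by
      simp only [Discr.spinMat]
      split_ifs <;> rw [abs_mul, abs_of_pos hα]
      exacts [mul_le_mul_of_nonneg_left hrd hα.le, mul_le_mul_of_nonneg_left (hrv _) hα.le]
    have hdm : ∀ a b, Measurable fun R : Mat n => (F R a b - (D K).spinMat f α R a b) ^ 2 := fun a b =>
      (((measurable_pi_apply b).comp ((measurable_pi_apply a).comp hFc.measurable)).sub
        ((measurable_pi_apply b).comp ((measurable_pi_apply a).comp hmM))).pow_const 2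
    have i1 : Integrable (fun R => G (F R)) (A.law n) := Integrable.of_bound
      (hG.comp hFc).aestronglyMeasurable 1
      (Eventually.of_forall fun R => (Real.norm_eq_abs _).le.trans (hGb _))
    have i2 : Integrable (fun R => G ((D K).spinMat f α R)) (A.law n) := Integrable.of_bound
      (hG.measurable.comp hmM).aestronglyMeasurable 1
      (Eventually.of_forall fun R => (Real.norm_eq_abs _).le.trans (hGb _))
    have i3 : ∀ a b, Integrable (fun R => (F R a b - (D K).spinMat f α R a b) ^ 2) (A.law n) := fun a b =>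
      Integrable.of_bound (hdm a b).aestronglyMeasurable ((2 * (α * Dv ^ 2)) ^ 2)
        (Eventually.of_forall fun R => by
          rw [Real.norm_eq_abs, abs_pow]
          exact pow_le_pow_left₀ (abs_nonneg _)
            ((abs_sub _ _).trans (by linarith [hFb R a b, hMb R a b])) 2)
    have i5 := fun a => integrable_finsetSum Finset.univ fun b (_ : b ∈ Finset.univ) => i3 a b
    have i6 := integrable_finsetSum Finset.univ fun a (_ : a ∈ Finset.univ) => i5 a
    rw [← integral_sub i1 i2, ← Real.norm_eq_abs]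
    refine (norm_integral_le_of_norm_le ((integrable_const (δ / 5)).add (i6.const_mul C))
      (Eventually.of_forall fun R => (Real.norm_eq_abs _).le.trans (hC _ _ (hMb R)))).trans ?_
    simp only [Pi.add_apply]
    rw [integral_add (integrable_const _) (i6.const_mul C), integral_const_mul,
      integral_finsetSum _ fun a _ => i5 a,
      Finset.sum_congr rfl fun a _ => integral_finsetSum _ fun b _ => i3 a b]
    simp only [integral_const, probReal_univ, smul_eq_mul, one_mul]
    refine (add_le_add_iff_left _).2 (hsum _ _ fun a b => ?_)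
    by_cases hab : a = b
    · subst hab
      simp only [F, psiMat, Discr.spinMat, if_true, sub_self]
      simp only [ne_eq, OfNat.ofNat_ne_zero, not_false_eq_true, zero_pow, integral_zero]
      positivity
    · have hinj : Function.Injective ![a, b] := fun i k hik => by
        fin_cases i <;> fin_cases k <;> simp_all
      have hsm : Measurable fun R : Mat n => sub R ![a, b] := by unfold sub; fun_prop
      have hsm2 : Measurable fun R : Mat 2 => |ψ (R 0 1) - (D K).rval f ((D K).τ (R 0 1))| :=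
        ((hψ.measurable.comp (by fun_prop)).sub
          (((measurable_of_finite fun j => (D K).rval f j).comp (D K).measτ).comp (by fun_prop))).abs
      have hI : ∫ R, |ψ (R a b) - (D K).rval f ((D K).τ (R a b))| ∂A.law n ≤ κ := by
        rw [← A.marg ![a, b] hinj] at hψd
        rw [integral_map hsm.aemeasurable hsm2.aestronglyMeasurable] at hψd
        exact hψd
      have hI2 : Integrable (fun R => |ψ (R a b) - (D K).rval f ((D K).τ (R a b))|) (A.law n) :=
        Integrable.of_bound (hsm2.comp hsm).aestronglyMeasurable (2 * Dv ^ 2)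
          (Eventually.of_forall fun R => by
            rw [Real.norm_eq_abs, abs_abs]
            exact (abs_sub _ _).trans (by linarith [hψb (R a b), hrv ((D K).τ (R a b))]))
      refine (integral_mono (i3 a b) (hI2.const_mul (α ^ 2 * (2 * Dv ^ 2))) fun R => ?_).trans ?_
      · simp only [F, psiMat, Discr.spinMat, if_neg hab]
        rw [← mul_sub, mul_pow, mul_assoc (α ^ 2), ← sq_abs (ψ (R a b) - _), sq |_|]
        exact mul_le_mul_of_nonneg_left (mul_le_mul_of_nonneg_right
          ((abs_sub _ _).trans (by linarith [hψb (R a b), hrv ((D K).τ (R a b))])) (abs_nonneg _))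
          (sq_nonneg α)
      · rw [integral_const_mul]
        exact mul_le_mul_of_nonneg_left hI (by positivity)
  filter_upwards [hb K ψ hψ hψb κ hκ,
    (h n (fun R => G (F R)) (hG.comp hFc) ⟨1, fun R => hGb _⟩).eventually
      (Metric.ball_mem_nhds _ (show 0 < δ / 5 by linarith))] with j hj hj'
  have hfin : |(pSys hf (Ns j) (α * ((Ns j : ℝ) + 2)) 0 (xs j)).avgRep n (fun ω r => G (spinCov ω r)) -
      (pSys hf (Ns j) (α * ((Ns j : ℝ) + 2)) 0 (xs j)).expect (fun R => G (F R))| ≤
      δ / 5 + W * (α ^ 2 * (L + 1) * κ + κ) := by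
    refine (abs_avgRep_sub_le _ hG hGb hC (measurable_spinCov hs.bdD_deriv.cont.measurable) hFc hFb
      ((integrable_cnt 2).const_mul ((Dv * Dv + α * Dv ^ 2) ^ 2)) fun ω x a b =>
        sq_patSum_sub_le (fun y => ?_) (hFb _ a b) ω _).trans
      ((add_le_add_iff_left _).2 (hsum _ _ fun a b => (hj n a b).trans ?_))
    · rw [Fin.prod_univ_two, abs_mul]
      exact mul_le_mul (hD _) (hD _) (abs_nonneg _) ((abs_nonneg _).trans (hD 0))
    · rw [mul_assoc (α ^ 2)]
      refine (add_le_add_iff_right κ).2 (mul_le_mul_of_nonneg_left ?_ (sq_nonneg α))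
      nlinarith [mul_le_mul_of_nonneg_left hψd hL]
  rw [Real.dist_eq] at hj'
  have hk : W * (α ^ 2 * (L + 2 * Dv ^ 2 + 1) + 1) * κ ≤ δ / 5 := by
    simp only [κ]
    rw [mul_div_assoc', div_le_div_iff₀ (by positivity) (by norm_num)]
    nlinarith
  calc |(pSys hf (Ns j) (α * ((Ns j : ℝ) + 2)) 0 (xs j)).avgRep n (fun ω r => G (spinCov ω r)) -
        ∫ R, G ((D K).spinMat f α R) ∂A.law n|
      ≤ _ := (abs_sub_le _ _ _).trans (add_le_add hfin
        ((abs_sub_le _ (∫ R, G (F R) ∂A.law n) _).trans (add_le_add hj'.le hmid)))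
    _ ≤ δ := by nlinarith

/-- Expected log-average of the truncated cosine at the field of the new spin. -/
noncomputable def spinTerm (hf : Pot f B) (α : ℝ) (N : ℕ) {P : ℕ} (x : Fin P → ℝ) (L : ℝ) : ℝ :=
  let S := pSys hf N (α * ((N : ℝ) + 2)) 0 x
  ∫ ω, ∫ h, Real.log (∫ r, coshT L (Real.sqrt (1 / ((N : ℝ) + 2)) *
      ∑ a ∈ Finset.range (cnt (k := 0) (x := x) ω), h a * deriv f (pat ω a r))
        ∂gibbs S.ref (S.w ω)) ∂fieldLaw ∂S.law

/-- The spin term is asymptotically at least the value of every fine discretisation. -/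
theorem spin_lower (hf : Pot f B) (hs : Smf f) {α : ℝ} (hα : 0 < α) {Ns : ℕ → ℕ}
    (hN : Tendsto Ns atTop atTop) (Ps : ℕ → ℕ) (xs : ∀ j, Fin (Ps j) → ℝ)
    (h : Conv (fun j => pSys hf (Ns j) (α * ((Ns j : ℝ) + 2)) 0 (xs j)) A)
    (D : ∀ K, Discr A (K + 2)) {L : ℝ} (hL : 0 < L) {η : ℝ} (hη : 0 < η) :
    ∀ᶠ K in atTop, ∀ᶠ j in atTop, (D K).spinVal f α L - η ≤ spinTerm hf α (Ns j) (xs j) L := by
  obtain ⟨G, hGc, hGb, hG⟩ := exists_ext_cosh L
  have hρ0 := spread_nonneg L
  have hρ1 := spread_lt_one L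
  have hsum : Summable fun k : ℕ => 2 * spread L ^ (k + 1) :=
    ((summable_nat_add_iff 1).2 (summable_geometric_of_lt_one hρ0 hρ1)).mul_left 2
  obtain ⟨m, hm⟩ := ((tendsto_sum_nat_add fun k : ℕ => 2 * spread L ^ (k + 1)).eventually
    (gt_mem_nhds (show (0 : ℝ) < η / 2 by linarith))).exists
  have hev : ∀ᶠ K in atTop, ∀ k ∈ Finset.range m, ∀ᶠ j in atTop,
      |(pSys hf (Ns j) (α * ((Ns j : ℝ) + 2)) 0 (xs j)).avgRep (k + 1)
          (fun ω r => G (k + 1) (spinCov ω r)) -
        ∫ R, G (k + 1) ((D K).spinMat f α R) ∂A.law (k + 1)| ≤ η / (2 * ((m : ℝ) + 1)) :=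
    (Finset.range m).eventually_all.2 fun k _ => eventually_term_close hf hs hα hN h D (hGc _)
      (fun R => (hGb _ R).trans (pow_le_one₀ hρ0 hρ1.le)) (by positivity)
  filter_upwards [hev] with K hK
  filter_upwards [(Finset.range m).eventually_all.2 hK] with j hj
  rw [show spinTerm hf α (Ns j) (xs j) L = _ from spinTerm_eq hf hs α (Ns j) (xs j) L hGc hGb hG,
    (D K).spinVal_eq hs hα.le L hG]
  set S := pSys hf (Ns j) (α * ((Ns j : ℝ) + 2)) 0 (xs j)
  set a := fun k : ℕ => S.avgRep (k + 1) (fun ω r => G (k + 1) (spinCov ω r)) / ((k : ℝ) + 1)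
  set b := fun k : ℕ => (∫ R, G (k + 1) ((D K).spinMat f α R) ∂A.law (k + 1)) / ((k : ℝ) + 1)
  have hdiv : ∀ (v : ℝ) (k : ℕ), |v / ((k : ℝ) + 1)| ≤ |v| := fun v k => by
    rw [abs_div, abs_of_pos (show (0 : ℝ) < (k : ℝ) + 1 by positivity)]
    exact div_le_self (abs_nonneg _) (by simp)
  have ha : ∀ k, |a k| ≤ spread L ^ (k + 1) := fun k =>
    (hdiv _ k).trans (abs_avgRep_le S fun ω r => hGb _ _)
  have hb' : ∀ k, |b k| ≤ spread L ^ (k + 1) := fun k => (hdiv _ k).trans
    ((Real.norm_eq_abs _).symm.le.trans ((norm_integral_le_of_norm_le_const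
      (Eventually.of_forall fun R => (Real.norm_eq_abs _).le.trans (hGb _ _))).trans_eq (by simp)))
  have hg : Summable fun k : ℕ => spread L ^ (k + 1) :=
    (summable_nat_add_iff 1).2 (summable_geometric_of_lt_one hρ0 hρ1)
  have sa : Summable a := Summable.of_norm_bounded hg fun k => (Real.norm_eq_abs _).le.trans (ha k)
  have sb : Summable b := Summable.of_norm_bounded hg fun k => (Real.norm_eq_abs _).le.trans (hb' k)
  have hhead : ∑ k ∈ Finset.range m, (a k - b k) ≤ η / 2 := by
    refine (Finset.sum_le_card_nsmul _ _ (η / (2 * ((m : ℝ) + 1))) fun k hk => ?_).trans ?_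
    · refine (le_abs_self _).trans ?_
      simp only [a, b, ← sub_div]
      exact (hdiv _ k).trans (hj k hk)
    · rw [Finset.card_range, nsmul_eq_mul, mul_div_assoc', div_le_div_iff₀ (by positivity) two_pos]
      nlinarith
  have htail : ∑' k, (a (k + m) - b (k + m)) ≤ η / 2 := by
    refine le_trans (Summable.tsum_le_tsum (fun k => ?_) ((summable_nat_add_iff m).2 (sa.sub sb))
      ((summable_nat_add_iff m).2 hsum)) hm.le
    linarith [(abs_le.1 (ha (k + m))).2, (abs_le.1 (hb' (k + m))).1]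
  have hsplit := (sa.sub sb).sum_add_tsum_nat_add m
  rw [sa.tsum_sub sb] at hsplit
  linarith

end Vale.Agent.P157.Low
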