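import Vale.Agent.P157.Low.Defs

/-!
Second-order expansion of a potential at the cavity field of one pattern.
-/

namespace Vale.Agent.P157.Low

open Set

lemma abs_le_of_deriv_le {φ φ' : ℝ → ℝ} (hd : ∀ x, HasDerivAt φ (φ' x) x) (h0 : φ 0 = 0) {T K : ℝ}
    (hT : 0 ≤ T) (hb : ∀ x ∈ Icc (-T) T, |φ' x| ≤ K) {x : ℝ} (hx : x ∈ Icc (-T) T) :
    |φ x| ≤ K * T := by
  have h := Convex.norm_image_sub_le_of_norm_hasDerivWithin_le (s := Icc (-T) T) (f := φ) (f' := φ')
    (C := K) (fun y _ => (hd y).hasDerivWithinAt) (fun y hy => by simpa using hb y hy)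
    (convex_Icc _ _) (show (0 : ℝ) ∈ Icc (-T) T from ⟨by linarith, hT⟩) hx
  rw [h0, sub_zero, sub_zero, Real.norm_eq_abs, Real.norm_eq_abs] at h
  have hK : 0 ≤ K := (abs_nonneg _).trans (hb 0 ⟨by linarith, hT⟩)
  exact h.trans (mul_le_mul_of_nonneg_left (abs_le.2 ⟨hx.1, hx.2⟩) hK)

lemma Smf.hasDerivAt {f : ℝ → ℝ} (hf : Smf f) {k : ℕ} (hk : k < 5) (x : ℝ) :
    HasDerivAt (iteratedDeriv k f) (iteratedDeriv (k + 1) f x) x := by
  rw [iteratedDeriv_succ]
  exact (hf.smooth.differentiable_iteratedDeriv k (by exact_mod_cast hk) x).hasDerivAt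

/-- A bound on the first three derivatives. -/
lemma Smf.exists_bound {f : ℝ → ℝ} (hf : Smf f) :
    ∃ D, 1 ≤ D ∧ ∀ x, |deriv f x| ≤ D ∧ |deriv (deriv f) x| ≤ D ∧ |iteratedDeriv 3 f x| ≤ D := by
  obtain ⟨C, hC⟩ := hf.bdd
  refine ⟨max C 1, le_max_right _ _, fun x => ⟨?_, ?_, (hC 3 (by norm_num) x).trans (le_max_left _ _)⟩⟩
  · simpa using (hC 1 (by norm_num) x).trans (le_max_left _ _)
  · simpa [iteratedDeriv_succ] using (hC 2 (by norm_num) x).trans (le_max_left _ _)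

/-- Taylor's bound of order three. -/
lemma taylor_three {f : ℝ → ℝ} (hf : Smf f) {D : ℝ} (hD : ∀ x, |iteratedDeriv 3 f x| ≤ D) (y d : ℝ) :
    |f (y + d) - f y - deriv f y * d - deriv (deriv f) y * d ^ 2 / 2| ≤ D * |d| ^ 3 := by
  set T := |d| with hT
  have hT0 : 0 ≤ T := abs_nonneg d
  have hd : d ∈ Icc (-T) T := abs_le.1 le_rfl
  have e1 : iteratedDeriv 1 f = deriv f := iteratedDeriv_one
  have e2 : iteratedDeriv 2 f = deriv (deriv f) := by rw [iteratedDeriv_succ, e1]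
  set p2 := fun t => deriv (deriv f) (y + t) - deriv (deriv f) y
  set p1 := fun t => deriv f (y + t) - deriv f y - deriv (deriv f) y * t
  set p0 := fun t => f (y + t) - f y - deriv f y * t - deriv (deriv f) y * t ^ 2 / 2
  have d2 : ∀ t, HasDerivAt p2 (iteratedDeriv 3 f (y + t)) t := fun t => by
    have h := ((hf.hasDerivAt (k := 2) (by norm_num) (y + t)).comp_const_add y t).sub_const
      (deriv (deriv f) y)
    simpa [p2, e2] using h
  have d1 : ∀ t, HasDerivAt p1 (p2 t) t := fun t => by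
    have h := (((hf.hasDerivAt (k := 1) (by norm_num) (y + t)).comp_const_add y t).sub_const
      (deriv f y)).sub ((hasDerivAt_id t).const_mul (deriv (deriv f) y))
    rw [e1] at h
    refine h.congr_deriv ?_
    simp [p2, e2]
  have d0 : ∀ t, HasDerivAt p0 (p1 t) t := fun t => by
    have h := ((((hf.hasDerivAt (k := 0) (by norm_num) (y + t)).comp_const_add y t).sub_const
      (f y)).sub ((hasDerivAt_id t).const_mul (deriv f y))).sub
        (((hasDerivAt_pow 2 t).const_mul (deriv (deriv f) y)).div_const 2)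
    refine h.congr_deriv ?_
    simp only [p1, e1, iteratedDeriv_zero, id, mul_one]
    ring
  have b2 : ∀ t ∈ Icc (-T) T, |p2 t| ≤ D * T := fun t ht =>
    abs_le_of_deriv_le d2 (by simp [p2]) hT0 (fun x _ => hD _) ht
  have b1 : ∀ t ∈ Icc (-T) T, |p1 t| ≤ D * T * T := fun t ht =>
    abs_le_of_deriv_le d1 (by simp [p1]) hT0 b2 ht
  have b0 := abs_le_of_deriv_le d0 (by simp [p0]) hT0 b1 hd
  exact b0.trans_eq (by ring)

/-- The expansion at one pattern: `y` the old field, `v` the new one, `ε` the weight of the new spin. -/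
theorem pattern_expansion {f : ℝ → ℝ} (hf : Smf f) {D : ℝ}
    (hD : ∀ x, |deriv f x| ≤ D ∧ |deriv (deriv f) x| ≤ D ∧ |iteratedDeriv 3 f x| ≤ D)
    {ε : ℝ} (h0 : 0 ≤ ε) (h1 : ε ≤ 1) (y v : ℝ) :
    |f (Real.sqrt (1 - ε) * y + Real.sqrt ε * v) - f y -
        (Real.sqrt ε * v * deriv f y + ε / 2 * (deriv (deriv f) y * v ^ 2 - y * deriv f y))| ≤
      3 * D * Real.sqrt ε ^ 3 * (1 + |y| + |v|) ^ 3 := by
  set η := Real.sqrt ε with hη
  set c := Real.sqrt (1 - ε) - 1 with hc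
  have hη0 : 0 ≤ η := Real.sqrt_nonneg ε
  have hη2 : η ^ 2 = ε := Real.sq_sqrt h0
  have hη1 : η ≤ 1 := Real.sqrt_le_one.2 h1
  have hS0 : 0 ≤ Real.sqrt (1 - ε) := Real.sqrt_nonneg _
  have hS1 : Real.sqrt (1 - ε) ≤ 1 := Real.sqrt_le_one.2 (by linarith)
  have hS2 : Real.sqrt (1 - ε) ^ 2 = 1 - ε := Real.sq_sqrt (by linarith)
  have hce : |c| ≤ ε := by
    rw [hc, abs_le]
    constructor <;> nlinarith
  have hce2 : |c + ε / 2| ≤ ε ^ 2 := by
    have e : c + ε / 2 = -(c ^ 2 / 2) := by rw [hc]; linear_combination (1 / 2 : ℝ) * hS2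
    rw [e, abs_neg, abs_of_nonneg (by positivity)]
    nlinarith [abs_le.1 hce]
  have hD0 : 0 ≤ D := (abs_nonneg _).trans (hD 0).1
  set d := c * y + η * v with hd
  set s := |y| + |v| with hs
  have hs0 : 0 ≤ s := by positivity
  have hcη : |c| ≤ η := hce.trans (by nlinarith)
  have hd1 : |d| ≤ η * s := by
    rw [hd, hs, mul_add]
    refine (abs_add_le _ _).trans (add_le_add ?_ ?_)
    · rw [abs_mul]; exact mul_le_mul_of_nonneg_right hcη (abs_nonneg y)
    · rw [abs_mul, abs_of_nonneg hη0]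
  have ez : Real.sqrt (1 - ε) * y + η * v = y + d := by rw [hd, hc]; ring
  rw [ez]
  have e : f (y + d) - f y - (η * v * deriv f y + ε / 2 * (deriv (deriv f) y * v ^ 2 - y * deriv f y)) =
      (f (y + d) - f y - deriv f y * d - deriv (deriv f) y * d ^ 2 / 2) +
        deriv f y * ((c + ε / 2) * y) + deriv (deriv f) y / 2 * (c ^ 2 * y ^ 2 + 2 * c * η * y * v) := by
    rw [hd, ← hη2]; ring
  rw [e]
  have t1 : |f (y + d) - f y - deriv f y * d - deriv (deriv f) y * d ^ 2 / 2| ≤ D * η ^ 3 * (1 + s) ^ 3 := by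
    refine (taylor_three hf (fun x => (hD x).2.2) y d).trans ?_
    calc D * |d| ^ 3 ≤ D * (η * s) ^ 3 :=
          mul_le_mul_of_nonneg_left (pow_le_pow_left₀ (abs_nonneg d) hd1 3) hD0
      _ ≤ D * η ^ 3 * (1 + s) ^ 3 := by
          rw [mul_pow, ← mul_assoc]
          exact mul_le_mul_of_nonneg_left (pow_le_pow_left₀ hs0 (by linarith) 3) (by positivity)
  have hsq : s ≤ (1 + s) ^ 3 ∧ s ^ 2 ≤ (1 + s) ^ 3 := by constructor <;> nlinarith [pow_nonneg hs0 3]
  have hε2 : ε ^ 2 ≤ η ^ 3 := by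
    have : η ^ 3 * η ≤ η ^ 3 * 1 := mul_le_mul_of_nonneg_left hη1 (by positivity)
    nlinarith
  have t2 : |deriv f y * ((c + ε / 2) * y)| ≤ D * η ^ 3 * (1 + s) ^ 3 := by
    rw [abs_mul, abs_mul, mul_assoc D]
    refine mul_le_mul (hD y).1 (mul_le_mul (hce2.trans hε2) ?_ (abs_nonneg y) (by positivity))
      (by positivity) hD0
    exact le_trans (by rw [hs]; linarith [abs_nonneg v]) hsq.1
  have t3 : |deriv (deriv f) y / 2 * (c ^ 2 * y ^ 2 + 2 * c * η * y * v)| ≤ D * η ^ 3 * (1 + s) ^ 3 := by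
    have hin : |c ^ 2 * y ^ 2 + 2 * c * η * y * v| ≤ η ^ 3 * s ^ 2 := by
      refine (abs_add_le _ _).trans ?_
      have a1 : |c ^ 2 * y ^ 2| ≤ η ^ 3 * |y| ^ 2 := by
        rw [abs_mul, abs_pow, abs_pow]
        exact mul_le_mul_of_nonneg_right ((pow_le_pow_left₀ (abs_nonneg c) hce 2).trans hε2) (by positivity)
      have a2 : |2 * c * η * y * v| ≤ η ^ 3 * (2 * |y| * |v|) := by
        rw [abs_mul, abs_mul, abs_mul, abs_mul, abs_of_nonneg hη0, abs_two]
        have : |c| * η ≤ η ^ 3 := by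
          calc |c| * η ≤ ε * η := mul_le_mul_of_nonneg_right hce hη0
            _ = η ^ 3 := by rw [← hη2]; ring
        calc 2 * |c| * η * |y| * |v| = (|c| * η) * (2 * |y| * |v|) := by ring
          _ ≤ η ^ 3 * (2 * |y| * |v|) := mul_le_mul_of_nonneg_right this (by positivity)
      refine (add_le_add a1 a2).trans ?_
      have h' : η ^ 3 * s ^ 2 = η ^ 3 * |y| ^ 2 + η ^ 3 * (2 * |y| * |v|) + η ^ 3 * |v| ^ 2 := by
        rw [hs]; ring
      rw [h']
      exact le_add_of_nonneg_right (by positivity)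
    rw [abs_mul, abs_div, abs_two, mul_assoc D]
    refine mul_le_mul (by linarith [(hD y).2.1]) (hin.trans ?_) (abs_nonneg _) hD0
    exact mul_le_mul_of_nonneg_left hsq.2 (by positivity)
  refine (abs_add_three _ _ _).trans ?_
  have : (1 : ℝ) + |y| + |v| = 1 + s := by rw [hs]; ring
  rw [this]
  linarith

end Vale.Agent.P157.Low
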