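import Vale.Agent.P157.Low.CubePairs
import Vale.Agent.P157.Low.CavityPoint
import Vale.Agent.P157.Low.Taylor
import Vale.Agent.P157.Low.FieldMoments
import Vale.Agent.P157.Low.PoissonMoments
import Vale.Agent.P157.Low.SpinLimit
import Vale.Agent.P157.Low.Stein

/-!
Adding one spin: the gain is at least the spin term plus half the drift, up to a small error.
-/

namespace Vale.Agent.P157.Low

open MeasureTheory ProbabilityTheory
open scoped RealInnerProductSpace

variable {f : ℝ → ℝ} {B : ℝ} {N P : ℕ}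

/-- The field of pattern `a` at a configuration. -/
noncomputable def fld (g : ℕ → Sp (N + 1)) (a : ℕ) (σ : Fin (N + 1) → Bool) : ℝ :=
  ⟪g a, cubeVec (N + 1) σ⟫

lemma measurable_fld (a : ℕ) (σ : Fin (N + 1) → Bool) : Measurable fun g : ℕ → Sp (N + 1) => fld g a σ :=
  Measurable.inner (measurable_pi_apply a) measurable_const

lemma sum_sq_le (a b c : ℝ) : (1 + |a| + |b|) ^ 6 * c ^ 2 ≤ 729 * c ^ 2 * (1 + a ^ 6 + b ^ 6) := by
  have e : ∀ z : ℝ, z ^ 6 = |z| ^ 6 := fun z => (Even.pow_abs (by decide) z).symm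
  rw [e a, e b]
  set m := max 1 (max |a| |b|)
  have hm : 1 + |a| + |b| ≤ 3 * m := by
    have h1 : (1 : ℝ) ≤ m := le_max_left _ _
    have h2 : |a| ≤ m := (le_max_left _ _).trans (le_max_right _ _)
    have h3 : |b| ≤ m := (le_max_right _ _).trans (le_max_right _ _)
    linarith
  have hm6 : m ^ 6 ≤ 1 + |a| ^ 6 + |b| ^ 6 := by
    have ha := pow_nonneg (abs_nonneg a) 6
    have hb := pow_nonneg (abs_nonneg b) 6
    rcases max_choice (1 : ℝ) (max |a| |b|) with h | h <;> rw [show m = _ from h]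
    · linarith [one_pow (M := ℝ) 6]
    · rcases max_choice |a| |b| with h' | h' <;> rw [h'] <;> linarith
  calc (1 + |a| + |b|) ^ 6 * c ^ 2 ≤ (3 * m) ^ 6 * c ^ 2 :=
        mul_le_mul_of_nonneg_right (pow_le_pow_left₀ (by positivity) hm 6) (sq_nonneg c)
    _ = 729 * c ^ 2 * m ^ 6 := by ring
    _ ≤ _ := mul_le_mul_of_nonneg_left hm6 (by positivity)

/-- The remainder of the exponent of the new spin, squared. -/
lemma exponent_remainder (hs : Smf f) {D : ℝ}
    (hD : ∀ x, |deriv f x| ≤ D ∧ |deriv (deriv f) x| ≤ D ∧ |iteratedDeriv 3 f x| ≤ D)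
    {ε : ℝ} (h0 : 0 ≤ ε) (h1 : ε ≤ 1) (M : ℕ) (y h : ℕ → ℝ) (d : ℝ) (s : Bool) :
    ((∑ a ∈ Finset.range M, (f (Real.sqrt (1 - ε) * y a +
        Real.sqrt ε * (h a * if s then 1 else -1)) - f (y a))) -
      (if s then Real.sqrt ε * ∑ a ∈ Finset.range M, h a * deriv f (y a)
        else -(Real.sqrt ε * ∑ a ∈ Finset.range M, h a * deriv f (y a))) - d / 2) ^ 2 ≤
      (ε * (∑ a ∈ Finset.range M, (deriv (deriv f) (y a) - y a * deriv f (y a))) - d) ^ 2 +
        3 * (∑ a ∈ Finset.range M, (ε / 2 * deriv (deriv f) (y a)) * (h a ^ 2 - 1)) ^ 2 +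
        3 * (729 * (3 * D) ^ 2) * (ε ^ 3 * ((M : ℝ) * ∑ a ∈ Finset.range M, (1 + y a ^ 6 + h a ^ 6))) := by
  set σ : ℝ := if s then 1 else -1 with hσ
  have hσ2 : σ ^ 2 = 1 := by rw [hσ]; split_ifs <;> norm_num
  have hσa : |σ| = 1 := by rw [hσ]; split_ifs <;> norm_num
  set r := fun a => f (Real.sqrt (1 - ε) * y a + Real.sqrt ε * (h a * σ)) - f (y a) -
    (Real.sqrt ε * (h a * σ) * deriv f (y a) +
      ε / 2 * (deriv (deriv f) (y a) * h a ^ 2 - y a * deriv f (y a)))
  have hr : ∀ a, |r a| ≤ 3 * D * Real.sqrt ε ^ 3 * (1 + |y a| + |h a|) ^ 3 := fun a => by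
    have := pattern_expansion hs hD h0 h1 (y a) (h a * σ)
    rw [mul_pow, hσ2, mul_one, abs_mul, hσa, mul_one] at this
    exact this
  set A := ∑ a ∈ Finset.range M, (deriv (deriv f) (y a) - y a * deriv f (y a))
  set Zs := ∑ a ∈ Finset.range M, (ε / 2 * deriv (deriv f) (y a)) * (h a ^ 2 - 1)
  set R := ∑ a ∈ Finset.range M, r a
  have e : (∑ a ∈ Finset.range M, (f (Real.sqrt (1 - ε) * y a +
        Real.sqrt ε * (h a * if s then 1 else -1)) - f (y a))) -
      (if s then Real.sqrt ε * ∑ a ∈ Finset.range M, h a * deriv f (y a)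
        else -(Real.sqrt ε * ∑ a ∈ Finset.range M, h a * deriv f (y a))) - d / 2 =
      (ε * A - d) / 2 + Zs + R := by
    have e1 : (if s then Real.sqrt ε * ∑ a ∈ Finset.range M, h a * deriv f (y a)
        else -(Real.sqrt ε * ∑ a ∈ Finset.range M, h a * deriv f (y a))) =
        ∑ a ∈ Finset.range M, Real.sqrt ε * (h a * σ) * deriv f (y a) := by
      cases s <;> simp [hσ, Finset.mul_sum, ← Finset.sum_neg_distrib, mul_assoc]
    rw [e1]
    have e2 : ∀ a, f (Real.sqrt (1 - ε) * y a + Real.sqrt ε * (h a * σ)) - f (y a) =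
        Real.sqrt ε * (h a * σ) * deriv f (y a) +
          (ε / 2 * (deriv (deriv f) (y a) - y a * deriv f (y a)) +
            (ε / 2 * deriv (deriv f) (y a)) * (h a ^ 2 - 1) + r a) := fun a => by
      simp only [r]; ring
    simp only [← hσ, e2, Finset.sum_add_distrib, A, Zs, R, Finset.mul_sum]
    rw [sub_div, Finset.sum_div]
    have : ∀ a, ε / 2 * (deriv (deriv f) (y a) - y a * deriv f (y a)) =
        ε * (deriv (deriv f) (y a) - y a * deriv f (y a)) / 2 := fun a => by ring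
    simp only [this]
    ring
  rw [e]
  have hR : R ^ 2 ≤ 729 * (3 * D) ^ 2 * (ε ^ 3 * ((M : ℝ) * ∑ a ∈ Finset.range M, (1 + y a ^ 6 + h a ^ 6))) := by
    have hc := sq_sum_le_card_mul_sum_sq (s := Finset.range M) (f := r)
    rw [Finset.card_range] at hc
    refine hc.trans ?_
    rw [Finset.mul_sum, Finset.mul_sum, Finset.mul_sum, Finset.mul_sum]
    refine Finset.sum_le_sum fun a _ => ?_
    have hη : (Real.sqrt ε ^ 3) ^ 2 = ε ^ 3 := by rw [← pow_mul, mul_comm, pow_mul, Real.sq_sqrt h0]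
    have hb : r a ^ 2 ≤ (3 * D * Real.sqrt ε ^ 3 * (1 + |y a| + |h a|) ^ 3) ^ 2 := by
      rw [← sq_abs (r a)]
      exact pow_le_pow_left₀ (abs_nonneg _) (hr a) 2
    have hb2 : (3 * D * Real.sqrt ε ^ 3 * (1 + |y a| + |h a|) ^ 3) ^ 2 =
        ε ^ 3 * ((1 + |y a| + |h a|) ^ 6 * (3 * D) ^ 2) := by
      rw [mul_pow, mul_pow (3 * D), hη]; ring
    rw [hb2] at hb
    refine (mul_le_mul_of_nonneg_left (hb.trans (mul_le_mul_of_nonneg_left (sum_sq_le _ _ _)
      (pow_nonneg h0 3))) (Nat.cast_nonneg M)).trans_eq ?_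
    ring
  nlinarith [sq_nonneg ((ε * A - d) / 2 - Zs), sq_nonneg ((ε * A - d) / 2 - R), sq_nonneg (Zs - R),
    sq_nonneg (ε * A - d)]

lemma repE_affine {n : ℕ} {w : (Fin (N + 1) → Bool) → ℝ} (hw : ∀ σ, 0 < w σ) (a b : ℝ)
    (h : (Fin n → Fin (N + 1) → Bool) → ℝ) :
    repE w (fun r => a * h r + b) = a * repE w h + b := by
  have := repE_const (n := n) hw b
  simp only [repE] at this ⊢
  simp only [mul_add, Finset.sum_add_distrib, add_div, this, mul_left_comm _ a, ← Finset.mul_sum,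
    mul_div_assoc]

lemma integral_repE {w : (Fin (N + 1) → Bool) → ℝ} {F : (ℕ → ℝ) → (Fin (N + 1) → Bool) → ℝ}
    (hF : ∀ σ, Integrable (fun h => F h σ) fieldLaw) :
    Integrable (fun h => repE (n := 1) w fun r => F h (r 0)) fieldLaw ∧
      ∫ h, repE (n := 1) w (fun r => F h (r 0)) ∂fieldLaw =
        repE (n := 1) w fun r => ∫ h, F h (r 0) ∂fieldLaw := by
  simp only [repE]
  have hi : ∀ r : Fin 1 → Fin (N + 1) → Bool, Integrable (fun h => (∏ l, w (r l)) * F h (r 0)) fieldLaw :=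
    fun r => (hF (r 0)).const_mul _
  refine ⟨(integrable_finsetSum _ fun r _ => hi r).div_const _, ?_⟩
  rw [integral_div, integral_finsetSum _ fun r _ => hi r]
  simp only [integral_const_mul]

/-- The exponent of a new spin with value `s`. -/
lemma cavW_eq (f : ℝ → ℝ) (x : Fin P → ℝ) (M : ℕ) (g : ℕ → Sp (N + 1)) (h : ℕ → ℝ)
    (J : PertSpace (N + 1) P) (σ : Fin (N + 1) → Bool) (s : Bool) :
    cavW f N x ((M, (g, h)), J) (σ, s) = cw f N x M g J σ *
      Real.exp (∑ a ∈ Finset.range M, (f (Real.sqrt (1 - 1 / ((N : ℝ) + 2)) * fld g a σ +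
        Real.sqrt (1 / ((N : ℝ) + 2)) * (h a * if s then 1 else -1)) - f (fld g a σ))) := by
  unfold cavW cw fld
  rw [← Real.exp_add, ← Real.exp_add, ← Real.exp_add, Finset.sum_sub_distrib]
  congr 1
  dsimp only
  ring

/-- Disorder of the cavity system. -/
abbrev Dis (N P : ℕ) := (ℕ × (ℕ → Sp (N + 1))) × PertSpace (N + 1) P

/-- The law of the disorder. -/
noncomputable def disLaw (lam : ℝ) (N P : ℕ) : Measure (Dis N P) :=
  ((poiLaw lam).prod (patLaw (N + 1))).prod (stdGaussian (PertSpace (N + 1) P))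

instance (lam : ℝ) (N P : ℕ) : IsProbabilityMeasure (disLaw lam N P) := by
  unfold disLaw; infer_instance

/-- The log-partition function with the new spin. -/
noncomputable def topInt (f : ℝ → ℝ) (x : Fin P → ℝ) (ω : Dis N P) (h : ℕ → ℝ) : ℝ :=
  Real.log (((∫ σ, cavW f N x ((ω.1.1, (ω.1.2, h)), ω.2) (σ, true) ∂cubeMeasure (N + 1)) +
    ∫ σ, cavW f N x ((ω.1.1, (ω.1.2, h)), ω.2) (σ, false) ∂cubeMeasure (N + 1)) / 2)

/-- The field of the new spin. -/
noncomputable def xiFld (f : ℝ → ℝ) (N M : ℕ) (g : ℕ → Sp (N + 1)) (h : ℕ → ℝ)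
    (σ : Fin (N + 1) → Bool) : ℝ :=
  Real.sqrt (1 / ((N : ℝ) + 2)) * ∑ a ∈ Finset.range M, h a * deriv f (fld g a σ)

/-- The log-average of the truncated cosine. -/
noncomputable def spinInt (f : ℝ → ℝ) (x : Fin P → ℝ) (L : ℝ) (ω : Dis N P) (h : ℕ → ℝ) : ℝ :=
  Real.log (∫ σ, coshT L (xiFld f N ω.1.1 ω.1.2 h σ)
    ∂gibbs (cubeMeasure (N + 1)) (cw f N x ω.1.1 ω.1.2 ω.2))

lemma measurable_of_count {M' : Type} [MeasurableSpace M']
    (F : ℕ → (ℕ → Sp (N + 1)) → (ℕ → ℝ) → M')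
    (hF : ∀ M, Measurable fun q : (ℕ → Sp (N + 1)) × (ℕ → ℝ) => F M q.1 q.2) :
    Measurable fun p : Dis N P × (ℕ → ℝ) => F p.1.1.1 p.1.1.2 p.2 :=
  (measurable_from_prod_countable_right (f := fun q : ℕ × ((ℕ → Sp (N + 1)) × (ℕ → ℝ)) => F q.1 q.2.1 q.2.2) hF).comp
    ((measurable_fst.comp (measurable_fst.comp measurable_fst)).prodMk
      ((measurable_snd.comp (measurable_fst.comp measurable_fst)).prodMk measurable_snd))

lemma measurable_cavExp (hf : Pot f B) (M : ℕ) (σ : Fin (N + 1) → Bool) (s : Bool) (c e : ℝ) :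
    Measurable fun q : (ℕ → Sp (N + 1)) × (ℕ → ℝ) => ∑ a ∈ Finset.range M,
      (f (c * fld q.1 a σ + e * (q.2 a * if s then 1 else -1)) - f (fld q.1 a σ)) := by
  refine Finset.measurable_sum (Finset.range M) fun a _ => ?_
  have h1 : Measurable fun q : (ℕ → Sp (N + 1)) × (ℕ → ℝ) => fld q.1 a σ :=
    (measurable_fld a σ).comp measurable_fst
  have h2 : Measurable fun q : (ℕ → Sp (N + 1)) × (ℕ → ℝ) => q.2 a :=
    (measurable_pi_apply a).comp measurable_snd
  exact (hf.meas.comp ((h1.const_mul c).add ((h2.mul_const _).const_mul e))).sub (hf.meas.comp h1)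

lemma measurable_cavW (hf : Pot f B) (x : Fin P → ℝ) (σ : Fin (N + 1) → Bool) (s : Bool) :
    Measurable fun p : Dis N P × (ℕ → ℝ) => cavW f N x ((p.1.1.1, (p.1.1.2, p.2)), p.1.2) (σ, s) := by
  have h1 : Measurable fun p : Dis N P × (ℕ → ℝ) => cw f N x p.1.1.1 p.1.1.2 p.1.2 σ :=
    Measurable.comp (g := fun ω : Dis N P => cw f N x ω.1.1 ω.1.2 ω.2 σ)
      (f := fun p : Dis N P × (ℕ → ℝ) => p.1) (measurable_cw hf x σ) measurable_fst
  have h2 : Measurable fun p : Dis N P × (ℕ → ℝ) => ∑ a ∈ Finset.range p.1.1.1,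
      (f (Real.sqrt (1 - 1 / ((N : ℝ) + 2)) * fld p.1.1.2 a σ +
        Real.sqrt (1 / ((N : ℝ) + 2)) * (p.2 a * if s then 1 else -1)) - f (fld p.1.1.2 a σ)) :=
    measurable_of_count (fun M g h => ∑ a ∈ Finset.range M,
      (f (Real.sqrt (1 - 1 / ((N : ℝ) + 2)) * fld g a σ +
        Real.sqrt (1 / ((N : ℝ) + 2)) * (h a * if s then 1 else -1)) - f (fld g a σ)))
      fun M => measurable_cavExp hf M σ s _ _
  have e : (fun p : Dis N P × (ℕ → ℝ) => cavW f N x ((p.1.1.1, (p.1.1.2, p.2)), p.1.2) (σ, s)) =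
      fun p => cw f N x p.1.1.1 p.1.1.2 p.1.2 σ * Real.exp (∑ a ∈ Finset.range p.1.1.1,
        (f (Real.sqrt (1 - 1 / ((N : ℝ) + 2)) * fld p.1.1.2 a σ +
          Real.sqrt (1 / ((N : ℝ) + 2)) * (p.2 a * if s then 1 else -1)) - f (fld p.1.1.2 a σ))) :=
    funext fun p => cavW_eq f x _ _ _ _ σ s
  rw [e]
  exact h1.mul h2.exp

lemma measurable_topInt (hf : Pot f B) (x : Fin P → ℝ) :
    Measurable fun p : Dis N P × (ℕ → ℝ) => topInt f x p.1 p.2 := by
  simp only [topInt, integral_cube]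
  exact ((((Finset.measurable_sum _ fun σ _ => measurable_cavW hf x σ true).div_const _).add
    ((Finset.measurable_sum _ fun σ _ => measurable_cavW hf x σ false).div_const _)).div_const _).log

lemma abs_topInt_le (hf : Pot f B) (x : Fin P → ℝ) (ω : Dis N P) (h : ℕ → ℝ) :
    |topInt f x ω h| ≤ (ω.1.1 : ℝ) * B + strength N * (‖ω.2‖ * ∑ q, |x q|) := by
  set K := (ω.1.1 : ℝ) * B + strength N * (‖ω.2‖ * ∑ q, |x q|)
  have hb : ∀ σ s, Real.exp (-K) ≤ cavW f N x ((ω.1.1, (ω.1.2, h)), ω.2) (σ, s) ∧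
      cavW f N x ((ω.1.1, (ω.1.2, h)), ω.2) (σ, s) ≤ Real.exp K := fun σ s => by
    unfold cavW
    rw [← Real.exp_add, Real.exp_le_exp, Real.exp_le_exp]
    refine abs_le.1 ((abs_add_le _ _).trans (add_le_add ((Finset.abs_sum_le_sum_abs _ _).trans
      ((Finset.sum_le_sum fun a _ => hf.bound _).trans_eq (by simp))) ?_))
    have hs0 : 0 ≤ strength N := Real.rpow_nonneg (by positivity) _
    rw [abs_mul, abs_of_nonneg hs0]
    exact mul_le_mul_of_nonneg_left ((abs_real_inner_le_norm _ _).trans (mul_le_mul_of_nonneg_left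
      (norm_pertVec_le x _ (norm_cubeVec (Nat.succ_pos N) _)) (norm_nonneg _))) hs0
  have hI : ∀ s, Real.exp (-K) ≤ ∫ σ, cavW f N x ((ω.1.1, (ω.1.2, h)), ω.2) (σ, s) ∂cubeMeasure (N + 1) ∧
      ∫ σ, cavW f N x ((ω.1.1, (ω.1.2, h)), ω.2) (σ, s) ∂cubeMeasure (N + 1) ≤ Real.exp K := fun s => by
    constructor
    · simpa using integral_mono (μ := cubeMeasure (N + 1)) (integrable_const _) Integrable.of_finite
        fun σ => (hb σ s).1
    · simpa using integral_mono (μ := cubeMeasure (N + 1)) Integrable.of_finite (integrable_const _)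
        fun σ => (hb σ s).2
  obtain ⟨a1, a2⟩ := hI true
  obtain ⟨b1, b2⟩ := hI false
  unfold topInt
  have hpos : 0 < ((∫ σ, cavW f N x ((ω.1.1, (ω.1.2, h)), ω.2) (σ, true) ∂cubeMeasure (N + 1)) +
      ∫ σ, cavW f N x ((ω.1.1, (ω.1.2, h)), ω.2) (σ, false) ∂cubeMeasure (N + 1)) / 2 := by
    linarith [Real.exp_pos (-K)]
  exact abs_le.2 ⟨(Real.le_log_iff_exp_le hpos).2 (by linarith),
    (Real.log_le_iff_le_exp hpos).2 (by linarith)⟩

lemma integrable_topInt (hf : Pot f B) {lam : ℝ} (hl : 0 ≤ lam) (x : Fin P → ℝ) :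
    Integrable (fun p : Dis N P × (ℕ → ℝ) => topInt f x p.1 p.2) ((disLaw lam N P).prod fieldLaw) := by
  have h1 : Integrable (fun M : ℕ => (M : ℝ) * B) (poiLaw lam) := (integral_poiLaw_id hl).1.mul_const _
  have h2 : Integrable (fun J : PertSpace (N + 1) P => strength N * (‖J‖ * ∑ q, |x q|))
      (stdGaussian (PertSpace (N + 1) P)) := by
    simpa using ((integrable_norm_pow (E := PertSpace (N + 1) P) 1).mul_const _).const_mul _
  have hK : Integrable (fun ω : Dis N P => (ω.1.1 : ℝ) * B + strength N * (‖ω.2‖ * ∑ q, |x q|))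
      (disLaw lam N P) := ((h1.comp_fst (patLaw (N + 1))).comp_fst _).add (h2.comp_snd _)
  exact (hK.comp_fst fieldLaw).mono' (measurable_topInt hf x).aestronglyMeasurable
    (Filter.Eventually.of_forall fun p => (Real.norm_eq_abs _).trans_le (abs_topInt_le hf x p.1 p.2))

/-- Reordering of the disorder. -/
def shuf (q : (ℕ × ((ℕ → Sp (N + 1)) × (ℕ → ℝ))) × PertSpace (N + 1) P) : Dis N P × (ℕ → ℝ) :=
  (((q.1.1, q.1.2.1), q.2), q.1.2.2)

lemma measurable_shuf : Measurable (shuf (N := N) (P := P)) :=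
  (((measurable_fst.comp measurable_fst).prodMk
    (measurable_fst.comp (measurable_snd.comp measurable_fst))).prodMk measurable_snd).prodMk
      (measurable_snd.comp (measurable_snd.comp measurable_fst))

lemma cavTop_disLaw (hf : Pot f B) {α : ℝ} (hα : 0 ≤ α) (x : Fin P → ℝ) :
    cavTop f α N x = ∫ ω, ∫ h, topInt f x ω h ∂fieldLaw ∂disLaw (α * ((N : ℝ) + 2)) N P := by
  set lam := α * ((N : ℝ) + 2) with hlam
  have hl : 0 ≤ lam := by positivity
  have hm : Measurable fun q : (ℕ × ((ℕ → Sp (N + 1)) × (ℕ → ℝ))) × PertSpace (N + 1) P =>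
      (fun p : Dis N P × (ℕ → ℝ) => topInt f x p.1 p.2) (shuf q) :=
    (measurable_topInt (N := N) hf x).comp measurable_shuf
  have hmp := measurePreserving_shuffle (poiLaw lam) (patLaw (N + 1))
    (stdGaussian (PertSpace (N + 1) P)) fieldLaw
  have e1 : cavTop f α N x = ∫ q, (fun p : Dis N P × (ℕ → ℝ) => topInt f x p.1 p.2) (shuf q)
      ∂((poiLaw lam).prod ((patLaw (N + 1)).prod fieldLaw)).prod (stdGaussian (PertSpace (N + 1) P)) := rfl
  rw [e1, ← hmp.map_eq, integral_map hmp.measurable.aemeasurable hm.aestronglyMeasurable,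
    ← integral_prod _ (integrable_topInt (N := N) hf hl x)]
  rfl

lemma measurable_spinInt (hf : Pot f B) (x : Fin P → ℝ) (L : ℝ) :
    Measurable fun p : Dis N P × (ℕ → ℝ) => spinInt f x L p.1 p.2 := by
  have hG : ∀ (ω : Dis N P) (F : (Fin (N + 1) → Bool) → ℝ),
      ∫ σ, F σ ∂gibbs (cubeMeasure (N + 1)) (cw f N x ω.1.1 ω.1.2 ω.2) =
        (∑ σ, cw f N x ω.1.1 ω.1.2 ω.2 σ * F σ) / ∑ σ, cw f N x ω.1.1 ω.1.2 ω.2 σ := fun ω F => by
    rw [integral_gibbs (wt_cw x _ _ _), integral_cube, integral_cube,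
      div_div_div_cancel_right₀ (by positivity)]
  simp only [spinInt, hG]
  have hw : ∀ σ, Measurable fun p : Dis N P × (ℕ → ℝ) => cw f N x p.1.1.1 p.1.1.2 p.1.2 σ := fun σ =>
    (measurable_cw hf x σ).comp measurable_fst
  have hT : Measurable (coshT L) :=
    Real.measurable_cosh.comp ((measurable_const (a := L)).mul
      ((show Measurable Real.tanh by
        rw [funext Real.tanh_eq_sinh_div_cosh]; fun_prop).comp (measurable_id.div_const L)))
  have hx : ∀ σ, Measurable fun p : Dis N P × (ℕ → ℝ) => coshT L (xiFld f N p.1.1.1 p.1.1.2 p.2 σ) := fun σ =>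
    hT.comp (measurable_of_count (fun M g h => xiFld f N M g h σ) fun M => by
      unfold xiFld
      exact (Finset.measurable_sum (Finset.range M) fun a _ => ((measurable_pi_apply a).comp measurable_snd).mul
        ((measurable_deriv f).comp ((measurable_fld a σ).comp measurable_fst))).const_mul _)
  exact ((Finset.measurable_sum _ fun σ _ => (hw σ).mul (hx σ)).div
    (Finset.measurable_sum _ fun σ _ => hw σ)).log

lemma abs_spinInt_le (x : Fin P → ℝ) (L : ℝ) (ω : Dis N P) (h : ℕ → ℝ) :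
    |spinInt f x L ω h| ≤ Real.log (Real.cosh L) := by
  set G := gibbs (cubeMeasure (N + 1)) (cw f N x ω.1.1 ω.1.2 ω.2)
  have : IsProbabilityMeasure G := isProbabilityMeasure_gibbs (wt_cw x _ _ _)
  have hb : ∀ z, coshT L z ≤ Real.cosh L := fun z => by
    unfold coshT
    rw [Real.cosh_le_cosh, abs_mul]
    exact mul_le_of_le_one_right (abs_nonneg L) (Real.abs_tanh_lt_one _).le
  have h1 : 1 ≤ ∫ σ, coshT L (xiFld f N ω.1.1 ω.1.2 h σ) ∂G := by
    simpa using integral_mono (μ := G) (integrable_const (1 : ℝ)) Integrable.of_finite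
      fun σ => one_le_coshT _ _
  have h2 : ∫ σ, coshT L (xiFld f N ω.1.1 ω.1.2 h σ) ∂G ≤ Real.cosh L := by
    simpa using integral_mono (μ := G) Integrable.of_finite (integrable_const (Real.cosh L))
      fun σ => hb _
  unfold spinInt
  rw [abs_of_nonneg (Real.log_nonneg h1)]
  exact Real.log_le_log (by linarith) h2

/-- The second derivative minus position times the first. -/
noncomputable def drv (f : ℝ → ℝ) (z : ℝ) : ℝ := deriv (deriv f) z - z * deriv f z

/-- Squared deviation of the drift sum. -/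
noncomputable def devSq (f : ℝ → ℝ) (d : ℝ) (M : ℕ) (g : ℕ → Sp (N + 1)) (σ : Fin (N + 1) → Bool) : ℝ :=
  (1 / ((N : ℝ) + 2) * (∑ a ∈ Finset.range M, drv f (fld g a σ)) - d) ^ 2

/-- The sixth-moment sum. -/
noncomputable def sixth (M : ℕ) (g : ℕ → Sp (N + 1)) (σ : Fin (N + 1) → Bool) : ℝ :=
  (M : ℝ) * ∑ a ∈ Finset.range M, (1 + fld g a σ ^ 6)

/-- Gaussian sixth moment plus one. -/
noncomputable def mom6 : ℝ := ∫ z, (1 + z ^ 6) ∂gaussianReal 0 1

/-- Variance of the squared Gaussian. -/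
noncomputable def var2 : ℝ := ∫ z, (z ^ 2 - 1) ^ 2 ∂gaussianReal 0 1

lemma mom6_nonneg : 0 ≤ mom6 := integral_nonneg fun z => by positivity

lemma var2_nonneg : 0 ≤ var2 := integral_nonneg fun _ => sq_nonneg _

lemma integrable_gauss_pow (n : ℕ) (hn : Even n) :
    Integrable (fun z : ℝ => z ^ n) (gaussianReal 0 1) := by
  have h := (IsGaussian.memLp_id (gaussianReal 0 1) n (by simp)).integrable_norm_pow'
  exact h.congr (Filter.Eventually.of_forall fun z => by simp [hn.pow_abs])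

lemma sq_sub_one_facts : MemLp (fun z : ℝ => z ^ 2 - 1) 2 (gaussianReal 0 1) ∧
    ∫ z, (z ^ 2 - 1) ∂gaussianReal 0 1 = 0 := by
  have h2 := integrable_gauss_pow 2 (by decide)
  have h4 := integrable_gauss_pow 4 (by decide)
  have hqm : Measurable fun z : ℝ => z ^ 2 - 1 := by fun_prop
  refine ⟨(memLp_two_iff_integrable_sq hqm.aestronglyMeasurable).2
    (((h4.sub (h2.const_mul 2)).add (integrable_const 1)).congr
      (Filter.Eventually.of_forall fun z => by simp; ring)), ?_⟩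
  have hid : Integrable (fun z : ℝ => z) (gaussianReal 0 1) :=
    (IsGaussian.memLp_id (gaussianReal 0 1) 1 (by simp)).integrable le_rfl
  have h := stein_real (F := fun y => y) (F' := fun _ => 1) hasDerivAt_id' hid (integrable_const _)
    (by simpa [pow_two] using h2)
  simp only [integral_const, probReal_univ, one_smul, ← pow_two] at h
  rw [integral_sub h2 (integrable_const _), h]
  simp

/-- The field average of the remainder of the exponent. -/
lemma integral_remainder_le (g : ℕ → Sp (N + 1)) {D : ℝ} (hD : ∀ x, |deriv (deriv f) x| ≤ D) {ε : ℝ}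
    (hε : 0 ≤ ε) (c K : ℝ) (hK : 0 ≤ K) (M : ℕ) (σ : Fin (N + 1) → Bool) :
    Integrable (fun h : ℕ → ℝ => c +
      3 * (∑ a ∈ Finset.range M, (ε / 2 * deriv (deriv f) (fld g a σ)) * (h a ^ 2 - 1)) ^ 2 +
      K * (ε ^ 3 * ((M : ℝ) * ∑ a ∈ Finset.range M, (1 + fld g a σ ^ 6 + h a ^ 6)))) fieldLaw ∧
    ∫ h, (c + 3 * (∑ a ∈ Finset.range M, (ε / 2 * deriv (deriv f) (fld g a σ)) * (h a ^ 2 - 1)) ^ 2 +
      K * (ε ^ 3 * ((M : ℝ) * ∑ a ∈ Finset.range M, (1 + fld g a σ ^ 6 + h a ^ 6)))) ∂fieldLaw ≤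
      c + 3 * (D / 2) ^ 2 * var2 * (ε ^ 2 * (M : ℝ)) +
        K * (ε ^ 3 * (sixth M g σ + mom6 * (M : ℝ) ^ 2)) := by
  obtain ⟨hq2, hq0⟩ := sq_sub_one_facts
  have h6 := integrable_gauss_pow 6 (by decide)
  obtain ⟨iz, ez⟩ := integral_sq_sum_centred (q := fun z => z ^ 2 - 1) (by fun_prop) hq2 hq0
    (fun a => ε / 2 * deriv (deriv f) (fld g a σ)) M
  have i6 : ∀ a ∈ Finset.range M, Integrable (fun h : ℕ → ℝ => 1 + fld g a σ ^ 6 + h a ^ 6) fieldLaw :=
    fun a _ => (integrable_const _).add (integrable_field_eval (q := fun z => z ^ 6) a h6)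
  have is : Integrable (fun h : ℕ → ℝ => ∑ a ∈ Finset.range M, (1 + fld g a σ ^ 6 + h a ^ 6)) fieldLaw :=
    integrable_finsetSum _ i6
  have i1 : Integrable (fun h : ℕ → ℝ => c + 3 * (∑ a ∈ Finset.range M,
      (ε / 2 * deriv (deriv f) (fld g a σ)) * (h a ^ 2 - 1)) ^ 2) fieldLaw :=
    (integrable_const _).add (iz.const_mul 3)
  have i2 := ((is.const_mul (M : ℝ)).const_mul (ε ^ 3)).const_mul K
  refine ⟨i1.add i2, ?_⟩
  rw [integral_add i1 i2, integral_add (integrable_const _) (iz.const_mul 3), integral_const_mul,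
    integral_const_mul, integral_const_mul, integral_const_mul, ez, integral_finsetSum _ i6]
  simp only [integral_const, probReal_univ, one_smul]
  refine add_le_add (add_le_add le_rfl ?_) (mul_le_mul_of_nonneg_left
    (mul_le_mul_of_nonneg_left ?_ (pow_nonneg hε 3)) hK)
  · have hsum : ∑ a ∈ Finset.range M, (ε / 2 * deriv (deriv f) (fld g a σ)) ^ 2 ≤
        (M : ℝ) * (ε / 2 * D) ^ 2 := by
      refine (Finset.sum_le_sum (g := fun _ => (ε / 2 * D) ^ 2) fun a _ => ?_).trans_eq (by simp)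
      rw [← sq_abs]
      refine pow_le_pow_left₀ (abs_nonneg _) ?_ 2
      rw [abs_mul, abs_of_nonneg (by linarith : 0 ≤ ε / 2)]
      exact mul_le_mul_of_nonneg_left (hD _) (by linarith)
    exact (mul_le_mul_of_nonneg_left (mul_le_mul_of_nonneg_right hsum var2_nonneg) (by norm_num)).trans_eq
      (by simp only [var2]; ring)
  · have hz : ∀ a, ∫ h : ℕ → ℝ, (1 + fld g a σ ^ 6 + h a ^ 6) ∂fieldLaw ≤ (1 + fld g a σ ^ 6) + mom6 := fun a => by
      rw [integral_add (integrable_const _) (integrable_field_eval (q := fun z => z ^ 6) a h6),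
        integral_field_eval (q := fun z => z ^ 6) a (by fun_prop), integral_const, probReal_univ, one_smul]
      refine add_le_add le_rfl ?_
      exact integral_mono h6 ((integrable_const 1).add h6) fun z => by simp
    refine (mul_le_mul_of_nonneg_left (Finset.sum_le_sum fun a _ => hz a) (Nat.cast_nonneg M)).trans_eq ?_
    simp only [sixth, Finset.sum_add_distrib, Finset.sum_const, Finset.card_range, nsmul_eq_mul]
    ring

/-- The field average of the cosine of twice the field. -/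
lemma integral_cosh_xiFld {D : ℝ} (hD : ∀ x, |deriv f x| ≤ D) (g : ℕ → Sp (N + 1)) (M : ℕ)
    (σ : Fin (N + 1) → Bool) :
    Integrable (fun h => Real.cosh (2 * xiFld f N M g h σ)) fieldLaw ∧
      ∫ h, Real.cosh (2 * xiFld f N M g h σ) ∂fieldLaw ≤
        Real.exp (2 * D ^ 2 * (1 / ((N : ℝ) + 2)) * M) := by
  set ε := 1 / ((N : ℝ) + 2) with hε
  have hε0 : 0 ≤ ε := by positivity
  have e : ∀ h : ℕ → ℝ, 2 * xiFld f N M g h σ =
      ∑ a ∈ Finset.range M, (2 * Real.sqrt ε * deriv f (fld g a σ)) * h a := fun h => by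
    simp only [xiFld, Finset.mul_sum, hε]; exact Finset.sum_congr rfl fun a _ => by ring
  simp only [e]
  obtain ⟨i, ie⟩ := integral_field_cosh M fun a => 2 * Real.sqrt ε * deriv f (fld g a σ)
  refine ⟨i, ie.trans_le (Real.exp_le_exp.2 ?_)⟩
  have : ∀ a, (2 * Real.sqrt ε * deriv f (fld g a σ)) ^ 2 ≤ 4 * ε * D ^ 2 := fun a => by
    rw [mul_pow, mul_pow, Real.sq_sqrt hε0, ← sq_abs (deriv f _)]
    exact (mul_le_mul_of_nonneg_left (pow_le_pow_left₀ (abs_nonneg _) (hD _) 2)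
      (by positivity)).trans_eq (by ring)
  calc (∑ a ∈ Finset.range M, (2 * Real.sqrt ε * deriv f (fld g a σ)) ^ 2) / 2
      ≤ (∑ a ∈ Finset.range M, 4 * ε * D ^ 2) / 2 :=
        div_le_div_of_nonneg_right (Finset.sum_le_sum fun a _ => this a) (by norm_num)
    _ = 2 * D ^ 2 * ε * (M : ℝ) := by simp; ring

/-- The cavity inequality at fixed disorder. -/
lemma cavity_pointwise (hf : Pot f B) (hs : Smf f) {D : ℝ}
    (hD : ∀ x, |deriv f x| ≤ D ∧ |deriv (deriv f) x| ≤ D ∧ |iteratedDeriv 3 f x| ≤ D)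
    (x : Fin P → ℝ) (d : ℝ) {L t : ℝ} (hL : 0 < L) (ht : 0 < t) (M : ℕ) (g : ℕ → Sp (N + 1))
    (J : PertSpace (N + 1) P) :
    (∫ h, spinInt f x L ((M, g), J) h ∂fieldLaw) + d / 2 -
      t * (repE (n := 1) (cw f N x M g J) (fun r => devSq f d M g (r 0)) +
        3 * (D / 2) ^ 2 * var2 * ((1 / ((N : ℝ) + 2)) ^ 2 * (M : ℝ)) +
        3 * (729 * (3 * D) ^ 2) * ((1 / ((N : ℝ) + 2)) ^ 3 *
          (repE (n := 1) (cw f N x M g J) (fun r => sixth M g (r 0)) + mom6 * (M : ℝ) ^ 2))) -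
      Real.exp (2 * D ^ 2 * (1 / ((N : ℝ) + 2)) * M) / (4 * t) ≤
    (∫ h, topInt f x ((M, g), J) h ∂fieldLaw) - logI (cubeMeasure (N + 1)) (cw f N x M g J) := by
  set ε := 1 / ((N : ℝ) + 2) with hε
  set K := 3 * (729 * (3 * D) ^ 2)
  have hε0 : 0 ≤ ε := by positivity
  have hε1 : ε ≤ 1 := by
    rw [hε, div_le_one (by positivity)]; linarith [(Nat.cast_nonneg N : (0 : ℝ) ≤ N)]
  set w := cw f N x M g J
  have hw0 : ∀ σ, 0 < w σ := cw_pos x M g J
  set U := fun (h : ℕ → ℝ) σ => devSq f d M g σ +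
    3 * (∑ a ∈ Finset.range M, (ε / 2 * deriv (deriv f) (fld g a σ)) * (h a ^ 2 - 1)) ^ 2 +
    K * (ε ^ 3 * ((M : ℝ) * ∑ a ∈ Finset.range M, (1 + fld g a σ ^ 6 + h a ^ 6)))
  have hp : ∀ h, spinInt f x L ((M, g), J) h + d / 2 - t * repE (n := 1) w (fun r => U h (r 0)) -
      repE (n := 1) w (fun r => Real.cosh (2 * xiFld f N M g h (r 0))) / (4 * t) ≤
      topInt f x ((M, g), J) h - logI (cubeMeasure (N + 1)) w := fun h => by
    refine (cavity_point (wt_cw (f := f) x M g J) (xiFld f N M g h) (fun σ s => ∑ a ∈ Finset.range M,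
      (f (Real.sqrt (1 - ε) * fld g a σ + Real.sqrt ε * (h a * if s then 1 else -1)) - f (fld g a σ)))
      (U h) d hL ht fun σ s => exponent_remainder hs hD hε0 hε1 M (fun a => fld g a σ) h d s).trans_eq ?_
    simp only [topInt, cavW_eq]
    rfl
  have hUi : ∀ σ, Integrable (fun h => U h σ) fieldLaw ∧ ∫ h, U h σ ∂fieldLaw ≤
      devSq f d M g σ + 3 * (D / 2) ^ 2 * var2 * (ε ^ 2 * (M : ℝ)) +
        K * (ε ^ 3 * (sixth M g σ + mom6 * (M : ℝ) ^ 2)) := fun σ =>
    integral_remainder_le g (fun y => (hD y).2.1) hε0 _ K (by positivity) M σ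
  have hci := fun σ => integral_cosh_xiFld (fun y => (hD y).1) g M σ
  obtain ⟨iU, eU⟩ := integral_repE (w := w) (F := U) fun σ => (hUi σ).1
  obtain ⟨iC, eC⟩ := integral_repE (w := w) (F := fun h σ => Real.cosh (2 * xiFld f N M g h σ))
    fun σ => (hci σ).1
  have il : Integrable (spinInt f x L ((M, g), J)) fieldLaw :=
    (integrable_const (Real.log (Real.cosh L))).mono'
      ((measurable_spinInt hf x L).comp (measurable_const.prodMk measurable_id)).aestronglyMeasurable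
      (Filter.Eventually.of_forall fun h => (Real.norm_eq_abs _).trans_le (abs_spinInt_le x L _ h))
  have it : Integrable (topInt f x ((M, g), J)) fieldLaw :=
    (integrable_const ((M : ℝ) * B + strength N * (‖J‖ * ∑ q, |x q|))).mono'
      ((measurable_topInt hf x).comp (measurable_const.prodMk measurable_id)).aestronglyMeasurable
      (Filter.Eventually.of_forall fun h => (Real.norm_eq_abs _).trans_le (abs_topInt_le hf x _ h))
  have i1 : Integrable (fun h => spinInt f x L ((M, g), J) h + d / 2) fieldLaw := il.add (integrable_const _)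
  have i2 : Integrable (fun h => spinInt f x L ((M, g), J) h + d / 2 -
      t * repE (n := 1) w (fun r => U h (r 0))) fieldLaw := i1.sub (iU.const_mul t)
  have hm := integral_mono (i2.sub (iC.div_const (4 * t))) (it.sub (integrable_const _)) hp
  simp only [Pi.sub_apply] at hm
  rw [integral_sub i2 (iC.div_const _), integral_sub i1 (iU.const_mul t), integral_add il (integrable_const _),
    integral_sub it (integrable_const _), integral_const_mul, eU] at hm
  simp only [integral_const, probReal_univ, one_smul] at hm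
  rw [integral_div, eC] at hm
  have u1 : repE (n := 1) w (fun r => ∫ h, U h (r 0) ∂fieldLaw) ≤
      repE (n := 1) w (fun r => devSq f d M g (r 0)) + 3 * (D / 2) ^ 2 * var2 * (ε ^ 2 * (M : ℝ)) +
        K * (ε ^ 3 * (repE (n := 1) w (fun r => sixth M g (r 0)) + mom6 * (M : ℝ) ^ 2)) := by
    refine (repE_mono hw0 fun r => (hUi (r 0)).2).trans_eq ?_
    have e : ∀ (A Bf : (Fin 1 → Fin (N + 1) → Bool) → ℝ) (b k m : ℝ),
        repE w (fun r => A r + b + K * (k * (Bf r + m))) =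
          repE w A + b + K * (k * (repE w Bf + m)) := fun A Bf b k m => by
      have h1 : repE w (fun r => A r + b + K * (k * (Bf r + m))) =
          repE w A + repE w (fun r => (K * k) * Bf r + (b + K * k * m)) := by
        simp only [repE, ← add_div, ← Finset.sum_add_distrib]
        congr 1
        exact Finset.sum_congr rfl fun r _ => by ring
      rw [h1, repE_affine hw0]
      ring
    exact e _ _ _ _ _
  have u2 : repE (n := 1) w (fun r => ∫ h, Real.cosh (2 * xiFld f N M g h (r 0)) ∂fieldLaw) ≤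
      Real.exp (2 * D ^ 2 * ε * M) := (repE_mono hw0 fun r => (hci (r 0)).2).trans_eq (repE_const hw0 _)
  have v1 := mul_le_mul_of_nonneg_left u1 ht.le
  have v2 := div_le_div_of_nonneg_right u2 (show (0 : ℝ) ≤ 4 * t by positivity)
  linarith

lemma measurable_devSq (f : ℝ → ℝ) (d : ℝ) (σ : Fin (N + 1) → Bool) :
    Measurable fun ω : Dis N P => devSq f d ω.1.1 ω.1.2 σ := by
  have h : Measurable fun q : ℕ × (ℕ → Sp (N + 1)) => devSq f d q.1 q.2 σ :=
    measurable_from_prod_countable_right fun M => by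
      unfold devSq
      exact (((Finset.measurable_sum (Finset.range M) fun a _ =>
        (show Measurable (drv f) by unfold drv; fun_prop).comp (measurable_fld a σ)).const_mul _).sub_const d).pow_const 2
  exact h.comp measurable_fst

/-- The squared deviation is integrable. -/
lemma integrable_devSq (hf : Pot f B) {D : ℝ}
    (hD : ∀ x, |deriv f x| ≤ D ∧ |deriv (deriv f) x| ≤ D) {lam : ℝ} (hl : 0 ≤ lam)
    (x : Fin P → ℝ) (d : ℝ) :
    Integrable (fun ω : Dis N P => repE (n := 1) (cw f N x ω.1.1 ω.1.2 ω.2)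
      (fun r => devSq f d ω.1.1 ω.1.2 (r 0))) (disLaw lam N P) := by
  set ε := 1 / ((N : ℝ) + 2)
  have h2 := integrable_gauss_pow 2 (by decide)
  have hpsi : Integrable (fun z => drv f z ^ 2) (gaussianReal 0 1) :=
    ((integrable_const (2 * D ^ 2)).add (h2.const_mul (2 * D ^ 2))).mono'
      ((show Measurable (fun z => drv f z ^ 2) by unfold drv; fun_prop)).aestronglyMeasurable
      (Filter.Eventually.of_forall fun z => by
        rw [Real.norm_eq_abs, abs_of_nonneg (sq_nonneg _)]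
        have a1 : deriv (deriv f) z ^ 2 ≤ D ^ 2 := sq_le_sq' (abs_le.1 (hD z).2).1 (abs_le.1 (hD z).2).2
        have a2 : deriv f z ^ 2 ≤ D ^ 2 := sq_le_sq' (abs_le.1 (hD z).1).1 (abs_le.1 (hD z).1).2
        have a3 := mul_le_mul_of_nonneg_left a2 (sq_nonneg z)
        simp only [drv, Pi.add_apply]
        nlinarith [sq_nonneg (deriv (deriv f) z + z * deriv f z)])
  obtain ⟨iφ, -⟩ := pSys_sum_le hf N hl x 1 (ψ := fun z => drv f z ^ 2)
    (by unfold drv; fun_prop) (fun z => sq_nonneg _) hpsi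
  have iφ' : Integrable (fun ω : Dis N P => repE (n := 1) (cw f N x ω.1.1 ω.1.2 ω.2) (fun r =>
      (ω.1.1 : ℝ) * ∑ a ∈ Finset.range ω.1.1, drv f (fld ω.1.2 a (r 0)) ^ 2)) (disLaw lam N P) := by
    refine iφ.congr (Filter.Eventually.of_forall fun ω => (integral_pi_gibbs_cube (wt_cw (f := f) x _ _ _) _).trans ?_)
    simp only [pow_one]
    rfl
  refine ((iφ'.const_mul (2 * ε ^ 2)).add (integrable_const (2 * d ^ 2))).mono'
    (measurable_repE (fun σ => measurable_cw hf x σ) fun r => measurable_devSq f d (r 0)).aestronglyMeasurable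
    (Filter.Eventually.of_forall fun ω => ?_)
  have hw0 : ∀ σ, 0 < cw f N x ω.1.1 ω.1.2 ω.2 σ := cw_pos x _ _ _
  rw [Real.norm_eq_abs, abs_of_nonneg (repE_nonneg hw0
    (h := fun r => devSq f d ω.1.1 ω.1.2 (r 0)) fun r => by unfold devSq; exact sq_nonneg _)]
  refine (repE_mono hw0 fun r => ?_).trans_eq (repE_affine hw0 (2 * ε ^ 2) (2 * d ^ 2) _)
  have hc := sq_sum_le_card_mul_sum_sq (s := Finset.range ω.1.1) (f := fun a => drv f (fld ω.1.2 a (r 0)))
  rw [Finset.card_range] at hc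
  have h1 : devSq f d ω.1.1 ω.1.2 (r 0) ≤
      2 * ε ^ 2 * (∑ a ∈ Finset.range ω.1.1, drv f (fld ω.1.2 a (r 0))) ^ 2 + 2 * d ^ 2 := by
    unfold devSq
    nlinarith [sq_nonneg (ε * (∑ a ∈ Finset.range ω.1.1, drv f (fld ω.1.2 a (r 0))) + d)]
  exact h1.trans (add_le_add (mul_le_mul_of_nonneg_left hc (by positivity)) le_rfl)

/-- The sixth-moment sum has mean at most the Gaussian one. -/
lemma integral_sixth_le (hf : Pot f B) {lam : ℝ} (hl : 0 ≤ lam) (x : Fin P → ℝ) :
    Integrable (fun ω : Dis N P => repE (n := 1) (cw f N x ω.1.1 ω.1.2 ω.2)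
      (fun r => sixth ω.1.1 ω.1.2 (r 0))) (disLaw lam N P) ∧
    ∫ ω, repE (n := 1) (cw f N x ω.1.1 ω.1.2 ω.2) (fun r => sixth ω.1.1 ω.1.2 (r 0)) ∂disLaw lam N P ≤
      Real.exp (2 * B) * mom6 * (lam ^ 2 + lam) := by
  obtain ⟨i6, e6⟩ := pSys_sum_le hf N hl x 1 (ψ := fun z => 1 + z ^ 6) (by fun_prop) (fun _ => by positivity)
    ((integrable_const 1).add (integrable_gauss_pow 6 (by decide)))
  have e : ∀ ω : (pSys hf N lam 0 x).Ω, (∫ r, ((cnt ω : ℝ) ^ 1 * ∑ a ∈ Finset.range (cnt ω),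
      (fun z : ℝ => 1 + z ^ 6) (pat ω a (r 0)))
      ∂Measure.pi fun _ : Fin 1 => gibbs (pSys hf N lam 0 x).ref ((pSys hf N lam 0 x).w ω)) =
      repE (n := 1) (cw f N x ω.1.1 ω.1.2 ω.2) (fun r => sixth ω.1.1 ω.1.2 (r 0)) := fun ω => by
    refine (integral_pi_gibbs_cube (wt_cw (f := f) x _ _ _) _).trans ?_
    simp only [pow_one]
    rfl
  refine ⟨i6.congr (Filter.Eventually.of_forall e), ?_⟩
  refine ((integral_congr_ae (Filter.Eventually.of_forall fun ω => (e ω).symm)).trans_le e6).trans_eq ?_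
  rw [show (1 + 1 : ℕ) = 2 from rfl, (integral_poiLaw_sq hl).2]
  rfl

lemma integral_count {lam : ℝ} (F : ℕ → ℝ) (hF : Integrable F (poiLaw lam)) :
    Integrable (fun ω : Dis N P => F ω.1.1) (disLaw lam N P) ∧
      ∫ ω, F ω.1.1 ∂disLaw lam N P = ∫ M, F M ∂poiLaw lam := by
  have hmp : MeasurePreserving (fun ω : Dis N P => ω.1.1) (disLaw lam N P) (poiLaw lam) :=
    measurePreserving_fst.comp measurePreserving_fst
  refine ⟨(hF.comp_fst (patLaw (N + 1))).comp_fst _, ?_⟩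
  rw [← hmp.map_eq, integral_map hmp.measurable.aemeasurable (hmp.map_eq ▸ hF.aestronglyMeasurable)]

lemma spinTerm_disLaw (hf : Pot f B) (α : ℝ) (x : Fin P → ℝ) (L : ℝ) :
    spinTerm hf α N x L =
      ∫ ω, ∫ h, spinInt f x L ω h ∂fieldLaw ∂disLaw (α * ((N : ℝ) + 2)) N P := rfl

lemma free_pSys_eq (hf : Pot f B) (lam : ℝ) (x : Fin P → ℝ) :
    (pSys hf N lam 0 x).free =
      ∫ ω, logI (cubeMeasure (N + 1)) (cw f N x ω.1.1 ω.1.2 ω.2) ∂disLaw lam N P := rfl

lemma avgRep_devSq (hf : Pot f B) (lam : ℝ) (x : Fin P → ℝ) (d : ℝ) :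
    (pSys hf N lam 0 x).avgRep 1 (fun ω r => ((1 / ((N : ℝ) + 2)) * (∑ a ∈ Finset.range (cnt ω),
      (deriv (deriv f) (pat ω a (r 0)) - pat ω a (r 0) * deriv f (pat ω a (r 0)))) - d) ^ 2) =
    ∫ ω, repE (n := 1) (cw f N x ω.1.1 ω.1.2 ω.2) (fun r => devSq f d ω.1.1 ω.1.2 (r 0))
      ∂disLaw lam N P := pSys_avgRep hf lam 0 x _

lemma integrable_logI_cw (hf : Pot f B) (lam : ℝ) (x : Fin P → ℝ) :
    Integrable (fun ω : Dis N P => logI (cubeMeasure (N + 1)) (cw f N x ω.1.1 ω.1.2 ω.2))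
      (disLaw lam N P) := integrable_logI_pSys hf N lam 0 x

/-- The cavity step, in concrete terms. -/
lemma cavity_step_aux (hf : Pot f B) (hs : Smf f) {α : ℝ} (hα : 0 < α) :
    ∃ C, ∀ (N P : ℕ) (x : Fin P → ℝ) (d L t : ℝ), 0 < L → 0 < t →
      (∫ ω, ∫ h, spinInt f x L ω h ∂fieldLaw ∂disLaw (α * ((N : ℝ) + 2)) N P) + d / 2 -
        t * ((∫ ω, repE (n := 1) (cw f N x ω.1.1 ω.1.2 ω.2) (fun r => devSq f d ω.1.1 ω.1.2 (r 0))
          ∂disLaw (α * ((N : ℝ) + 2)) N P) + C / ((N : ℝ) + 2)) - C / t ≤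
      (∫ ω, ∫ h, topInt f x ω h ∂fieldLaw ∂disLaw (α * ((N : ℝ) + 2)) N P) -
        ∫ ω, logI (cubeMeasure (N + 1)) (cw f N x ω.1.1 ω.1.2 ω.2) ∂disLaw (α * ((N : ℝ) + 2)) N P := by
  obtain ⟨D, hD1, hD⟩ := hs.exists_bound
  set C1 := 3 * (D / 2) ^ 2 * var2
  set K := 3 * (729 * (3 * D) ^ 2)
  set C := max (α * C1 + K * (α ^ 2 + α) * (Real.exp (2 * B) * mom6 + mom6))
    (Real.exp (α * (2 * D ^ 2 * Real.exp (2 * D ^ 2))))
  refine ⟨C, fun N P x d L t hL ht => ?_⟩
  set ε := 1 / ((N : ℝ) + 2) with hε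
  set lam := α * ((N : ℝ) + 2) with hlam
  have hN2 : (0 : ℝ) < (N : ℝ) + 2 := by positivity
  have hε0 : 0 ≤ ε := by positivity
  have hε1 : ε ≤ 1 := by rw [hε, div_le_one hN2]; linarith [(Nat.cast_nonneg N : (0 : ℝ) ≤ N)]
  have hl : 0 ≤ lam := by positivity
  have hle : lam * ε = α := by rw [hlam, hε]; field_simp
  set law := disLaw lam N P
  set sq1 := fun ω : Dis N P => repE (n := 1) (cw f N x ω.1.1 ω.1.2 ω.2) (fun r => devSq f d ω.1.1 ω.1.2 (r 0))
  set six := fun ω : Dis N P => repE (n := 1) (cw f N x ω.1.1 ω.1.2 ω.2) (fun r => sixth ω.1.1 ω.1.2 (r 0))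
  set ex := fun ω : Dis N P => Real.exp (2 * D ^ 2 * ε * ω.1.1)
  set err := fun ω : Dis N P => sq1 ω + C1 * (ε ^ 2 * (ω.1.1 : ℝ)) +
    K * (ε ^ 3 * (six ω + mom6 * (ω.1.1 : ℝ) ^ 2))
  have htopi := integrable_topInt (N := N) hf hl x
  have hlinti : Integrable (fun p : Dis N P × (ℕ → ℝ) => spinInt f x L p.1 p.2) (law.prod fieldLaw) :=
    (integrable_const (Real.log (Real.cosh L))).mono' (measurable_spinInt hf x L).aestronglyMeasurable
      (Filter.Eventually.of_forall fun p => (Real.norm_eq_abs _).trans_le (abs_spinInt_le x L p.1 p.2))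
  have hbot : Integrable (fun ω : Dis N P => logI (cubeMeasure (N + 1)) (cw f N x ω.1.1 ω.1.2 ω.2)) law :=
    integrable_logI_cw hf lam x
  have hisq : Integrable sq1 law := integrable_devSq hf (fun y => ⟨(hD y).1, (hD y).2.1⟩) hl x d
  obtain ⟨hi6, hb6⟩ : Integrable six law ∧ ∫ ω, six ω ∂law ≤ Real.exp (2 * B) * mom6 * (lam ^ 2 + lam) :=
    integral_sixth_le hf hl x
  obtain ⟨hiM, eM⟩ := integral_count (N := N) (P := P) (fun M : ℕ => (M : ℝ)) (integral_poiLaw_id hl).1
  obtain ⟨hiM2, eM2⟩ := integral_count (N := N) (P := P) (fun M : ℕ => (M : ℝ) ^ 2) (integral_poiLaw_sq hl).1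
  obtain ⟨hie, eE⟩ : Integrable ex law ∧ ∫ ω, ex ω ∂law = _ :=
    integral_count (N := N) (P := P) (fun M : ℕ => Real.exp (2 * D ^ 2 * ε * M)) (integral_poiLaw_exp hl _).1
  rw [(integral_poiLaw_id hl).2] at eM
  rw [(integral_poiLaw_sq hl).2] at eM2
  rw [(integral_poiLaw_exp hl _).2] at eE
  have ia : Integrable (fun ω => sq1 ω + C1 * (ε ^ 2 * (ω.1.1 : ℝ))) law :=
    hisq.add ((hiM.const_mul (ε ^ 2)).const_mul C1)
  have ib : Integrable (fun ω => K * (ε ^ 3 * (six ω + mom6 * (ω.1.1 : ℝ) ^ 2))) law :=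
    ((hi6.add (hiM2.const_mul mom6)).const_mul (ε ^ 3)).const_mul K
  have hierr : Integrable err law := ia.add ib
  have herr : ∫ ω, err ω ∂law ≤ ∫ ω, sq1 ω ∂law + C / ((N : ℝ) + 2) := by
    rw [integral_add ia ib, integral_add hisq ((hiM.const_mul (ε ^ 2)).const_mul C1),
      integral_const_mul, integral_const_mul, integral_const_mul, integral_const_mul,
      integral_add hi6 (hiM2.const_mul mom6), integral_const_mul, eM, eM2, add_assoc]
    refine add_le_add le_rfl ?_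
    have hC : α * C1 + K * (α ^ 2 + α) * (Real.exp (2 * B) * mom6 + mom6) ≤ C := le_max_left _ _
    have hK : 0 ≤ K := by positivity
    have hm0 : 0 ≤ Real.exp (2 * B) * mom6 + mom6 := by
      have := mom6_nonneg; positivity
    have k1 : ε ^ 2 * lam = ε * α := by rw [← hle]; ring
    have k2 : ε ^ 3 * (lam ^ 2 + lam) ≤ ε * (α ^ 2 + α) := by
      have : ε ^ 3 * (lam ^ 2 + lam) = ε * α ^ 2 + ε * (ε * α) := by rw [← hle]; ring
      rw [this, mul_add]
      exact add_le_add le_rfl (mul_le_mul_of_nonneg_left (mul_le_of_le_one_left hα.le hε1) hε0)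
    have k3 : ∫ ω, six ω ∂law + mom6 * (lam ^ 2 + lam) ≤
        (Real.exp (2 * B) * mom6 + mom6) * (lam ^ 2 + lam) := by linarith
    calc C1 * (ε ^ 2 * lam) + K * (ε ^ 3 * (∫ ω, six ω ∂law + mom6 * (lam ^ 2 + lam)))
        ≤ C1 * (ε * α) + K * ((Real.exp (2 * B) * mom6 + mom6) * (ε * (α ^ 2 + α))) := by
          rw [k1]
          refine add_le_add le_rfl (mul_le_mul_of_nonneg_left
            ((mul_le_mul_of_nonneg_left k3 (pow_nonneg hε0 3)).trans ?_) hK)
          rw [mul_left_comm]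
          exact mul_le_mul_of_nonneg_left k2 hm0
      _ = ε * (α * C1 + K * (α ^ 2 + α) * (Real.exp (2 * B) * mom6 + mom6)) := by ring
      _ ≤ ε * C := mul_le_mul_of_nonneg_left hC hε0
      _ = C / ((N : ℝ) + 2) := by rw [hε]; ring
  have hex : ∫ ω, ex ω ∂law ≤ C := by
    rw [eE]
    refine le_trans (Real.exp_le_exp.2 ?_) (le_max_right _ _)
    set b := 2 * D ^ 2 * ε
    have hb0 : 0 ≤ b := by positivity
    have h1 : Real.exp b - 1 ≤ b * Real.exp b := by
      have h := mul_le_mul_of_nonneg_left (Real.add_one_le_exp (-b)) (Real.exp_pos b).le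
      rw [← Real.exp_add, add_neg_cancel, Real.exp_zero] at h
      linarith
    refine (mul_le_mul_of_nonneg_left (h1.trans (mul_le_mul_of_nonneg_left
      (Real.exp_le_exp.2 (mul_le_of_le_one_right (by positivity) hε1)) hb0)) hl).trans_eq ?_
    simp only [b]
    rw [← hle]
    ring
  have il : Integrable (fun ω => ∫ h, spinInt f x L ω h ∂fieldLaw) law := hlinti.integral_prod_left
  have j1 : Integrable (fun ω => (∫ h, spinInt f x L ω h ∂fieldLaw) + d / 2) law := il.add (integrable_const _)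
  have j2 : Integrable (fun ω => (∫ h, spinInt f x L ω h ∂fieldLaw) + d / 2 - t * err ω) law := j1.sub (hierr.const_mul t)
  have hpt : ∀ ω : Dis N P, (∫ h, spinInt f x L ω h ∂fieldLaw) + d / 2 - t * err ω - ex ω / (4 * t) ≤
      (∫ h, topInt f x ω h ∂fieldLaw) - logI (cubeMeasure (N + 1)) (cw f N x ω.1.1 ω.1.2 ω.2) := by
    rintro ⟨⟨M, g⟩, J⟩
    exact cavity_pointwise hf hs hD x d hL ht M g J
  have hmain := integral_mono (j2.sub (hie.div_const (4 * t))) (htopi.integral_prod_left.sub hbot) hpt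
  simp only [Pi.sub_apply] at hmain
  rw [integral_sub j2 (hie.div_const _), integral_sub j1 (hierr.const_mul t),
    integral_add il (integrable_const _), integral_sub htopi.integral_prod_left hbot, integral_const_mul] at hmain
  simp only [integral_const, probReal_univ, one_smul] at hmain
  rw [integral_div] at hmain
  have h1 := mul_le_mul_of_nonneg_left herr ht.le
  have hC0 : 0 ≤ C := (Real.exp_pos _).le.trans (le_max_right _ _)
  have h2 : (∫ ω, ex ω ∂law) / (4 * t) ≤ C / t :=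
    div_le_div₀ hC0 hex ht (by linarith)
  linarith

/-- The cavity step. -/
theorem cavity_step (hf : Pot f B) (hs : Smf f) {α : ℝ} (hα : 0 < α) :
    ∃ C, ∀ (N P : ℕ) (x : Fin P → ℝ) (d L t : ℝ), 0 < L → 0 < t →
      let S := pSys hf N (α * ((N : ℝ) + 2)) 0 x
      spinTerm hf α N x L + d / 2 - t * (S.avgRep 1 (fun ω r =>
        ((1 / ((N : ℝ) + 2)) * (∑ a ∈ Finset.range (cnt ω),
          (deriv (deriv f) (pat ω a (r 0)) - pat ω a (r 0) * deriv f (pat ω a (r 0)))) - d) ^ 2) +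
        C / ((N : ℝ) + 2)) - C / t ≤ cavTop f α N x - S.free := by
  obtain ⟨C, hC⟩ := cavity_step_aux hf hs hα
  refine ⟨C, fun N P x d L t hL ht => ?_⟩
  dsimp only
  rw [spinTerm_disLaw hf α x L, avgRep_devSq hf _ x d, free_pSys_eq hf _ x, cavTop_disLaw hf hα.le x]
  exact hC N P x d L t hL ht

end Vale.Agent.P157.Low
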