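import Vale.Agent.P157.Low.GGFluct

/-!
Ghirlanda–Guerra identities from the perturbation.
-/

namespace Vale.Agent.P157.Low

open MeasureTheory ProbabilityTheory
open scoped RealInnerProductSpace

variable {N P : ℕ}

/-- The error bounds the defect in the Ghirlanda–Guerra identities. -/
theorem gg_defect_le (S : Sys) (u : S.X → EuclideanSpace ℝ (Fin N)) (hu : Measurable u)
    (hu1 : ∀ a, ‖u a‖ = 1) (hgram : ∀ a b, ⟪u a, u b⟫ = ⟪S.v a, S.v b⟫) {s : ℝ} (hs : 0 < s)
    {x : Fin P → ℝ} (hx : x ∈ box P) (p : Fin P) {n : ℕ} (l : Fin n) {Φ : Mat n → ℝ}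
    (hΦ : Measurable Φ) {D : ℝ} (hD : ∀ R, |Φ R| ≤ D) :
    let T := S.perturb u hu hu1 s x
    |(n : ℝ) * T.expect (fun R : Mat (n + 1) =>
          Φ (sub R Fin.castSucc) * R l.castSucc (Fin.last n) ^ ((p : ℕ) + 1)) -
        (T.expect Φ * T.expect (fun R : Mat 2 => R 0 1 ^ ((p : ℕ) + 1)) +
          ∑ l' ∈ Finset.univ.erase l, T.expect fun R : Mat n => Φ R * R l l' ^ ((p : ℕ) + 1))| ≤
      D * ggErr S u hu hu1 s x p := by
  intro T
  set k := (p : ℕ) + 1 with hk
  set Ψ : (Fin n → S.X) → ℝ := fun a => Φ (S.gram a) with hΨdef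
  have hgm : Measurable fun a : Fin n → S.X => S.gram a :=
    measurable_pi_lambda _ fun i => measurable_pi_lambda _ fun j =>
      (S.measV.comp (measurable_pi_apply i)).inner (S.measV.comp (measurable_pi_apply j))
  have hΨ : Measurable Ψ := hΦ.comp hgm
  have hΨb : ∀ a, |Ψ a| ≤ D := fun a => hD _
  have h := pert_stein hu hu1 (s := s) (x := x) (p := p) l hΨ hΨb
  simp only [hgram] at h
  rw [← hk] at h
  have eΦ : T.expect Φ = pertRep S u s x n fun _ a => Ψ a := rfl
  have e2 : T.expect (fun R : Mat 2 => R 0 1 ^ k) =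
      pertRep S u s x 2 fun _ a => ⟪u (a 0), u (a 1)⟫ ^ k := by
    simp only [hgram]; rfl
  have en : T.expect (fun R : Mat (n + 1) => Φ (sub R Fin.castSucc) * R l.castSucc (Fin.last n) ^ k) =
      pertRep S u s x (n + 1) fun _ a =>
        Ψ (a ∘ Fin.castSucc) * ⟪S.v (a l.castSucc), S.v (a (Fin.last n))⟫ ^ k := rfl
  have el : ∀ l', T.expect (fun R : Mat n => Φ R * R l l' ^ k) =
      pertRep S u s x n fun _ a => Ψ a * ⟪S.v (a l), S.v (a l')⟫ ^ k := fun _ => rfl
  have ell : T.expect (fun R : Mat n => Φ R * R l l ^ k) = T.expect Φ := by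
    rw [el, eΦ]
    simp only [real_inner_self_eq_norm_sq, S.unit, one_pow, mul_one]
  rw [← Finset.add_sum_erase _ _ (Finset.mem_univ l)] at h
  rw [← en, ← el l, ell, Finset.sum_congr rfl fun l' _ => (el l').symm] at h
  set M := powM S u s x p with hMdef
  have hM : M = s * x p * (1 - T.expect (fun R : Mat 2 => R 0 1 ^ k)) := by rw [e2]; exact powM_eq hu hu1
  have hxp : 1 ≤ x p := (hx p trivial).1
  have hcov : |pertRep S u s x n (fun z a => Ψ a * powField S u p z (a l)) - T.expect Φ * M| ≤
      D * (s * ggErr S u hu hu1 s x p) := by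
    rw [ggErr_eq, mul_div_cancel₀ _ hs.ne', eΦ, hMdef]
    exact abs_cov_le hu hu1 l hΨ hΨb
  rw [h] at hcov
  rw [hM] at hcov
  set En := T.expect (fun R : Mat (n + 1) => Φ (sub R Fin.castSucc) * R l.castSucc (Fin.last n) ^ k)
  set Sl := ∑ l' ∈ Finset.univ.erase l, T.expect fun R : Mat n => Φ R * R l l' ^ k
  set E2 := T.expect (fun R : Mat 2 => R 0 1 ^ k)
  have e : s * x p * (T.expect Φ + Sl - n * En) - T.expect Φ * (s * x p * (1 - E2)) =
      -(s * (x p * ((n : ℝ) * En - (T.expect Φ * E2 + Sl)))) := by ring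
  rw [e, abs_neg, abs_mul, abs_mul, abs_of_pos hs, abs_of_pos (zero_lt_one.trans_le hxp)] at hcov
  refine le_trans (le_mul_of_one_le_left (abs_nonneg _) hxp) (le_of_mul_le_mul_left ?_ hs)
  exact hcov.trans_eq (by ring)

/-- The box of coefficients carries the product of the uniform laws. -/
lemma restrict_box (P : ℕ) :
    (volume : Measure (Fin P → ℝ)).restrict (box P) = Measure.pi fun _ : Fin P => unitLaw := by
  rw [box, volume_pi, Measure.restrict_pi_pi]
  rfl

/-- The error is small on average over the coefficients. -/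
theorem integral_ggErr_le (P : ℕ) :
    ∃ C, ∀ (N : ℕ) (S : Sys) (u : S.X → EuclideanSpace ℝ (Fin N)) (hu : Measurable u)
      (hu1 : ∀ a, ‖u a‖ = 1) (s V : ℝ), 1 ≤ s → 1 ≤ V →
      (∀ F : S.X → ℝ, Measurable F → (∃ b, ∀ a, |F a| ≤ b) →
        Integrable (fun ω => logI S.ref (fun a => S.w ω a * Real.exp (F a))) S.law ∧
        ∫ ω, |logI S.ref (fun a => S.w ω a * Real.exp (F a)) -
          ∫ ω', logI S.ref (fun a => S.w ω' a * Real.exp (F a)) ∂S.law| ∂S.law ≤ V) →
      ∀ p : Fin P, IntegrableOn (fun x => ggErr S u hu hu1 s x p) (box P) ∧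
        ∫ x in box P, ggErr S u hu hu1 s x p ≤ C * Real.sqrt (V + s) / s := by
  refine ⟨80 + 18 * (P : ℝ), fun N S u hu hu1 s V hs1 hV1 hV p => ?_⟩
  have hs : 0 < s := zero_lt_one.trans_le hs1
  rw [IntegrableOn, restrict_box]
  set νb := Measure.pi fun _ : Fin P => unitLaw
  simp only [ggErr_eq hu hu1]
  set g : (Fin P → ℝ) → ℝ := fun x =>
    pertRep S u s x 1 (fun z a => |powField S u p z (a 0) - powM S u s x p|)
  set γ := stdGaussian (PertSpace N P)
  have hgm : Measurable g := by
    have h := measurable_pertAvg hu hu1 (s := s) (n := 1)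
      (Θ := fun k a => |powField S u p k.2 (a 0) - powM S u s k.1 p|)
      (((measurable_powField hu p
        (f := fun q : ((Fin P → ℝ) × (S.Ω × PertSpace N P)) × (Fin 1 → S.X) => q.1.2)
        (measurable_snd.comp measurable_fst)
        (g := fun q => q.2 0) ((measurable_pi_apply 0).comp measurable_snd)).sub
          ((measurable_powM hu hu1 s p).comp (measurable_fst.comp measurable_fst))).abs)
    exact (h.stronglyMeasurable.integral_prod_right' (ν := S.law.prod γ)).measurable
  have hbox : ∀ᵐ x ∂νb, ∀ q, x q ∈ Set.Icc (1 : ℝ) 2 := by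
    have h : ∀ᵐ x ∂(volume : Measure (Fin P → ℝ)).restrict (box P), x ∈ box P :=
      ae_restrict_mem (MeasurableSet.univ_pi fun _ => measurableSet_Icc)
    rw [restrict_box] at h
    exact h.mono fun x hx q => hx q trivial
  have habs : ∀ x : Fin P → ℝ, (∀ q, x q ∈ Set.Icc (1 : ℝ) 2) → ∀ q, |x q| ≤ 2 := fun x hx q =>
    abs_le.2 ⟨by linarith [(hx q).1], (hx q).2⟩
  have hg0 : ∀ x, 0 ≤ g x := fun x => integral_nonneg fun z => integral_nonneg fun a => abs_nonneg _
  have hgb : ∀ x : Fin P → ℝ, (∀ q, x q ∈ Set.Icc (1 : ℝ) 2) →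
      g x ≤ (∫ J : PertSpace N P, ‖J‖ ∂γ) + 4 * s := by
    intro x hx
    have hM : |powM S u s x p| ≤ 4 * s := by
      have h2 := abs_powM_le hu hu1 (x := x) (p := p) hs.le
      have h3 := mul_le_mul_of_nonneg_left (habs x hx p) (show 0 ≤ 2 * s by linarith)
      linarith
    have hn : Integrable (fun z : S.Ω × PertSpace N P => ‖z.2‖ + 4 * s) (S.law.prod γ) :=
      ((by simpa using (integrable_norm_pow (E := PertSpace N P) 1).comp_snd S.law :
        Integrable (fun z : S.Ω × PertSpace N P => ‖z.2‖) (S.law.prod γ))).add (integrable_const _)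
    refine (integral_mono_of_nonneg (Filter.Eventually.of_forall fun z =>
      integral_nonneg fun a => abs_nonneg _) hn (Filter.Eventually.of_forall fun z => ?_)).trans_eq ?_
    · exact (le_abs_self _).trans (abs_pertAvg_le hu hu1 (fun a => by
        rw [abs_abs]
        exact (abs_sub _ _).trans (add_le_add (abs_powField_le hu1 z _) hM)) z)
    · rw [integral_add (by simpa using (integrable_norm_pow (E := PertSpace N P) 1).comp_snd S.law)
        (integrable_const _), integral_fun_snd (fun J : PertSpace N P => ‖J‖)]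
      simp
  have hgi : Integrable g νb := Integrable.mono' (integrable_const _) hgm.aestronglyMeasurable
    (hbox.mono fun x hx => by rw [Real.norm_eq_abs, abs_of_nonneg (hg0 x)]; exact hgb x hx)
  refine ⟨hgi.div_const s, ?_⟩
  rw [integral_div]
  refine div_le_div_of_nonneg_right ?_ hs.le
  set R := Real.sqrt (V + s) with hR
  have hRR : R * R = V + s := Real.mul_self_sqrt (by linarith)
  have hR1 : 1 ≤ R := Real.one_le_sqrt.2 (by linarith)
  set η := R / s with hηdef
  have hη : 0 < η := div_pos (by linarith) hs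
  set B := 7 / 2 + 3 * (V + 3 * s * (2 * (P : ℝ) + 2 + η)) / (η * s) + 24 * s * η
  have hB : B ≤ (80 + 18 * (P : ℝ)) * R := by
    have e : B * R = 7 / 2 * R + (3 * V + (18 * (P : ℝ) + 18) * s + 9 * R) + 24 * (R * R) := by
      have hηs : η * s = R := by rw [hηdef]; field_simp
      have e2 : s * η = R := by rw [mul_comm]; exact hηs
      simp only [B, hηs, mul_assoc 24 s η, e2]
      have e3 : 3 * (V + 3 * s * (2 * (P : ℝ) + 2 + η)) =
          3 * V + (18 * (P : ℝ) + 18) * s + 9 * R := by rw [← e2]; ring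
      rw [e3]
      field_simp
    refine le_of_mul_le_mul_right ?_ (zero_lt_one.trans_le hR1)
    rw [e]
    have h1 : R ≤ R * R := le_mul_of_one_le_left (by linarith) hR1
    have hP : (0 : ℝ) ≤ P := Nat.cast_nonneg P
    have h2 : (18 * (P : ℝ) + 18) * s ≤ (18 * (P : ℝ) + 18) * (R * R) :=
      mul_le_mul_of_nonneg_left (by rw [hRR]; linarith) (by linarith)
    have h3 : V ≤ R * R := by rw [hRR]; linarith
    linarith
  refine le_trans ?_ hB
  have hup : MeasurePreserving (fun z : (Fin P → ℝ) × ℝ => Function.update z.1 p z.2)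
      (νb.prod unitLaw) νb := measurePreserving_update (ν := unitLaw) p
  have e1 : ∫ x, g x ∂νb = ∫ x, ∫ t, g (Function.update x p t) ∂unitLaw ∂νb := by
    conv_lhs => rw [← hup.map_eq]
    rw [integral_map hup.measurable.aemeasurable hgm.aestronglyMeasurable]
    exact integral_prod _ (hup.integrable_comp_of_integrable hgi)
  have hint2 : Integrable (fun x => ∫ t, g (Function.update x p t) ∂unitLaw) νb :=
    (hup.integrable_comp_of_integrable hgi).integral_prod_left
  rw [e1]
  refine (integral_mono_ae hint2 (integrable_const B) (hbox.mono fun x hx => ?_)).trans_eq (by simp)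
  -- one line of coefficients
  set m : ℝ → ℝ := fun t => powM S u s (Function.update x p t) p
  set W : ℝ → ℝ := fun t =>
    ∫ z, powVar S u s (Function.update x p t) p z ∂S.law.prod γ
  obtain ⟨hWi, hW6⟩ := integral_powVar hu hu1 (x := x) (p := p) hs
  have hm : Monotone m := powM_mono hu hu1 hs
  have hmb : ∀ t, |m t| ≤ 2 * s * |t| := fun t => by
    simpa using abs_powM_le hu hu1 (x := Function.update x p t) (p := p) hs.le
  have hsh : ∀ c : ℝ, Integrable (fun t => m (t + c)) unitLaw := fun c => by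
    have h : Monotone fun t => m (t + c) := fun a b hab => hm (by linarith)
    exact (h.monotoneOn _).integrableOn_isCompact isCompact_Icc
  have hi1 : Integrable (fun t => (1 + W t) / 2) unitLaw := ((integrable_const 1).add hWi).div_const 2
  have hi2 : Integrable (fun t => (1 + W t) / 2 + 3 * (V + 3 * s * (2 * (P : ℝ) + 2 + η)) / (η * s))
      unitLaw := hi1.add (integrable_const _)
  have hi3 : Integrable (fun t => m (t + η) - m (t - η)) unitLaw := by
    simpa only [sub_eq_add_neg] using (hsh η).sub' (hsh (-η))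
  refine (integral_mono_of_nonneg (Filter.Eventually.of_forall fun t => hg0 _) (hi2.add hi3)
    (ae_unitLaw.mono fun t ht => err_point_le hu hu1 hs hV (habs x hx) ht hη)).trans ?_
  simp only [Pi.add_apply]
  rw [integral_add hi2 hi3, integral_add hi1 (integrable_const _), integral_div,
    integral_add (integrable_const 1) hWi]
  simp only [integral_const, probReal_univ, one_smul]
  have h := integral_shift_le hm (a := 2 * s) (by linarith) hmb hη
  have hW6' : ∫ t, W t ∂unitLaw ≤ 6 := hW6
  simp only [B]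
  linarith

end Vale.Agent.P157.Low
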