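import Vale.Agent.P157.Low.LimitCompact

/-!
Compactness: approximate Ghirlanda–Guerra identities give a limit array along a subsequence.
-/

namespace Vale.Agent.P157.Low

open MeasureTheory Filter
open scoped Topology BoundedContinuousFunction

section Limit

variable {μ : ∀ n, ProbabilityMeasure (corrSet n)}

/-- Laws with the same continuous test integrals are equal. -/
lemma matLaw_marg
    (hm : ∀ {k n : ℕ} (e : Fin k → Fin n), Function.Injective e → ∀ F : Mat k → ℝ, Continuous F →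
      ∫ R, F (sub R e) ∂matLaw (μ n) = ∫ R, F R ∂matLaw (μ k))
    {k n : ℕ} (e : Fin k → Fin n) (he : Function.Injective e) :
    (matLaw (μ n)).map (fun R => sub R e) = matLaw (μ k) := by
  have hc : Continuous fun R : Mat n => sub R e := by unfold sub; fun_prop
  have := Measure.isProbabilityMeasure_map (μ := matLaw (μ n)) hc.measurable.aemeasurable
  refine ext_of_forall_integral_eq_of_IsFiniteMeasure fun F => ?_
  rw [integral_map hc.measurable.aemeasurable F.continuous.aestronglyMeasurable]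
  exact hm e he F F.continuous

/-- The identities for continuous test functions follow from those for monomials. -/
lemma gg_continuous {n : ℕ} (l : Fin n) {Φ : Mat n → ℝ} (hΦ : Continuous Φ)
    (h : ∀ p : ℕ, (n : ℝ) * ∫ R, Φ (sub R Fin.castSucc) * R l.castSucc (Fin.last n) ^ p ∂matLaw (μ (n + 1)) =
      (∫ R, Φ R ∂matLaw (μ n)) * (∫ R, R 0 1 ^ p ∂matLaw (μ 2)) +
        ∑ l' ∈ Finset.univ.erase l, ∫ R, Φ R * R l l' ^ p ∂matLaw (μ n))
    {ψ : ℝ → ℝ} (hψ : Continuous ψ) :
    (n : ℝ) * ∫ R, Φ (sub R Fin.castSucc) * ψ (R l.castSucc (Fin.last n)) ∂matLaw (μ (n + 1)) =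
      (∫ R, Φ R ∂matLaw (μ n)) * (∫ R, ψ (R 0 1) ∂matLaw (μ 2)) +
        ∑ l' ∈ Finset.univ.erase l, ∫ R, Φ R * ψ (R l l') ∂matLaw (μ n) := by
  have hs : Continuous fun R : Mat (n + 1) => sub R Fin.castSucc := by unfold sub; fun_prop
  set L : (ℝ → ℝ) → ℝ := fun χ =>
    (n : ℝ) * ∫ R, Φ (sub R Fin.castSucc) * χ (R l.castSucc (Fin.last n)) ∂matLaw (μ (n + 1)) -
      ((∫ R, Φ R ∂matLaw (μ n)) * (∫ R, χ (R 0 1) ∂matLaw (μ 2)) +
        ∑ l' ∈ Finset.univ.erase l, ∫ R, Φ R * χ (R l l') ∂matLaw (μ n)) with hL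
  have hadd : ∀ χ χ' : ℝ → ℝ, Continuous χ → Continuous χ' →
      L (fun x => χ x + χ' x) = L χ + L χ' := fun χ χ' hχ hχ' => by
    simp only [hL]
    simp only [mul_add]
    rw [integral_add (integrable_matLaw _ (by fun_prop)) (integrable_matLaw _ (by fun_prop)),
      integral_add (integrable_matLaw _ (by fun_prop)) (integrable_matLaw _ (by fun_prop))]
    simp only [fun l' : Fin n => integral_add (μ := matLaw (μ n))
      (f := fun R : Mat n => Φ R * χ (R l l')) (g := fun R : Mat n => Φ R * χ' (R l l'))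
      (integrable_matLaw _ (by fun_prop)) (integrable_matLaw _ (by fun_prop)), Finset.sum_add_distrib]
    ring
  have hsmul : ∀ (a : ℝ) (χ : ℝ → ℝ), L (fun x => a * χ x) = a * L χ := fun a χ => by
    simp only [hL, mul_left_comm _ a, integral_const_mul, ← Finset.mul_sum]
    ring
  have hpoly : ∀ q : Polynomial ℝ, L (fun x => q.eval x) = 0 := by
    intro q
    induction q using Polynomial.induction_on' with
    | add q q' hq hq' =>
      simp only [Polynomial.eval_add]
      rw [hadd _ _ q.continuous q'.continuous, hq, hq', add_zero]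
    | monomial p a =>
      simp only [Polynomial.eval_monomial]
      rw [hsmul a (fun x => x ^ p)]
      simp only [hL, h p, sub_self, mul_zero]
  obtain ⟨C, hC⟩ := (isCompact_corrSet n).exists_bound_of_continuousOn hΦ.continuousOn
  have hC0 : ∀ R ∈ corrSet n, |Φ R| ≤ max C 0 := fun R hR =>
    (Real.norm_eq_abs _ ▸ hC R hR).trans (le_max_left _ _)
  set C' := max C 0
  have hmem : ∀ R ∈ corrSet (n + 1), sub R Fin.castSucc ∈ corrSet n := fun R hR =>
    ⟨fun a b => hR.1 _ _, fun a b => hR.2.1 _ _, fun a => hR.2.2.1 _, fun c => by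
      have := hR.2.2.2 (Fin.snoc c 0)
      simpa [Fin.sum_univ_castSucc, sub] using this⟩
  have hbd : ∀ (δ : ℝ) (χ : ℝ → ℝ), 0 ≤ δ → (∀ x ∈ Set.Icc (-1 : ℝ) 1, |χ x| ≤ δ) →
      |L χ| ≤ C' * δ * (2 * n + 1) := fun δ χ hδ0 hδ => by
    have b1 : |∫ R, Φ (sub R Fin.castSucc) * χ (R l.castSucc (Fin.last n)) ∂matLaw (μ (n + 1))| ≤
        C' * δ := by
      have := norm_integral_le_of_norm_le_const (μ := matLaw (μ (n + 1))) (C := C' * δ)
        (f := fun R => Φ (sub R Fin.castSucc) * χ (R l.castSucc (Fin.last n)))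
        ((ae_matLaw _).mono fun R hR => by
          rw [Real.norm_eq_abs, abs_mul]
          exact mul_le_mul (hC0 _ (hmem R hR)) (hδ _ (abs_le.1 (hR.1 _ _))) (abs_nonneg _)
            (le_max_right _ _))
      simpa [Real.norm_eq_abs] using this
    have b2 : |∫ R, Φ R ∂matLaw (μ n)| ≤ C' := by
      have := norm_integral_le_of_norm_le_const (μ := matLaw (μ n)) (C := C') (f := Φ)
        ((ae_matLaw _).mono fun R hR => by rw [Real.norm_eq_abs]; exact hC0 R hR)
      simpa [Real.norm_eq_abs] using this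
    have b3 : |∫ R, χ (R 0 1) ∂matLaw (μ 2)| ≤ δ := by
      have := norm_integral_le_of_norm_le_const (μ := matLaw (μ 2)) (C := δ)
        (f := fun R : Mat 2 => χ (R 0 1))
        ((ae_matLaw _).mono fun R hR => by
          rw [Real.norm_eq_abs]; exact hδ _ (abs_le.1 (hR.1 _ _)))
      simpa [Real.norm_eq_abs] using this
    have b4 : ∀ l', |∫ R, Φ R * χ (R l l') ∂matLaw (μ n)| ≤ C' * δ := fun l' => by
      have := norm_integral_le_of_norm_le_const (μ := matLaw (μ n)) (C := C' * δ)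
        (f := fun R : Mat n => Φ R * χ (R l l'))
        ((ae_matLaw _).mono fun R hR => by
          rw [Real.norm_eq_abs, abs_mul]
          exact mul_le_mul (hC0 _ hR) (hδ _ (abs_le.1 (hR.1 _ _))) (abs_nonneg _) (le_max_right _ _))
      simpa [Real.norm_eq_abs] using this
    have b5 : |∑ l' ∈ Finset.univ.erase l, ∫ R, Φ R * χ (R l l') ∂matLaw (μ n)| ≤ n * (C' * δ) := by
      refine (Finset.abs_sum_le_sum_abs _ _).trans ((Finset.sum_le_card_nsmul _ _ _ fun l' _ => b4 l').trans ?_)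
      rw [nsmul_eq_mul]
      refine mul_le_mul_of_nonneg_right ?_ (mul_nonneg (le_max_right _ _) hδ0)
      exact_mod_cast (Finset.card_le_univ _).trans_eq (Fintype.card_fin n)
    have b23 := mul_le_mul b2 b3 (abs_nonneg _) (le_max_right C 0)
    rw [← abs_mul] at b23
    have b1' := mul_le_mul_of_nonneg_left b1 (Nat.cast_nonneg' n : (0 : ℝ) ≤ n)
    rw [← Nat.abs_cast, ← abs_mul, Nat.abs_cast] at b1'
    simp only [hL]
    refine (abs_sub _ _).trans ?_
    refine (add_le_add b1' ((abs_add_le _ _).trans (add_le_add b23 b5))).trans (le_of_eq ?_)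
    ring
  have : L ψ = 0 := by
    refine abs_nonpos_iff.1 (le_of_forall_pos_le_add fun ε hε => ?_)
    have hK : 0 < C' * (2 * n + 1) + 1 := by positivity
    obtain ⟨q, hq⟩ := exists_polynomial_near_continuousMap (-1) 1
      ⟨fun x => ψ x, hψ.comp continuous_subtype_val⟩ (ε / (C' * (2 * n + 1) + 1)) (div_pos hε hK)
    have hd : L ψ = L (fun x => q.eval x) + L (fun x => ψ x - q.eval x) := by
      rw [← hadd (fun x => q.eval x) (fun x => ψ x - q.eval x) q.continuous (hψ.sub q.continuous)]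
      simp
    rw [hd, hpoly, zero_add, zero_add]
    refine (hbd (ε / (C' * (2 * n + 1) + 1)) (fun x => ψ x - q.eval x) (div_nonneg hε.le hK.le) fun x hx => ?_).trans ?_
    · have := (ContinuousMap.norm_coe_le_norm _ (⟨x, hx⟩ : Set.Icc (-1 : ℝ) 1)).trans hq.le
      simpa [Real.norm_eq_abs, abs_sub_comm] using this
    · rw [show C' * (ε / (C' * (2 * n + 1) + 1)) * (2 * n + 1) =
        C' * (2 * n + 1) * ε / (C' * (2 * n + 1) + 1) by ring, div_le_iff₀ hK]
      nlinarith
  simpa only [hL, sub_eq_zero] using this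

/-- The identities for bounded measurable test functions follow from those for continuous ones. -/
lemma gg_measurable {n : ℕ} (l : Fin n)
    (h : ∀ (Φ : Mat n → ℝ) (ψ : ℝ → ℝ), Continuous Φ → Continuous ψ →
      (n : ℝ) * ∫ R, Φ (sub R Fin.castSucc) * ψ (R l.castSucc (Fin.last n)) ∂matLaw (μ (n + 1)) =
      (∫ R, Φ R ∂matLaw (μ n)) * (∫ R, ψ (R 0 1) ∂matLaw (μ 2)) +
        ∑ l' ∈ Finset.univ.erase l, ∫ R, Φ R * ψ (R l l') ∂matLaw (μ n))
    {Φ : Mat n → ℝ} {ψ : ℝ → ℝ} (hΦ : Measurable Φ) (hψ : Measurable ψ) (hΦb : ∃ C, ∀ R, |Φ R| ≤ C)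
    (hψb : ∃ C, ∀ x, |ψ x| ≤ C) :
    (n : ℝ) * ∫ R, Φ (sub R Fin.castSucc) * ψ (R l.castSucc (Fin.last n)) ∂matLaw (μ (n + 1)) =
      (∫ R, Φ R ∂matLaw (μ n)) * (∫ R, ψ (R 0 1) ∂matLaw (μ 2)) +
        ∑ l' ∈ Finset.univ.erase l, ∫ R, Φ R * ψ (R l l') ∂matLaw (μ n) := by
  set g : Mat (n + 1) → Mat n × ℝ := fun R => (sub R Fin.castSucc, R l.castSucc (Fin.last n))
  set g2 : Mat 2 → ℝ := fun R => R 0 1
  set g3 : Fin n → Mat n → Mat n × ℝ := fun l' R => (R, R l l')
  have hg : Measurable g := (Continuous.prodMk (by unfold sub; fun_prop) (by fun_prop)).measurable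
  have hg2 : Measurable g2 := by simp only [g2]; fun_prop
  have hg3 : ∀ l', Measurable (g3 l') := fun l' => by simp only [g3]; fun_prop
  have := Measure.isProbabilityMeasure_map (μ := matLaw (μ (n + 1))) hg.aemeasurable
  have := Measure.isProbabilityMeasure_map (μ := matLaw (μ 2)) hg2.aemeasurable
  have : ∀ l', IsProbabilityMeasure ((matLaw (μ n)).map (g3 l')) := fun l' =>
    Measure.isProbabilityMeasure_map (hg3 l').aemeasurable
  set ν₁ := (n : NNReal) • (matLaw (μ (n + 1))).map g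
  set ν₂ := (matLaw (μ n)).prod ((matLaw (μ 2)).map g2) +
    ∑ l' ∈ Finset.univ.erase l, (matLaw (μ n)).map (g3 l')
  have hsum : IsFiniteMeasure (∑ l' ∈ Finset.univ.erase l, (matLaw (μ n)).map (g3 l')) :=
    ⟨by simp only [Measure.coe_finsetSum, Finset.sum_apply, measure_univ]
        simp [ENNReal.natCast_ne_top, lt_top_iff_ne_top]⟩
  have key : ∀ (Φ' : Mat n → ℝ) (ψ' : ℝ → ℝ), Measurable Φ' → Measurable ψ' →
      ∀ C C' : ℝ, (∀ R, |Φ' R| ≤ C) → (∀ x, |ψ' x| ≤ C') →
      (∫ z, Φ' z.1 * ψ' z.2 ∂ν₁ =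
          (n : ℝ) * ∫ R, Φ' (sub R Fin.castSucc) * ψ' (R l.castSucc (Fin.last n)) ∂matLaw (μ (n + 1))) ∧
      ∫ z, Φ' z.1 * ψ' z.2 ∂ν₂ = (∫ R, Φ' R ∂matLaw (μ n)) * (∫ R, ψ' (R 0 1) ∂matLaw (μ 2)) +
        ∑ l' ∈ Finset.univ.erase l, ∫ R, Φ' R * ψ' (R l l') ∂matLaw (μ n) := by
    intro Φ' ψ' hΦ' hψ' C C' hC hC'
    have hm : Measurable fun z : Mat n × ℝ => Φ' z.1 * ψ' z.2 :=
      (hΦ'.comp measurable_fst).mul (hψ'.comp measurable_snd)
    have hb : ∀ z : Mat n × ℝ, ‖Φ' z.1 * ψ' z.2‖ ≤ |C| * |C'| := fun z => by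
      rw [Real.norm_eq_abs, abs_mul]
      exact mul_le_mul ((hC _).trans (le_abs_self _)) ((hC' _).trans (le_abs_self _)) (abs_nonneg _)
        (abs_nonneg _)
    have hint : ∀ (ν : Measure (Mat n × ℝ)) [IsFiniteMeasure ν],
        Integrable (fun z => Φ' z.1 * ψ' z.2) ν := fun ν _ =>
      Integrable.of_bound hm.aestronglyMeasurable _ (Eventually.of_forall hb)
    constructor
    · rw [integral_smul_nnreal_measure, NNReal.smul_def, smul_eq_mul, NNReal.coe_natCast,
        integral_map hg.aemeasurable hm.aestronglyMeasurable]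
    · rw [integral_add_measure (hint _) (hint _),
        integral_prod_mul Φ' ψ', integral_map hg2.aemeasurable hψ'.aestronglyMeasurable,
        integral_finsetSum_measure fun l' _ => hint _]
      congr 1
      refine Finset.sum_congr rfl fun l' _ => ?_
      rw [integral_map (hg3 l').aemeasurable hm.aestronglyMeasurable]
  have heq : ν₁ = ν₂ := by
    refine Measure.ext_of_integral_mul_boundedContinuousFunction fun f g => ?_
    obtain ⟨e1, e2⟩ := key f g f.continuous.measurable g.continuous.measurable ‖f‖ ‖g‖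
      (fun R => f.norm_coe_le_norm R) (fun x => g.norm_coe_le_norm x)
    rw [e1, e2]
    exact h f g f.continuous g.continuous
  obtain ⟨C, hC⟩ := hΦb
  obtain ⟨C', hC'⟩ := hψb
  obtain ⟨e1, e2⟩ := key Φ ψ hΦ hψ C C' hC hC'
  rw [← e1, ← e2, heq]

end Limit

/-- Subsequential limit array. -/
theorem exists_conv (S : ℕ → Sys)
    (hgg : ∀ (p n : ℕ) (l : Fin n) (Φ : Mat n → ℝ), Continuous Φ → (∃ C, ∀ R, |Φ R| ≤ C) →
      Tendsto (fun j =>
        (n : ℝ) * (S j).expect (fun R : Mat (n + 1) =>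
            Φ (sub R Fin.castSucc) * R l.castSucc (Fin.last n) ^ (p + 1)) -
          ((S j).expect Φ * (S j).expect (fun R : Mat 2 => R 0 1 ^ (p + 1)) +
            ∑ l' ∈ Finset.univ.erase l, (S j).expect (fun R : Mat n => Φ R * R l l' ^ (p + 1))))
        atTop (𝓝 0)) :
    ∃ φ : ℕ → ℕ, StrictMono φ ∧ ∃ A : Arr, Conv (fun j => S (φ j)) A := by
  obtain ⟨φ, hφ, μ, hμ⟩ := exists_corr_limit S
  have hlim : ∀ n (F : Mat n → ℝ), Continuous F →
      Tendsto (fun j => (S (φ j)).expect F) atTop (𝓝 (∫ R, F R ∂matLaw (μ n))) := fun n F hF => by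
    rw [integral_matLaw _ hF]
    exact hμ n F hF
  have hmarg : ∀ {k n : ℕ} (e : Fin k → Fin n), Function.Injective e → ∀ F : Mat k → ℝ,
      Continuous F → ∫ R, F (sub R e) ∂matLaw (μ n) = ∫ R, F R ∂matLaw (μ k) := by
    intro k n e he F hF
    have hc : Continuous fun R : Mat n => F (sub R e) := hF.comp (by unfold sub; fun_prop)
    refine tendsto_nhds_unique (hlim n _ hc) ((hlim k F hF).congr fun j => ?_)
    exact ((S (φ j)).avgRep_marg he (Θ := fun _ x => F ((S (φ j)).gram x))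
      (hF.measurable.comp (((S (φ j)).measurable_gram k).comp measurable_snd))).symm
  have hcont : ∀ (n : ℕ) (l : Fin n) (Φ : Mat n → ℝ) (ψ : ℝ → ℝ), Continuous Φ → Continuous ψ →
      (n : ℝ) * ∫ R, Φ (sub R Fin.castSucc) * ψ (R l.castSucc (Fin.last n)) ∂matLaw (μ (n + 1)) =
      (∫ R, Φ R ∂matLaw (μ n)) * (∫ R, ψ (R 0 1) ∂matLaw (μ 2)) +
        ∑ l' ∈ Finset.univ.erase l, ∫ R, Φ R * ψ (R l l') ∂matLaw (μ n) := by
    intro n l Φ ψ hΦ hψ
    obtain ⟨C, hC⟩ := (isCompact_corrSet n).exists_bound_of_continuousOn hΦ.continuousOn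
    -- a bounded continuous function agreeing with `Φ` on correlation matrices
    set Φ' : Mat n → ℝ := fun R => max (-C) (min C (Φ R))
    have hΦ' : Continuous Φ' := by fun_prop
    have heq : ∀ R ∈ corrSet n, Φ' R = Φ R := fun R hR => by
      obtain ⟨h1, h2⟩ := abs_le.1 (Real.norm_eq_abs _ ▸ hC R hR)
      simp only [Φ', min_eq_right h2, max_eq_right h1]
    have hb : ∃ D, ∀ R, |Φ' R| ≤ D := ⟨|C|, fun R => abs_le.2
      ⟨(neg_le_neg (le_abs_self C)).trans (le_max_left _ _),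
        max_le (neg_le_abs C) ((min_le_left _ _).trans (le_abs_self C))⟩⟩
    have hmem : ∀ R ∈ corrSet (n + 1), sub R Fin.castSucc ∈ corrSet n := fun R hR =>
      ⟨fun a b => hR.1 _ _, fun a b => hR.2.1 _ _, fun a => hR.2.2.1 _, fun c => by
        have := hR.2.2.2 (Fin.snoc c 0)
        simpa [Fin.sum_univ_castSucc, sub] using this⟩
    have main : ∀ p : ℕ, (n : ℝ) * ∫ R, Φ' (sub R Fin.castSucc) * R l.castSucc (Fin.last n) ^ p
          ∂matLaw (μ (n + 1)) =
        (∫ R, Φ' R ∂matLaw (μ n)) * (∫ R, R 0 1 ^ p ∂matLaw (μ 2)) +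
          ∑ l' ∈ Finset.univ.erase l, ∫ R, Φ' R * R l l' ^ p ∂matLaw (μ n) := by
      intro p
      cases p with
      | zero =>
        simp only [pow_zero, mul_one, integral_const, probReal_univ, smul_eq_mul, Finset.sum_const,
          nsmul_eq_mul, hmarg _ (Fin.castSucc_injective n) Φ' hΦ']
        rw [Finset.card_erase_of_mem (Finset.mem_univ l), Finset.card_univ, Fintype.card_fin,
          Nat.cast_sub (by have := l.isLt; omega)]
        push_cast
        ring
      | succ p =>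
        have hs : Continuous fun R : Mat (n + 1) => sub R Fin.castSucc := by unfold sub; fun_prop
        have t := ((hlim (n + 1) (fun R => Φ' (sub R Fin.castSucc) *
            R l.castSucc (Fin.last n) ^ (p + 1)) (by fun_prop)).const_mul (n : ℝ)).sub
          (((hlim n Φ' hΦ').mul (hlim 2 (fun R => R 0 1 ^ (p + 1)) (by fun_prop))).add
            (tendsto_finsetSum (Finset.univ.erase l) fun l' _ =>
              hlim n (fun R => Φ' R * R l l' ^ (p + 1)) (by fun_prop)))
        exact sub_eq_zero.1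
          (tendsto_nhds_unique t ((hgg p n l Φ' hΦ' hb).comp hφ.tendsto_atTop))
    have hfin := gg_continuous (μ := μ) l hΦ' main hψ
    have e1 : ∫ R, Φ' (sub R Fin.castSucc) * ψ (R l.castSucc (Fin.last n)) ∂matLaw (μ (n + 1)) =
        ∫ R, Φ (sub R Fin.castSucc) * ψ (R l.castSucc (Fin.last n)) ∂matLaw (μ (n + 1)) :=
      integral_congr_ae ((ae_matLaw _).mono fun R hR => by
        show Φ' _ * _ = _
        rw [heq _ (hmem R hR)])
    have e2 : ∫ R, Φ' R ∂matLaw (μ n) = ∫ R, Φ R ∂matLaw (μ n) :=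
      integral_congr_ae ((ae_matLaw _).mono fun R hR => heq R hR)
    have e3 : ∀ l', ∫ R, Φ' R * ψ (R l l') ∂matLaw (μ n) = ∫ R, Φ R * ψ (R l l') ∂matLaw (μ n) :=
      fun l' => integral_congr_ae ((ae_matLaw _).mono fun R hR => by
        show Φ' _ * _ = _
        rw [heq R hR])
    simpa only [e1, e2, e3] using hfin
  refine ⟨φ, hφ, ⟨fun n => matLaw (μ n), fun n => inferInstance,
    fun e he => matLaw_marg (μ := μ) hmarg e he,
    fun n => (ae_matLaw _).mono fun R hR => hR.2.1, fun n => (ae_matLaw _).mono fun R hR => hR.2.2.1,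
    fun n => (ae_matLaw _).mono fun R hR => hR.1,
    fun n c => (ae_matLaw _).mono fun R hR => hR.2.2.2 c,
    fun n l Φ ψ hΦ hψ hΦb hψb => gg_measurable (μ := μ) l (hcont n l) hΦ hψ hΦb hψb⟩,
    fun n F hF _ => hlim n F hF⟩

end Vale.Agent.P157.Low
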