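import Vale.Agent.P157.Low.CubeLaw

/-!
Exact identities for the perturbed cube systems: adding a pattern, Poisson numbers of patterns,
and sums over patterns as averages in systems with more patterns.
-/

namespace Vale.Agent.P157.Low

open MeasureTheory ProbabilityTheory Filter
open scoped RealInnerProductSpace Topology

variable {f : ℝ → ℝ} {B : ℝ}

/-- The weight of one pattern. -/
noncomputable def expW (f : ℝ → ℝ) (y : ℝ) : ℝ := Real.exp (f y)

lemma measurable_expW (hf : Pot f B) : Measurable (expW f) := hf.meas.exp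

lemma expW_mem (hf : Pot f B) (y : ℝ) : Real.exp (-B) ≤ expW f y ∧ expW f y ≤ Real.exp B :=
  ⟨Real.exp_le_exp.2 (abs_le.1 (hf.bound y)).1, Real.exp_le_exp.2 (abs_le.1 (hf.bound y)).2⟩

/-- A system tilted by one pattern of `f`. -/
noncomputable def Sys.tiltF (S : Sys) (hf : Pot f B) : Sys :=
  S.tilt (expW f) (measurable_expW hf) (Real.exp_pos (-B)) (expW_mem hf)

variable {P : ℕ}

/-- The pattern overlaps of a configuration. -/
noncomputable def pat {f : ℝ → ℝ} {B : ℝ} {hf : Pot f B} {N : ℕ} {lam : ℝ} {k : ℕ} {x : Fin P → ℝ}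
    (ω : (pSys hf N lam k x).Ω) (a : ℕ) (r : Fin (N + 1) → Bool) : ℝ :=
  ⟪ω.1.2 a, cubeVec (N + 1) r⟫

/-- The number of patterns. -/
def cnt {f : ℝ → ℝ} {B : ℝ} {hf : Pot f B} {N : ℕ} {lam : ℝ} {k : ℕ} {x : Fin P → ℝ}
    (ω : (pSys hf N lam k x).Ω) : ℕ :=
  ω.1.1 + k

lemma tiltF_w (hf : Pot f B) (N : ℕ) (lam : ℝ) (k : ℕ) (x : Fin P → ℝ)
    (p : (pSys hf N lam k x).Ω × Sp (N + 1)) (r : Fin (N + 1) → Bool) :
    (pSys hf N lam k x).w p.1 r * expW f ⟪p.2, cubeVec (N + 1) r⟫ =
      (pSys hf N lam (k + 1) x).w (appendPat p) r := by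
  rw [pSys_w, pSys_w, expW]
  exact (cw_succ x _ _ _ _ r).symm

lemma measurable_wt_append (hf : Pot f B) (N : ℕ) (lam : ℝ) (k : ℕ) (x : Fin P → ℝ)
    (r : Fin (N + 1) → Bool) :
    Measurable fun ω : (pSys hf N lam k x).Ω => (pSys hf N lam k x).w ω r :=
  measurable_pSys_w hf lam k x r

/-- Replica averages of a tilted system. -/
lemma tiltF_avgRep (hf : Pot f B) (N : ℕ) (lam : ℝ) (k : ℕ) (x : Fin P → ℝ) {n : ℕ}
    (Θ : (pSys hf N lam (k + 1) x).Ω → (Fin n → Fin (N + 1) → Bool) → ℝ)
    (hΘ : ∀ r, Measurable fun ω => Θ ω r) :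
    ((pSys hf N lam k x).tiltF hf).avgRep n (fun p r => Θ (appendPat p) r) =
      (pSys hf N lam (k + 1) x).avgRep n Θ := by
  have hmp := measurePreserving_appendPat (N := N) hf lam k x
  rw [pSys_avgRep hf lam (k + 1) x]
  refine Eq.trans ?_ ((integral_map hmp.measurable.aemeasurable
    (f := fun ω => repE ((pSys hf N lam (k + 1) x).w ω) (Θ ω)) ?_).symm.trans
      (by rw [hmp.map_eq]))
  · refine integral_congr_ae (Filter.Eventually.of_forall fun p => ?_)
    refine (integral_pi_gibbs_cube (((pSys hf N lam k x).tiltF hf).wt p) _).trans ?_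
    exact congrArg (fun w => repE w (Θ (appendPat p))) (funext fun r => tiltF_w hf N lam k x p r)
  · exact (measurable_repE (measurable_pSys_w hf lam (k + 1) x) hΘ).aestronglyMeasurable

/-- Tilting by one pattern adds one pattern. -/
theorem pSys_tilt_expect (hf : Pot f B) (N : ℕ) (lam : ℝ) (k : ℕ) (x : Fin P → ℝ) {n : ℕ}
    (Φ : Mat n → ℝ) (hΦ : Measurable Φ) (hb : ∃ C, ∀ R, |Φ R| ≤ C) :
    ((pSys hf N lam k x).tiltF hf).expect Φ = (pSys hf N lam (k + 1) x).expect Φ :=
  tiltF_avgRep hf N lam k x (fun _ r => Φ ((pSys hf N lam (k + 1) x).gram r)) fun _ => measurable_const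

lemma abs_logI_cw_le (hf : Pot f B) (N : ℕ) (x : Fin P → ℝ) (M : ℕ) (g : ℕ → Sp (N + 1))
    (J : PertSpace (N + 1) P) :
    |logI (cubeMeasure (N + 1)) (cw f N x M g J)| ≤ M * B + strength N * (‖J‖ * ∑ q, |x q|) := by
  have e : cw f N x M g J = fun r => Real.exp ((∑ a ∈ Finset.range M, f ⟪g a, cubeVec (N + 1) r⟫) +
      strength N * ⟪J, pertVec x (cubeVec (N + 1) r)⟫) := funext fun r => (Real.exp_add _ _).symm
  rw [logI, e]
  refine abs_log_integral_exp_le (measurable_of_finite _) fun r => (abs_add_le _ _).trans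
    (add_le_add ((Finset.abs_sum_le_sum_abs _ _).trans
      ((Finset.sum_le_sum fun a _ => hf.bound _).trans_eq (by simp))) ?_)
  have hs : 0 ≤ strength N := Real.rpow_nonneg (by positivity) _
  rw [abs_mul, abs_of_nonneg hs]
  exact mul_le_mul_of_nonneg_left ((abs_real_inner_le_norm _ _).trans
    (mul_le_mul_of_nonneg_left (norm_pertVec_le x _ (norm_cubeVec (Nat.succ_pos N) _))
      (norm_nonneg _))) hs

lemma measurable_logI_pSys (hf : Pot f B) (N : ℕ) (lam : ℝ) (k : ℕ) (x : Fin P → ℝ) :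
    Measurable fun ω => logI (pSys hf N lam k x).ref ((pSys hf N lam k x).w ω) :=
  ((pSys hf N lam k x).measW.stronglyMeasurable.integral_prod_right'
    (ν := (pSys hf N lam k x).ref)).measurable.log

lemma integrable_logI_pSys (hf : Pot f B) (N : ℕ) (lam : ℝ) (k : ℕ) (x : Fin P → ℝ) :
    Integrable (fun ω => logI (pSys hf N lam k x).ref ((pSys hf N lam k x).w ω))
      (pSys hf N lam k x).law := by
  have hs : 0 ≤ strength N := Real.rpow_nonneg (by positivity) _
  have hp : Integrable (fun M : ℕ => ((M + k : ℕ) : ℝ) * B) (poiLaw lam) :=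
    integrable_poisson_of_le (C := ((k : ℝ) + 1) * B) (j := 1) fun n => by
      have := mul_nonneg (Nat.cast_nonneg (α := ℝ) k) (Nat.cast_nonneg (α := ℝ) n)
      rw [abs_of_nonneg (mul_nonneg (Nat.cast_nonneg _) hf.nonneg), pow_one]
      push_cast
      nlinarith [hf.nonneg]
  have hJ : Integrable (fun J : PertSpace (N + 1) P => strength N * (‖J‖ * ∑ q, |x q|))
      (stdGaussian (PertSpace (N + 1) P)) := by
    simpa using ((integrable_norm_pow (E := PertSpace (N + 1) P) 1).mul_const _).const_mul _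
  exact (((hp.comp_fst (patLaw (N + 1))).comp_fst _).add (hJ.comp_snd _)).mono'
    (measurable_logI_pSys hf N lam k x).aestronglyMeasurable
    (Filter.Eventually.of_forall fun ω => (Real.norm_eq_abs _).trans_le
      (abs_logI_cw_le hf N x _ _ _))

/-- The gain of one pattern. -/
theorem pSys_logGain (hf : Pot f B) (N : ℕ) {lam : ℝ} (hl : 0 ≤ lam) (k : ℕ) (x : Fin P → ℝ) :
    (pSys hf N lam k x).logGain (expW f) =
      (pSys hf N lam (k + 1) x).free - (pSys hf N lam k x).free := by
  set S := pSys hf N lam k x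
  set S' := pSys hf N lam (k + 1) x
  have hmp := measurePreserving_appendPat (N := N) hf lam k x
  have hwp : ∀ p : S.Ω × Sp (N + 1), logI S'.ref (S'.w (appendPat p)) = logI S.ref (S.w p.1) +
      Real.log (∫ r, expW f ⟪p.2, cubeVec (N + 1) r⟫ ∂gibbs S.ref (S.w p.1)) := fun p => by
    have hu : Wt fun r : Fin (N + 1) → Bool => expW f ⟪p.2, cubeVec (N + 1) r⟫ :=
      Wt.exp (measurable_of_finite _) (β := B) fun r => hf.bound _
    have h := logI_mul (μ := S.ref) (S.wt p.1) hu
    rw [show S'.w (appendPat p) = fun r => S.w p.1 r * expW f ⟪p.2, cubeVec (N + 1) r⟫ from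
      funext fun r => (tiltF_w hf N lam k x p r).symm]
    exact h
  have hi' : Integrable (fun p => logI S'.ref (S'.w (appendPat p))) (S.law.prod (stdGaussian (Sp (N + 1)))) := by
    have := integrable_logI_pSys hf N lam (k + 1) x
    rw [← hmp.map_eq] at this
    exact this.comp_measurable hmp.measurable
  have hi : Integrable (fun p : S.Ω × Sp (N + 1) => logI S.ref (S.w p.1))
      (S.law.prod (stdGaussian (Sp (N + 1)))) := (integrable_logI_pSys hf N lam k x).comp_fst _
  have hfree : S'.free = ∫ p, logI S'.ref (S'.w (appendPat p)) ∂S.law.prod (stdGaussian (Sp (N + 1))) := by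
    rw [Sys.free]
    conv_lhs => rw [← hmp.map_eq]
    rw [integral_map hmp.measurable.aemeasurable]
    exact (measurable_logI_pSys hf N lam (k + 1) x).aestronglyMeasurable
  have hd : Integrable (fun p : S.Ω × Sp (N + 1) =>
      Real.log (∫ r, expW f ⟪p.2, cubeVec (N + 1) r⟫ ∂gibbs S.ref (S.w p.1)))
      (S.law.prod (stdGaussian (Sp (N + 1)))) :=
    (hi'.sub hi).congr (Filter.Eventually.of_forall fun p => by simp [hwp])
  rw [hfree, integral_congr_ae (Filter.Eventually.of_forall hwp), integral_add hi hd,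
    integral_prod _ hi]
  simp only [integral_const, probReal_univ, one_smul]
  rw [integral_prod _ hd]
  show S.logGain (expW f) = S.free + S.logGain (expW f) - S.free
  ring

/-- An average at fixed numbers of patterns. -/
lemma pSys_integral_count (hf : Pot f B) (N : ℕ) {lam μ : ℝ} (hl : 0 ≤ lam) (hμ : 0 ≤ μ)
    (x : Fin P → ℝ) (H : ℕ → ℕ → (ℕ → Sp (N + 1)) → PertSpace (N + 1) P → ℝ)
    (hH : ∀ M k, H M k = H (M + k) 0)
    (hi : ∀ l k, Integrable (fun ω : (pSys hf N l k x).Ω => H ω.1.1 k ω.1.2 ω.2) (pSys hf N l k x).law)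
    {C : ℝ} (hb : ∀ M, |∫ p, H M 0 p.1 p.2 ∂(patLaw (N + 1)).prod (stdGaussian (PertSpace (N + 1) P))| ≤
      C * ((M : ℝ) + 1) ^ 1) :
    ∫ ω, H ω.1.1 0 ω.1.2 ω.2 ∂(pSys hf N (lam + μ) 0 x).law =
      ∫ k, ∫ ω, H ω.1.1 k ω.1.2 ω.2 ∂(pSys hf N lam k x).law ∂poiLaw μ := by
  set I : ℕ → ℝ := fun M => ∫ p, H M 0 p.1 p.2 ∂(patLaw (N + 1)).prod (stdGaussian (PertSpace (N + 1) P))
  have e : ∀ k, ∫ ω, H ω.1.1 k ω.1.2 ω.2 ∂(pSys hf N lam k x).law = ∫ M, I (M + k) ∂poiLaw lam := fun k => by
    rw [integral_pSys_law hf lam k x (hi lam k)]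
    exact integral_congr_ae (Filter.Eventually.of_forall fun M => by simp only [I, hH M k])
  simp only [e]
  rw [integral_pSys_law hf (lam + μ) 0 x (hi (lam + μ) 0)]
  have hI : Integrable I (poissonMeasure (μ.toNNReal + lam.toNNReal)) := integrable_poisson_of_le hb
  have h := poisson_add μ.toNNReal lam.toNNReal (F := I) hI
  have ec : (μ.toNNReal + lam.toNNReal) = (lam + μ).toNNReal := by
    rw [Real.toNNReal_add hl hμ, add_comm]
  rw [ec] at h
  refine (h.symm.trans ?_)
  exact integral_congr_ae (Filter.Eventually.of_forall fun k =>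
    integral_congr_ae (Filter.Eventually.of_forall fun M => by simp only [add_comm k M]))

/-- Adding a Poisson number of patterns: averages. -/
theorem pSys_expect_add (hf : Pot f B) (N : ℕ) {lam μ : ℝ} (hl : 0 ≤ lam) (hμ : 0 ≤ μ)
    (x : Fin P → ℝ) {n : ℕ} (Φ : Mat n → ℝ) (hΦ : Measurable Φ) (hb : ∃ C, ∀ R, |Φ R| ≤ C) :
    (pSys hf N (lam + μ) 0 x).expect Φ =
      ∫ k, (pSys hf N lam k x).expect Φ ∂poiLaw μ := by
  obtain ⟨C, hC⟩ := hb
  set H : ℕ → ℕ → (ℕ → Sp (N + 1)) → PertSpace (N + 1) P → ℝ := fun M k g J =>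
    repE (cw f N x (M + k) g J) (fun r : Fin n → Fin (N + 1) → Bool =>
      Φ fun a b => ⟪cubeVec (N + 1) (r a), cubeVec (N + 1) (r b)⟫)
  have hHb : ∀ M k g J, |H M k g J| ≤ C := fun M k g J => abs_repE_le (cw_pos x _ g J) fun r => hC _
  have hi : ∀ l k, Integrable (fun ω : (pSys hf N l k x).Ω => H ω.1.1 k ω.1.2 ω.2)
      (pSys hf N l k x).law := fun l k =>
    integrable_pSys_of_le hf l k x (C := C) (j := 0)
      (measurable_repE (measurable_pSys_w hf l k x) fun _ => measurable_const)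
      fun ω => by simpa using hHb _ _ _ _
  have hC0 : 0 ≤ C := (abs_nonneg _).trans (hC fun _ _ => 0)
  have h := pSys_integral_count hf N hl hμ x H (fun M k => by simp only [H, Nat.add_zero]) hi
    (C := C) fun M => by
      have hle : |∫ p, H M 0 p.1 p.2 ∂(patLaw (N + 1)).prod (stdGaussian (PertSpace (N + 1) P))| ≤ C := by
        rw [← Real.norm_eq_abs]
        refine (norm_integral_le_of_norm_le_const (C := C)
          (Filter.Eventually.of_forall fun p => (Real.norm_eq_abs _).trans_le (hHb M 0 _ _))).trans ?_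
        simp
      refine hle.trans ?_
      rw [pow_one]
      nlinarith [Nat.cast_nonneg (α := ℝ) M]
  refine (pSys_avgRep hf (lam + μ) 0 x _).trans
    (Eq.trans h (integral_congr_ae (Filter.Eventually.of_forall fun k => ?_)))
  exact (pSys_avgRep hf lam k x _).symm

/-- Adding a Poisson number of patterns: the free energy. -/
theorem pSys_free_add (hf : Pot f B) (N : ℕ) {lam μ : ℝ} (hl : 0 ≤ lam) (hμ : 0 ≤ μ) (x : Fin P → ℝ) :
    (pSys hf N (lam + μ) 0 x).free = ∫ k, (pSys hf N lam k x).free ∂poiLaw μ := by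
  set H : ℕ → ℕ → (ℕ → Sp (N + 1)) → PertSpace (N + 1) P → ℝ := fun M k g J =>
    logI (cubeMeasure (N + 1)) (cw f N x (M + k) g J)
  set c := strength N * ((∫ J, ‖J‖ ∂stdGaussian (PertSpace (N + 1) P)) * ∑ q, |x q|)
  have hs : 0 ≤ strength N := Real.rpow_nonneg (by positivity) _
  have h := pSys_integral_count hf N hl hμ x H (fun M k => by simp only [H, Nat.add_zero])
    (fun l k => integrable_logI_pSys hf N l k x) (C := B + c) fun M => by
      have hc0 : 0 ≤ c := mul_nonneg hs (mul_nonneg (integral_nonneg fun _ => norm_nonneg _)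
        (Finset.sum_nonneg fun _ _ => abs_nonneg _))
      have hJ : Integrable (fun p : (ℕ → Sp (N + 1)) × PertSpace (N + 1) P =>
          (M : ℝ) * B + strength N * (‖p.2‖ * ∑ q, |x q|))
          ((patLaw (N + 1)).prod (stdGaussian (PertSpace (N + 1) P))) :=
        (integrable_const _).add (((((by simpa using integrable_norm_pow (E := PertSpace (N + 1) P) 1 :
          Integrable (fun J => ‖J‖) (stdGaussian (PertSpace (N + 1) P)))).mul_const _).const_mul
            _).comp_snd (patLaw (N + 1)))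
      refine (Real.norm_eq_abs _).symm.trans_le ((norm_integral_le_of_norm_le hJ
        (Filter.Eventually.of_forall fun p => (Real.norm_eq_abs _).trans_le
          (by simpa [H] using abs_logI_cw_le hf N x M p.1 p.2))).trans ?_)
      rw [integral_add (integrable_const _) (((((by simpa using integrable_norm_pow (E := PertSpace (N + 1) P) 1 :
          Integrable (fun J => ‖J‖) (stdGaussian (PertSpace (N + 1) P)))).mul_const _).const_mul
            _).comp_snd (patLaw (N + 1))),
        integral_fun_snd (fun J : PertSpace (N + 1) P => strength N * (‖J‖ * ∑ q, |x q|)),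
        integral_const]
      simp only [probReal_univ, one_smul, smul_eq_mul, one_mul, pow_one]
      rw [integral_const_mul, integral_mul_const]
      nlinarith [hf.nonneg, mul_nonneg hc0 (Nat.cast_nonneg (α := ℝ) M)]
  exact h

/-- A sum over the patterns is an average at one more pattern. -/
theorem pSys_palm (hf : Pot f B) (N : ℕ) {lam : ℝ} (hl : 0 ≤ lam) (x : Fin P → ℝ) {n : ℕ}
    (Θ : (Fin n → ℝ) → ℝ) (hΘ : Measurable Θ) (hΘb : ∃ C, ∀ y, |Θ y| ≤ C)
    (Φ : Mat n → ℝ) (hΦ : Measurable Φ) (hb : ∃ C, ∀ R, |Φ R| ≤ C) :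
    (pSys hf N lam 0 x).avgRep n (fun ω r => Φ ((pSys hf N lam 0 x).gram r) *
        ∑ a ∈ Finset.range (cnt ω), Θ fun l => pat ω a (r l)) =
      lam * ((pSys hf N lam 0 x).tiltF hf).avgRep n (fun p r =>
        Φ ((pSys hf N lam 0 x).gram r) * Θ fun l => ⟪p.2, cubeVec (N + 1) (r l)⟫) := by
  obtain ⟨C, hC⟩ := hΘb
  obtain ⟨C', hC'⟩ := hb
  have hD0 : 0 ≤ C' * C := mul_nonneg ((abs_nonneg _).trans (hC' fun _ _ => 0))
    ((abs_nonneg _).trans (hC fun _ => 0))
  set G := fun (g : ℕ → Sp (N + 1)) (a : ℕ) (r : Fin n → Fin (N + 1) → Bool) =>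
    Φ (fun i j => ⟪cubeVec (N + 1) (r i), cubeVec (N + 1) (r j)⟫) *
      Θ (fun l => ⟪g a, cubeVec (N + 1) (r l)⟫) with hG
  have hGm : ∀ a r, Measurable fun g : ℕ → Sp (N + 1) => G g a r := fun a r =>
    (hΘ.comp (measurable_pi_lambda _ fun l =>
      Measurable.inner (measurable_pi_apply a) measurable_const)).const_mul _
  have hGb : ∀ g a r, |G g a r| ≤ C' * C := fun g a r => by
    rw [hG, abs_mul]
    exact mul_le_mul (hC' _) (hC _) (abs_nonneg _) ((abs_nonneg _).trans (hC' fun _ _ => 0))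
  set π := patLaw (N + 1)
  set γ := stdGaussian (PertSpace (N + 1) P)
  set I : ℕ → ℝ := fun m => ∫ p, repE (cw f N x m p.1 p.2) (G p.1 (m - 1)) ∂π.prod γ
  have hwm : ∀ M r, Measurable fun p : (ℕ → Sp (N + 1)) × PertSpace (N + 1) P =>
      cw f N x M p.1 p.2 r := fun M r => measurable_cw_fixed hf x M r
  have hint : ∀ M a, Integrable (fun p => repE (cw f N x M p.1 p.2) (G p.1 a)) (π.prod γ) :=
    fun M a => Integrable.mono' (integrable_const (C' * C))
      (measurable_repE (hwm M) fun r => (hGm a r).comp measurable_fst).aestronglyMeasurable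
      (Filter.Eventually.of_forall fun p => (Real.norm_eq_abs _).trans_le
        (abs_repE_le (cw_pos x M p.1 p.2) (hGb p.1 a)))
  have hswap : ∀ M a, a < M →
      ∫ p, repE (cw f N x M p.1 p.2) (G p.1 a) ∂π.prod γ = I M := fun M a ha => by
    simp only [I]
    rw [integral_prod_symm _ (hint M a), integral_prod_symm _ (hint M (M - 1))]
    refine integral_congr_ae (Filter.Eventually.of_forall fun J => ?_)
    have h := integral_cw_perm (N := N) hf x (M := M) (Equiv.swap a (M - 1)) (fun b hb => by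
      rcases eq_or_ne b a with rfl | h1
      · exact ha
      · rcases eq_or_ne b (M - 1) with rfl | h2
        · omega
        · exact absurd (Equiv.swap_apply_of_ne_of_ne h1 h2) hb) (fun g => G g (M - 1))
      (fun r => hGm (M - 1) r) J
    simpa [G, Function.comp_apply, Equiv.swap_apply_right] using h
  have hL : (pSys hf N lam 0 x).avgRep n (fun ω r => Φ ((pSys hf N lam 0 x).gram r) *
        ∑ a ∈ Finset.range (cnt ω), Θ fun l => pat ω a (r l)) = lam * ∫ M, I (M + 1) ∂poiLaw lam := by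
    refine (pSys_avgRep hf lam 0 x _).trans ?_
    refine (integral_pSys_law hf lam 0 x (integrable_pSys_of_le hf lam 0 x (C := C' * C) (j := 1)
      (measurable_repE (measurable_pSys_w hf lam 0 x) fun r => ?_) fun ω => ?_)).trans ?_
    · exact ((measurable_from_prod_countable_right (f := fun q : ℕ × (ℕ → Sp (N + 1)) =>
        ∑ a ∈ Finset.range (q.1 + 0), Θ fun l => ⟪q.2 a, cubeVec (N + 1) (r l)⟫) fun M =>
          Finset.measurable_sum (Finset.range (M + 0)) fun a _ =>
            hΘ.comp (measurable_pi_lambda (fun (g : ℕ → Sp (N + 1)) l => ⟪g a, cubeVec (N + 1) (r l)⟫)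
              fun l => Measurable.inner (measurable_pi_apply a) measurable_const)).comp
                measurable_fst).const_mul _
    · refine (abs_repE_le (fun r => ((pSys hf N lam 0 x).wt ω).pos r) fun r => ?_).trans
        (mul_le_mul_of_nonneg_left (by rw [pow_one]; linarith) hD0 :
          (C' * C) * (ω.1.1 : ℝ) ≤ _)
      rw [Finset.mul_sum]
      refine (Finset.abs_sum_le_sum_abs _ _).trans
        ((Finset.sum_le_sum fun a _ => hGb ω.1.2 a r).trans_eq ?_)
      simp [cnt]
      ring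
    · have e : ∀ M : ℕ, ∫ p, repE (cw f N x (M + 0) p.1 p.2)
          (fun r => Φ (fun i j => ⟪cubeVec (N + 1) (r i), cubeVec (N + 1) (r j)⟫) *
            ∑ a ∈ Finset.range (M + 0), Θ fun l => ⟪p.1 a, cubeVec (N + 1) (r l)⟫) ∂π.prod γ =
          (M : ℝ) * I M := fun M => by
        simp only [Nat.add_zero, Finset.mul_sum, repE_sum]
        rw [integral_finsetSum _ fun a _ => by exact hint M a]
        refine (Finset.sum_congr rfl fun a ha => hswap M a (Finset.mem_range.1 ha)).trans ?_
        simp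
      refine (integral_congr_ae (Filter.Eventually.of_forall e)).trans ?_
      have h := poisson_palm lam.toNNReal I
      rwa [Real.coe_toNNReal _ hl] at h
  rw [hL]
  congr 1
  set Θ1 : (pSys hf N lam (0 + 1) x).Ω → (Fin n → Fin (N + 1) → Bool) → ℝ :=
    fun ω r => G ω.1.2 ω.1.1 r
  have hm1 : ∀ r, Measurable fun ω => Θ1 ω r := fun r =>
    (measurable_from_prod_countable_right (f := fun q : ℕ × (ℕ → Sp (N + 1)) => G q.2 q.1 r)
      fun M => hGm M r).comp measurable_fst
  have e := tiltF_avgRep hf N lam 0 x Θ1 hm1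
  have e' : ((pSys hf N lam 0 x).tiltF hf).avgRep n (fun p r =>
      Φ ((pSys hf N lam 0 x).gram r) * Θ fun l => ⟪p.2, cubeVec (N + 1) (r l)⟫) =
      ((pSys hf N lam 0 x).tiltF hf).avgRep n (fun p r => Θ1 (appendPat p) r) := by
    refine integral_congr_ae (Filter.Eventually.of_forall fun p =>
      integral_congr_ae (Filter.Eventually.of_forall fun r => ?_))
    simp [Θ1, G, appendPat]
    rfl
  rw [e']
  refine Eq.trans ?_ e.symm
  refine Eq.trans ?_ (pSys_avgRep hf lam (0 + 1) x Θ1).symm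
  refine Eq.trans ?_ (integral_pSys_law hf lam (0 + 1) x (integrable_pSys_of_le hf lam (0 + 1) x
    (C := C' * C) (j := 0) (measurable_repE (measurable_pSys_w hf lam (0 + 1) x) hm1) fun ω => by
      simpa using abs_repE_le (fun r => ((pSys hf N lam (0 + 1) x).wt ω).pos r)
        (hGb ω.1.2 ω.1.1))).symm
  rfl

end Vale.Agent.P157.Low
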