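import Vale.Agent.P157.Low.Sys
import Vale.Agent.P157.Ising

/-!
Replica averages on the cube are finite sums.
-/

namespace Vale.Agent.P157.Low

open MeasureTheory

variable {N n : ℕ}

/-- Replica average of `h` under the weight `w` on the cube. -/
noncomputable def repE (w : (Fin N → Bool) → ℝ) (h : (Fin n → Fin N → Bool) → ℝ) : ℝ :=
  (∑ r, (∏ l, w (r l)) * h r) / (∑ σ, w σ) ^ n

lemma sum_pos_wt {w : (Fin N → Bool) → ℝ} (hw : ∀ σ, 0 < w σ) : 0 < ∑ σ, w σ :=
  Finset.sum_pos (fun σ _ => hw σ) Finset.univ_nonempty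

lemma gibbs_cube_singleton {w : (Fin N → Bool) → ℝ} (hw : Wt w) (σ : Fin N → Bool) :
    (gibbs (cubeMeasure N) w).real {σ} = w σ / ∑ τ, w τ := by
  rw [← integral_indicator_one (measurableSet_singleton σ), integral_gibbs hw, integral_cube,
    integral_cube, div_div_div_cancel_right₀ (by positivity)]
  congr 1
  rw [Finset.sum_eq_single σ (fun τ _ hne => by simp [hne]) (by simp)]
  simp

lemma integral_pi_gibbs_cube {w : (Fin N → Bool) → ℝ} (hw : Wt w) (h : (Fin n → Fin N → Bool) → ℝ) :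
    ∫ r, h r ∂(Measure.pi fun _ : Fin n => gibbs (cubeMeasure N) w) = repE w h := by
  have := isProbabilityMeasure_gibbs (μ := cubeMeasure N) hw
  rw [integral_fintype Integrable.of_finite, repE, Finset.sum_div]
  refine Finset.sum_congr rfl fun r _ => ?_
  rw [smul_eq_mul, Measure.real, ← Set.univ_pi_singleton r, Measure.pi_pi, ENNReal.toReal_prod]
  have e : ∀ l, ((gibbs (cubeMeasure N) w) {r l}).toReal = w (r l) / ∑ τ, w τ := fun l =>
    gibbs_cube_singleton hw (r l)
  simp only [e, Finset.prod_div_distrib, Finset.prod_const, Finset.card_univ, Fintype.card_fin]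
  ring

lemma repE_nonneg {w : (Fin N → Bool) → ℝ} (hw : ∀ σ, 0 < w σ) {h : (Fin n → Fin N → Bool) → ℝ}
    (hh : ∀ r, 0 ≤ h r) : 0 ≤ repE w h :=
  div_nonneg (Finset.sum_nonneg fun r _ => mul_nonneg (Finset.prod_nonneg fun l _ => (hw _).le) (hh r))
    (pow_nonneg (sum_pos_wt hw).le n)

lemma repE_mono {w : (Fin N → Bool) → ℝ} (hw : ∀ σ, 0 < w σ) {h h' : (Fin n → Fin N → Bool) → ℝ}
    (hh : ∀ r, h r ≤ h' r) : repE w h ≤ repE w h' :=
  div_le_div_of_nonneg_right
    (Finset.sum_le_sum fun r _ => mul_le_mul_of_nonneg_left (hh r)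
      (Finset.prod_nonneg fun l _ => (hw _).le)) (pow_nonneg (sum_pos_wt hw).le n)

lemma repE_const {w : (Fin N → Bool) → ℝ} (hw : ∀ σ, 0 < w σ) (c : ℝ) :
    repE (n := n) w (fun _ => c) = c := by
  rw [repE, ← Finset.sum_mul, ← Fintype.prod_sum (fun (_ : Fin n) σ => w σ)]
  simp only [Finset.prod_const, Finset.card_univ, Fintype.card_fin]
  field_simp [pow_ne_zero n (sum_pos_wt hw).ne']

lemma abs_repE_le {w : (Fin N → Bool) → ℝ} (hw : ∀ σ, 0 < w σ) {h : (Fin n → Fin N → Bool) → ℝ}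
    {C : ℝ} (hh : ∀ r, |h r| ≤ C) : |repE w h| ≤ C := by
  refine abs_le.2 ⟨?_, (repE_mono hw fun r => (abs_le.1 (hh r)).2).trans_eq (repE_const hw C)⟩
  exact (repE_const (n := n) hw (-C)).symm.trans_le (repE_mono hw fun r => (abs_le.1 (hh r)).1)

lemma repE_sum {w : (Fin N → Bool) → ℝ} {ι : Type} (s : Finset ι)
    (h : ι → (Fin n → Fin N → Bool) → ℝ) :
    repE w (fun r => ∑ a ∈ s, h a r) = ∑ a ∈ s, repE w (h a) := by
  simp only [repE, Finset.mul_sum]
  rw [Finset.sum_comm, Finset.sum_div]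

lemma repE_const_mul {w : (Fin N → Bool) → ℝ} (c : ℝ) (h : (Fin n → Fin N → Bool) → ℝ) :
    repE w (fun r => c * h r) = c * repE w h := by
  simp only [repE, mul_left_comm _ c, ← Finset.mul_sum, mul_div_assoc]

lemma measurable_repE {Ω : Type} [MeasurableSpace Ω] {w : Ω → (Fin N → Bool) → ℝ}
    (hw : ∀ σ, Measurable fun ω => w ω σ) {h : Ω → (Fin n → Fin N → Bool) → ℝ}
    (hh : ∀ r, Measurable fun ω => h ω r) : Measurable fun ω => repE (w ω) (h ω) :=
  (Finset.measurable_sum _ fun r _ =>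
    (Finset.measurable_prod _ fun l _ => hw (r l)).mul (hh r)).div
    ((Finset.measurable_sum _ fun σ _ => hw σ).pow_const n)

/-- A factor with values in `[δ, D]` changes an average of nonnegative terms by at most `D / δ`
per replica. -/
lemma repE_mul_le {w u : (Fin N → Bool) → ℝ} (hw : ∀ σ, 0 < w σ) {δ D : ℝ} (hδ : 0 < δ)
    (hu : ∀ σ, δ ≤ u σ ∧ u σ ≤ D) {h : (Fin n → Fin N → Bool) → ℝ} (hh : ∀ r, 0 ≤ h r) :
    repE (fun σ => w σ * u σ) h ≤ (D / δ) ^ n * repE w h := by
  have hS := sum_pos_wt hw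
  rw [repE, repE, div_pow, div_mul_div_comm, ← mul_pow]
  refine div_le_div₀ (mul_nonneg (pow_nonneg (hδ.le.trans ((hu (fun _ => true)).1.trans (hu _).2)) n)
    (Finset.sum_nonneg fun r _ => mul_nonneg (Finset.prod_nonneg fun l _ => (hw _).le) (hh r))) ?_
    (by positivity) ?_
  · rw [Finset.mul_sum]
    refine Finset.sum_le_sum fun r _ => ?_
    rw [Finset.prod_mul_distrib, ← mul_assoc, mul_comm (D ^ n)]
    refine mul_le_mul_of_nonneg_right (mul_le_mul_of_nonneg_left ?_
      (Finset.prod_nonneg fun l _ => (hw _).le)) (hh r)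
    simpa using Finset.prod_le_prod (s := Finset.univ) (f := fun l => u (r l)) (g := fun _ : Fin n => D)
      (fun l _ => hδ.le.trans (hu _).1) fun l _ => (hu _).2
  · refine pow_le_pow_left₀ (by positivity) ?_ n
    rw [Finset.mul_sum]
    exact Finset.sum_le_sum fun σ _ => by
      rw [mul_comm]; exact mul_le_mul_of_nonneg_left (hu σ).1 (hw σ).le

end Vale.Agent.P157.Low
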