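import Vale.Agent.P157.Low.CubeSys
import Vale.Agent.P157.Low.Patterns
import Vale.Agent.P157.Low.Finite

/-!
The perturbed cube systems as iterated integrals of finite sums.
-/

namespace Vale.Agent.P157.Low

open MeasureTheory ProbabilityTheory
open scoped RealInnerProductSpace

variable {f : ℝ → ℝ} {B : ℝ} {N P : ℕ}

lemma measurePreserving_shuffle {α β γ δ : Type} [MeasurableSpace α] [MeasurableSpace β]
    [MeasurableSpace γ] [MeasurableSpace δ] (μ : Measure α) (ν : Measure β) (ρ : Measure γ)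
    (τ : Measure δ) [IsProbabilityMeasure μ] [IsProbabilityMeasure ν] [IsProbabilityMeasure ρ]
    [IsProbabilityMeasure τ] :
    MeasurePreserving (fun p : ((α × β) × γ) × δ => ((p.1.1.1, (p.1.1.2, p.2)), p.1.2))
      (((μ.prod ν).prod ρ).prod τ) ((μ.prod (ν.prod τ)).prod ρ) := by
  have a := measurePreserving_prodAssoc (μ.prod ν) ρ τ
  have b := (MeasurePreserving.id (μ.prod ν)).prod (Measure.measurePreserving_swap (μ := ρ) (ν := τ))
  have c := (measurePreserving_prodAssoc (μ.prod ν) τ ρ).symm _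
  have d := (measurePreserving_prodAssoc μ ν τ).prod (MeasurePreserving.id ρ)
  exact d.comp (c.comp (b.comp a))

/-- Weight of a configuration at `M` patterns. -/
noncomputable def cw (f : ℝ → ℝ) (N : ℕ) {P : ℕ} (x : Fin P → ℝ) (M : ℕ) (g : ℕ → Sp (N + 1))
    (J : PertSpace (N + 1) P) (r : Fin (N + 1) → Bool) : ℝ :=
  Real.exp (∑ a ∈ Finset.range M, f ⟪g a, cubeVec (N + 1) r⟫) *
    Real.exp (strength N * ⟪J, pertVec x (cubeVec (N + 1) r)⟫)

lemma cw_pos (x : Fin P → ℝ) (M : ℕ) (g : ℕ → Sp (N + 1)) (J : PertSpace (N + 1) P)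
    (r : Fin (N + 1) → Bool) : 0 < cw f N x M g J r :=
  mul_pos (Real.exp_pos _) (Real.exp_pos _)

lemma wt_cw (x : Fin P → ℝ) (M : ℕ) (g : ℕ → Sp (N + 1)) (J : PertSpace (N + 1) P) :
    Wt (cw f N x M g J) :=
  ⟨measurable_of_finite _, ∑ r, |Real.log (cw f N x M g J r)|, fun r =>
    ⟨cw_pos x M g J r, Finset.single_le_sum (f := fun r => |Real.log (cw f N x M g J r)|)
      (fun _ _ => abs_nonneg _) (Finset.mem_univ r)⟩⟩

lemma cw_succ (x : Fin P → ℝ) (M : ℕ) (g : ℕ → Sp (N + 1)) (z : Sp (N + 1))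
    (J : PertSpace (N + 1) P) (r : Fin (N + 1) → Bool) :
    cw f N x (M + 1) (Function.update g M z) J r =
      cw f N x M g J r * Real.exp (f ⟪z, cubeVec (N + 1) r⟫) := by
  unfold cw
  rw [Finset.sum_range_succ, Function.update_self, Real.exp_add]
  have : ∑ a ∈ Finset.range M, f ⟪Function.update g M z a, cubeVec (N + 1) r⟫ =
      ∑ a ∈ Finset.range M, f ⟪g a, cubeVec (N + 1) r⟫ :=
    Finset.sum_congr rfl fun a ha => by
      rw [Function.update_of_ne (Finset.mem_range.1 ha).ne]
  rw [this]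
  ring

lemma cw_perm (x : Fin P → ℝ) {M : ℕ} (e : Equiv.Perm ℕ) (he : ∀ a, e a ≠ a → a < M)
    (g : ℕ → Sp (N + 1)) (J : PertSpace (N + 1) P) : cw f N x M (g ∘ e) J = cw f N x M g J := by
  funext r
  unfold cw
  rw [show (∑ a ∈ Finset.range M, f ⟪(g ∘ e) a, cubeVec (N + 1) r⟫) =
      ∑ a ∈ Finset.range M, f ⟪g a, cubeVec (N + 1) r⟫ from
    e.sum_comp (Finset.range M) (fun a => f ⟪g a, cubeVec (N + 1) r⟫) fun a ha => by
      simpa using he a ha]

lemma measurable_cw (hf : Pot f B) (x : Fin P → ℝ) (r : Fin (N + 1) → Bool) :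
    Measurable fun p : (ℕ × (ℕ → Sp (N + 1))) × PertSpace (N + 1) P => cw f N x p.1.1 p.1.2 p.2 r := by
  have h1 : Measurable fun q : ℕ × (ℕ → Sp (N + 1)) =>
      Real.exp (∑ a ∈ Finset.range q.1, f ⟪q.2 a, cubeVec (N + 1) r⟫) :=
    measurable_from_prod_countable_right fun M => Real.measurable_exp.comp
      (Finset.measurable_sum (Finset.range M) fun a _ => hf.meas.comp
        (Measurable.inner (measurable_pi_apply a) (measurable_const (a := cubeVec (N + 1) r))))
  exact (h1.comp measurable_fst).mul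
    (Real.measurable_exp.comp ((measurable_snd.inner measurable_const).const_mul _))

lemma measurable_cw_fixed (hf : Pot f B) (x : Fin P → ℝ) (M : ℕ) (r : Fin (N + 1) → Bool) :
    Measurable fun p : (ℕ → Sp (N + 1)) × PertSpace (N + 1) P => cw f N x M p.1 p.2 r :=
  Measurable.comp (g := fun q : (ℕ × (ℕ → Sp (N + 1))) × PertSpace (N + 1) P =>
      cw f N x q.1.1 q.1.2 q.2 r) (f := fun p : (ℕ → Sp (N + 1)) × PertSpace (N + 1) P =>
      ((M, p.1), p.2)) (measurable_cw hf x r)
    ((measurable_const.prodMk measurable_fst).prodMk measurable_snd)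

lemma pSys_w (hf : Pot f B) (lam : ℝ) (k : ℕ) (x : Fin P → ℝ) (ω : (pSys hf N lam k x).Ω)
    (r : Fin (N + 1) → Bool) :
    (pSys hf N lam k x).w ω r = cw f N x (ω.1.1 + k) ω.1.2 ω.2 r := rfl

lemma measurable_pSys_w (hf : Pot f B) (lam : ℝ) (k : ℕ) (x : Fin P → ℝ) (r : Fin (N + 1) → Bool) :
    Measurable fun ω : (pSys hf N lam k x).Ω => (pSys hf N lam k x).w ω r :=
  Measurable.comp (g := Function.uncurry (pSys hf N lam k x).w)
    (f := fun ω : (pSys hf N lam k x).Ω => (ω, r)) (pSys hf N lam k x).measW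
    (measurable_id.prodMk measurable_const)

/-- Replica averages of a perturbed system. -/
lemma pSys_avgRep (hf : Pot f B) (lam : ℝ) (k : ℕ) (x : Fin P → ℝ) {n : ℕ}
    (Θ : (pSys hf N lam k x).Ω → (Fin n → Fin (N + 1) → Bool) → ℝ) :
    (pSys hf N lam k x).avgRep n Θ =
      ∫ ω, repE ((pSys hf N lam k x).w ω) (Θ ω) ∂(pSys hf N lam k x).law :=
  integral_congr_ae (Filter.Eventually.of_forall fun ω =>
    integral_pi_gibbs_cube ((pSys hf N lam k x).wt ω) (Θ ω))

/-- Integrals against the law of a perturbed system, pattern count by pattern count. -/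
lemma integral_pSys_law (hf : Pot f B) (lam : ℝ) (k : ℕ) (x : Fin P → ℝ)
    {H : (pSys hf N lam k x).Ω → ℝ} (hH : Integrable H (pSys hf N lam k x).law) :
    ∫ ω, H ω ∂(pSys hf N lam k x).law =
      ∫ M, ∫ p, H ((M, p.1), p.2) ∂(patLaw (N + 1)).prod (stdGaussian (PertSpace (N + 1) P))
        ∂poiLaw lam := by
  have hmp : MeasurePreserving (MeasurableEquiv.prodAssoc (α := ℕ) (β := ℕ → Sp (N + 1))
      (γ := PertSpace (N + 1) P)).symm
      ((poiLaw lam).prod ((patLaw (N + 1)).prod (stdGaussian (PertSpace (N + 1) P))))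
      (((poiLaw lam).prod (patLaw (N + 1))).prod (stdGaussian (PertSpace (N + 1) P))) :=
    (measurePreserving_prodAssoc _ _ _).symm _
  refine (hmp.integral_comp' H).symm.trans ?_
  rw [integral_prod]
  · rfl
  · exact (hmp.integrable_comp_emb (MeasurableEquiv.measurableEmbedding _)).2 hH

/-- Integrability against the law of a perturbed system from a polynomial bound in the count. -/
lemma integrable_pSys_of_le (hf : Pot f B) (lam : ℝ) (k : ℕ) (x : Fin P → ℝ)
    {H : (pSys hf N lam k x).Ω → ℝ} (hm : Measurable H) {C : ℝ} {j : ℕ}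
    (h : ∀ ω : (pSys hf N lam k x).Ω, |H ω| ≤ C * ((ω.1.1 : ℝ) + 1) ^ j) :
    Integrable H (pSys hf N lam k x).law := by
  have hp : Integrable (fun M : ℕ => C * ((M : ℝ) + 1) ^ j) (poiLaw lam) :=
    integrable_poisson_of_le (C := |C|) (j := j) fun n => by
      rw [abs_mul, abs_of_nonneg (a := ((n : ℝ) + 1) ^ j) (by positivity)]
  refine ((hp.comp_fst (patLaw (N + 1))).comp_fst _).mono' hm.aestronglyMeasurable
    (Filter.Eventually.of_forall fun ω => ?_)
  simpa [Real.norm_eq_abs] using h ω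

/-- Moving a pattern to another position. -/
lemma integral_cw_perm (hf : Pot f B) (x : Fin P → ℝ) {M : ℕ} (e : Equiv.Perm ℕ)
    (he : ∀ a, e a ≠ a → a < M) {n : ℕ}
    (h : (ℕ → Sp (N + 1)) → (Fin n → Fin (N + 1) → Bool) → ℝ) (hm : ∀ r, Measurable fun g => h g r)
    (J : PertSpace (N + 1) P) :
    ∫ g, repE (cw f N x M g J) (h (g ∘ e)) ∂patLaw (N + 1) =
      ∫ g, repE (cw f N x M g J) (h g) ∂patLaw (N + 1) := by
  have hw : ∀ r, Measurable fun g => cw f N x M g J r := fun r =>
    Measurable.comp (g := fun p : (ℕ → Sp (N + 1)) × PertSpace (N + 1) P => cw f N x M p.1 p.2 r)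
      (f := fun g : ℕ → Sp (N + 1) => (g, J)) (measurable_cw_fixed hf x M r)
      (measurable_id.prodMk measurable_const)
  conv_rhs => rw [patLaw, ← integral_comp_perm e (measurable_repE hw hm).aestronglyMeasurable]
  rw [patLaw]
  refine integral_congr_ae (Filter.Eventually.of_forall fun g => ?_)
  simp only [cw_perm x e he]

/-- Appending a pattern. -/
noncomputable def appendPat {f : ℝ → ℝ} {B : ℝ} {hf : Pot f B} {lam : ℝ} {k : ℕ} {x : Fin P → ℝ}
    (p : (pSys hf N lam k x).Ω × Sp (N + 1)) : (pSys hf N lam (k + 1) x).Ω :=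
  ((p.1.1.1, Function.update p.1.1.2 (p.1.1.1 + k) p.2), p.1.2)

/-- Appending an independent pattern gives the system with one more pattern. -/
lemma measurePreserving_appendPat (hf : Pot f B) (lam : ℝ) (k : ℕ) (x : Fin P → ℝ) :
    MeasurePreserving (appendPat (hf := hf) (N := N) (lam := lam) (k := k) (x := x))
      ((pSys hf N lam k x).law.prod (stdGaussian (Sp (N + 1)))) (pSys hf N lam (k + 1) x).law := by
  have h1 : MeasurePreserving
      (fun p : ℕ × ((ℕ → Sp (N + 1)) × Sp (N + 1)) => (p.1, Function.update p.2.1 (p.1 + k) p.2.2))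
      ((poiLaw lam).prod ((patLaw (N + 1)).prod (stdGaussian (Sp (N + 1)))))
      ((poiLaw lam).prod (patLaw (N + 1))) :=
    (MeasurePreserving.id (poiLaw lam)).skew_product
      (g := fun (M : ℕ) (p : (ℕ → Sp (N + 1)) × Sp (N + 1)) => Function.update p.1 (M + k) p.2)
      (measurable_from_prod_countable_right fun M => measurable_update_pattern (M + k))
      (Filter.Eventually.of_forall fun M => map_update_pattern (γ := stdGaussian (Sp (N + 1))) (M + k))
  have hsw := measurePreserving_shuffle (poiLaw lam) (patLaw (N + 1))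
    (stdGaussian (PertSpace (N + 1) P)) (stdGaussian (Sp (N + 1)))
  have : SFinite (stdGaussian (PertSpace (N + 1) P)) :=
    have := isProbabilityMeasure_stdGaussian (E := PertSpace (N + 1) P)
    inferInstance
  exact (h1.prod (MeasurePreserving.id (stdGaussian (PertSpace (N + 1) P)))).comp hsw

end Vale.Agent.P157.Low
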