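import Vale.Agent.P157.Low.TelescopeBase
import Vale.Agent.P157.Low.CubeLaw
import Vale.Agent.P157.Low.CubeFacts

/-!
The free energies of the cube systems as averages over Gaussian patterns and fields, and the
comparison between a new spin and one more spin.
-/

namespace Vale.Agent.P157.Low

open MeasureTheory ProbabilityTheory Complex
open scoped RealInnerProductSpace

variable {f : ℝ → ℝ} {B : ℝ} {n m P M : ℕ}

/-- The weight of `M` patterns on the cube. -/
noncomputable def patW (f : ℝ → ℝ) (n : ℕ) (g : Fin M → Sp n) (τ : Fin n → Bool) : ℝ :=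
  Real.exp (∑ a, f ⟪g a, cubeVec n τ⟫)

/-- Expected log-partition function at `M` patterns with a field along `pertVec c` of features. -/
noncomputable def fieldF (f : ℝ → ℝ) (v : (Fin n → Bool) → Sp m) (c : Fin P → ℝ) (M : ℕ) : ℝ :=
  ∫ g : Fin M → Sp n, elz (cubeMeasure n) (fun τ => pertVec c (v τ)) (patW f n g)
    ∂Measure.pi fun _ => stdGaussian (Sp n)

lemma wt_patW (hf : Pot f B) (g : Fin M → Sp n) : Wt (patW f n g) :=
  wt_patterns hf (measurable_of_finite _) g

lemma measurable_patW (hf : Pot f B) :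
    Measurable (Function.uncurry fun (g : Fin M → Sp n) τ => patW f n g τ) :=
  measurable_from_prod_countable_left fun τ => by
    have := hf.meas
    simp only [Function.uncurry, patW]
    fun_prop

lemma measurable_patW_fst {E : Type} [MeasurableSpace E] (hf : Pot f B) :
    Measurable (Function.uncurry fun (k : (Fin M → Sp n) × E) τ => patW f n k.1 τ) :=
  measurable_from_prod_countable_left fun τ => by
    have h : Measurable fun g : Fin M → Sp n => patW f n g τ := by
      have := hf.meas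
      unfold patW
      fun_prop
    exact h.comp measurable_fst

lemma abs_logI_patW_le (hf : Pot f B) (g : Fin M → Sp n) :
    |logI (cubeMeasure n) (patW f n g)| ≤ M * B :=
  abs_log_integral_exp_le (measurable_of_finite _) fun _ =>
    (Finset.abs_sum_le_sum_abs _ _).trans ((Finset.sum_le_sum fun _ _ => hf.bound _).trans_eq (by simp))

lemma norm_pertVec_bound {v : (Fin n → Bool) → Sp m} (hv : ∀ τ, ‖v τ‖ = 1) (c : Fin P → ℝ)
    (τ : Fin n → Bool) : ‖pertVec c (v τ)‖ ≤ ∑ q, |c q| :=
  norm_pertVec_le c _ (hv τ)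

/-- The elementary bounds on the expected log-partition function in a field. -/
lemma elz_patW_bounds (hf : Pot f B) {v : (Fin n → Bool) → Sp m} (hv : ∀ τ, ‖v τ‖ = 1)
    (c : Fin P → ℝ) (g : Fin M → Sp n) :
    logI (cubeMeasure n) (patW f n g) ≤ elz (cubeMeasure n) (fun τ => pertVec c (v τ)) (patW f n g) ∧
      elz (cubeMeasure n) (fun τ => pertVec c (v τ)) (patW f n g) ≤
        logI (cubeMeasure n) (patW f n g) + (∑ q, |c q|) ^ 2 / 2 :=
  ⟨logI_le_elz (wt_patW hf g) (measurable_of_finite _) (norm_pertVec_bound hv c),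
    elz_le (wt_patW hf g) (measurable_of_finite _) (norm_pertVec_bound hv c)⟩

lemma abs_elz_patW_le (hf : Pot f B) {v : (Fin n → Bool) → Sp m} (hv : ∀ τ, ‖v τ‖ = 1)
    (c : Fin P → ℝ) (g : Fin M → Sp n) :
    |elz (cubeMeasure n) (fun τ => pertVec c (v τ)) (patW f n g)| ≤
      M * B + (∑ q, |c q|) ^ 2 / 2 := by
  obtain ⟨h1, h2⟩ := elz_patW_bounds hf hv c g
  obtain ⟨h3, h4⟩ := abs_le.1 (abs_logI_patW_le hf g)
  have h5 : (0 : ℝ) ≤ (∑ q, |c q|) ^ 2 / 2 := by positivity
  exact abs_le.2 ⟨by linarith, by linarith⟩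

lemma integrable_lz_patW (hf : Pot f B) {v : (Fin n → Bool) → Sp m} (hv : ∀ τ, ‖v τ‖ = 1)
    (c : Fin P → ℝ) : Integrable (fun p : (Fin M → Sp n) × PertSpace m P =>
      lz (cubeMeasure n) (fun τ => pertVec c (v τ)) (patW f n p.1) p.2)
      ((Measure.pi fun _ => stdGaussian (Sp n)).prod (stdGaussian (PertSpace m P))) := by
  set U := fun τ => pertVec c (v τ)
  have hm : Measurable fun p : (Fin M → Sp n) × PertSpace m P =>
      lz (cubeMeasure n) U (patW f n p.1) p.2 :=
    measurable_lz (μ := cubeMeasure n) (W := fun (p : (Fin M → Sp n) × PertSpace m P) τ => patW f n p.1 τ)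
      (h := fun p => p.2) (measurable_of_finite U) (measurable_patW_fst hf) measurable_snd
  refine Integrable.mono' ((integrable_const ((M : ℝ) * B)).add
    (((integrable_norm_pow (E := PertSpace m P) 1).comp_snd _).const_mul (∑ q, |c q|)))
    hm.aestronglyMeasurable (Filter.Eventually.of_forall fun p => ?_)
  simp only [Pi.add_apply, pow_one, Real.norm_eq_abs]
  have h1 := abs_lz_sub (μ := cubeMeasure n) (wt_patW hf p.1) (measurable_of_finite U)
    (norm_pertVec_bound hv _) p.2
  linarith [abs_sub_abs_le_abs_sub (lz (cubeMeasure n) U (patW f n p.1) p.2)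
    (logI (cubeMeasure n) (patW f n p.1)), abs_logI_patW_le hf p.1]

lemma integrable_elz_patW (hf : Pot f B) {v : (Fin n → Bool) → Sp m} (hv : ∀ τ, ‖v τ‖ = 1)
    (c : Fin P → ℝ) : Integrable (fun g : Fin M → Sp n =>
      elz (cubeMeasure n) (fun τ => pertVec c (v τ)) (patW f n g))
      (Measure.pi fun _ => stdGaussian (Sp n)) :=
  (integrable_lz_patW hf hv c).integral_prod_left

lemma abs_fieldF_le (hf : Pot f B) {v : (Fin n → Bool) → Sp m} (hv : ∀ τ, ‖v τ‖ = 1)
    (c : Fin P → ℝ) (M : ℕ) : |fieldF f v c M| ≤ M * B + (∑ q, |c q|) ^ 2 / 2 := by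
  rw [← Real.norm_eq_abs]
  exact (norm_integral_le_of_norm_le_const (Filter.Eventually.of_forall fun g =>
    (Real.norm_eq_abs _).trans_le (abs_elz_patW_le hf hv c g))).trans_eq (by simp)

lemma integrable_fieldF (hf : Pot f B) {v : (Fin n → Bool) → Sp m} (hv : ∀ τ, ‖v τ‖ = 1)
    (c : Fin P → ℝ) (lam : ℝ) : Integrable (fieldF f v c) (poiLaw lam) :=
  integrable_poisson_of_le (C := B + (∑ q, |c q|) ^ 2 / 2) (j := 1) fun M => by
    refine (abs_fieldF_le hf hv c M).trans ?_
    have h1 : (0 : ℝ) ≤ (∑ q, |c q|) ^ 2 / 2 := by positivity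
    have := hf.nonneg
    rw [pow_one]
    nlinarith [mul_nonneg h1 (Nat.cast_nonneg (α := ℝ) M)]

lemma cubeF_eq_integral (hf : Pot f B) (n M : ℕ) :
    cubeF f n M = ∫ g : Fin M → Sp n, logI (cubeMeasure n) (patW f n g)
      ∂Measure.pi fun _ => stdGaussian (Sp n) := by
  rw [cubeF, L_eq_integral hf (measurable_of_finite _) M _ Wt.one]
  simp only [one_mul]
  rfl

/-- A field costs at most half its squared size. -/
lemma fieldF_le (hf : Pot f B) {v : (Fin n → Bool) → Sp m} (hv : ∀ τ, ‖v τ‖ = 1) (c : Fin P → ℝ)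
    (M : ℕ) : fieldF f v c M ≤ cubeF f n M + (∑ q, |c q|) ^ 2 / 2 := by
  have hm : Measurable fun g : Fin M → Sp n => logI (cubeMeasure n) (patW f n g) :=
    measurable_logI (measurable_patW hf)
  have hl : Integrable (fun g : Fin M → Sp n => logI (cubeMeasure n) (patW f n g))
      (Measure.pi fun _ => stdGaussian (Sp n)) := Integrable.of_bound hm.aestronglyMeasurable _
    (Filter.Eventually.of_forall fun g => (Real.norm_eq_abs _).trans_le (abs_logI_patW_le hf g))
  refine (integral_mono (integrable_elz_patW hf hv c) (hl.add (integrable_const ((∑ q, |c q|) ^ 2 / 2)))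
    fun g => (elz_patW_bounds hf hv c g).2).trans_eq ?_
  simp only [Pi.add_apply]
  rw [integral_add hl (integrable_const _), cubeF_eq_integral hf]
  simp

lemma pertVec_smul (s : ℝ) (x : Fin P → ℝ) (u : Sp m) : pertVec (s • x) u = s • pertVec x u := by
  ext i
  simp [pertVec, mul_assoc]

lemma patW_first (f : ℝ → ℝ) (n M : ℕ) (g : ℕ → Sp n) (τ : Fin n → Bool) :
    patW f n (fun a : Fin M => g a) τ = Real.exp (∑ a ∈ Finset.range M, f ⟪g a, cubeVec n τ⟫) := by
  rw [patW, Fin.sum_univ_eq_sum_range (fun a => f ⟪g a, cubeVec n τ⟫) M]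

/-- The free energy of a perturbed system. -/
lemma pSys_free_eq (hf : Pot f B) (N : ℕ) (lam : ℝ) (x : Fin P → ℝ) :
    (pSys hf N lam 0 x).free =
      ∫ M, fieldF f (cubeVec (N + 1)) (strength N • x) M ∂poiLaw lam := by
  refine (integral_pSys_law hf lam 0 x (integrable_logI_pSys hf N lam 0 x)).trans ?_
  refine integral_congr_ae (Filter.Eventually.of_forall fun M => ?_)
  have hHi := integrable_lz_patW (M := M) hf (norm_cubeVec (Nat.succ_pos N)) (strength N • x)
  have hmp : MeasurePreserving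
      (fun p : (ℕ → Sp (N + 1)) × PertSpace (N + 1) P => ((fun a : Fin M => p.1 a), p.2))
      ((patLaw (N + 1)).prod (stdGaussian (PertSpace (N + 1) P)))
      ((Measure.pi fun _ : Fin M => stdGaussian (Sp (N + 1))).prod (stdGaussian (PertSpace (N + 1) P))) :=
    MeasurePreserving.prod ⟨by fun_prop, map_first_patterns M⟩ (MeasurePreserving.id _)
  refine Eq.trans ?_ (integral_prod _ hHi)
  conv_rhs => rw [← hmp.map_eq]
  rw [integral_map hmp.measurable.aemeasurable (by rw [hmp.map_eq]; exact hHi.aestronglyMeasurable)]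
  refine integral_congr_ae (Filter.Eventually.of_forall fun p => ?_)
  simp only [lz]
  congr 1
  funext τ
  have e2 : Real.exp ⟪p.2, pertVec (strength N • x) (cubeVec (N + 1) τ)⟫ =
      Real.exp (strength N * ⟪p.2, pertVec x (cubeVec (N + 1) τ)⟫) := by
    rw [pertVec_smul, real_inner_smul_right]
  exact (congrArg₂ (· * ·) (patW_first f (N + 1) M p.1 τ) e2).symm

/-- One more coordinate of a pattern. -/
noncomputable def snocPat (p : Sp n × ℝ) : Sp (n + 1) :=
  WithLp.toLp 2 (Fin.snoc (α := fun _ => ℝ) (fun i => p.1 i) p.2)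

lemma measurePreserving_snocPat :
    MeasurePreserving (snocPat (n := n)) ((stdGaussian (Sp n)).prod (gaussianReal 0 1))
      (stdGaussian (Sp (n + 1))) := by
  have hm : Measurable (snocPat (n := n)) := by
    refine (WithLp.measurable_toLp _ _).comp (measurable_pi_lambda _ fun i => ?_)
    refine Fin.lastCases ?_ (fun j => ?_) i
    · simpa using measurable_snd
    · simp only [Fin.snoc_castSucc]; fun_prop
  refine ⟨hm, ?_⟩
  have : IsProbabilityMeasure (((stdGaussian (Sp n)).prod (gaussianReal 0 1)).map (snocPat (n := n))) :=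
    Measure.isProbabilityMeasure_map hm.aemeasurable
  refine Measure.ext_of_charFun ?_
  funext t
  rw [charFun_apply, integral_map hm.aemeasurable (Continuous.aestronglyMeasurable (by fun_prop)),
    charFun_stdGaussian]
  set t' : Sp n := WithLp.toLp 2 fun i => t i.castSucc
  have e : ∀ p : Sp n × ℝ, cexp ((⟪snocPat p, t⟫ : ℝ) * I) =
      cexp ((⟪p.1, t'⟫ : ℝ) * I) * cexp ((t (Fin.last n) * p.2 : ℝ) * I) := fun p => by
    rw [← Complex.exp_add]
    congr 1
    rw [← add_mul, ← Complex.ofReal_add]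
    congr 2
    simp [snocPat, t', PiLp.inner_apply, Fin.sum_univ_castSucc, mul_comm]
  simp only [e]
  rw [integral_prod_mul (fun g : Sp n => cexp ((⟪g, t'⟫ : ℝ) * I))
    (fun z : ℝ => cexp ((t (Fin.last n) * z : ℝ) * I)), integral_cexp_inner, integral_cexp_gaussian,
    ← Complex.exp_add]
  congr 1
  have hn : ‖t'‖ ^ 2 + t (Fin.last n) ^ 2 = ‖t‖ ^ 2 := by
    simp [EuclideanSpace.real_norm_sq_eq, t', Fin.sum_univ_castSucc]
  have : ((‖t'‖ : ℝ) : ℂ) ^ 2 + ((t (Fin.last n) : ℝ) : ℂ) ^ 2 = ((‖t‖ : ℝ) : ℂ) ^ 2 := by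
    exact_mod_cast hn
  linear_combination -this / 2

lemma inner_snocPat (g : Sp n) (h : ℝ) (hn : 0 < n) (σ : Fin n → Bool) (b : Bool) :
    ⟪snocPat (g, h), cubeVec (n + 1) (Fin.snoc (α := fun _ => Bool) σ b)⟫ =
      Real.sqrt ((n : ℝ) / (n + 1)) * ⟪g, cubeVec n σ⟫ +
        (Real.sqrt ((n : ℝ) + 1))⁻¹ * (h * sgn b) := by
  have h1 : Real.sqrt (n : ℝ) ≠ 0 := Real.sqrt_ne_zero'.2 (by exact_mod_cast hn)
  simp only [cubeVec, real_inner_smul_right, Real.sqrt_div' _ (by positivity : (0 : ℝ) ≤ n + 1)]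
  simp [snocPat, PiLp.inner_apply, Fin.sum_univ_castSucc, Finset.mul_sum]
  field_simp
  simp only [Finset.mul_sum]
  ring_nf
  rw [add_comm]
  refine congrArg₂ (· + ·) rfl (Finset.sum_congr rfl fun i _ => ?_)
  have h2 : Real.sqrt (1 + (n : ℝ)) ≠ 0 := Real.sqrt_ne_zero'.2 (by positivity)
  field_simp

/-- The old coordinates of a configuration. -/
noncomputable def initVec (n : ℕ) (τ : Fin (n + 1) → Bool) : Sp n := cubeVec n (Fin.init τ)

lemma norm_initVec (hn : 0 < n) (τ : Fin (n + 1) → Bool) : ‖initVec n τ‖ = 1 := norm_cubeVec hn _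

lemma sum_snoc (F : (Fin (n + 1) → Bool) → ℝ) :
    ∑ τ, F τ = ∑ σ, F (Fin.snoc (α := fun _ => Bool) σ true) +
      ∑ σ, F (Fin.snoc (α := fun _ => Bool) σ false) := by
  rw [← (Fin.snocEquiv fun _ : Fin (n + 1) => Bool).sum_comp, Fintype.sum_prod_type, Fintype.sum_bool]
  rfl

/-- The expected log-partition function with the new spin. -/
lemma cavTop_eq (hf : Pot f B) (α : ℝ) (N : ℕ) (x : Fin P → ℝ) :
    cavTop f α N x =
      ∫ M, fieldF f (initVec (N + 1)) (strength N • x) M ∂poiLaw (α * ((N : ℝ) + 2)) := by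
  set c := strength N • x with hc
  set γJ := stdGaussian (PertSpace (N + 1) P)
  set G := fun (q : (ℕ × ((ℕ → Sp (N + 1)) × (ℕ → ℝ))) × PertSpace (N + 1) P) =>
    Real.log (((∫ σ, cavW f N x q (σ, true) ∂cubeMeasure (N + 1)) +
      ∫ σ, cavW f N x q (σ, false) ∂cubeMeasure (N + 1)) / 2) with hG
  have hpt : ∀ (M : ℕ) (p : (ℕ → Sp (N + 1)) × (ℕ → ℝ)) (J : PertSpace (N + 1) P),
      G ((M, p), J) = lz (cubeMeasure (N + 2)) (fun τ => pertVec c (initVec (N + 1) τ))
        (patW f (N + 2) fun a : Fin M => snocPat (p.1 a, p.2 a)) J := by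
    intro M p J
    simp only [hG, lz, logI]
    congr 1
    rw [integral_cube, integral_cube, integral_cube, sum_snoc (n := N + 1), pow_succ (2 : ℝ) (N + 1),
      ← add_div, div_div]
    have hs : ∀ (σ : Fin (N + 1) → Bool) (b : Bool),
        patW f (N + 2) (fun a : Fin M => snocPat (p.1 a, p.2 a)) (Fin.snoc (α := fun _ => Bool) σ b) *
          Real.exp ⟪J, pertVec c (initVec (N + 1) (Fin.snoc (α := fun _ => Bool) σ b))⟫ =
        cavW f N x ((M, p), J) (σ, b) := fun σ b => by
      have e1 : (((N + 1 : ℕ) : ℝ) / (((N + 1 : ℕ) : ℝ) + 1)) = 1 - 1 / ((N : ℝ) + 2) := by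
        push_cast
        field_simp
        ring
      have e2 : (Real.sqrt (((N + 1 : ℕ) : ℝ) + 1))⁻¹ = Real.sqrt (1 / ((N : ℝ) + 2)) := by
        rw [← Real.sqrt_inv, one_div]
        push_cast
        ring_nf
      rw [patW, cavW, hc, pertVec_smul, real_inner_smul_right, initVec, Fin.init_snoc]
      congr 2
      rw [← Fin.sum_univ_eq_sum_range]
      refine Finset.sum_congr rfl fun a _ => congrArg f ?_
      rw [inner_snocPat _ _ (Nat.succ_pos N), e1, e2, sgn]
    simp only [hs]
  have hGm : Measurable G := by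
    have hw : ∀ z, Measurable fun q => cavW f N x q z := fun z => by
      unfold cavW
      have hsum : Measurable fun q : ℕ × ((ℕ → Sp (N + 1)) × (ℕ → ℝ)) => ∑ a ∈ Finset.range q.1,
          f (Real.sqrt (1 - 1 / ((N : ℝ) + 2)) * ⟪q.2.1 a, cubeVec (N + 1) z.1⟫ +
            Real.sqrt (1 / ((N : ℝ) + 2)) * (q.2.2 a * if z.2 then 1 else -1)) :=
        measurable_from_prod_countable_right fun M => by
          have := hf.meas
          exact Finset.measurable_sum (Finset.range M) fun a _ => by fun_prop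
      exact (hsum.comp measurable_fst).exp.mul
        (((measurable_snd.inner measurable_const).const_mul _).exp)
    simp only [hG, integral_cube]
    exact ((((Finset.measurable_sum _ fun σ _ => hw (σ, true)).div_const _).add
      ((Finset.measurable_sum _ fun σ _ => hw (σ, false)).div_const _)).div_const _).log
  set C := ∑ q, |c q|
  have hGb : ∀ M p J, |G ((M, p), J)| ≤ M * B + C * ‖J‖ := fun M p J => by
    rw [hpt]
    have h1 := abs_lz_sub (μ := cubeMeasure (N + 2))
      (wt_patW hf fun a : Fin M => snocPat (p.1 a, p.2 a))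
      (measurable_of_finite fun τ : Fin (N + 2) → Bool => pertVec c (initVec (N + 1) τ))
      (norm_pertVec_bound (norm_initVec (Nat.succ_pos N)) c) J
    linarith [abs_sub_abs_le_abs_sub (lz (cubeMeasure (N + 2))
      (fun τ => pertVec c (initVec (N + 1) τ)) (patW f (N + 2) fun a : Fin M => snocPat (p.1 a, p.2 a)) J)
      (logI (cubeMeasure (N + 2)) (patW f (N + 2) fun a : Fin M => snocPat (p.1 a, p.2 a))),
      abs_logI_patW_le hf fun a : Fin M => snocPat (p.1 a, p.2 a)]
  set pf := (patLaw (N + 1)).prod fieldLaw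
  set lam := α * ((N : ℝ) + 2)
  have hMi : Integrable (fun M : ℕ => (M : ℝ) * B) (poiLaw lam) :=
    integrable_poisson_of_le (C := B) (j := 1) fun M => by
      rw [abs_of_nonneg (mul_nonneg (Nat.cast_nonneg M) hf.nonneg), pow_one]
      nlinarith [hf.nonneg]
  have hJi : Integrable (fun J : PertSpace (N + 1) P => C * ‖J‖) γJ := by
    simpa using (integrable_norm_pow (E := PertSpace (N + 1) P) 1).const_mul C
  have hi : Integrable G (((poiLaw lam).prod pf).prod γJ) :=
    (((hMi.comp_fst pf).comp_fst γJ).add (hJi.comp_snd ((poiLaw lam).prod pf))).mono'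
      hGm.aestronglyMeasurable
      (Filter.Eventually.of_forall fun q => (Real.norm_eq_abs _).trans_le (hGb q.1.1 q.1.2 q.2))
  refine (integral_prod G hi).trans ?_
  rw [integral_prod _ hi.integral_prod_left]
  refine integral_congr_ae (Filter.Eventually.of_forall fun M => ?_)
  have hmp : MeasurePreserving
      (fun p : (ℕ → Sp (N + 1)) × (ℕ → ℝ) => fun a : Fin M => snocPat (p.1 a, p.2 a)) pf
      (Measure.pi fun _ : Fin M => stdGaussian (Sp (N + 2))) := by
    have h1 : MeasurePreserving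
        (fun p : (ℕ → Sp (N + 1)) × (ℕ → ℝ) => ((fun a : Fin M => p.1 a), (fun a : Fin M => p.2 a))) pf
        ((Measure.pi fun _ : Fin M => stdGaussian (Sp (N + 1))).prod
          (Measure.pi fun _ : Fin M => gaussianReal 0 1)) :=
      MeasurePreserving.prod ⟨by fun_prop, map_first_patterns M⟩ ⟨by fun_prop, map_first_patterns M⟩
    have h2 := (measurePreserving_arrowProdEquivProdArrow (Sp (N + 1)) ℝ (Fin M)
      (fun _ => stdGaussian (Sp (N + 1))) (fun _ => gaussianReal 0 1)).symm _
    have h3 := measurePreserving_pi (fun _ : Fin M => (stdGaussian (Sp (N + 1))).prod (gaussianReal 0 1))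
      (fun _ : Fin M => stdGaussian (Sp (N + 2))) fun _ => measurePreserving_snocPat (n := N + 1)
    exact h3.comp (h2.comp h1)
  have hie := integrable_elz_patW (M := M) hf (norm_initVec (n := N + 1) (Nat.succ_pos N)) c
  rw [fieldF]
  conv_rhs => rw [← hmp.map_eq]
  rw [integral_map hmp.measurable.aemeasurable (by rw [hmp.map_eq]; exact hie.aestronglyMeasurable)]
  exact integral_congr_ae (Filter.Eventually.of_forall fun p =>
    integral_congr_ae (Filter.Eventually.of_forall fun J => hpt M p J))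

/-- Indices of the old spins. -/
def oldIdx (n P : ℕ) (i : (p : Fin P) × (Fin ((p : ℕ) + 1) → Fin n)) :
    (p : Fin P) × (Fin ((p : ℕ) + 1) → Fin (n + 1)) :=
  ⟨i.1, Fin.castSucc ∘ i.2⟩

lemma oldIdx_injective (n P : ℕ) : Function.Injective (oldIdx n P) := by
  rintro ⟨p, i⟩ ⟨q, j⟩ h
  simp only [oldIdx, Sigma.mk.injEq] at h
  obtain ⟨rfl, h⟩ := h
  have h' := eq_of_heq h
  exact Sigma.ext rfl (heq_of_eq (funext fun k => Fin.castSucc_injective _ (congrFun h' k)))

/-- Dropping the field along tensor coordinates of the new spin lowers the expectation. -/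
lemma elz_old_le {w : (Fin (n + 1) → Bool) → ℝ} (hw : Wt w) (hn : 0 < n) (c : Fin P → ℝ) :
    elz (cubeMeasure (n + 1))
        (fun τ => pertVec (fun p => c p * Real.sqrt ((n : ℝ) / (n + 1)) ^ ((p : ℕ) + 1)) (initVec n τ)) w ≤
      elz (cubeMeasure (n + 1)) (fun τ => pertVec c (cubeVec (n + 1) τ)) w := by
  classical
  set e := oldIdx n P with hedef
  have he : Function.Injective e := oldIdx_injective n P
  set a := Function.extend e (fun _ => (1 : ℝ)) 0 with ha
  set b := fun i => 1 - a i with hb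
  have ha01 : ∀ i, a i = 1 ∨ a i = 0 := fun i => by
    by_cases hi : ∃ j, e j = i
    · obtain ⟨j, rfl⟩ := hi
      exact Or.inl (by rw [ha, he.extend_apply])
    · exact Or.inr (by rw [ha, Function.extend_apply' _ _ _ hi]; rfl)
  have hab : ∀ i, a i ^ 2 + b i ^ 2 = 1 := fun i => by
    rcases ha01 i with h | h <;> simp [hb, h]
  set U := fun τ : Fin (n + 1) → Bool => pertVec c (cubeVec (n + 1) τ)
  set ψ := fun t : PertSpace n P => (WithLp.toLp 2 (Function.extend e (fun i => t i) 0) : PertSpace (n + 1) P)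
  set φ := fun g : PertSpace (n + 1) P => (WithLp.toLp 2 (fun i => g (e i)) : PertSpace n P)
  have hsum : ∀ (u : ((p : Fin P) × (Fin ((p : ℕ) + 1) → Fin (n + 1))) → ℝ)
      (t : PertSpace n P), ∑ i, u i * Function.extend e (fun i => t i) 0 i = ∑ j, u (e j) * t j :=
    fun u t => (Fintype.sum_of_injective e he _ _ (fun i hi => by
      rw [Function.extend_apply' _ _ _ (by simpa [Set.mem_range] using hi)]; simp)
      (fun j => by rw [he.extend_apply])).symm
  have hφ : ∀ g t, ⟪φ g, t⟫ = ⟪g, ψ t⟫ := fun g t => by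
    simp only [φ, ψ, PiLp.inner_apply, RCLike.inner_apply, conj_trivial]
    refine Eq.trans ?_ ((Finset.sum_congr rfl fun i _ => mul_comm _ _).trans (hsum (fun i => g i) t)).symm
    exact Finset.sum_congr rfl fun j _ => mul_comm _ _
  have hψn : ∀ t, ‖ψ t‖ = ‖t‖ := fun t => by
    refine (pow_left_inj₀ (norm_nonneg _) (norm_nonneg _) two_ne_zero).1 ?_
    simp only [EuclideanSpace.real_norm_sq_eq, ψ]
    simp only [pow_two]
    rw [hsum (fun i => Function.extend e (fun i => t i) 0 i) t]
    simp [he.extend_apply]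
  have hφm : Measurable φ := (WithLp.measurable_toLp _ _).comp (by fun_prop)
  have hmp := measurePreserving_stdGaussian hφm ψ hφ hψn
  have hUl := norm_pertVec_bound (norm_cubeVec (Nat.succ_pos n)) c
  have hbl : ∀ τ, ‖cmul b (U τ)‖ ≤ ∑ q, |c q| := fun τ => by
    refine le_trans ?_ (hUl τ)
    nlinarith [norm_cmul_sq_add hab (U τ), norm_nonneg (cmul b (U τ)), norm_nonneg (U τ),
      sq_nonneg ‖cmul a (U τ)‖]
  refine le_trans (le_of_eq ?_) (elz_cmul hw (measurable_of_finite U) hUl hab hbl).1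
  set V := fun τ : Fin (n + 1) → Bool =>
    pertVec (fun p => c p * Real.sqrt ((n : ℝ) / (n + 1)) ^ ((p : ℕ) + 1)) (initVec n τ)
  have hVm : AEStronglyMeasurable (fun g => lz (cubeMeasure (n + 1)) V w g) (stdGaussian (PertSpace n P)) :=
    (measurable_lz (μ := cubeMeasure (n + 1)) (W := fun _ : PertSpace n P => w) (h := fun g => g)
      (measurable_of_finite V) (hw.meas.comp measurable_snd) measurable_id).aestronglyMeasurable
  have hUV : ∀ τ, cmul a (U τ) = ψ (V τ) := fun τ => by
    ext i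
    by_cases hi : ∃ j, e j = i
    · obtain ⟨j, rfl⟩ := hi
      simp only [cmul, ψ, ha, he.extend_apply, one_mul]
      have hr : ∀ k, cubeVec (n + 1) τ (Fin.castSucc k) =
          Real.sqrt ((n : ℝ) / (n + 1)) * initVec n τ k := fun k => by
        have h1 : Real.sqrt (n : ℝ) ≠ 0 := Real.sqrt_ne_zero'.2 (by exact_mod_cast hn)
        rw [Real.sqrt_div (Nat.cast_nonneg n)]
        simp [cubeVec, initVec, Fin.init]
        field_simp
      simp [U, V, e, pertVec, oldIdx, hr, Finset.prod_mul_distrib, mul_assoc, div_pow]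
    · simp only [cmul, ψ, ha, Function.extend_apply' _ _ _ hi]
      simp
  simp only [hUV]
  exact (elz_transport hmp hφ hVm).symm

/-- Changing the coefficients of a field. -/
lemma elz_coeff {w : (Fin n → Bool) → ℝ} (hw : Wt w) {v : (Fin n → Bool) → Sp m}
    (hv : ∀ τ, ‖v τ‖ = 1) {y z : Fin P → ℝ} (hy : ∀ p, 0 ≤ y p) (hz : ∀ p, 0 < z p) :
    elz (cubeMeasure n) (fun τ => pertVec z (v τ)) w ≤
      elz (cubeMeasure n) (fun τ => pertVec y (v τ)) w + (∑ p, Real.sqrt |z p ^ 2 - y p ^ 2|) ^ 2 / 2 := by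
  set M := fun p => max (y p) (z p)
  have hM : ∀ p, 0 < M p := fun p => (hz p).trans_le (le_max_right _ _)
  have key : ∀ u : Fin P → ℝ, (∀ p, 0 ≤ u p) → (∀ p, u p ≤ M p) →
      elz (cubeMeasure n) (fun τ => pertVec u (v τ)) w ≤
        elz (cubeMeasure n) (fun τ => pertVec M (v τ)) w ∧
      elz (cubeMeasure n) (fun τ => pertVec M (v τ)) w ≤
        elz (cubeMeasure n) (fun τ => pertVec u (v τ)) w +
          (∑ p, Real.sqrt (M p ^ 2 - u p ^ 2)) ^ 2 / 2 := fun u hu0 hu => by
    set a := fun i : (p : Fin P) × (Fin ((p : ℕ) + 1) → Fin m) => u i.1 / M i.1 with ha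
    set b := fun i : (p : Fin P) × (Fin ((p : ℕ) + 1) → Fin m) =>
      Real.sqrt (M i.1 ^ 2 - u i.1 ^ 2) / M i.1 with hb
    have hd : ∀ p, 0 ≤ M p ^ 2 - u p ^ 2 := fun p =>
      sub_nonneg.2 (pow_le_pow_left₀ (hu0 p) (hu p) 2)
    have hab : ∀ i, a i ^ 2 + b i ^ 2 = 1 := fun i => by
      simp only [ha, hb, div_pow, Real.sq_sqrt (hd i.1)]
      have := (hM i.1).ne'
      field_simp
      ring
    have e1 : ∀ τ, cmul a (pertVec M (v τ)) = pertVec u (v τ) := fun τ => by
      ext i
      simp only [cmul, pertVec, ha]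
      have := (hM i.1).ne'
      field_simp
    have e2 : ∀ τ, cmul b (pertVec M (v τ)) = pertVec (fun p => Real.sqrt (M p ^ 2 - u p ^ 2)) (v τ) :=
      fun τ => by
        ext i
        simp only [cmul, pertVec, hb]
        have := (hM i.1).ne'
        field_simp
    have h := elz_cmul (μ := cubeMeasure n) hw (measurable_of_finite fun τ => pertVec M (v τ))
      (norm_pertVec_bound hv M) hab (m := ∑ p, Real.sqrt (M p ^ 2 - u p ^ 2)) fun τ => by
        rw [e2]
        refine (norm_pertVec_bound hv _ τ).trans_eq ?_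
        simp [abs_of_nonneg (Real.sqrt_nonneg _)]
    simpa only [e1] using h
  refine ((key z (fun p => (hz p).le) fun p => le_max_right _ _).1).trans
    ((key y hy fun p => le_max_left _ _).2.trans (add_le_add le_rfl ?_))
  refine div_le_div_of_nonneg_right (pow_le_pow_left₀ (Finset.sum_nonneg fun p _ => Real.sqrt_nonneg _)
    (Finset.sum_le_sum fun p _ => Real.sqrt_le_sqrt ?_) 2) two_pos.le
  rcases max_choice (y p) (z p) with h | h <;> simp only [M, h]
  · simp
  · exact le_abs_self _

end Vale.Agent.P157.Low
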