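import Vale.Agent.P157.Low.CubeSys
import Vale.Agent.P157.Model
import Vale.Agent.P157.Low.TelescopeStep
import Vale.Agent.P157.Low.CubePairs

/-!
Adding spins one at a time.
-/

namespace Vale.Agent.P157.Low

open MeasureTheory ProbabilityTheory Filter
open scoped Topology

variable {f : ℝ → ℝ} {B : ℝ} {n m P : ℕ}

lemma strength_pos (N : ℕ) : 0 < strength N := Real.rpow_pos_of_pos (by positivity) _

lemma strength_sq (N : ℕ) : strength N ^ 2 = ((N : ℝ) + 1) ^ (4 / 5 : ℝ) := by
  rw [strength, ← Real.rpow_natCast, ← Real.rpow_mul (by positivity)]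
  norm_num

lemma strength_mono_sq (N : ℕ) : strength N ^ 2 ≤ strength (N + 1) ^ 2 := by
  rw [strength_sq, strength_sq]
  exact Real.rpow_le_rpow (by positivity) (by push_cast; linarith) (by norm_num)

lemma strength_sq_div (N : ℕ) :
    strength N ^ 2 / ((N : ℝ) + 1) = ((N : ℝ) + 1) ^ (-(1 / 5) : ℝ) := by
  rw [strength_sq, ← Real.rpow_sub_one (by positivity)]
  norm_num

/-- The cost of changing coefficients is small when the coefficients are close. -/
lemma fieldF_coeff (hf : Pot f B) {v : (Fin n → Bool) → Sp m} (hv : ∀ τ, ‖v τ‖ = 1) {y z : Fin P → ℝ}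
    (hy : ∀ p, 0 ≤ y p) (hz : ∀ p, 0 < z p) (M : ℕ) :
    fieldF f v z M ≤ fieldF f v y M + (∑ p, Real.sqrt |z p ^ 2 - y p ^ 2|) ^ 2 / 2 := by
  refine (integral_mono (integrable_elz_patW hf hv z) ((integrable_elz_patW hf hv y).add
    (integrable_const _)) fun g => elz_coeff (wt_patW hf g) hv hy hz).trans_eq ?_
  simp only [Pi.add_apply]
  rw [integral_add (integrable_elz_patW hf hv y) (integrable_const _)]
  simp [fieldF]

lemma continuousOn_fieldF (hf : Pot f B) {v : (Fin n → Bool) → Sp m} (hv : ∀ τ, ‖v τ‖ = 1) {s : ℝ}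
    (hs : 0 < s) (lam : ℝ) :
    ContinuousOn (fun x : Fin P → ℝ => ∫ M, fieldF f v (s • x) M ∂poiLaw lam) (box P) := by
  intro x hx
  have hpos : ∀ y ∈ box P, ∀ p, 0 < (s • y) p := fun y hy p =>
    mul_pos hs (lt_of_lt_of_le one_pos (hy p (Set.mem_univ p)).1)
  set d := fun y : Fin P → ℝ => (∑ p, Real.sqrt |(s • y) p ^ 2 - (s • x) p ^ 2|) ^ 2 / 2 with hd
  have hb : ∀ y ∈ box P, |(∫ M, fieldF f v (s • y) M ∂poiLaw lam) -
      ∫ M, fieldF f v (s • x) M ∂poiLaw lam| ≤ d y := fun y hy => by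
    have key : ∀ a b : Fin P → ℝ, a ∈ box P → b ∈ box P → ∫ M, fieldF f v (s • a) M ∂poiLaw lam ≤
        (∫ M, fieldF f v (s • b) M ∂poiLaw lam) +
          (∑ p, Real.sqrt |(s • a) p ^ 2 - (s • b) p ^ 2|) ^ 2 / 2 := fun a b ha hb => by
      refine (integral_mono (integrable_fieldF hf hv _ lam) ((integrable_fieldF hf hv _ lam).add
        (integrable_const _)) fun M => fieldF_coeff hf hv (fun p => (hpos b hb p).le) (hpos a ha) M).trans_eq ?_
      simp only [Pi.add_apply]
      rw [integral_add (integrable_fieldF hf hv _ lam) (integrable_const _)]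
      simp
    have h1 := key y x hy hx
    have h2 := key x y hx hy
    simp only [abs_sub_comm ((s • x) _ ^ 2)] at h2
    simp only [hd]
    exact abs_le.2 ⟨by linarith, by linarith⟩
  have hd0 : Tendsto d (𝓝[box P] x) (𝓝 0) := by
    have hc : Continuous d := by simp only [hd, Pi.smul_apply, smul_eq_mul]; fun_prop
    have h := (hc.tendsto x).mono_left (nhdsWithin_le_nhds (s := box P))
    simpa [hd] using h
  show Tendsto _ _ (𝓝 _)
  rw [tendsto_iff_norm_sub_tendsto_zero]
  exact squeeze_zero' (Eventually.of_forall fun y => norm_nonneg _)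
    (eventually_mem_nhdsWithin.mono fun y hy => (Real.norm_eq_abs _).trans_le (hb y hy)) hd0

lemma measureReal_box (P : ℕ) : volume.real (box P) = 1 := by
  rw [Measure.real, box, volume_pi_pi]
  norm_num [Real.volume_Icc]

lemma isCompact_box (P : ℕ) : IsCompact (box P) := isCompact_univ_pi fun _ => isCompact_Icc

lemma integrableOn_free (hf : Pot f B) (α : ℝ) (N P : ℕ) :
    IntegrableOn (fun x : Fin P → ℝ => (pSys hf N α 0 x).free) (box P) := by
  simp only [fun x : Fin P → ℝ => pSys_free_eq hf N α x]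
  exact (continuousOn_fieldF hf (norm_cubeVec (Nat.succ_pos N)) (strength_pos N) _).integrableOn_compact
    (isCompact_box P)

lemma integrableOn_cavTop (hf : Pot f B) (α : ℝ) (N P : ℕ) :
    IntegrableOn (cavTop f α N (P := P)) (box P) := by
  rw [show cavTop f α N (P := P) = fun x => ∫ M, fieldF f (initVec (N + 1)) (strength N • x) M
    ∂poiLaw (α * ((N : ℝ) + 2)) from funext fun x => cavTop_eq hf α N x]
  exact (continuousOn_fieldF hf (norm_initVec (Nat.succ_pos N)) (strength_pos N) _).integrableOn_compact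
    (isCompact_box P)

/-- The gain is integrable over the coefficients. -/
theorem integrableOn_cavDiff (hf : Pot f B) (hc : Continuous f) {α : ℝ} (hα : 0 ≤ α) (N P : ℕ) :
    IntegrableOn (cavDiff hf α N) (box P) := by
  have _ := hc
  have _ := hα
  exact (integrableOn_cavTop hf α N P).sub (integrableOn_free hf _ N P)

/-- The price of one more spin. -/
noncomputable def stepErr (P N : ℕ) : ℝ :=
  4 * (P : ℝ) ^ 2 * ((P : ℝ) + 1) * ((N : ℝ) + 1) ^ (-(1 / 5) : ℝ)

lemma abs_coeff_le {N : ℕ} {x : Fin P → ℝ} (hx : x ∈ box P) (p : Fin P) :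
    |(strength N • x) p ^ 2 - ((strength (N + 1) • x) p *
        Real.sqrt (((N + 1 : ℕ) : ℝ) / ((N + 1 : ℕ) + 1)) ^ ((p : ℕ) + 1)) ^ 2| ≤
      4 * (((P : ℝ) + 1) * ((N : ℝ) + 1) ^ (-(1 / 5) : ℝ)) := by
  set S := strength N ^ 2 with hS
  set S' := strength (N + 1) ^ 2 with hS'
  set r := ((N + 1 : ℕ) : ℝ) / ((N + 1 : ℕ) + 1) with hr
  set δ := ((N : ℝ) + 1) ^ (-(1 / 5) : ℝ) with hδ
  have hδ0 : 0 < δ := Real.rpow_pos_of_pos (by positivity) _
  have hr0 : 0 ≤ r := by positivity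
  have hr1 : r ≤ 1 := (div_le_one (by positivity)).2 (by linarith)
  set q := r ^ ((p : ℕ) + 1) with hq
  have hq1 : q ≤ 1 := pow_le_one₀ hr0 hr1
  have hq0 : 1 - q ≤ (P : ℝ) / ((N : ℝ) + 2) := by
    have h := one_add_mul_le_pow (a := r - 1) (by linarith) ((p : ℕ) + 1)
    rw [add_sub_cancel] at h
    have e : r - 1 = -(1 / ((N : ℝ) + 2)) := by rw [hr]; push_cast; field_simp; ring
    have hp : (((p : ℕ) + 1 : ℕ) : ℝ) ≤ (P : ℝ) := by exact_mod_cast Nat.succ_le_of_lt p.2
    rw [e] at h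
    have : (((p : ℕ) + 1 : ℕ) : ℝ) * (1 / ((N : ℝ) + 2)) ≤ (P : ℝ) / ((N : ℝ) + 2) := by
      rw [mul_one_div]; exact div_le_div_of_nonneg_right hp (by positivity)
    linarith
  have hN1 : (0 : ℝ) < (N : ℝ) + 1 := by positivity
  have hN2 : (0 : ℝ) < (N : ℝ) + 2 := by positivity
  have hSS : S ≤ S' := strength_mono_sq N
  have hgrow : S' - S ≤ δ := by
    have h1 : (((N + 1 : ℕ) : ℝ) + 1) ^ (4 / 5 : ℝ) ≤
        ((N : ℝ) + 1) ^ (4 / 5 : ℝ) * (((N : ℝ) + 2) / ((N : ℝ) + 1)) := by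
      rw [show ((N + 1 : ℕ) : ℝ) + 1 = ((N : ℝ) + 1) * (((N : ℝ) + 2) / ((N : ℝ) + 1)) by
        push_cast; field_simp; ring, Real.mul_rpow hN1.le (by positivity)]
      refine mul_le_mul_of_nonneg_left ?_ (by positivity)
      refine (Real.rpow_le_rpow_of_exponent_le ?_ (by norm_num : (4 / 5 : ℝ) ≤ 1)).trans_eq (Real.rpow_one _)
      rw [le_div_iff₀ hN1]; linarith
    rw [← strength_sq, ← strength_sq] at h1
    rw [hδ, ← strength_sq_div, le_div_iff₀ hN1]
    rw [← hS, ← hS'] at h1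
    rw [← mul_div_assoc, le_div_iff₀ hN1] at h1
    rw [← hS]
    nlinarith
  have hlast : S' / ((N : ℝ) + 2) ≤ δ := by
    have e := strength_sq_div (N + 1)
    push_cast at e
    rw [show (N : ℝ) + 1 + 1 = (N : ℝ) + 2 by ring] at e
    rw [← hS'] at e
    rw [e]
    exact Real.rpow_le_rpow_of_nonpos hN1 (by linarith) (by norm_num)
  have h4 : x p ^ 2 ≤ 4 := by
    obtain ⟨h1, h2⟩ := hx p (Set.mem_univ p)
    nlinarith
  have e : (strength N • x) p ^ 2 - ((strength (N + 1) • x) p * Real.sqrt r ^ ((p : ℕ) + 1)) ^ 2 =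
      x p ^ 2 * (S - S' * q) := by
    simp only [Pi.smul_apply, smul_eq_mul, hq, hS, hS']
    rw [mul_pow, mul_pow, mul_pow, ← pow_mul, mul_comm ((p : ℕ) + 1) 2, pow_mul, Real.sq_sqrt hr0]
    ring
  rw [e, abs_mul, abs_of_nonneg (sq_nonneg (x p))]
  refine mul_le_mul h4 ?_ (abs_nonneg _) (by norm_num)
  have hS'0 : 0 ≤ S' := sq_nonneg _
  have h5 : S' * (1 - q) ≤ (P : ℝ) * δ := by
    refine (mul_le_mul_of_nonneg_left hq0 hS'0).trans ?_
    rw [mul_div_left_comm]
    exact mul_le_mul_of_nonneg_left hlast (Nat.cast_nonneg _)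
  have h6 : 0 ≤ S' * (1 - q) := mul_nonneg hS'0 (by linarith)
  rw [abs_le]
  constructor <;> nlinarith [mul_nonneg (Nat.cast_nonneg (α := ℝ) P) hδ0.le]

/-- The expectation with the new spin is at most the one with one more spin. -/
lemma cavTop_le (hf : Pot f B) (α : ℝ) (N : ℕ) {x : Fin P → ℝ} (hx : x ∈ box P) :
    cavTop f α N x ≤ (pSys hf (N + 1) (α * ((N : ℝ) + 2)) 0 x).free + stepErr P N / 2 := by
  rw [cavTop_eq hf, pSys_free_eq hf]
  set lam := α * ((N : ℝ) + 2)
  set v := initVec (N + 1)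
  have hv := norm_initVec (n := N + 1) (Nat.succ_pos N)
  set y := fun p : Fin P => (strength (N + 1) • x) p *
    Real.sqrt (((N + 1 : ℕ) : ℝ) / ((N + 1 : ℕ) + 1)) ^ ((p : ℕ) + 1) with hy
  have hx0 : ∀ p, 0 < x p := fun p => lt_of_lt_of_le one_pos (hx p (Set.mem_univ p)).1
  have key : ∀ M, fieldF f v (strength N • x) M ≤
      fieldF f (cubeVec (N + 1 + 1)) (strength (N + 1) • x) M + stepErr P N / 2 := fun M => by
    refine (fieldF_coeff hf hv (y := y) (fun p => by
        simp only [hy, Pi.smul_apply, smul_eq_mul]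
        have := hx0 p; have := strength_pos (N + 1); positivity)
      (fun p => mul_pos (strength_pos N) (hx0 p)) M).trans (add_le_add ?_ ?_)
    · exact integral_mono (integrable_elz_patW hf hv y)
        (integrable_elz_patW hf (norm_cubeVec (Nat.succ_pos _)) _)
        fun g => elz_old_le (wt_patW hf g) (Nat.succ_pos N) _
    · refine div_le_div_of_nonneg_right (sq_sum_le_card_mul_sum_sq.trans ?_) two_pos.le
      rw [Finset.card_univ, Fintype.card_fin, stepErr]
      have h : ∑ p : Fin P, Real.sqrt |(strength N • x) p ^ 2 - y p ^ 2| ^ 2 ≤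
          (P : ℝ) * (4 * (((P : ℝ) + 1) * ((N : ℝ) + 1) ^ (-(1 / 5) : ℝ))) := by
        refine (Finset.sum_le_sum fun p _ => ?_).trans_eq (by
          rw [Finset.sum_const, Finset.card_univ, Fintype.card_fin, nsmul_eq_mul])
        rw [Real.sq_sqrt (abs_nonneg _)]
        exact abs_coeff_le hx p
      refine (mul_le_mul_of_nonneg_left h (Nat.cast_nonneg P)).trans_eq ?_
      ring
  refine (integral_mono (integrable_fieldF hf hv _ lam)
    ((integrable_fieldF hf (norm_cubeVec (Nat.succ_pos _)) _ lam).add (integrable_const _)) key).trans_eq ?_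
  simp only [Pi.add_apply]
  rw [integral_add (integrable_fieldF hf (norm_cubeVec (Nat.succ_pos _)) _ lam) (integrable_const _)]
  simp

/-- The perturbed free energy against the unperturbed one at the mean number of patterns. -/
lemma free_le_cubeF (hf : Pot f B) {α : ℝ} (hα : 0 ≤ α) (N : ℕ) {x : Fin P → ℝ} (hx : x ∈ box P) :
    (pSys hf N (α * ((N : ℝ) + 1)) 0 x).free ≤ cubeF f (N + 1) ⌊α * (N + 1 : ℕ)⌋₊ +
      (1 + B) * (Real.sqrt (α * ((N : ℝ) + 1)) + 2) + 2 * (P : ℝ) ^ 2 * strength N ^ 2 := by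
  rw [pSys_free_eq hf]
  set lam := α * ((N : ℝ) + 1) with hlam
  have hl : 0 ≤ lam := mul_nonneg hα (by positivity)
  set k := ⌊α * (N + 1 : ℕ)⌋₊ with hk
  have hk' : |lam - k| ≤ 1 := by
    have h1 : (k : ℝ) ≤ lam := by
      have := Nat.floor_le (show 0 ≤ α * ((N + 1 : ℕ) : ℝ) by positivity)
      simpa [hk, hlam] using this
    have h2 : lam < k + 1 := by
      have := Nat.lt_floor_add_one (α * ((N + 1 : ℕ) : ℝ))
      simpa [hk, hlam] using this
    rw [abs_of_nonneg (by linarith)]; linarith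
  have hnorm : (∑ q, |(strength N • x) q|) ^ 2 / 2 ≤ 2 * (P : ℝ) ^ 2 * strength N ^ 2 := by
    have h : ∑ q, |(strength N • x) q| ≤ (P : ℝ) * (strength N * 2) := by
      refine (Finset.sum_le_sum (g := fun _ : Fin P => strength N * 2) fun q _ => ?_).trans_eq (by simp)
      obtain ⟨h1, h2⟩ := hx q (Set.mem_univ q)
      rw [Pi.smul_apply, smul_eq_mul, abs_of_nonneg (mul_nonneg (strength_pos N).le (by linarith))]
      exact mul_le_mul_of_nonneg_left h2 (strength_pos N).le
    have h' := pow_le_pow_left₀ (Finset.sum_nonneg fun q _ => abs_nonneg _) h 2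
    nlinarith
  set c := Real.sqrt lam + 1 with hc
  have hc0 : 0 < c := by positivity
  have hv : Integrable (fun M : ℕ => ((M : ℝ) - lam) ^ 2) (poiLaw lam) := by
    refine (((integrable_poiLaw_pow lam 2).sub ((integrable_poiLaw_pow lam 1).const_mul (2 * lam))).add
      (integrable_const (lam ^ 2))).congr (Eventually.of_forall fun M => ?_)
    simp only [Pi.add_apply, Pi.sub_apply, pow_one]
    ring
  set K := cubeF f (N + 1) k + (1 + B) + (1 + B) * (Real.sqrt lam / 2) +
    (∑ q, |(strength N • x) q|) ^ 2 / 2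
  have hB := hf.nonneg
  have hpt : ∀ M : ℕ, fieldF f (cubeVec (N + 1)) (strength N • x) M ≤
      K + (1 + B) / (2 * c) * ((M : ℝ) - lam) ^ 2 + (1 + B) / 2 := fun M => by
    refine (fieldF_le hf (norm_cubeVec (Nat.succ_pos N)) _ M).trans ?_
    have h1 := L_lipschitz (μ := cubeMeasure (N + 1)) hf (v := cubeVec (N + 1)) (measurable_of_finite _)
      Wt.one M k
    have h2 : |(M : ℝ) - k| ≤ |(M : ℝ) - lam| + 1 := (abs_sub_le _ _ _).trans (add_le_add le_rfl hk')
    have h3 : |(M : ℝ) - lam| ≤ ((M : ℝ) - lam) ^ 2 / (2 * c) + c / 2 := by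
      rw [div_add_div _ _ (by positivity) two_ne_zero, le_div_iff₀ (by positivity), ← sq_abs ((M : ℝ) - lam)]
      nlinarith [sq_nonneg (|(M : ℝ) - lam| - c)]
    have h4 := mul_le_mul_of_nonneg_left (h2.trans (add_le_add h3 le_rfl)) (by linarith : (0 : ℝ) ≤ 1 + B)
    have h5 := (abs_le.1 h1).2
    have h6 : (1 + B) * (((M : ℝ) - lam) ^ 2 / (2 * c)) = (1 + B) / (2 * c) * ((M : ℝ) - lam) ^ 2 := by ring
    simp only [K, cubeF] at h5 ⊢
    rw [hc] at h4 h6 ⊢
    linarith
  have hint : Integrable (fun M : ℕ => (1 + B) / (2 * c) * ((M : ℝ) - lam) ^ 2) (poiLaw lam) :=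
    hv.const_mul _
  have hKi : Integrable (fun M : ℕ => K + (1 + B) / (2 * c) * ((M : ℝ) - lam) ^ 2) (poiLaw lam) :=
    (integrable_const _).add hint
  refine (integral_mono (integrable_fieldF hf (norm_cubeVec (Nat.succ_pos N)) _ lam)
    (hKi.add (integrable_const ((1 + B) / 2))) hpt).trans ?_
  simp only [Pi.add_apply]
  rw [integral_add hKi (integrable_const _), integral_add (integrable_const _) hint, integral_const_mul,
    poiLaw_variance hl]
  simp only [integral_const, probReal_univ, one_smul]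
  have h7 : (1 + B) / (2 * c) * lam ≤ (1 + B) * (Real.sqrt lam / 2) := by
    rw [div_mul_eq_mul_div, div_le_iff₀ (by positivity), hc]
    nlinarith [Real.sq_sqrt hl, mul_nonneg (by linarith : (0 : ℝ) ≤ 1 + B) (Real.sqrt_nonneg lam)]
  simp only [K]
  nlinarith

lemma tendsto_rpow_succ {a : ℝ} (ha : a < 0) :
    Tendsto (fun N : ℕ => ((N : ℝ) + 1) ^ a) atTop (𝓝 0) := by
  have h := (tendsto_rpow_neg_atTop (neg_pos.2 ha)).comp
    (tendsto_atTop_add_const_right atTop (1 : ℝ) tendsto_natCast_atTop_atTop)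
  simpa [Function.comp_def] using h

/-- A lower bound for the gain of one spin bounds the pressure. -/
theorem pressure_of_cavity (hf : Pot f B) (hfc : Continuous f) {α : ℝ} (hα : 0 < α) {c : ℝ}
    (hcav : ∀ η, 0 < η → ∃ P : ℕ, ∀ᶠ N : ℕ in atTop,
      c - η ≤ ∫ x in box P, cavDiff hf α N x) {η : ℝ} (hη : 0 < η) :
    ∀ᶠ N : ℕ in atTop, c - η ≤ cubePressure f N ⌊α * N⌋₊ := by
  obtain ⟨P, hP⟩ := hcav (η / 4) (by linarith)
  set F := fun (N : ℕ) (x : Fin P → ℝ) => (pSys hf N (α * ((N : ℝ) + 1)) 0 x).free with hF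
  set J := fun N : ℕ => ∫ x in box P, F N x with hJ
  have hFi : ∀ N, IntegrableOn (F N) (box P) := fun N => integrableOn_free hf _ N P
  have he : Tendsto (fun N => stepErr P N / 2) atTop (𝓝 0) := by
    simpa [stepErr] using
      ((tendsto_rpow_succ (a := -(1 / 5)) (by norm_num)).const_mul (4 * (P : ℝ) ^ 2 * ((P : ℝ) + 1))).div_const 2
  obtain ⟨n0, hn0⟩ := eventually_atTop.1 (hP.and (he.eventually (gt_mem_nhds (by linarith : 0 < η / 4))))
  have hstep : ∀ N ≥ n0, J N + (c - η / 2) ≤ J (N + 1) := fun N hN => by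
    obtain ⟨h1, h2⟩ := hn0 N hN
    have hle : ∫ x in box P, cavDiff hf α N x ≤ ∫ x in box P, (F (N + 1) x - F N x + stepErr P N / 2) := by
      refine setIntegral_mono_on (integrableOn_cavDiff hf hfc hα.le N P)
        (((hFi (N + 1)).sub (hFi N)).add (integrableOn_const (isCompact_box P).measure_lt_top.ne))
        (isCompact_box P).measurableSet fun x hx => ?_
      have := cavTop_le hf α N hx
      simp only [hF, cavDiff]
      have e : α * (((N + 1 : ℕ) : ℝ) + 1) = α * ((N : ℝ) + 2) := by push_cast; ring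
      rw [e]
      linarith
    have hv : ∫ x in box P, (F (N + 1) x - F N x + stepErr P N / 2) = J (N + 1) - J N + stepErr P N / 2 := by
      have hs : IntegrableOn (fun x => F (N + 1) x - F N x) (box P) := (hFi (N + 1)).sub (hFi N)
      rw [integral_add hs (integrableOn_const (isCompact_box P).measure_lt_top.ne),
        integral_sub (hFi (N + 1)) (hFi N), setIntegral_const, measureReal_box, one_smul]
    linarith
  have hgrow : ∀ k, J n0 + k * (c - η / 2) ≤ J (n0 + k) := fun k => by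
    induction k with
    | zero => simp
    | succ k ih =>
      have := hstep (n0 + k) (Nat.le_add_right _ _)
      rw [← add_assoc]
      push_cast
      linarith
  set R := fun N : ℕ => (1 + B) * (Real.sqrt (α * ((N : ℝ) + 1)) + 2) +
    2 * (P : ℝ) ^ 2 * strength N ^ 2 with hR
  have hup : ∀ N, J N ≤ cubeF f (N + 1) ⌊α * (N + 1 : ℕ)⌋₊ + R N := fun N => by
    refine (setIntegral_mono_on (hFi N) (integrableOn_const (isCompact_box P).measure_lt_top.ne)
      (isCompact_box P).measurableSet fun x hx => (free_le_cubeF hf hα.le N hx).trans_eq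
        (add_assoc _ _ _)).trans_eq ?_
    rw [setIntegral_const, measureReal_box, one_smul]
  set K := |J n0| + ((n0 : ℝ) + 1) * |c - η / 2| with hK
  have hsmall : Tendsto (fun N : ℕ => (K + R N) / ((N : ℝ) + 1)) atTop (𝓝 0) := by
    have h1 : Tendsto (fun N : ℕ => (K + 2 * (1 + B)) * ((N : ℝ) + 1) ^ (-1 : ℝ) +
        (1 + B) * Real.sqrt α * ((N : ℝ) + 1) ^ (-(1 / 2) : ℝ) +
        2 * (P : ℝ) ^ 2 * ((N : ℝ) + 1) ^ (-(1 / 5) : ℝ)) atTop (𝓝 0) := by
      simpa using (((tendsto_rpow_succ (a := -1) (by norm_num)).const_mul (K + 2 * (1 + B))).add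
        ((tendsto_rpow_succ (a := -(1 / 2)) (by norm_num)).const_mul ((1 + B) * Real.sqrt α))).add
        ((tendsto_rpow_succ (a := -(1 / 5)) (by norm_num)).const_mul (2 * (P : ℝ) ^ 2))
    refine h1.congr fun N => ?_
    have hN1 : (0 : ℝ) < (N : ℝ) + 1 := by positivity
    have e1 : ((N : ℝ) + 1) ^ (-1 : ℝ) = 1 / ((N : ℝ) + 1) := by rw [Real.rpow_neg_one, one_div]
    have e2 : ((N : ℝ) + 1) ^ (-(1 / 2) : ℝ) = Real.sqrt ((N : ℝ) + 1) / ((N : ℝ) + 1) := by
      rw [Real.sqrt_eq_rpow, ← Real.rpow_sub_one hN1.ne']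
      norm_num
    rw [e1, e2, ← strength_sq_div N, hR]
    simp only
    rw [Real.sqrt_mul hα.le]
    field_simp
    ring
  have hmain : ∀ᶠ N : ℕ in atTop, c - η ≤ cubePressure f (N + 1) ⌊α * (N + 1 : ℕ)⌋₊ := by
    filter_upwards [eventually_ge_atTop n0, hsmall.eventually (gt_mem_nhds (by linarith : 0 < η / 2))] with
      N hN hs
    rw [← cubeF_eq hf, le_div_iff₀ (by positivity)]
    have h1 := hgrow (N - n0)
    rw [Nat.add_sub_cancel' hN, Nat.cast_sub hN] at h1
    have h2 := hup N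
    rw [div_lt_iff₀ (by positivity)] at hs
    have h3 := neg_abs_le (J n0)
    have h4 : -(((n0 : ℝ) + 1) * |c - η / 2|) ≤ -((n0 : ℝ) + 1) * (c - η / 2) := by
      have := mul_le_mul_of_nonneg_left (le_abs_self (c - η / 2)) (by positivity : (0 : ℝ) ≤ (n0 : ℝ) + 1)
      linarith
    push_cast at h2 ⊢
    rw [hK] at hs
    nlinarith
  obtain ⟨n1, hn1⟩ := eventually_atTop.1 hmain
  refine eventually_atTop.2 ⟨n1 + 1, fun N hN => ?_⟩
  obtain ⟨k, rfl⟩ : ∃ k, N = k + 1 := ⟨N - 1, by omega⟩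
  exact hn1 k (by omega)

end Vale.Agent.P157.Low
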