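import Vale.Agent.P157.Low.CavityValue
import Vale.Agent.P157.Low.Expansion
import Vale.Agent.P157.Low.DriftLimit
import Vale.Agent.P157.Low.Telescope
import Vale.Agent.P157.Low.Limit
import Vale.Agent.P157.Low.GG
import Vale.Agent.P157.Model

/-!
The cavity lower bound on the cube for smooth potentials.
-/

namespace Vale.Agent.P157.Low

open MeasureTheory ProbabilityTheory Filter
open scoped RealInnerProductSpace Topology

variable {f : ℝ → ℝ} {B : ℝ}

lemma spinTerm_nonneg (hf : Pot f B) (α : ℝ) (N : ℕ) {P : ℕ} (x : Fin P → ℝ) (L : ℝ) :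
    0 ≤ spinTerm hf α N x L := by
  refine integral_nonneg fun ω => integral_nonneg fun h => Real.log_nonneg ?_
  have := isProbabilityMeasure_gibbs (μ := cubeMeasure (N + 1))
    ((pSys hf N (α * ((N : ℝ) + 2)) 0 x).wt ω)
  refine le_trans (le_of_eq (by simp : (1 : ℝ) = ∫ _ : Fin (N + 1) → Bool, (1 : ℝ)
    ∂gibbs (cubeMeasure (N + 1)) ((pSys hf N (α * ((N : ℝ) + 2)) 0 x).w ω))) ?_
  exact integral_mono (integrable_const 1) Integrable.of_finite fun r => one_le_coshT L _

/-- A crude lower bound for the gain of one spin. -/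
lemma cavDiff_ge (hf : Pot f B) (hs : Smf f) {α : ℝ} (hα : 0 < α) :
    ∃ C0, 0 ≤ C0 ∧ ∀ (N P : ℕ) (x : Fin P → ℝ), -C0 ≤ cavDiff hf α N x := by
  obtain ⟨C, hC⟩ := cavity_step hf hs hα
  obtain ⟨E, -, hE⟩ := hs.exists_bound
  set ψ : ℝ → ℝ := fun y => 2 * E ^ 2 * (1 + y ^ 2) with hψ
  have hψm : Measurable ψ := by fun_prop
  have hψ0 : ∀ y, 0 ≤ ψ y := fun y => by simp only [hψ]; positivity
  have hψi : Integrable ψ (gaussianReal 0 1) :=
    (((integrable_const (1 : ℝ)).add ((IsGaussian.memLp_id (gaussianReal 0 1) 2 (by simp)).integrable_sq))).const_mul _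
  set c1 := Real.exp (2 * B) * (∫ y, ψ y ∂gaussianReal 0 1) * (α ^ 2 + α)
  have hc1 : 0 ≤ c1 := mul_nonneg (mul_nonneg (Real.exp_pos _).le (integral_nonneg hψ0)) (by positivity)
  refine ⟨c1 + 2 * |C| + α * B, by have := hf.nonneg; positivity, fun N P x => ?_⟩
  set lam := α * ((N : ℝ) + 2) with hlam
  have hl : 0 ≤ lam := by positivity
  have hN2 : (1 : ℝ) ≤ (N : ℝ) + 2 := by linarith [Nat.cast_nonneg (α := ℝ) N]
  set S := pSys hf N lam 0 x
  obtain ⟨hint, hle⟩ := pSys_sum_le hf N hl x 1 hψm hψ0 hψi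
  have hsq : S.avgRep 1 (fun ω r => ((1 / ((N : ℝ) + 2)) * (∑ a ∈ Finset.range (cnt ω),
      (deriv (deriv f) (pat ω a (r 0)) - pat ω a (r 0) * deriv f (pat ω a (r 0)))) - 0) ^ 2) ≤ c1 := by
    set Θ := fun (ω : S.Ω) (r : Fin 1 → Fin (N + 1) → Bool) =>
      (cnt ω : ℝ) ^ 1 * ∑ a ∈ Finset.range (cnt ω), ψ (pat ω a (r 0)) with hΘ
    have hpt : ∀ (ω : S.Ω) (r : Fin 1 → Fin (N + 1) → Bool),
        ((1 / ((N : ℝ) + 2)) * (∑ a ∈ Finset.range (cnt ω),
          (deriv (deriv f) (pat ω a (r 0)) - pat ω a (r 0) * deriv f (pat ω a (r 0)))) - 0) ^ 2 ≤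
          (1 / ((N : ℝ) + 2)) ^ 2 * Θ ω r := fun ω r => by
      rw [sub_zero, mul_pow]
      refine mul_le_mul_of_nonneg_left (sq_sum_le_card_mul_sum_sq.trans ?_) (sq_nonneg _)
      simp only [hΘ, pow_one, Finset.card_range]
      refine mul_le_mul_of_nonneg_left (Finset.sum_le_sum fun a _ => ?_) (Nat.cast_nonneg _)
      generalize pat ω a (r 0) = y
      obtain ⟨b1, b2, -⟩ := hE y
      have h1 : deriv (deriv f) y ^ 2 ≤ E ^ 2 := by
        rw [← sq_abs]; exact pow_le_pow_left₀ (abs_nonneg _) b2 2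
      have h2 : deriv f y ^ 2 ≤ E ^ 2 := by
        rw [← sq_abs]; exact pow_le_pow_left₀ (abs_nonneg _) b1 2
      simp only [hψ]
      nlinarith [sq_nonneg (deriv (deriv f) y + y * deriv f y),
        mul_le_mul_of_nonneg_left h2 (sq_nonneg y)]
    have hin : ∀ ω, ∫ r, ((1 / ((N : ℝ) + 2)) * (∑ a ∈ Finset.range (cnt ω),
        (deriv (deriv f) (pat ω a (r 0)) - pat ω a (r 0) * deriv f (pat ω a (r 0)))) - 0) ^ 2
          ∂Measure.pi (fun _ : Fin 1 => gibbs (cubeMeasure (N + 1)) (S.w ω)) ≤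
        (1 / ((N : ℝ) + 2)) ^ 2 * ∫ r, Θ ω r ∂Measure.pi fun _ : Fin 1 => gibbs (cubeMeasure (N + 1)) (S.w ω) :=
      fun ω => by
        have := isProbabilityMeasure_gibbs (μ := cubeMeasure (N + 1)) (S.wt ω)
        rw [← integral_const_mul]
        exact integral_mono Integrable.of_finite Integrable.of_finite (hpt ω)
    refine (integral_mono_of_nonneg (Eventually.of_forall fun ω => integral_nonneg fun r => sq_nonneg _)
      (hint.const_mul ((1 / ((N : ℝ) + 2)) ^ 2)) (Eventually.of_forall hin)).trans ?_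
    rw [integral_const_mul]
    refine (mul_le_mul_of_nonneg_left hle (sq_nonneg _)).trans ?_
    rw [(integral_poiLaw_sq hl).2, ← mul_assoc, mul_comm ((1 / ((N : ℝ) + 2)) ^ 2), mul_assoc]
    refine mul_le_mul_of_nonneg_left ?_ (mul_nonneg (Real.exp_pos _).le (integral_nonneg hψ0))
    rw [hlam, div_pow, one_pow, div_mul_eq_mul_div, one_mul, div_le_iff₀ (by positivity)]
    nlinarith [mul_le_mul_of_nonneg_left hN2 (mul_nonneg hα.le (by positivity : (0 : ℝ) ≤ (N : ℝ) + 2))]
  have h := hC N P x 0 1 1 one_pos one_pos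
  simp only [one_mul, div_one, zero_div, add_zero] at h
  have h1 := spinTerm_nonneg hf α N x 1
  have h2 := free_step_ge hf N hα.le x
  have h3 : C / ((N : ℝ) + 2) ≤ |C| :=
    (div_le_div_of_nonneg_right (le_abs_self C) (by positivity)).trans (div_le_self (abs_nonneg C) hN2)
  simp only [cavDiff]
  have h4 := le_abs_self C
  linarith

lemma ggErr_nonneg (S : Sys) {N P : ℕ} (u : S.X → EuclideanSpace ℝ (Fin N)) (hu : Measurable u)
    (hu1 : ∀ a, ‖u a‖ = 1) {s : ℝ} (hs : 0 ≤ s) (x : Fin P → ℝ) (p : Fin P) :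
    0 ≤ ggErr S u hu hu1 s x p :=
  div_nonneg (integral_nonneg fun _ => integral_nonneg fun _ => abs_nonneg _) hs

/-- The defect in the identities at one point of coefficients. -/
noncomputable def cubeErr (hf : Pot f B) (α : ℝ) (N : ℕ) {P : ℕ} (x : Fin P → ℝ) (p : Fin P) : ℝ :=
  ggErr (baseSys hf N (α * ((N : ℝ) + 1)) 0) (N := N + 1) (cubeVec (N + 1))
    (measurable_of_finite (cubeVec (N + 1))) (norm_cubeVec (Nat.succ_pos N)) (strength N) x p

lemma cubeErr_nonneg (hf : Pot f B) (α : ℝ) (N : ℕ) {P : ℕ} (x : Fin P → ℝ) (p : Fin P) :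
    0 ≤ cubeErr hf α N x p :=
  ggErr_nonneg _ _ _ _ (strength_pos N).le x p

/-- Coefficients with small defect have gain at least `c - η`. -/
lemma cavDiff_ge_of_small (hf : Pot f B) (hs : Smf f) {α : ℝ} (hα : 0 < α) {c : ℝ}
    (hc : ∀ q0 ls, RsbParam q0 ls → c ≤ parisiIsing f α q0 ls) {η : ℝ} (hη : 0 < η) :
    ∃ (P : ℕ) (δ : ℝ), 0 < δ ∧ ∀ᶠ N : ℕ in atTop, ∀ x ∈ box P,
      ∑ p, cubeErr hf α N x p ≤ δ → c - η ≤ cavDiff hf α N x := by
  by_contra hcon
  push Not at hcon
  have hex : ∀ j : ℕ, ∃ N, j ≤ N ∧ ∃ x ∈ box j, ∑ p, cubeErr hf α N x p ≤ 1 / ((j : ℝ) + 1) ∧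
      cavDiff hf α N x < c - η := fun j =>
    frequently_atTop.1 (hcon j (1 / ((j : ℝ) + 1)) (by positivity)) j
  choose Ns hNs xs hxs herr hbad using hex
  have hN : Tendsto Ns atTop atTop := tendsto_atTop_mono hNs tendsto_id
  obtain ⟨φ, hφ, A, hA⟩ := exists_conv
    (fun j => pSys hf (Ns j) (α * ((Ns j : ℝ) + 1)) 0 (xs j)) (fun p n l Φ hΦ hΦb => by
      obtain ⟨D, hD⟩ := hΦb
      refine squeeze_zero_norm' ?_
        (by simpa using (tendsto_one_div_add_atTop_nhds_zero_nat (𝕜 := ℝ)).const_mul |D|)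
      filter_upwards [eventually_gt_atTop p] with j hj
      rw [Real.norm_eq_abs]
      refine (gg_defect_le (baseSys hf (Ns j) (α * ((Ns j : ℝ) + 1)) 0) (N := Ns j + 1)
        (cubeVec (Ns j + 1)) (measurable_of_finite (cubeVec (Ns j + 1)))
        (norm_cubeVec (Nat.succ_pos (Ns j))) (fun _ _ => rfl)
        (strength_pos (Ns j)) (hxs j) ⟨p, hj⟩ l hΦ.measurable
        (fun R => (hD R).trans (le_abs_self D))).trans ?_
      refine mul_le_mul_of_nonneg_left ?_ (abs_nonneg D)
      exact (Finset.single_le_sum (fun q _ => cubeErr_nonneg hf α (Ns j) (xs j) q)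
        (Finset.mem_univ (⟨p, hj⟩ : Fin j))).trans (by simpa [one_div] using herr j))
  set Ms : ℕ → ℕ := fun j => Ns (φ j) with hMs
  have hM : Tendsto Ms atTop atTop := hN.comp hφ.tendsto_atTop
  have hA2 : Conv (fun j => pSys hf (Ms j) (α * ((Ms j : ℝ) + 2)) 0 (xs (φ j))) A :=
    conv_next (Ns := Ms) (Ps := φ) (xs := fun j => xs (φ j)) hf hs hα.le hA
  have hgain := tendsto_gain (Ns := Ms) (Ps := φ) (xs := fun j => xs (φ j)) hf hs hα.le hA
  obtain ⟨L, hL, hval⟩ := exists_value_ge hf hs hα.le hc (show 0 < η / 8 by linarith)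
  obtain ⟨C, hC⟩ := cavity_step hf hs hα
  set t := 8 * |C| / η + 1 with ht
  have ht0 : 0 < t := by positivity
  have hCt : C / t ≤ η / 8 := by
    rw [div_le_iff₀ ht0, ht, mul_add, show η / 8 * (8 * |C| / η) = |C| by field_simp]
    linarith [le_abs_self C]
  set D : ∀ K, Discr A (K + 2) := fun K => (A.exists_discr (Nat.le_add_left 2 K)).some
  have hlog : ∀ᶠ K in atTop, α * logArr A (Real.exp B) (expW f) ≥
      α * (D K).C.logVal (incr (D K).q) (Real.exp B) (Low.heat (expW f) (D K).rest) - η / 8 := by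
    have h := ((tendsto_logVal D (weight_expW hf hs)).const_mul α).eventually
      (eventually_lt_nhds (show α * logArr A (Real.exp B) (expW f) <
        α * logArr A (Real.exp B) (expW f) + η / 8 by linarith))
    filter_upwards [h] with K hK
    linarith
  obtain ⟨K, hK1, hK2, hK3⟩ :=
    (hlog.and ((spin_lower hf hs hα hM φ (fun j => xs (φ j)) hA2 D hL (show 0 < η / 8 by linarith)).and
      (drift_limit hf hs hα hM φ (fun j => xs (φ j)) hA2 D
        (show 0 < η / (8 * t) by positivity)))).exists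
  have hsmall : ∀ᶠ j in atTop, t * (C / ((Ms j : ℝ) + 2)) < η / 8 := by
    have h : Tendsto (fun j => t * (C / ((Ms j : ℝ) + 2))) atTop (𝓝 (t * 0)) :=
      (tendsto_const_nhds.div_atTop
        (tendsto_atTop_add_const_right _ _ (tendsto_natCast_atTop_atTop.comp hM))).const_mul t
    exact h.eventually (eventually_lt_nhds (by linarith))
  have hgain' := hgain.eventually (eventually_gt_nhds
    (show α * logArr A (Real.exp B) (expW f) - η / 8 < α * logArr A (Real.exp B) (expW f) by linarith))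
  obtain ⟨j, hj2, hj3, hj4, hj5⟩ := (hK2.and (hK3.and (hsmall.and hgain'))).exists
  have hv := hval A K (D K)
  have hstep := hC (Ms j) (φ j) (xs (φ j)) (α * ((D K).pairing f - (D K).rdiag f)) L t hL ht0
  have hb := hbad (φ j)
  have hdt := mul_le_mul_of_nonneg_left hj3 ht0.le
  have e : t * (η / (8 * t)) = η / 8 := by field_simp
  rw [e] at hdt
  simp only [cavDiff, hMs] at hb hstep hj5 hj2 hj4 hdt
  rw [mul_add] at hstep
  linarith

/-- The box of coefficients has unit volume. -/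
lemma volume_box (P : ℕ) : volume (box P) = 1 := by
  rw [box, MeasureTheory.volume_pi_pi]
  simp only [Real.volume_Icc]
  norm_num

/-- The defect vanishes on average over the coefficients. -/
lemma tendsto_integral_cubeErr (hf : Pot f B) {α : ℝ} (hα : 0 < α) (P : ℕ) (p : Fin P) :
    (∀ N, IntegrableOn (fun x => cubeErr hf α N x p) (box P)) ∧
      Tendsto (fun N => ∫ x in box P, cubeErr hf α N x p) atTop (𝓝 0) := by
  obtain ⟨C, hC⟩ := integral_ggErr_le P
  have hB := hf.nonneg
  set V : ℕ → ℝ := fun N => 6 * (B + 1) * (Real.sqrt (α * ((N : ℝ) + 1)) + 1) with hV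
  have hV1 : ∀ N, 1 ≤ V N := fun N => by
    simp only [hV]
    nlinarith [Real.sqrt_nonneg (α * ((N : ℝ) + 1)), mul_nonneg hB (Real.sqrt_nonneg (α * ((N : ℝ) + 1)))]
  have hs1 : ∀ N : ℕ, 1 ≤ strength N := fun N =>
    Real.one_le_rpow (by linarith [Nat.cast_nonneg (α := ℝ) N]) (by norm_num)
  have key := fun N => hC (N + 1) (baseSys hf N (α * ((N : ℝ) + 1)) 0) (cubeVec (N + 1))
    (measurable_of_finite (cubeVec (N + 1))) (norm_cubeVec (Nat.succ_pos N)) (strength N) (V N)
    (hs1 N) (hV1 N) (fun F _ _ => baseSys_fluct hf (by positivity)) p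
  refine ⟨fun N => (key N).1, squeeze_zero (fun N => integral_nonneg fun x => cubeErr_nonneg hf α N x p)
    (fun N => (key N).2) ?_⟩
  have h0 : Tendsto (fun N : ℕ => C * Real.sqrt ((V N + strength N) / strength N ^ 2)) atTop (𝓝 0) := by
    have hb : Tendsto (fun N : ℕ => (N : ℝ) + 1) atTop atTop :=
      tendsto_atTop_add_const_right _ 1 tendsto_natCast_atTop_atTop
    have r1 : Tendsto (fun N : ℕ => ((N : ℝ) + 1) ^ (-(3 / 10) : ℝ)) atTop (𝓝 0) :=
      (tendsto_rpow_neg_atTop (by norm_num)).comp hb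
    have r2 : Tendsto (fun N : ℕ => ((N : ℝ) + 1) ^ (-(2 / 5) : ℝ)) atTop (𝓝 0) :=
      (tendsto_rpow_neg_atTop (by norm_num)).comp hb
    set K := 6 * (B + 1) * (Real.sqrt α + 1)
    have hlim : Tendsto (fun N : ℕ => (V N + strength N) / strength N ^ 2) atTop (𝓝 0) := by
      refine squeeze_zero (fun N => by have := hV1 N; have := hs1 N; positivity) (fun N => ?_)
        (by simpa using (r1.const_mul K).add r2)
      set n : ℝ := (N : ℝ) + 1 with hn
      have hn1 : 1 ≤ n := by simp [hn]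
      have hn0 : 0 < n := by linarith
      have hVn : V N ≤ K * n ^ (1 / 2 : ℝ) := by
        rw [← Real.sqrt_eq_rpow]
        simp only [hV, K]
        rw [Real.sqrt_mul hα.le, mul_assoc (6 * (B + 1))]
        refine mul_le_mul_of_nonneg_left ?_ (by positivity)
        nlinarith [Real.one_le_sqrt.2 hn1]
      have e2 : strength N ^ 2 = n ^ (4 / 5 : ℝ) := by
        rw [strength, ← hn, ← Real.rpow_natCast, ← Real.rpow_mul hn0.le]; norm_num
      rw [add_div, e2]
      refine add_le_add ?_ (le_of_eq ?_)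
      · refine (div_le_div_of_nonneg_right hVn (by positivity)).trans_eq ?_
        rw [mul_div_assoc, ← Real.rpow_sub hn0]; norm_num
      · rw [strength, ← hn, ← Real.rpow_sub hn0]; norm_num
    simpa using (hlim.sqrt).const_mul C
  refine h0.congr fun N => ?_
  rw [Real.sqrt_div (by have := hV1 N; have := hs1 N; positivity),
    Real.sqrt_sq (strength_pos N).le, mul_div_assoc]

/-- For smooth potentials the pressure is asymptotically above every lower bound of Parisi's
functional. -/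
theorem smooth_lower {f : ℝ → ℝ} (hf : Smf f) {α : ℝ} (hα : 0 < α) {c : ℝ}
    (hc : ∀ q0 ls, RsbParam q0 ls → c ≤ parisiIsing f α q0 ls) {η : ℝ} (hη : 0 < η) :
    ∀ᶠ N : ℕ in atTop, c - η ≤ cubePressure f N ⌊α * N⌋₊ := by
  obtain ⟨B, hP⟩ := exists_pot hf
  refine pressure_of_cavity hP hf.smooth.continuous hα (fun η hη => ?_) hη
  obtain ⟨P, δ, hδ, hsmall⟩ := cavDiff_ge_of_small hP hf hα hc (show 0 < η / 2 by linarith)
  obtain ⟨C0, hC00, hC0⟩ := cavDiff_ge hP hf hα
  refine ⟨P, ?_⟩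
  set M := (|c| + C0) / δ with hM
  have hM0 : 0 ≤ M := by positivity
  have hlim : Tendsto (fun N => M * ∑ p, ∫ x in box P, cubeErr hP α N x p) atTop (𝓝 0) := by
    simpa using (tendsto_finsetSum Finset.univ fun p _ => (tendsto_integral_cubeErr hP hα P p).2).const_mul M
  filter_upwards [hsmall, hlim.eventually (eventually_lt_nhds (show (0 : ℝ) < η / 2 by linarith))]
    with N hN hN2
  have hfin : IsFiniteMeasure (volume.restrict (box P)) := ⟨by simp [volume_box]⟩
  have hi : IntegrableOn (fun x => ∑ p, cubeErr hP α N x p) (box P) :=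
    integrable_finsetSum _ fun p _ => (tendsto_integral_cubeErr hP hα P p).1 N
  have hmono : ∫ x in box P, (c - η / 2 - M * ∑ p, cubeErr hP α N x p) ≤
      ∫ x in box P, cavDiff hP α N x := by
    refine setIntegral_mono_on ((integrable_const _).sub (hi.const_mul M))
      (integrableOn_cavDiff hP hf.smooth.continuous hα.le N P)
      (MeasurableSet.univ_pi fun _ => measurableSet_Icc) fun x hx => ?_
    by_cases h : ∑ p, cubeErr hP α N x p ≤ δ
    · have := hN x hx h
      have := mul_nonneg hM0 (Finset.sum_nonneg (s := Finset.univ) fun p (_ : p ∈ Finset.univ) =>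
        cubeErr_nonneg hP α N x p)
      linarith
    · have h1 : |c| + C0 ≤ M * ∑ p, cubeErr hP α N x p := by
        calc |c| + C0 = M * δ := by rw [hM]; field_simp
          _ ≤ _ := mul_le_mul_of_nonneg_left (not_le.1 h).le hM0
      linarith [hC0 N P x, le_abs_self c]
  rw [integral_sub (integrable_const _) (hi.const_mul M), integral_const_mul,
    integral_finsetSum _ fun p _ => (tendsto_integral_cubeErr hP hα P p).1 N, setIntegral_const] at hmono
  simp only [measureReal_def, volume_box, ENNReal.toReal_one, one_smul] at hmono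
  linarith

end Vale.Agent.P157.Low
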