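import Vale.Agent.P157.Low.TiltLimitArr
import Vale.Agent.P157.Low.Cascade

/-!
Series for tilted systems and their limits.
-/

namespace Vale.Agent.P157.Low

open MeasureTheory ProbabilityTheory Filter
open scoped RealInnerProductSpace Topology

variable {S : ℕ → Sys} {A : Arr} {c δ B : ℝ} {W : ℝ → ℝ}

/-- The gain of one pattern as a series in the replica averages. -/
lemma Sys.logGain_series (T : Sys) (hm : Measurable W) {ρ : ℝ} (hρ : ρ < 1) (hc : 0 < c)
    (hW : ∀ y, |1 - W y / c| ≤ ρ) (G : ∀ k, Mat k → ℝ) (hGm : ∀ k, Measurable (G k))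
    (hG : ∀ k M, (Matrix.of M).PosSemidef → G k M = GE M fun h => ∏ l, (1 - W (h l) / c)) :
    T.logGain W = Real.log c - ∑' k : ℕ, T.expect (G (k + 1)) / ((k : ℝ) + 1) := by
  have hρ0 : 0 ≤ ρ := (abs_nonneg _).trans (hW 0)
  set F : ℕ → T.Ω → ℝ := fun k ω =>
    (∫ x, G (k + 1) (T.gram x) ∂Measure.pi fun _ : Fin (k + 1) => gibbs T.ref (T.w ω)) / ((k : ℝ) + 1)
    with hF
  have hFm : ∀ k, Measurable (F k) := fun k =>
    (T.measurable_inner measurable_id (F := fun _ x => G (k + 1) (T.gram x))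
      ((hGm _).comp ((T.measurable_gram _).comp measurable_snd))).div_const _
  have hFb : ∀ k ω, |F k ω| ≤ ρ ^ (k + 1) / ((k : ℝ) + 1) := fun k ω => by
    have := isProbabilityMeasure_gibbs (μ := T.ref) (T.wt ω)
    have hk : (0 : ℝ) < (k : ℝ) + 1 := by positivity
    simp only [hF]
    rw [abs_div, abs_of_pos hk]
    refine div_le_div_of_nonneg_right ?_ hk.le
    have := norm_integral_le_of_norm_le_const
      (μ := Measure.pi fun _ : Fin (k + 1) => gibbs T.ref (T.w ω))
      (f := fun x => G (k + 1) (T.gram x)) (C := ρ ^ (k + 1)) (Eventually.of_forall fun x => by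
        rw [Real.norm_eq_abs, hG _ _ (T.posSemidef_gram x)]
        exact abs_GE_le _ fun h => abs_prod_res_le hW h)
    simpa [Real.norm_eq_abs] using this
  have hpt : ∀ ω, ∫ g, Real.log (∫ x, W ⟪g, T.v x⟫ ∂gibbs T.ref (T.w ω)) ∂stdGaussian T.E =
      Real.log c - ∑' k, F k ω := fun ω => by
    have := isProbabilityMeasure_gibbs (μ := T.ref) (T.wt ω)
    rw [log_series _ T.measV hm hρ hc hW, logSer]
    congr 1
    refine tsum_congr fun k => ?_
    simp only [hF]
    congr 1
    refine integral_congr_ae (Eventually.of_forall fun x => ?_)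
    exact (hG _ _ (T.posSemidef_gram x)).symm
  have hs : ∀ ω, HasSum (fun k => F k ω) (∑' k, F k ω) := fun ω =>
    (Summable.of_norm_bounded (summable_pow_div hρ0 hρ) fun k => by
      rw [Real.norm_eq_abs]; exact hFb k ω).hasSum
  have htot := hasSum_integral_bdd (μ := T.law) hFm hFb (summable_pow_div hρ0 hρ) hs
  have hint : Integrable (fun ω => ∑' k, F k ω) T.law := by
    refine Integrable.of_bound (Measurable.tsum hFm).aestronglyMeasurable
      (∑' k : ℕ, ρ ^ (k + 1) / ((k : ℝ) + 1)) (Eventually.of_forall fun ω => ?_)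
    exact tsum_of_norm_bounded (summable_pow_div hρ0 hρ).hasSum fun k => by
      rw [Real.norm_eq_abs]; exact hFb k ω
  rw [Sys.logGain, integral_congr_ae (Eventually.of_forall hpt), integral_sub (integrable_const _) hint,
    integral_const, probReal_univ, one_smul, ← htot.tsum_eq]
  congr 1
  refine tsum_congr fun k => ?_
  simp only [hF]
  rw [integral_div]
  rfl

/-- Limit of the gain of one pattern. -/
theorem Conv.logGain (h : Conv S A) (hW : Weight c W) :
    Tendsto (fun j => (S j).logGain W) atTop (𝓝 (logArr A c W)) := by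
  have hWc : Continuous W := hW.smooth.smooth.continuous
  obtain ⟨ρ, hρ, hnear⟩ := hW.near
  have hρ0 : 0 ≤ ρ := (abs_nonneg _).trans (hnear 0)
  choose G hGc hGb hG using fun k : ℕ => exists_GE_ext
    (Θ := fun x : Fin k → ℝ => ∏ l, (1 - W (x l) / c)) (by fun_prop) (abs_prod_res_le hnear)
  simp only [fun j => (S j).logGain_series hWc.measurable hρ hW.cpos hnear G
    (fun k => (hGc k).measurable) hG]
  refine tendsto_const_nhds.sub ?_
  refine tendsto_tsum_of_dominated_convergence (summable_pow_div hρ0 hρ) (fun k => ?_)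
    (Eventually.of_forall fun j k => ?_)
  · have := (h (k + 1) (G (k + 1)) (hGc _) ⟨_, hGb _⟩).div_const ((k : ℝ) + 1)
    rwa [integral_congr_ae (g := fun R => GE R fun x => ∏ l, (1 - W (x l) / c))
      ((A.ae_posSemidef (k + 1)).mono fun R hR => hG _ R hR)] at this
  · have hk : (0 : ℝ) < (k : ℝ) + 1 := by positivity
    rw [Real.norm_eq_abs, abs_div, abs_of_pos hk]
    refine div_le_div_of_nonneg_right ?_ hk.le
    rw [(S j).expect_eq (hGc _).measurable (fun x => hGb _ _)]
    have := norm_integral_le_of_norm_le_const (μ := (S j).gramLaw (k + 1)) (f := G (k + 1))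
      (C := ρ ^ (k + 1)) (Eventually.of_forall fun R => by rw [Real.norm_eq_abs]; exact hGb _ R)
    simpa [Real.norm_eq_abs] using this

/-- Limit of insertions under a tilt. -/
theorem Conv.insert (h : Conv S A) (hW : Weight c W) (hm : Measurable W) (hδ : 0 < δ)
    (hb : ∀ y, δ ≤ W y ∧ W y ≤ B) {n : ℕ} {Φ : Mat n → ℝ} (hΦ : Continuous Φ)
    (hΦb : ∃ D, ∀ R, |Φ R| ≤ D) (θ : Fin n → ℝ → ℝ) (hθ : ∀ l, Continuous (θ l))
    (hθb : ∀ l, ∃ D, ∀ y, |θ l y| ≤ D) :
    Tendsto (fun j => ((S j).tilt W hm hδ hb).avgRep n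
        (fun p x => Φ ((S j).gram x) * ∏ l, θ l ⟪p.2, (S j).v (x l)⟫))
      atTop (𝓝 (ratioArr A c W Φ θ)) := by
  have hWc : Continuous W := hW.smooth.smooth.continuous
  obtain ⟨ρ, hρ, hnear⟩ := hW.near
  have hρ0 : 0 ≤ ρ := (abs_nonneg _).trans (hnear 0)
  obtain ⟨D0, hD0⟩ := hΦb
  choose D hD using hθb
  choose G hGc hGb hG using fun k : ℕ => exists_GE_ext
    (continuous_ratioTerm (c := c) (k := k) hWc hθ) (abs_ratioTerm_le hnear hD)
  set M := |D0| * ∏ l, D l * (1 + ρ) with hM
  set Ψ : ∀ k, Mat (n + k) → ℝ := fun k R => Φ (sub R (Fin.castAdd k)) * G k R with hΨ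
  have hΨc : ∀ k, Continuous (Ψ k) := fun k =>
    (hΦ.comp (by unfold sub; fun_prop)).mul (hGc k)
  have hΨb : ∀ k R, |Ψ k R| ≤ M * ρ ^ k := fun k R => by
    simp only [hΨ, hM]
    rw [abs_mul, mul_assoc]
    exact mul_le_mul ((hD0 _).trans (le_abs_self _)) (hGb k R) (abs_nonneg _) (abs_nonneg _)
  have key : ∀ j, ((S j).tilt W hm hδ hb).avgRep n
      (fun p x => Φ ((S j).gram x) * ∏ l, θ l ⟪p.2, (S j).v (x l)⟫) =
        ∑' k : ℕ, (negCoef n k : ℝ) * (S j).expect (Ψ k) := by
    intro j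
    refine ((S j).tilt_series hm hδ hb hρ hW.cpos hnear (Θ := fun _ x => Φ ((S j).gram x))
      (hΦ.measurable.comp (((S j).measurable_gram n).comp measurable_snd))
      ⟨D0, fun _ x => hD0 _⟩ θ (fun l => (hθ l).measurable) fun l => ⟨D l, hD l⟩).trans
      (tsum_congr fun k => ?_)
    congr 1
    simp only [Sys.expect]
    congr 1
    funext ω x
    simp only [hΨ, hG k _ ((S j).posSemidef_gram x)]
    rfl
  simp only [key]
  refine tendsto_tsum_of_dominated_convergence (summable_negCoef n hρ0 hρ M) (fun k => ?_)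
    (Eventually.of_forall fun j k => ?_)
  · have := (h (n + k) (Ψ k) (hΨc k) ⟨_, hΨb k⟩).const_mul (negCoef n k : ℝ)
    rwa [integral_congr_ae (g := fun R => Φ (sub R (Fin.castAdd k)) * GE R (ratioTerm c W θ))
      ((A.ae_posSemidef (n + k)).mono fun R hR => by simp only [hΨ, hG k R hR])] at this
  · rw [Real.norm_eq_abs, abs_mul, Nat.abs_cast]
    refine mul_le_mul_of_nonneg_left ?_ (Nat.cast_nonneg' _)
    rw [(S j).expect_eq (hΨc k).measurable (fun x => hΨb k _)]
    have := norm_integral_le_of_norm_le_const (μ := (S j).gramLaw (n + k)) (f := Ψ k)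
      (C := M * ρ ^ k) (Eventually.of_forall fun R => by rw [Real.norm_eq_abs]; exact hΨb k R)
    simpa [Real.norm_eq_abs] using this

/-- Variance left after the levels of a discretisation. -/
noncomputable def Discr.rest {K : ℕ} (D : Discr A K) : ℝ := 1 - D.q (Fin.last D.r)

lemma Discr.rest_nonneg {K : ℕ} (D : Discr A K) : 0 ≤ D.rest := D.rest_nonneg'

/-- Bounds pass through a heat average. -/
lemma abs_heat_le {G : ℝ → ℝ} {b : ℝ} (hb : ∀ y, |G y| ≤ b) (τ y : ℝ) : |Low.heat G τ y| ≤ b := by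
  have := norm_integral_le_of_norm_le_const (μ := gaussianReal 0 1)
    (f := fun z => G (y + Real.sqrt τ * z)) (C := b)
    (Eventually.of_forall fun z => by rw [Real.norm_eq_abs]; exact hb _)
  simpa [Low.heat, Real.norm_eq_abs] using this

lemma heat_res (hm : Measurable W) {ρ : ℝ} (hW : ∀ y, |1 - W y / c| ≤ ρ) (τ y : ℝ) :
    Low.heat (fun x => 1 - W x / c) τ y = 1 - Low.heat W τ y / c := by
  have hi : Integrable (fun z => W (y + Real.sqrt τ * z) / c) (gaussianReal 0 1) :=
    Integrable.of_bound (Measurable.aestronglyMeasurable (by fun_prop)) (1 + ρ)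
      (Eventually.of_forall fun z => by rw [Real.norm_eq_abs]; exact abs_wt_le hW _)
  simp only [Low.heat]
  rw [integral_sub (integrable_const _) hi, integral_const, probReal_univ, one_smul, integral_div]

lemma Weight.heat (hW : Weight c W) (τ : ℝ) : Weight c (Low.heat W τ) := by
  obtain ⟨ρ, hρ, hnear⟩ := hW.near
  refine ⟨Sm.heat hW.smooth τ, hW.cpos, ρ, hρ, fun y => ?_⟩
  rw [← heat_res hW.smooth.smooth.continuous.measurable hnear]
  exact abs_heat_le hnear τ y

/-- The log value of a discretisation tends to that of the array. -/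
theorem tendsto_logVal (D : ∀ K, Discr A (K + 2)) (hW : Weight c W) :
    Tendsto (fun K => (D K).C.logVal (incr (D K).q) c (Low.heat W (D K).rest)) atTop
      (𝓝 (logArr A c W)) := by
  have hWc : Continuous W := hW.smooth.smooth.continuous
  obtain ⟨ρ, hρ, hnear⟩ := hW.near
  have hρ0 : 0 ≤ ρ := (abs_nonneg _).trans (hnear 0)
  choose G hGc hGb hG using fun k : ℕ => exists_GE_ext
    (Θ := fun x : Fin k → ℝ => ∏ l, (1 - W (x l) / c)) (by fun_prop) (abs_prod_res_le hnear)
  refine tendsto_const_nhds.sub ?_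
  refine tendsto_tsum_of_dominated_convergence (summable_pow_div hρ0 hρ) (fun k => ?_)
    (Eventually.of_forall fun K k => ?_)
  · have h1 := (tendsto_discr D (hGc (k + 1)) (hGb (k + 1))).div_const ((k : ℝ) + 1)
    rw [integral_congr_ae (g := fun R => GE R fun x => ∏ l, (1 - W (x l) / c))
      ((A.ae_posSemidef (k + 1)).mono fun R hR => hG _ R hR)] at h1
    refine h1.congr fun K => ?_
    congr 1
    have h2 := (D K).sum_GE_qmat (fun (_ : Fin (k + 1)) y => 1 - W y / c) (fun _ => by fun_prop)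
      (fun _ => ⟨ρ, hnear⟩) (hG (k + 1)) (fun _ => 1)
    simp only [one_mul, heat_res hWc.measurable hnear] at h2
    exact h2.symm
  · have hk : (0 : ℝ) < (k : ℝ) + 1 := by positivity
    rw [Real.norm_eq_abs, abs_div, abs_of_pos hk]
    refine div_le_div_of_nonneg_right ((Finset.abs_sum_le_sum_abs _ _).trans ?_) hk.le
    refine (Finset.sum_le_sum (g := fun B => (D K).C.P (k + 1) B * ρ ^ (k + 1)) fun B _ => ?_).trans_eq
      (by rw [← Finset.sum_mul, (D K).C.total, one_mul])
    rw [abs_mul, abs_of_nonneg ((D K).C.nonneg _ _)]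
    refine mul_le_mul_of_nonneg_left (abs_GE_le _ fun h => abs_prod_res_le ?_ h) ((D K).C.nonneg _ _)
    exact fun y => by rw [← heat_res hWc.measurable hnear]; exact abs_heat_le hnear _ y

/-- The ratio values of discretisations tend to those of the array. -/
theorem tendsto_ratio (D : ∀ K, Discr A (K + 2)) (hW : Weight c W) {n : ℕ} {Φ : Mat n → ℝ}
    (hΦ : Continuous Φ) (hΦb : ∃ B, ∀ R, |Φ R| ≤ B) (θ : Fin n → ℝ → ℝ) (hθ : ∀ l, Continuous (θ l))
    (hθb : ∀ l, ∃ B, ∀ y, |θ l y| ≤ B) :
    Tendsto (fun K => (D K).C.ratio (incr (D K).q) c (Low.heat W (D K).rest)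
        (fun B => Φ (qmat (D K).q B))
        (fun l y => Low.heat (fun x => θ l x * W x) (D K).rest y / Low.heat W (D K).rest y))
      atTop (𝓝 (ratioArr A c W Φ θ)) := by
  have hWc : Continuous W := hW.smooth.smooth.continuous
  obtain ⟨ρ, hρ, hnear⟩ := hW.near
  have hρ0 : 0 ≤ ρ := (abs_nonneg _).trans (hnear 0)
  obtain ⟨D0, hD0⟩ := hΦb
  choose E hE using hθb
  choose G hGc hGb hG using fun k : ℕ => exists_GE_ext
    (continuous_ratioTerm (c := c) (k := k) hWc hθ) (abs_ratioTerm_le hnear hE)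
  set M := |D0| * ∏ l, E l * (1 + ρ) with hM
  set Ψ : ∀ k, Mat (n + k) → ℝ := fun k R => Φ (sub R (Fin.castAdd k)) * G k R with hΨ
  have hΨc : ∀ k, Continuous (Ψ k) := fun k =>
    (hΦ.comp (by unfold sub; fun_prop)).mul (hGc k)
  have hΨb : ∀ k R, |Ψ k R| ≤ M * ρ ^ k := fun k R => by
    simp only [hΨ, hM]
    rw [abs_mul, mul_assoc]
    exact mul_le_mul ((hD0 _).trans (le_abs_self _)) (hGb k R) (abs_nonneg _) (abs_nonneg _)
  -- the factors of the series
  set F : ∀ k, Fin (n + k) → ℝ → ℝ := fun k =>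
    Fin.append (fun l y => θ l y * (W y / c)) (fun _ y => 1 - W y / c) with hF
  have hterm : ∀ k (x : Fin (n + k) → ℝ), ratioTerm c W θ x = ∏ l, F k l (x l) := fun k x => by
    simp [ratioTerm, hF, Fin.prod_univ_add]
  have hFm : ∀ k l, Measurable (F k l) := fun k l => by
    refine Fin.addCases (fun i => ?_) (fun i => ?_) l
    · simp only [hF, Fin.append_left]; fun_prop
    · simp only [hF, Fin.append_right]; fun_prop
  have hFb : ∀ k l, ∃ C, ∀ y, |F k l y| ≤ C := fun k l => by
    refine Fin.addCases (fun i => ?_) (fun i => ?_) l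
    · refine ⟨E i * (1 + ρ), fun y => ?_⟩
      simp only [hF, Fin.append_left, abs_mul]
      exact mul_le_mul (hE i y) (abs_wt_le hnear y) (abs_nonneg _) ((abs_nonneg _).trans (hE i 0))
    · exact ⟨ρ, fun y => by simpa only [hF, Fin.append_right] using hnear y⟩
  have key : ∀ K, (D K).C.ratio (incr (D K).q) c (Low.heat W (D K).rest)
      (fun B => Φ (qmat (D K).q B))
      (fun l y => Low.heat (fun x => θ l x * W x) (D K).rest y / Low.heat W (D K).rest y) =
        ∑' k : ℕ, (negCoef n k : ℝ) * ∑ B, (D K).C.P (n + k) B * Ψ k (qmat (D K).q B) := by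
    intro K
    have hpos : ∀ y, Low.heat W (D K).rest y ≠ 0 := fun y => by
      obtain ⟨-, -, ρ', hρ', hn'⟩ := hW.heat (D K).rest
      exact (pos_of_near hW.cpos hρ' hn' y).ne'
    refine tsum_congr fun k => ?_
    congr 1
    have h2 := (D K).sum_GE_qmat (F k) (hFm k) (hFb k) (G := G k)
      (fun M hM => (hG k M hM).trans (congrArg (GE M) (funext (hterm k))))
      (fun B => Φ (qmat (D K).q (sub B (Fin.castAdd k))))
    simp only [hΨ]
    simp only [qmat_sub _ _ (Fin.castAdd_injective n k)] at h2 ⊢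
    refine Eq.trans ?_ h2
    refine Finset.sum_congr rfl fun B _ => ?_
    congr 3
    funext x
    simp only [ratioTerm, hF, Fin.prod_univ_add, Fin.append_left, Fin.append_right]
    congr 1
    · refine Finset.prod_congr rfl fun l _ => ?_
      have hh : ∀ y, Low.heat (fun x => θ l x * (W x / c)) (D K).rest y =
          Low.heat (fun x => θ l x * W x) (D K).rest y / c := fun y => by
        simp only [Low.heat, ← integral_div, mul_div_assoc]
      show _ = Low.heat (fun y => θ l y * (W y / c)) (D K).rest _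
      rw [hh, ← mul_div_assoc, div_mul_cancel₀ _ (hpos _)]
    · exact Finset.prod_congr rfl fun l _ => (heat_res hWc.measurable hnear _ _).symm
  simp only [key]
  refine tendsto_tsum_of_dominated_convergence (summable_negCoef n hρ0 hρ M) (fun k => ?_)
    (Eventually.of_forall fun K k => ?_)
  · have h1 := (tendsto_discr D (hΨc k) (hΨb k)).const_mul (negCoef n k : ℝ)
    rwa [integral_congr_ae (g := fun R => Φ (sub R (Fin.castAdd k)) * GE R (ratioTerm c W θ))
      ((A.ae_posSemidef (n + k)).mono fun R hR => by simp only [hΨ, hG k R hR])] at h1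
  · rw [Real.norm_eq_abs, abs_mul, Nat.abs_cast]
    refine mul_le_mul_of_nonneg_left ((Finset.abs_sum_le_sum_abs _ _).trans ?_) (Nat.cast_nonneg' _)
    refine (Finset.sum_le_sum (g := fun B => (D K).C.P (n + k) B * (M * ρ ^ k)) fun B _ => ?_).trans_eq
      (by rw [← Finset.sum_mul, (D K).C.total, one_mul])
    rw [abs_mul, abs_of_nonneg ((D K).C.nonneg _ _)]
    exact mul_le_mul_of_nonneg_left (hΨb k _) ((D K).C.nonneg _ _)

/-- A tilt keeps the law of the limit. -/
lemma ratioArr_one (hW : Weight c W) {n : ℕ} {Φ : Mat n → ℝ} (hΦ : Continuous Φ)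
    (hΦb : ∃ B, ∀ R, |Φ R| ≤ B) : ratioArr A c W Φ (fun _ _ => 1) = ∫ R, Φ R ∂A.law n := by
  obtain ⟨D0, hD0⟩ := hΦb
  set D : ∀ K, Discr A (K + 2) := fun K => (A.exists_discr (Nat.le_add_left 2 K)).some
  refine tendsto_nhds_unique (tendsto_ratio D hW hΦ ⟨D0, hD0⟩ (fun _ _ => 1) (fun _ => continuous_const)
    (fun _ => ⟨1, fun _ => by simp⟩)) ((tendsto_discr D hΦ hD0).congr fun K => ?_)
  have h1 : (fun (_ : Fin n) y => Low.heat (fun x => (1 : ℝ) * W x) (D K).rest y /
      Low.heat W (D K).rest y) = fun _ _ => 1 := by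
    funext l y
    obtain ⟨-, -, ρ', hρ', hn'⟩ := hW.heat (D K).rest
    simp only [one_mul]
    exact div_self (pos_of_near hW.cpos hρ' hn' y).ne'
  rw [h1, Casc.ratio_one _ (D K).incr_nonneg (hW.heat (D K).rest)]

/-- Tilts do not change the limit array. -/
theorem Conv.tilt (h : Conv S A) (hW : Weight c W) (hm : Measurable W) (hδ : 0 < δ)
    (hb : ∀ y, δ ≤ W y ∧ W y ≤ B) : Conv (fun j => (S j).tilt W hm hδ hb) A := by
  intro n Φ hΦ hΦb
  have h1 := h.insert hW hm hδ hb hΦ hΦb (fun _ _ => 1) (fun _ => continuous_const)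
    (fun _ => ⟨1, fun _ => by simp⟩)
  rw [ratioArr_one hW hΦ hΦb] at h1
  refine h1.congr fun j => ?_
  simp only [Finset.prod_const_one, mul_one]
  rfl

end Vale.Agent.P157.Low
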