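import Vale.Agent.P157.Low.CubePairs
import Vale.Agent.P157.Low.TiltLimit
import Vale.Agent.P157.Low.Taylor

/-!
The gain of a Poisson number of patterns along a convergent sequence of cube systems.
-/

namespace Vale.Agent.P157.Low

open MeasureTheory ProbabilityTheory Filter
open scoped RealInnerProductSpace Topology

variable {f : ℝ → ℝ} {B : ℝ} {P : ℕ}

lemma exists_pot (hs : Smf f) : ∃ B, Pot f B := by
  obtain ⟨C, hC⟩ := hs.bdd
  exact ⟨C, hs.smooth.continuous.measurable, fun x => by simpa using hC 0 (by norm_num) x⟩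

lemma sm_expW (hs : Smf f) : Sm (expW f) := by
  obtain ⟨B, hf⟩ := exists_pot hs
  obtain ⟨D, hD1, hD⟩ := hs.exists_bound
  have hc : ContDiff ℝ 3 (expW f) := Real.contDiff_exp.comp (hs.smooth.of_le (by norm_num))
  refine ⟨hc, Real.exp B * (5 * D ^ 3), fun k hk x => ?_⟩
  have e1 : iteratedDeriv 1 f = deriv f := iteratedDeriv_one
  have e2 : iteratedDeriv 2 f = deriv (deriv f) := by rw [iteratedDeriv_succ, e1]
  have d0 : ∀ x, HasDerivAt f (deriv f x) x := fun x => by
    simpa [e1] using hs.hasDerivAt (k := 0) (by norm_num) x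
  have d1 : ∀ x, HasDerivAt (deriv f) (deriv (deriv f) x) x := fun x => by
    simpa [e1, e2] using hs.hasDerivAt (k := 1) (by norm_num) x
  have d2 : ∀ x, HasDerivAt (deriv (deriv f)) (iteratedDeriv 3 f x) x := fun x => by
    simpa [e2] using hs.hasDerivAt (k := 2) (by norm_num) x
  have g0 : ∀ x, HasDerivAt (expW f) (expW f x * deriv f x) x := fun x => (d0 x).exp
  have g1 : ∀ x, HasDerivAt (fun y => expW f y * deriv f y)
      (expW f x * deriv f x * deriv f x + expW f x * deriv (deriv f) x) x := fun x => (g0 x).mul (d1 x)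
  have g2 : ∀ x, HasDerivAt (fun y => expW f y * deriv f y * deriv f y + expW f y * deriv (deriv f) y)
      ((expW f x * deriv f x * deriv f x + expW f x * deriv (deriv f) x) * deriv f x +
          expW f x * deriv f x * deriv (deriv f) x +
        (expW f x * deriv f x * deriv (deriv f) x + expW f x * iteratedDeriv 3 f x)) x :=
    fun x => ((g1 x).mul (d1 x)).add ((g0 x).mul (d2 x))
  have i1 : iteratedDeriv 1 (expW f) = fun y => expW f y * deriv f y := by
    rw [iteratedDeriv_one]; exact funext fun y => (g0 y).deriv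
  have i2 : iteratedDeriv 2 (expW f) =
      fun y => expW f y * deriv f y * deriv f y + expW f y * deriv (deriv f) y := by
    rw [iteratedDeriv_succ, i1]; exact funext fun y => (g1 y).deriv
  obtain ⟨b1, b2, b3⟩ := hD x
  have hW : |expW f x| ≤ Real.exp B := by
    rw [expW, Real.abs_exp]; exact (expW_mem hf x).2
  have hE := Real.exp_pos B
  have p1 : (1 : ℝ) ≤ D ^ 3 := one_le_pow₀ hD1
  have p2 : D ≤ D ^ 3 := le_self_pow₀ hD1 (by norm_num)
  have p3 : D ^ 2 ≤ D ^ 3 := pow_le_pow_right₀ hD1 (by norm_num)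
  interval_cases k
  · rw [iteratedDeriv_zero]
    calc |expW f x| ≤ Real.exp B * 1 := by rw [mul_one]; exact hW
      _ ≤ _ := mul_le_mul_of_nonneg_left (by linarith) hE.le
  · rw [i1]
    simp only [abs_mul]
    calc |expW f x| * |deriv f x| ≤ Real.exp B * D := mul_le_mul hW b1 (abs_nonneg _) hE.le
      _ ≤ _ := mul_le_mul_of_nonneg_left (by linarith) hE.le
  · rw [i2]
    simp only
    rw [show expW f x * deriv f x * deriv f x + expW f x * deriv (deriv f) x =
      expW f x * (deriv f x * deriv f x + deriv (deriv f) x) by ring, abs_mul]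
    refine mul_le_mul hW ((abs_add_le _ _).trans ?_) (abs_nonneg _) hE.le
    rw [abs_mul]
    nlinarith [mul_le_mul b1 b1 (abs_nonneg _) (by linarith)]
  · rw [iteratedDeriv_succ, i2, (g2 x).deriv]
    rw [show (expW f x * deriv f x * deriv f x + expW f x * deriv (deriv f) x) * deriv f x +
          expW f x * deriv f x * deriv (deriv f) x +
          (expW f x * deriv f x * deriv (deriv f) x + expW f x * iteratedDeriv 3 f x) =
        expW f x * (deriv f x * (deriv f x * deriv f x) + 3 * (deriv f x * deriv (deriv f) x) +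
          iteratedDeriv 3 f x) by ring, abs_mul]
    refine mul_le_mul hW ?_ (abs_nonneg _) hE.le
    refine (abs_add_le _ _).trans ((add_le_add (abs_add_le _ _) le_rfl).trans ?_)
    simp only [abs_mul, Nat.abs_ofNat]
    have h11 := mul_le_mul b1 b1 (abs_nonneg _) (by linarith : (0 : ℝ) ≤ D)
    have h111 := mul_le_mul b1 h11 (mul_nonneg (abs_nonneg _) (abs_nonneg _)) (by linarith : (0 : ℝ) ≤ D)
    have h12 := mul_le_mul b1 b2 (abs_nonneg _) (by linarith : (0 : ℝ) ≤ D)
    nlinarith

lemma weight_expW (hf : Pot f B) (hs : Smf f) : Weight (Real.exp B) (expW f) := by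
  refine ⟨sm_expW hs, Real.exp_pos B, 1 - Real.exp (-B) / Real.exp B,
    by linarith [div_pos (Real.exp_pos (-B)) (Real.exp_pos B)], fun y => ?_⟩
  obtain ⟨h1, h2⟩ := expW_mem hf y
  have h3 := div_le_div_of_nonneg_right h1 (Real.exp_pos B).le
  have h4 : expW f y / Real.exp B ≤ 1 := (div_le_one (Real.exp_pos B)).2 h2
  rw [abs_le]
  constructor <;> linarith

lemma abs_logGain_le (hf : Pot f B) (S : Sys) : |S.logGain (expW f)| ≤ B := by
  have h := norm_integral_le_of_norm_le_const (μ := S.law) (C := B)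
    (f := fun ω => ∫ g, Real.log (∫ x, expW f ⟪g, S.v x⟫ ∂gibbs S.ref (S.w ω)) ∂stdGaussian S.E)
    (Eventually.of_forall fun ω => ?_)
  · simpa [Sys.logGain, Real.norm_eq_abs] using h
  · have := isProbabilityMeasure_gibbs (μ := S.ref) (S.wt ω)
    refine (norm_integral_le_of_norm_le_const (C := B) (Eventually.of_forall fun g => ?_)).trans_eq
      (by simp)
    rw [Real.norm_eq_abs]
    exact abs_log_integral_exp_le (hf.meas.comp (measurable_const.inner S.measV)) fun x => hf.bound _

lemma abs_free_sub_le (hf : Pot f B) (N : ℕ) {lam : ℝ} (hl : 0 ≤ lam) (x : Fin P → ℝ) (k : ℕ) :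
    |(pSys hf N lam k x).free - (pSys hf N lam 0 x).free| ≤ k * B := by
  induction k with
  | zero => simp
  | succ k ih =>
    have e : (pSys hf N lam (k + 1) x).free - (pSys hf N lam 0 x).free =
        (pSys hf N lam k x).logGain (expW f) +
          ((pSys hf N lam k x).free - (pSys hf N lam 0 x).free) := by
      rw [pSys_logGain hf N hl k x]; ring
    rw [e]
    refine (abs_add_le _ _).trans ((add_le_add (abs_logGain_le hf _) ih).trans_eq ?_)
    push_cast; ring

lemma integrable_free (hf : Pot f B) (N : ℕ) {lam : ℝ} (hl : 0 ≤ lam) (x : Fin P → ℝ) (μ : ℝ) :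
    Integrable (fun k => (pSys hf N lam k x).free) (poiLaw μ) :=
  integrable_poisson_of_le (C := |(pSys hf N lam 0 x).free| + B) (j := 1) fun k => by
    have := abs_free_sub_le hf N hl x k
    have h' := abs_sub_abs_le_abs_sub (pSys hf N lam k x).free (pSys hf N lam 0 x).free
    have := mul_nonneg (abs_nonneg (pSys hf N lam 0 x).free) (Nat.cast_nonneg (α := ℝ) k)
    rw [pow_one]
    nlinarith [hf.nonneg]

/-- The gain of the extra patterns of one more spin. -/
lemma free_step (hf : Pot f B) (N : ℕ) {α : ℝ} (hα : 0 ≤ α) (x : Fin P → ℝ) :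
    (pSys hf N (α * ((N : ℝ) + 2)) 0 x).free - (pSys hf N (α * ((N : ℝ) + 1)) 0 x).free =
      ∫ k, ((pSys hf N (α * ((N : ℝ) + 1)) k x).free - (pSys hf N (α * ((N : ℝ) + 1)) 0 x).free)
        ∂poiLaw α := by
  have hl : 0 ≤ α * ((N : ℝ) + 1) := by positivity
  rw [show α * ((N : ℝ) + 2) = α * ((N : ℝ) + 1) + α by ring, pSys_free_add hf N hl hα x,
    integral_sub (integrable_free hf N hl x α) (integrable_const _)]
  simp

lemma free_step_ge (hf : Pot f B) (N : ℕ) {α : ℝ} (hα : 0 ≤ α) (x : Fin P → ℝ) :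
    -(α * B) ≤ (pSys hf N (α * ((N : ℝ) + 2)) 0 x).free - (pSys hf N (α * ((N : ℝ) + 1)) 0 x).free := by
  have hl : 0 ≤ α * ((N : ℝ) + 1) := by positivity
  rw [free_step hf N hα x]
  have hid : Integrable (fun k : ℕ => (k : ℝ)) (poiLaw α) := by simpa using integrable_poiLaw_pow α 1
  have h := integral_mono (μ := poiLaw α) (hid.mul_const B).neg
    ((integrable_free hf N hl x α).sub (integrable_const (pSys hf N (α * ((N : ℝ) + 1)) 0 x).free))
    fun k => (abs_le.1 (abs_free_sub_le hf N hl x k)).1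
  simp only [Pi.neg_apply, Pi.sub_apply] at h
  rw [integral_neg, integral_mul_const, poiLaw_id hα] at h
  exact h

section Conv

variable {A : Arr} {Ns : ℕ → ℕ} {Ps : ℕ → ℕ} {xs : ∀ j, Fin (Ps j) → ℝ} {α : ℝ}

lemma conv_count (hf : Pot f B) (hs : Smf f)
    (h : Conv (fun j => pSys hf (Ns j) (α * ((Ns j : ℝ) + 1)) 0 (xs j)) A) (k : ℕ) :
    Conv (fun j => pSys hf (Ns j) (α * ((Ns j : ℝ) + 1)) k (xs j)) A := by
  induction k with
  | zero => exact h
  | succ k ih =>
    intro n Φ hΦ hb
    have h1 := (ih.tilt (weight_expW hf hs) (measurable_expW hf) (Real.exp_pos (-B)) (expW_mem hf))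
      n Φ hΦ hb
    refine h1.congr fun j => ?_
    exact pSys_tilt_expect hf (Ns j) (α * ((Ns j : ℝ) + 1)) k (xs j) Φ hΦ.measurable hb

lemma conv_next (hf : Pot f B) (hs : Smf f) (hα : 0 ≤ α)
    (h : Conv (fun j => pSys hf (Ns j) (α * ((Ns j : ℝ) + 1)) 0 (xs j)) A) :
    Conv (fun j => pSys hf (Ns j) (α * ((Ns j : ℝ) + 2)) 0 (xs j)) A := by
  intro n Φ hΦ hb
  obtain ⟨C, hC⟩ := hb
  have := A.prob n
  have e : ∀ j, (pSys hf (Ns j) (α * ((Ns j : ℝ) + 2)) 0 (xs j)).expect Φ =
      ∫ k, (pSys hf (Ns j) (α * ((Ns j : ℝ) + 1)) k (xs j)).expect Φ ∂poiLaw α := fun j => by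
    rw [show α * ((Ns j : ℝ) + 2) = α * ((Ns j : ℝ) + 1) + α by ring]
    exact pSys_expect_add hf (Ns j) (by positivity) hα (xs j) Φ hΦ.measurable ⟨C, hC⟩
  simp only [e]
  have key := tendsto_integral_of_dominated_convergence (μ := poiLaw α) (fun _ => C)
    (F := fun j k => (pSys hf (Ns j) (α * ((Ns j : ℝ) + 1)) k (xs j)).expect Φ)
    (f := fun _ => ∫ R, Φ R ∂A.law n)
    (fun j => (measurable_of_countable _).aestronglyMeasurable) (integrable_const C)
    (fun j => Eventually.of_forall fun k => ?_)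
    (Eventually.of_forall fun k => conv_count hf hs h k n Φ hΦ ⟨C, hC⟩)
  · simpa using key
  · set T := pSys hf (Ns j) (α * ((Ns j : ℝ) + 1)) k (xs j)
    rw [T.expect_eq hΦ.measurable (fun x => hC _)]
    exact (norm_integral_le_of_norm_le_const (C := C)
      (Eventually.of_forall fun R => by rw [Real.norm_eq_abs]; exact hC R)).trans_eq (by simp)

/-- The gain of the extra patterns tends to `α` times the value of one pattern. -/
lemma tendsto_gain (hf : Pot f B) (hs : Smf f) (hα : 0 ≤ α)
    (h : Conv (fun j => pSys hf (Ns j) (α * ((Ns j : ℝ) + 1)) 0 (xs j)) A) :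
    Tendsto (fun j => (pSys hf (Ns j) (α * ((Ns j : ℝ) + 2)) 0 (xs j)).free -
        (pSys hf (Ns j) (α * ((Ns j : ℝ) + 1)) 0 (xs j)).free)
      atTop (𝓝 (α * logArr A (Real.exp B) (expW f))) := by
  have hk : ∀ k : ℕ, Tendsto (fun j => (pSys hf (Ns j) (α * ((Ns j : ℝ) + 1)) k (xs j)).free -
      (pSys hf (Ns j) (α * ((Ns j : ℝ) + 1)) 0 (xs j)).free) atTop
      (𝓝 ((k : ℝ) * logArr A (Real.exp B) (expW f))) := by
    intro k
    induction k with
    | zero => simp
    | succ k ih =>
      have h1 := ((conv_count hf hs h k).logGain (weight_expW hf hs)).add ih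
      rw [show logArr A (Real.exp B) (expW f) + (k : ℝ) * logArr A (Real.exp B) (expW f) =
        ((k + 1 : ℕ) : ℝ) * logArr A (Real.exp B) (expW f) by push_cast; ring] at h1
      refine h1.congr fun j => ?_
      rw [pSys_logGain hf (Ns j) (by positivity) k (xs j)]
      ring
  simp only [fun j => free_step hf (Ns j) hα (xs j)]
  have hid : Integrable (fun k : ℕ => (k : ℝ)) (poiLaw α) := by simpa using integrable_poiLaw_pow α 1
  have key := tendsto_integral_of_dominated_convergence (μ := poiLaw α) (fun k : ℕ => (k : ℝ) * B)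
    (F := fun j k => (pSys hf (Ns j) (α * ((Ns j : ℝ) + 1)) k (xs j)).free -
      (pSys hf (Ns j) (α * ((Ns j : ℝ) + 1)) 0 (xs j)).free)
    (f := fun k : ℕ => (k : ℝ) * logArr A (Real.exp B) (expW f))
    (fun j => (measurable_of_countable _).aestronglyMeasurable) (hid.mul_const B)
    (fun j => Eventually.of_forall fun k => (Real.norm_eq_abs _).trans_le
      (abs_free_sub_le hf (Ns j) (by positivity) (xs j) k))
    (Eventually.of_forall hk)
  rwa [integral_mul_const, poiLaw_id hα] at key

end Conv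

end Vale.Agent.P157.Low
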