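import Vale.Agent.P157.Low.Gain
import Vale.Agent.P157.Low.CavityGain
import Vale.Agent.P157.Low.Cascade

/-!
The cavity value of a discretisation is at least Parisi's functional.
-/

namespace Vale.Agent.P157.Low

open MeasureTheory ProbabilityTheory Filter

variable {r : ℕ} {f : ℝ → ℝ} {B : ℝ} {A : Arr}

/-- The exponent following a level, one after the last. -/
noncomputable def mNext (m : Fin (r + 1) → ℝ) (j : Fin (r + 1)) : ℝ :=
  if h : (j : ℕ) + 1 ≤ r then m ⟨(j : ℕ) + 1, by omega⟩ else 1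

/-- Averages over a pair of replicas, level by level. -/
lemma Casc.sum_pair (C : Casc r) (g : Fin (r + 1) → ℝ) :
    ∑ B, C.P 2 B * g (B 0 1) = ∑ j, (mNext C.cdf j - C.cdf j) * g j := by
  have hd : ∀ j, mNext C.cdf j - C.cdf j = ∑ B, C.P 2 B * (if B 0 1 = j then 1 else 0) := by
    intro j
    by_cases h : (j : ℕ) + 1 ≤ r
    · rw [mNext, dif_pos h, Casc.cdf, Casc.cdf, ← Finset.sum_sub_distrib]
      refine Finset.sum_congr rfl fun B _ => ?_
      rw [← mul_sub]
      congr 1
      by_cases h1 : B 0 1 = j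
      · simp [h1, Fin.lt_def]
      · by_cases h2 : B 0 1 < j
        · have h3 : (B 0 1) < (⟨(j : ℕ) + 1, by omega⟩ : Fin (r + 1)) := by
            rw [Fin.lt_def] at h2 ⊢; simp only; omega
          simp [h1, h2, h3]
        · have h3 : ¬(B 0 1) < (⟨(j : ℕ) + 1, by omega⟩ : Fin (r + 1)) := by
            rw [Fin.lt_def] at h2 ⊢
            have : (B 0 1 : ℕ) ≠ (j : ℕ) := fun hh => h1 (Fin.ext hh)
            simp only; omega
          simp [h1, h2, h3]
    · have hlast : j = Fin.last r := Fin.ext (by have := j.isLt; simp only [Fin.val_last]; omega)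
      rw [mNext, dif_neg h, Casc.cdf]
      rw [show (1 : ℝ) = ∑ B, C.P 2 B from (C.total 2).symm, ← Finset.sum_sub_distrib]
      refine Finset.sum_congr rfl fun B _ => ?_
      subst hlast
      by_cases h1 : B 0 1 = Fin.last r
      · simp [h1, C.total 2]
      · simp [h1, Fin.lt_last_iff_ne_last.2 h1, C.total 2]
  simp only [hd, Finset.sum_mul]
  rw [Finset.sum_comm]
  refine Finset.sum_congr rfl fun B _ => ?_
  simp [Finset.sum_ite_eq]

lemma Casc.cdf_zero (C : Casc r) : C.cdf 0 = 0 := by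
  rw [Casc.cdf]
  exact Finset.sum_eq_zero fun B _ => by simp

lemma Casc.cdf_mono (C : Casc r) : Monotone C.cdf := fun i j hij =>
  Finset.sum_le_sum fun B _ => mul_le_mul_of_nonneg_left (by
    by_cases h : B 0 1 < i
    · simp [h, h.trans_le hij]
    · simp only [h, if_false]; split_ifs <;> norm_num) (C.nonneg _ _)

lemma Casc.cdf_le_one (C : Casc r) (j : Fin (r + 1)) : C.cdf j ≤ 1 :=
  (Finset.sum_le_sum fun B _ => mul_le_mul_of_nonneg_left
    (by split_ifs <;> norm_num : (if B 0 1 < j then (1 : ℝ) else 0) ≤ 1) (C.nonneg _ _)).trans_eq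
      (by simpa using C.total 2)

lemma Discr.levelParam {K : ℕ} (D : Discr A K) (hK : 1 ≤ K) : LevelParam D.C.cdf D.q where
  zero := D.C.cdf_zero
  pos j hj := ⟨D.cdfpos j hj, D.C.cdf_le_one j⟩
  monom := D.C.cdf_mono
  monoq := D.monoq
  rangeq j := ⟨(D.rangeq j).1, (D.rangeq j).2.trans_lt (by
    have : (0 : ℝ) < 1 / (K : ℝ) := by
      have : (0 : ℝ) < (K : ℝ) := by exact_mod_cast hK
      positivity
    linarith)⟩

lemma Discr.pairing_eq {K : ℕ} (D : Discr A K) (f : ℝ → ℝ) :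
    D.pairing f = ∑ j : Fin (D.r + 1),
      ((if h : (j : ℕ) + 1 ≤ D.r then D.C.cdf ⟨(j : ℕ) + 1, by omega⟩ else 1) - D.C.cdf j) *
        (D.q j * conj f D.C.cdf D.q j) :=
  D.C.sum_pair fun j => D.q j * conj f D.C.cdf D.q j

/-- The value of a discretisation is above every lower bound of Parisi's functional, for large `L`
and small error. -/
lemma exists_value_ge (hf : Pot f B) (hs : Smf f) {α : ℝ} (hα : 0 ≤ α) {c : ℝ}
    (hc : ∀ q0 ls, RsbParam q0 ls → c ≤ parisiIsing f α q0 ls) {ε : ℝ} (hε : 0 < ε) :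
    ∃ L, 0 < L ∧ ∀ (A : Arr) (K : ℕ) (D : Discr A (K + 2)),
      c - ε ≤ α * D.C.logVal (incr D.q) (Real.exp B) (Low.heat (expW f) D.rest) +
        α / 2 * (D.pairing f - D.rdiag f) + D.spinVal f α L := by
  obtain ⟨E, -, hE⟩ := hs.exists_bound
  obtain ⟨L, hL, hv⟩ := value_ge_parisi hs hα (fun x => (hE x).1) hε
  refine ⟨L, hL, fun A K D => ?_⟩
  obtain ⟨h1, h2⟩ := hv L le_rfl D.r D.C.cdf D.q (D.levelParam (by omega))
  rw [Casc.logVal_eq _ D.incr_nonneg ((weight_expW hf hs).heat D.rest), D.pairing_eq f]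
  have h3 := hc _ _ h1
  exact (sub_le_sub_right h3 ε).trans h2

end Vale.Agent.P157.Low
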