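import Vale.Agent.P157.Low.Pert
import Vale.Agent.P157.Ising

/-!
The perturbed perceptron on the cube with a Poisson number of patterns, and its cavity version
with one more spin.
-/

namespace Vale.Agent.P157.Low

open MeasureTheory ProbabilityTheory
open scoped RealInnerProductSpace

/-- The space of one pattern. -/
abbrev Sp (N : ℕ) := EuclideanSpace ℝ (Fin N)

/-- Independent standard Gaussian patterns. -/
noncomputable def patLaw (N : ℕ) : Measure (ℕ → Sp N) :=
  Measure.infinitePi fun _ => stdGaussian (Sp N)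

/-- The cavity fields of the new spin. -/
noncomputable def fieldLaw : Measure (ℕ → ℝ) := Measure.infinitePi fun _ => gaussianReal 0 1

instance (N : ℕ) : IsProbabilityMeasure (patLaw N) := by unfold patLaw; infer_instance

instance : IsProbabilityMeasure fieldLaw := by unfold fieldLaw; infer_instance

/-- The law of the number of patterns. -/
noncomputable def poiLaw (lam : ℝ) : Measure ℕ := poissonMeasure lam.toNNReal

instance (lam : ℝ) : IsProbabilityMeasure (poiLaw lam) := by unfold poiLaw; infer_instance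

/-- The perceptron on `N + 1` spins with `k` more than a Poisson number of patterns. -/
noncomputable def baseSys {f : ℝ → ℝ} {B : ℝ} (hf : Pot f B) (N : ℕ) (lam : ℝ) (k : ℕ) : Sys where
  Ω := ℕ × (ℕ → Sp (N + 1))
  mΩ := inferInstance
  law := (poiLaw lam).prod (patLaw (N + 1))
  prob := inferInstance
  X := Fin (N + 1) → Bool
  mX := inferInstance
  ref := cubeMeasure (N + 1)
  probRef := inferInstance
  E := Sp (N + 1)
  normE := inferInstance
  innerE := inferInstance
  finE := inferInstance
  mE := inferInstance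
  borelE := inferInstance
  v := cubeVec (N + 1)
  measV := measurable_of_finite _
  unit := norm_cubeVec (Nat.succ_pos N)
  w ω x := Real.exp (∑ a ∈ Finset.range (ω.1 + k), f ⟪ω.2 a, cubeVec (N + 1) x⟫)
  measW := measurable_from_prod_countable_left fun x => Real.measurable_exp.comp
    (show Measurable fun ω : ℕ × (ℕ → Sp (N + 1)) =>
        ∑ a ∈ Finset.range (ω.1 + k), f ⟪ω.2 a, cubeVec (N + 1) x⟫ from
      measurable_from_prod_countable_right fun M => Finset.measurable_sum (Finset.range (M + k))
        fun a _ => hf.meas.comp (Measurable.inner (measurable_pi_apply a)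
          (measurable_const (a := cubeVec (N + 1) x))))
  wt ω := Wt.exp (measurable_of_finite _) (β := (ω.1 + k : ℕ) * B) fun x =>
    (Finset.abs_sum_le_sum_abs _ _).trans ((Finset.sum_le_sum fun a _ => hf.bound _).trans_eq (by simp))

/-- Strength of the perturbation. -/
noncomputable def strength (N : ℕ) : ℝ := ((N : ℝ) + 1) ^ (2 / 5 : ℝ)

/-- The perturbed system. -/
noncomputable def pSys {f : ℝ → ℝ} {B : ℝ} (hf : Pot f B) (N : ℕ) (lam : ℝ) (k : ℕ) {P : ℕ}
    (x : Fin P → ℝ) : Sys :=
  (baseSys hf N lam k).perturb (N := N + 1) (cubeVec (N + 1))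
    (measurable_of_finite (cubeVec (N + 1)))
    (norm_cubeVec (Nat.succ_pos N)) (strength N) x

/-- Expected log-partition function of a system. -/
noncomputable def Sys.free (S : Sys) : ℝ := ∫ ω, logI S.ref (S.w ω) ∂S.law

/-- Weight of a configuration with the new spin `s`: `N + 2` spins, perturbation on the old ones. -/
noncomputable def cavW (f : ℝ → ℝ) (N : ℕ) {P : ℕ} (x : Fin P → ℝ)
    (ω : (ℕ × ((ℕ → Sp (N + 1)) × (ℕ → ℝ))) × PertSpace (N + 1) P) (z : (Fin (N + 1) → Bool) × Bool) :
    ℝ :=
  Real.exp (∑ a ∈ Finset.range ω.1.1,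
      f (Real.sqrt (1 - 1 / ((N : ℝ) + 2)) * ⟪ω.1.2.1 a, cubeVec (N + 1) z.1⟫ +
        Real.sqrt (1 / ((N : ℝ) + 2)) * (ω.1.2.2 a * if z.2 then 1 else -1))) *
    Real.exp (strength N * ⟪ω.2, pertVec x (cubeVec (N + 1) z.1)⟫)

/-- Expected log-partition function with the new spin. -/
noncomputable def cavTop (f : ℝ → ℝ) (α : ℝ) (N : ℕ) {P : ℕ} (x : Fin P → ℝ) : ℝ :=
  ∫ ω, Real.log (((∫ σ, cavW f N x ω (σ, true) ∂cubeMeasure (N + 1)) +
      ∫ σ, cavW f N x ω (σ, false) ∂cubeMeasure (N + 1)) / 2)
    ∂((poiLaw (α * ((N : ℝ) + 2))).prod ((patLaw (N + 1)).prod fieldLaw)).prod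
      (stdGaussian (PertSpace (N + 1) P))

/-- Gain of the new spin and its patterns. -/
noncomputable def cavDiff {f : ℝ → ℝ} {B : ℝ} (hf : Pot f B) (α : ℝ) (N : ℕ) {P : ℕ} (x : Fin P → ℝ) : ℝ :=
  cavTop f α N x - (pSys hf N (α * ((N : ℝ) + 1)) 0 x).free

end Vale.Agent.P157.Low
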