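import Vale.Agent.P157.RSB.Defs

/-!
Objects of the lower bound: Gaussian averages at a covariance, discrete overlap arrays with the
Ghirlanda–Guerra identities, and limit overlap arrays.
-/

namespace Vale.Agent.P157.Low

open MeasureTheory ProbabilityTheory

/-- Average of `Θ` over a centred Gaussian vector with covariance `C`. -/
noncomputable def GE {n : ℕ} (C : Fin n → Fin n → ℝ) (Θ : (Fin n → ℝ) → ℝ) : ℝ :=
  ∫ x, Θ (WithLp.ofLp x) ∂multivariateGaussian (0 : EuclideanSpace ℝ (Fin n)) (Matrix.of C)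

/-- Matrices of overlaps. -/
abbrev Mat (n : ℕ) := Fin n → Fin n → ℝ

/-- Matrices of overlap levels. -/
abbrev LMat (r n : ℕ) := Fin n → Fin n → Fin (r + 1)

/-- Restriction of a matrix along a map of indices. -/
def sub {α : Type} {k n : ℕ} (R : Fin n → Fin n → α) (e : Fin k → Fin n) : Fin k → Fin k → α :=
  fun a b => R (e a) (e b)

/-- An exchangeable ultrametric array with finitely many levels and the Ghirlanda–Guerra
identities. -/
structure Casc (r : ℕ) where
  P : ∀ n, LMat r n → ℝ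
  nonneg : ∀ n A, 0 ≤ P n A
  total : ∀ n, ∑ A, P n A = 1
  marg : ∀ {k n : ℕ} (e : Fin k → Fin n), Function.Injective e → ∀ Φ : LMat r k → ℝ,
    ∑ A, P n A * Φ (sub A e) = ∑ A, P k A * Φ A
  symm : ∀ n A, P n A ≠ 0 → ∀ a b, A a b = A b a
  diag : ∀ n A, P n A ≠ 0 → ∀ a, A a a = Fin.last r
  ultra : ∀ n A, P n A ≠ 0 → ∀ a b c, min (A a b) (A b c) ≤ A a c
  gg : ∀ (n : ℕ) (l : Fin n) (Φ : LMat r n → ℝ) (ψ : Fin (r + 1) → ℝ),
    (n : ℝ) * ∑ A, P (n + 1) A * (Φ (sub A Fin.castSucc) * ψ (A l.castSucc (Fin.last n))) =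
      (∑ A, P n A * Φ A) * (∑ A, P 2 A * ψ (A 0 1)) +
        ∑ l' ∈ Finset.univ.erase l, ∑ A, P n A * (Φ A * ψ (A l l'))

/-- Probability that two replicas meet below level `j`. -/
noncomputable def Casc.cdf {r : ℕ} (c : Casc r) (j : Fin (r + 1)) : ℝ :=
  ∑ A, c.P 2 A * (if A 0 1 < j then 1 else 0)

/-- Covariance with variance increments `d` on the levels. -/
noncomputable def lcov {r n : ℕ} (d : Fin (r + 1) → ℝ) (A : LMat r n) : Mat n :=
  fun a b => ∑ i, if i ≤ A a b then d i else 0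

/-- A limit array: exchangeable Gram arrays with the Ghirlanda–Guerra identities. -/
structure Arr where
  law : ∀ n, Measure (Mat n)
  prob : ∀ n, IsProbabilityMeasure (law n)
  marg : ∀ {k n : ℕ} (e : Fin k → Fin n), Function.Injective e →
    (law n).map (fun R => sub R e) = law k
  symm : ∀ n, ∀ᵐ R ∂law n, ∀ a b, R a b = R b a
  diag : ∀ n, ∀ᵐ R ∂law n, ∀ a, R a a = 1
  bdd : ∀ n, ∀ᵐ R ∂law n, ∀ a b, |R a b| ≤ 1
  pos : ∀ n (c : Fin n → ℝ), ∀ᵐ R ∂law n, 0 ≤ ∑ a, ∑ b, c a * c b * R a b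
  gg : ∀ (n : ℕ) (l : Fin n) (Φ : Mat n → ℝ) (ψ : ℝ → ℝ), Measurable Φ → Measurable ψ →
    (∃ C, ∀ R, |Φ R| ≤ C) → (∃ C, ∀ x, |ψ x| ≤ C) →
    (n : ℝ) * ∫ R, Φ (sub R Fin.castSucc) * ψ (R l.castSucc (Fin.last n)) ∂law (n + 1) =
      (∫ R, Φ R ∂law n) * (∫ R, ψ (R 0 1) ∂law 2) +
        ∑ l' ∈ Finset.univ.erase l, ∫ R, Φ R * ψ (R l l') ∂law n

/-- Smooth bounded functions with bounded derivatives up to order three. -/
structure Sm (G : ℝ → ℝ) : Prop where
  smooth : ContDiff ℝ 3 G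
  bdd : ∃ C, ∀ k ≤ 3, ∀ x, |iteratedDeriv k G x| ≤ C

/-- Average of `G` over a centred Gaussian shift of variance `τ`. -/
noncomputable def heat (G : ℝ → ℝ) (τ y : ℝ) : ℝ := ∫ z, G (y + Real.sqrt τ * z) ∂gaussianReal 0 1

/-- The nested potentials, from the innermost level `u` outwards: `k` levels have been averaged. -/
noncomputable def potUp {r : ℕ} (m d : Fin (r + 1) → ℝ) (u : ℝ → ℝ) : ℕ → ℝ → ℝ
  | 0 => u
  | k + 1 =>
    if h : k ≤ r then
      let j : Fin (r + 1) := ⟨r - k, by omega⟩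
      if m j = 0 then heat (potUp m d u k) (d j)
      else fun y => Real.log (heat (fun x => Real.exp (m j * potUp m d u k x)) (d j) y) / m j
    else potUp m d u k

/-- An insertion carried outwards by the tilted averages. -/
noncomputable def insUp {r : ℕ} (m d : Fin (r + 1) → ℝ) (u θ : ℝ → ℝ) : ℕ → ℝ → ℝ
  | 0 => θ
  | k + 1 =>
    if h : k ≤ r then
      let j : Fin (r + 1) := ⟨r - k, by omega⟩
      fun y => heat (fun x => Real.exp (m j * potUp m d u k x) * insUp m d u θ k x) (d j) y /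
        heat (fun x => Real.exp (m j * potUp m d u k x)) (d j) y
    else insUp m d u θ k

/-- Two insertions meeting at level `j`, carried out to the root and evaluated at the origin. -/
noncomputable def pairRoot {r : ℕ} (m d : Fin (r + 1) → ℝ) (u θ θ' : ℝ → ℝ) (j : Fin (r + 1)) : ℝ :=
  let k := r - (j : ℕ)
  let U := potUp m d u k
  let η := fun y => insUp m d u θ k y * insUp m d u θ' k y
  insUp (fun i : Fin ((j : ℕ) + 1) => m ⟨i, by omega⟩) (fun i => d ⟨i, by omega⟩) U η ((j : ℕ) + 1) 0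

/-- Series for the expected log-average of `W`, where `W` takes values in `(0, 2 c)`. -/
noncomputable def logSer (c : ℝ) (W : ℝ → ℝ) (E : ∀ n, ((Fin n → ℝ) → ℝ) → ℝ) : ℝ :=
  Real.log c - ∑' k : ℕ, E (k + 1) (fun h => ∏ l, (1 - W (h l) / c)) / ((k : ℝ) + 1)

/-- Coefficient `C (n - 1 + k, k)` of the negative power series of order `n`. -/
def negCoef : ℕ → ℕ → ℕ
  | 0, k => if k = 0 then 1 else 0
  | n + 1, k => (n + k).choose k

/-- Integrand of the `k`-th term of the ratio series with insertions `θ`. -/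
noncomputable def ratioTerm {n k : ℕ} (c : ℝ) (W : ℝ → ℝ) (θ : Fin n → ℝ → ℝ) (h : Fin (n + k) → ℝ) : ℝ :=
  (∏ l, θ l (h (Fin.castAdd k l)) * (W (h (Fin.castAdd k l)) / c)) *
    ∏ l, (1 - W (h (Fin.natAdd n l)) / c)

/-- Ratio series in a discrete array: `Φ` times insertions, averaged with weight `W`. -/
noncomputable def Casc.ratio {r : ℕ} (C : Casc r) (d : Fin (r + 1) → ℝ) (c : ℝ) (W : ℝ → ℝ) {n : ℕ}
    (Φ : LMat r n → ℝ) (θ : Fin n → ℝ → ℝ) : ℝ :=
  ∑' k : ℕ, (negCoef n k : ℝ) * ∑ A, C.P (n + k) A *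
    (Φ (sub A (Fin.castAdd k)) * GE (lcov d A) (ratioTerm c W θ))

/-- Log series in a discrete array. -/
noncomputable def Casc.logVal {r : ℕ} (C : Casc r) (d : Fin (r + 1) → ℝ) (c : ℝ) (W : ℝ → ℝ) : ℝ :=
  logSer c W fun n Θ => ∑ A, C.P n A * GE (lcov d A) Θ

/-- The levels of a matrix of overlaps: off the diagonal by `τ`, on it the last level. -/
def lift {r n : ℕ} (τ : ℝ → Fin (r + 1)) (R : Mat n) : LMat r n :=
  fun a b => if a = b then Fin.last r else τ (R a b)

/-- Increments of a level function. -/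
noncomputable def incr {r : ℕ} (q : Fin (r + 1) → ℝ) (j : Fin (r + 1)) : ℝ :=
  q j - if h : (j : ℕ) = 0 then 0 else q ⟨(j : ℕ) - 1, by omega⟩

/-- The matrix of values of levels, with unit diagonal. -/
def qmat {r n : ℕ} (q : Fin (r + 1) → ℝ) (A : LMat r n) : Mat n :=
  fun a b => if a = b then 1 else q (A a b)

/-- A positive weight around `c`, with bounded derivatives. -/
structure Weight (c : ℝ) (W : ℝ → ℝ) : Prop where
  smooth : Sm W
  cpos : 0 < c
  near : ∃ ρ, ρ < 1 ∧ ∀ y, |1 - W y / c| ≤ ρ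

/-- Five times differentiable with all these derivatives bounded. -/
structure Smf (f : ℝ → ℝ) : Prop where
  smooth : ContDiff ℝ 5 f
  bdd : ∃ C, ∀ k ≤ 5, ∀ x, |iteratedDeriv k f x| ≤ C

end Vale.Agent.P157.Low
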