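import Vale.Agent.P157.Ising

/-!
Replica averages of Gibbs measures, their derivatives along a tilt, and the variance of the
log-partition function in a Gaussian field.
-/

namespace Vale.Agent.P157.Low

open MeasureTheory ProbabilityTheory
open scoped RealInnerProductSpace

variable {X : Type} [MeasurableSpace X] {μ : Measure X} [IsProbabilityMeasure μ] {w : X → ℝ} {n : ℕ}

/-- The replica average as a ratio. -/
lemma integral_pi_gibbs (hw : Wt w) (ψ : (Fin n → X) → ℝ) :
    ∫ a, ψ a ∂Measure.pi (fun _ : Fin n => gibbs μ w) =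
      (∫ a, (∏ i, w (a i)) * ψ a ∂Measure.pi fun _ : Fin n => μ) / (∫ y, w y ∂μ) ^ n := by
  have hI := hw.integral_pos (μ := μ)
  set g : X → ℝ := fun y => w y / ∫ z, w z ∂μ with hg
  have hg0 : ∀ y, 0 ≤ g y := fun y => div_nonneg (hw.pos y).le hI.le
  have hgm : Measurable g := hw.meas.div_const _
  have hgi : Integrable g μ := hw.integrable.div_const _
  set d : (Fin n → X) → ℝ := fun a => ∏ i, g (a i) with hd
  have hdm : Measurable d := Finset.measurable_prod _ fun i _ => hgm.comp (measurable_pi_apply i)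
  have hd0 : ∀ a, 0 ≤ d a := fun a => Finset.prod_nonneg fun i _ => hg0 _
  have hdi : Integrable d (Measure.pi fun _ : Fin n => μ) := Integrable.fintype_prod fun _ => hgi
  have := isProbabilityMeasure_gibbs (μ := μ) hw
  have e : Measure.pi (fun _ : Fin n => gibbs μ w) =
      (Measure.pi fun _ : Fin n => μ).withDensity fun a => ENNReal.ofReal (d a) := by
    refine Measure.pi_eq fun s hs => ?_
    have hb : MeasurableSet (Set.pi Set.univ s) := MeasurableSet.univ_pi hs
    have hL : ∀ i, gibbs μ w (s i) = ENNReal.ofReal (∫ y, (s i).indicator g y ∂μ) := fun i => by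
      rw [integral_indicator (hs i), gibbs, withDensity_apply _ (hs i),
        ofReal_integral_eq_lintegral_ofReal hgi.integrableOn (Filter.Eventually.of_forall hg0)]
    rw [withDensity_apply _ hb,
      ← ofReal_integral_eq_lintegral_ofReal hdi.integrableOn (Filter.Eventually.of_forall hd0),
      ← integral_indicator hb]
    have hp : ∀ a, (Set.pi Set.univ s).indicator d a = ∏ i, (s i).indicator g (a i) := fun a => by
      by_cases ha : a ∈ Set.pi Set.univ s
      · rw [Set.indicator_of_mem ha]
        exact Finset.prod_congr rfl fun i _ => (Set.indicator_of_mem (ha i trivial) _).symm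
      · rw [Set.indicator_of_notMem ha]
        simp only [Set.mem_pi, Set.mem_univ, true_implies, not_forall] at ha
        obtain ⟨i, hi⟩ := ha
        rw [Finset.prod_eq_zero (Finset.mem_univ i) (Set.indicator_of_notMem hi _)]
    simp only [hp]
    rw [integral_fintype_prod_eq_prod (μ := fun _ : Fin n => μ) fun i y => (s i).indicator g y,
      ENNReal.ofReal_prod_of_nonneg fun i _ =>
        integral_nonneg fun y => Set.indicator_nonneg (fun y _ => hg0 y) y]
    simp only [hL]
  rw [e, integral_withDensity_eq_integral_toReal_smul hdm.ennreal_ofReal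
    (Filter.Eventually.of_forall fun a => ENNReal.ofReal_lt_top), ← integral_div]
  refine integral_congr_ae (Filter.Eventually.of_forall fun a => ?_)
  dsimp only
  rw [ENNReal.toReal_ofReal (hd0 a)]
  simp only [smul_eq_mul, hd, hg, Finset.prod_div_distrib,
    Finset.prod_const, Finset.card_univ, Fintype.card_fin]
  ring

section param

variable {K : Type} [MeasurableSpace K] {W : K → X → ℝ}

lemma measurable_gibbsAvg (hW : Measurable (Function.uncurry W)) (hWt : ∀ k, Wt (W k))
    {Θ : K → (Fin n → X) → ℝ} (hΘ : Measurable (Function.uncurry Θ)) :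
    Measurable fun k => ∫ a, Θ k a ∂Measure.pi (fun _ : Fin n => gibbs μ (W k)) := by
  simp only [fun k => integral_pi_gibbs (μ := μ) (n := n) (hWt k)]
  have h1 : Measurable fun z : K × (Fin n → X) => (∏ i, W z.1 (z.2 i)) * Θ z.1 z.2 :=
    (Finset.measurable_prod _ fun i _ =>
      hW.comp (measurable_fst.prodMk ((measurable_pi_apply i).comp measurable_snd))).mul hΘ
  exact (h1.stronglyMeasurable.integral_prod_right'
    (ν := Measure.pi fun _ : Fin n => μ)).measurable.div
    ((hW.stronglyMeasurable.integral_prod_right' (ν := μ)).measurable.pow_const n)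

lemma measurable_logI (hW : Measurable (Function.uncurry W)) : Measurable fun k => logI μ (W k) :=
  (hW.stronglyMeasurable.integral_prod_right' (ν := μ)).measurable.log

lemma abs_gibbsAvg_le (hw : Wt w) {ψ : (Fin n → X) → ℝ} {b : ℝ} (hb : ∀ a, |ψ a| ≤ b) :
    |∫ a, ψ a ∂Measure.pi (fun _ : Fin n => gibbs μ w)| ≤ b := by
  have := isProbabilityMeasure_gibbs (μ := μ) hw
  rw [← Real.norm_eq_abs]
  exact (norm_integral_le_of_norm_le_const
    (Filter.Eventually.of_forall fun a => (Real.norm_eq_abs _).trans_le (hb a))).trans_eq (by simp)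

end param

lemma integrable_of_bdd {Y : Type*} [MeasurableSpace Y] {ν : Measure Y} [IsFiniteMeasure ν]
    {f : Y → ℝ} (hf : Measurable f) {b : ℝ} (hb : ∀ y, |f y| ≤ b) : Integrable f ν :=
  Integrable.mono' (integrable_const b) hf.aestronglyMeasurable
    (Filter.Eventually.of_forall fun y => (Real.norm_eq_abs _).trans_le (hb y))

/-- A single replica. -/
lemma integral_pi_one {ν : Measure X} [IsProbabilityMeasure ν] {f : X → ℝ} (hf : Measurable f)
    (i : Fin n) : ∫ a, f (a i) ∂Measure.pi (fun _ : Fin n => ν) = ∫ y, f y ∂ν :=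
  integral_comp_eval hf.aestronglyMeasurable

/-- The last of `n + 1` replicas. -/
lemma integral_pi_last {ν : Measure X} [IsProbabilityMeasure ν] {F : (Fin (n + 1) → X) → ℝ}
    (hF : Measurable F) {b : ℝ} (hb : ∀ a, |F a| ≤ b) :
    ∫ a, F a ∂Measure.pi (fun _ : Fin (n + 1) => ν) =
      ∫ a, ∫ y, F (Fin.snoc a y) ∂ν ∂Measure.pi fun _ : Fin n => ν := by
  have hp := measurePreserving_piFinSuccAbove (fun _ : Fin (n + 1) => ν) (Fin.last n)
  rw [← hp.symm.integral_comp']
  have hs : ∀ z : X × (Fin n → X),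
      (MeasurableEquiv.piFinSuccAbove (fun _ : Fin (n + 1) => X) (Fin.last n)).symm z =
        Fin.snoc z.2 z.1 := fun z => by
    funext i
    simp [MeasurableEquiv.piFinSuccAbove_symm_apply, Fin.snocEquiv]
  rw [integral_prod_symm]
  · simp only [hs]
  · exact integrable_of_bdd (hF.comp (MeasurableEquiv.measurable _)) fun z => hb _

lemma wt_tilt {ξ : X → ℝ} (hξ : Measurable ξ) {c : ℝ} (hc : ∀ y, |ξ y| ≤ c) (t : ℝ) :
    Wt fun y => Real.exp (t * ξ y) :=
  Wt.exp (hξ.const_mul t) (β := |t| * c) fun y => by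
    rw [abs_mul]; exact mul_le_mul_of_nonneg_left (hc y) (abs_nonneg t)

lemma hasDerivAt_integral_exp {Y : Type} [MeasurableSpace Y] {ν : Measure Y} [IsFiniteMeasure ν]
    {F G : Y → ℝ} (hF : Measurable F) (hG : Measurable G) {bF bG : ℝ} (hbF : ∀ y, |F y| ≤ bF)
    (hbG : ∀ y, |G y| ≤ bG) :
    HasDerivAt (fun t => ∫ y, F y * Real.exp (t * G y) ∂ν) (∫ y, F y * G y ∂ν) 0 := by
  have h := (hasDerivAt_integral_of_dominated_loc_of_deriv_le (μ := ν) (x₀ := (0 : ℝ))
    (F := fun t y => F y * Real.exp (t * G y)) (F' := fun t y => F y * (Real.exp (t * G y) * G y))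
    (s := Metric.ball 0 1) (bound := fun _ => |bF| * (Real.exp |bG| * |bG|))
    (Metric.ball_mem_nhds 0 one_pos)
    (Filter.Eventually.of_forall fun t =>
      (hF.mul (hG.const_mul t).exp).aestronglyMeasurable)
    ((integrable_of_bdd hF hbF).congr (Filter.Eventually.of_forall fun y => by simp))
    (hF.mul (((hG.const_mul 0).exp).mul hG)).aestronglyMeasurable
    (Filter.Eventually.of_forall fun y t ht => ?_) (integrable_const _)
    (Filter.Eventually.of_forall fun y t _ => by
      have := ((hasDerivAt_id t).mul_const (G y)).exp.const_mul (F y)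
      simpa using this)).2
  · simpa using h
  · have ht' : |t| ≤ 1 := by
      rw [Metric.mem_ball, dist_zero_right, Real.norm_eq_abs] at ht
      exact ht.le
    rw [Real.norm_eq_abs, abs_mul, abs_mul, Real.abs_exp]
    have he : Real.exp (t * G y) ≤ Real.exp |bG| := Real.exp_le_exp.2 <| by
      refine (le_abs_self _).trans ?_
      rw [abs_mul]
      exact (mul_le_mul ht' ((hbG y).trans (le_abs_self _)) (abs_nonneg _) zero_le_one).trans_eq
        (one_mul _)
    exact mul_le_mul ((hbF y).trans (le_abs_self _))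
      (mul_le_mul he ((hbG y).trans (le_abs_self _)) (abs_nonneg _) (Real.exp_pos _).le)
      (by positivity) (abs_nonneg _)

/-- Derivative of a replica average along a tilt. -/
lemma hasDerivAt_gibbsAvg (hw : Wt w) {ξ : X → ℝ} (hξ : Measurable ξ) {c : ℝ} (hc : ∀ y, |ξ y| ≤ c)
    {ψ : (Fin n → X) → ℝ} (hψ : Measurable ψ) {b : ℝ} (hb : ∀ a, |ψ a| ≤ b) :
    HasDerivAt
      (fun t => ∫ a, ψ a ∂Measure.pi (fun _ : Fin n => gibbs μ fun y => w y * Real.exp (t * ξ y)))
      ((∫ a, ψ a * ∑ i, ξ (a i) ∂Measure.pi (fun _ : Fin n => gibbs μ w)) -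
        n * ((∫ a, ψ a ∂Measure.pi (fun _ : Fin n => gibbs μ w)) * ∫ y, ξ y ∂gibbs μ w)) 0 := by
  have hP := isProbabilityMeasure_gibbs (μ := μ) hw
  set π := gibbs μ w
  set G : (Fin n → X) → ℝ := fun a => ∑ i, ξ (a i) with hG
  have hGm : Measurable G := Finset.measurable_sum _ fun i _ => hξ.comp (measurable_pi_apply i)
  have hGb : ∀ a, |G a| ≤ n * c := fun a =>
    (Finset.abs_sum_le_sum_abs _ _).trans ((Finset.sum_le_sum fun i _ => hc _).trans_eq (by simp))
  have e : ∀ t, ∫ a, ψ a ∂Measure.pi (fun _ : Fin n => gibbs μ fun y => w y * Real.exp (t * ξ y)) =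
      (∫ a, ψ a * Real.exp (t * G a) ∂Measure.pi fun _ : Fin n => π) /
        (∫ y, Real.exp (t * ξ y) ∂π) ^ n := fun t => by
    have hu := wt_tilt hξ hc t
    rw [integral_pi_gibbs (hw.mul hu), integral_pi_gibbs hw, integral_gibbs hw]
    have hI := hw.integral_pos (μ := μ)
    rw [div_pow, div_div_div_cancel_right₀ (pow_ne_zero _ hI.ne')]
    congr 1
    refine integral_congr_ae (Filter.Eventually.of_forall fun a => ?_)
    simp only [hG, Finset.mul_sum, Real.exp_sum, Finset.prod_mul_distrib]
    ring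
  have h1 := hasDerivAt_integral_exp (ν := Measure.pi fun _ : Fin n => π) hψ hGm hb hGb
  have h2 := hasDerivAt_integral_exp (ν := π) (F := fun _ => (1 : ℝ)) measurable_const hξ
    (bF := 1) (fun _ => by simp) hc
  simp only [one_mul] at h2
  have hne : (∫ y, Real.exp (0 * ξ y) ∂π) ^ n ≠ 0 := by simp
  have h3 := h1.fun_div (h2.fun_pow n) hne
  rw [funext e]
  refine h3.congr_deriv ?_
  simp [hG]
  ring

/-- Replica average of one replica at every value of the tilt. -/
lemma hasDerivAt_gibbsMean (hw : Wt w) {ξ : X → ℝ} (hξ : Measurable ξ) {c : ℝ} (hc : ∀ y, |ξ y| ≤ c)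
    {h : X → ℝ} (hh : Measurable h) {b : ℝ} (hb : ∀ y, |h y| ≤ b) (t : ℝ) :
    HasDerivAt (fun t => ∫ y, h y ∂gibbs μ fun y => w y * Real.exp (t * ξ y))
      ((∫ y, h y * ξ y ∂gibbs μ fun y => w y * Real.exp (t * ξ y)) -
        (∫ y, h y ∂gibbs μ fun y => w y * Real.exp (t * ξ y)) *
          ∫ y, ξ y ∂gibbs μ fun y => w y * Real.exp (t * ξ y)) t := by
  set wt' : X → ℝ := fun y => w y * Real.exp (t * ξ y) with hwt'
  have hwt : Wt wt' := hw.mul (wt_tilt hξ hc t)
  have h0 := hasDerivAt_gibbsAvg (μ := μ) (n := 1) hwt hξ hc (ψ := fun a => h (a 0))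
    (hh.comp (measurable_pi_apply 0)) fun a => hb _
  have hone : ∀ (W : X → ℝ), Wt W → ∀ g : X → ℝ, Measurable g →
      ∫ a, g (a 0) ∂Measure.pi (fun _ : Fin 1 => gibbs μ W) = ∫ y, g y ∂gibbs μ W := fun W hW g hg => by
    have := isProbabilityMeasure_gibbs (μ := μ) hW
    exact integral_pi_one hg 0
  simp only [Fin.sum_univ_one, Nat.cast_one, one_mul] at h0
  rw [hone _ hwt (fun y => h y * ξ y) (hh.mul hξ), hone _ hwt h hh] at h0
  simp only [fun s => hone _ (hwt.mul (wt_tilt hξ hc s)) h hh] at h0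
  have h1 := HasDerivAt.comp t (h := fun r => r - t)
    (h₂ := fun s => ∫ y, h y ∂gibbs μ fun y => wt' y * Real.exp (s * ξ y))
    (by simpa using h0) ((hasDerivAt_id' t).sub_const t)
  have e : (fun r => ∫ y, h y ∂gibbs μ fun y => w y * Real.exp (r * ξ y)) =
      (fun s => ∫ y, h y ∂gibbs μ fun y => wt' y * Real.exp (s * ξ y)) ∘ fun r => r - t := by
    funext r
    simp only [Function.comp_apply, hwt', mul_assoc, ← Real.exp_add]
    ring_nf
  rw [e]
  simpa using h1

/-- Jensen's inequality for the exponential. -/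
lemma integral_le_log_integral_exp {ν : Measure X} [IsProbabilityMeasure ν] {H : X → ℝ}
    (hH : Measurable H) {b : ℝ} (hb : ∀ y, |H y| ≤ b) :
    ∫ y, H y ∂ν ≤ Real.log (∫ y, Real.exp (H y) ∂ν) := by
  set c := ∫ y, H y ∂ν with hc
  have hi : Integrable (fun y => Real.exp (H y)) ν := integrable_of_bdd hH.exp (b := Real.exp b)
    fun y => by rw [Real.abs_exp]; exact Real.exp_le_exp.2 (abs_le.1 (hb y)).2
  have hHi : Integrable H ν := integrable_of_bdd hH hb
  have h := integral_mono (((hHi.sub (integrable_const c)).add (integrable_const 1)).const_mul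
    (Real.exp c)) hi fun y => by
      simp only [Pi.add_apply, Pi.sub_apply]
      refine (mul_le_mul_of_nonneg_left (Real.add_one_le_exp (H y - c)) (Real.exp_pos c).le).trans_eq ?_
      rw [← Real.exp_add, add_sub_cancel]
  simp only [Pi.add_apply, Pi.sub_apply] at h
  rw [integral_const_mul, integral_add (hHi.sub' (integrable_const _)) (integrable_const _),
    integral_sub hHi (integrable_const _)] at h
  simp only [integral_const, probReal_univ, one_smul, ← hc, sub_self, zero_add, mul_one] at h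
  exact (Real.le_log_iff_exp_le ((Real.exp_pos c).trans_le h)).2 h

lemma sq_integral_le {Y : Type*} [MeasurableSpace Y] {ν : Measure Y} [IsProbabilityMeasure ν]
    {f : Y → ℝ} (hf : Integrable f ν) (hf2 : Integrable (fun y => f y ^ 2) ν) (c : ℝ) :
    ∫ y, (f y - c) ^ 2 ∂ν = (∫ y, (f y - ∫ y', f y' ∂ν) ^ 2 ∂ν) + ((∫ y, f y ∂ν) - c) ^ 2 := by
  set m := ∫ y', f y' ∂ν with hm
  have e : ∀ d, ∫ y, (f y - d) ^ 2 ∂ν = (∫ y, f y ^ 2 ∂ν) - 2 * d * m + d ^ 2 := fun d => by
    have : ∀ y, (f y - d) ^ 2 = f y ^ 2 - 2 * d * f y + d ^ 2 := fun y => by ring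
    simp only [this]
    rw [integral_add (hf2.sub' (hf.const_mul _)) (integrable_const _),
      integral_sub hf2 (hf.const_mul _), integral_const_mul]
    simp [hm]
  rw [e, e]
  ring

section field

variable {E : Type} [NormedAddCommGroup E] [InnerProductSpace ℝ E] [FiniteDimensional ℝ E]
  [MeasurableSpace E] [BorelSpace E]

lemma integrable_exp_norm (K : ℝ) : Integrable (fun g : E => Real.exp (K * ‖g‖)) (stdGaussian E) := by
  obtain ⟨C, hC, hi⟩ := IsGaussian.exists_integrable_exp_sq (stdGaussian E)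
  refine (hi.const_mul (Real.exp (K ^ 2 / (4 * C)))).mono'
    (Continuous.aestronglyMeasurable (by fun_prop)) (Filter.Eventually.of_forall fun g => ?_)
  rw [Real.norm_eq_abs, Real.abs_exp, ← Real.exp_add, Real.exp_le_exp]
  have h : 0 ≤ (2 * C * ‖g‖ - K) ^ 2 / (4 * C) := by positivity
  have e : (2 * C * ‖g‖ - K) ^ 2 / (4 * C) = C * ‖g‖ ^ 2 - K * ‖g‖ + K ^ 2 / (4 * C) := by
    field_simp
    ring
  linarith

lemma integral_exp_inner (u : E) : ∫ g, Real.exp ⟪g, u⟫ ∂stdGaussian E = Real.exp (‖u‖ ^ 2 / 2) := by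
  have h := IsGaussian.map_eq_gaussianReal (μ := stdGaussian E) (innerSL ℝ u)
  rw [integral_strongDual_stdGaussian, variance_dual_stdGaussian, innerSL_apply_norm] at h
  have hm := mgf_gaussianReal (p := stdGaussian E) (X := fun g => innerSL ℝ u g) h 1
  simp only [mgf, one_mul, innerSL_apply_apply] at hm
  simp only [real_inner_comm u] at hm ⊢
  rw [hm, Real.coe_toNNReal _ (sq_nonneg _)]
  norm_num

variable {U : X → E}

/-- Log-partition function in a field. -/
noncomputable def lz (μ : Measure X) (U : X → E) (w : X → ℝ) (h : E) : ℝ :=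
  logI μ fun y => w y * Real.exp ⟪h, U y⟫

omit [MeasurableSpace X] [FiniteDimensional ℝ E] [MeasurableSpace E] [BorelSpace E] in
lemma abs_inner_le_of {l : ℝ} (hl : ∀ y, ‖U y‖ ≤ l) (h : E) (y : X) : |⟪h, U y⟫| ≤ l * ‖h‖ :=
  (abs_real_inner_le_norm _ _).trans
    ((mul_le_mul_of_nonneg_left (hl y) (norm_nonneg h)).trans_eq (mul_comm _ _))

lemma wt_field (hU : Measurable U) {l : ℝ} (hl : ∀ y, ‖U y‖ ≤ l) (h : E) :
    Wt fun y => Real.exp ⟪h, U y⟫ :=
  Wt.exp (measurable_const.inner hU) (abs_inner_le_of hl h)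

lemma measurable_lz (hU : Measurable U) {K : Type} [MeasurableSpace K] {W : K → X → ℝ}
    (hW : Measurable (Function.uncurry W)) {h : K → E} (hh : Measurable h) :
    Measurable fun k => lz μ U (W k) (h k) :=
  measurable_logI (W := fun k y => W k y * Real.exp ⟪h k, U y⟫)
    (hW.mul ((hh.comp measurable_fst).inner (hU.comp measurable_snd)).exp)

lemma abs_lz_sub (hw : Wt w) (hU : Measurable U) {l : ℝ} (hl : ∀ y, ‖U y‖ ≤ l) (h : E) :
    |lz μ U w h - logI μ w| ≤ l * ‖h‖ := by
  have := isProbabilityMeasure_gibbs (μ := μ) hw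
  rw [lz, logI_mul hw (wt_field hU hl h), add_sub_cancel_left]
  exact abs_log_integral_exp_le (measurable_const.inner hU) (abs_inner_le_of hl h)

lemma integrable_lz (hw : Wt w) (hU : Measurable U) {l : ℝ} (hl : ∀ y, ‖U y‖ ≤ l) (c : ℝ) :
    Integrable (fun h => lz μ U w (c • h)) (stdGaussian E) ∧
      Integrable (fun h => lz μ U w (c • h) ^ 2) (stdGaussian E) := by
  have hm : Measurable fun h : E => lz μ U w (c • h) :=
    measurable_lz (W := fun _ : E => w) hU (hw.meas.comp measurable_snd) (measurable_const_smul c)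
  have hb : ∀ h : E, |lz μ U w (c • h)| ≤ |logI μ w| + |l| * |c| * ‖h‖ := fun h => by
    have h1 := abs_lz_sub (μ := μ) hw hU hl (c • h)
    rw [norm_smul, Real.norm_eq_abs, ← mul_assoc] at h1
    have h2 := mul_le_mul_of_nonneg_right (mul_le_mul_of_nonneg_right (le_abs_self l) (abs_nonneg c))
      (norm_nonneg h)
    linarith [abs_sub_abs_le_abs_sub (lz μ U w (c • h)) (logI μ w)]
  constructor
  · refine Integrable.mono' ((integrable_const |logI μ w|).add
      ((integrable_norm_pow (E := E) 1).const_mul (|l| * |c|))) hm.aestronglyMeasurable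
      (Filter.Eventually.of_forall fun h => ?_)
    simpa using hb h
  · refine Integrable.mono' ((integrable_const (2 * |logI μ w| ^ 2)).add
      ((integrable_norm_pow (E := E) 2).const_mul (2 * (|l| * |c|) ^ 2)))
      (hm.pow_const 2).aestronglyMeasurable (Filter.Eventually.of_forall fun h => ?_)
    rw [Real.norm_eq_abs, abs_of_nonneg (sq_nonneg _), Pi.add_apply]
    have h0 := mul_self_le_mul_self (abs_nonneg _) (hb h)
    rw [abs_mul_abs_self] at h0
    nlinarith [sq_nonneg (|logI μ w| - |l| * |c| * ‖h‖)]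

/-- A weak field changes the log-partition function little in mean square. -/
lemma integral_lz_sq_le {ν : Measure X} [IsProbabilityMeasure ν] (hU : Measurable U) {l : ℝ}
    (hl : ∀ y, ‖U y‖ ≤ l) (hl2 : l ^ 2 ≤ 1 / 4) :
    ∫ g, Real.log (∫ y, Real.exp ⟪g, U y⟫ ∂ν) ^ 2 ∂stdGaussian E ≤ 5 * l ^ 2 := by
  set Z : E → ℝ := fun g => ∫ y, Real.exp ⟪g, U y⟫ ∂ν with hZ
  set M : E → ℝ := fun g => ∫ y, ⟪g, U y⟫ ^ 2 ∂ν with hM
  have hjm : Measurable fun z : E × X => Real.exp ⟪z.1, U z.2⟫ :=
    (measurable_fst.inner (hU.comp measurable_snd)).exp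
  have hZm : Measurable Z := (hjm.stronglyMeasurable.integral_prod_right' (ν := ν)).measurable
  have hl0 : ∀ y, ‖U y‖ ^ 2 ≤ l ^ 2 := fun y => pow_le_pow_left₀ (norm_nonneg _) (hl y) 2
  have hZp : ∀ g, 0 < Z g := fun g => (wt_field hU hl g).integral_pos
  have hZb : ∀ g, Z g ≤ Real.exp (l * ‖g‖) := fun g => by
    refine (integral_mono (wt_field hU hl g).integrable (integrable_const _) fun y =>
      Real.exp_le_exp.2 ((le_abs_self _).trans (abs_inner_le_of hl g y))).trans_eq (by simp)
  have hMb : ∀ (g : E) (y : X), ⟪g, U y⟫ ^ 2 ≤ l ^ 2 * ‖g‖ ^ 2 := fun g y => by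
    rw [← sq_abs, ← mul_pow]
    exact pow_le_pow_left₀ (abs_nonneg _) (abs_inner_le_of hl g y) 2
  have hMm : Measurable fun z : E × X => ⟪z.1, U z.2⟫ ^ 2 :=
    (measurable_fst.inner (hU.comp measurable_snd)).pow_const 2
  have hpt : ∀ g, Real.log (Z g) ^ 2 ≤ M g + (Z g ^ 2 - 2 * Z g + 1) := fun g => by
    have hJ := integral_le_log_integral_exp (ν := ν) (measurable_const.inner hU) (abs_inner_le_of hl g)
    have hi2 : Integrable (fun y => ⟪g, U y⟫ ^ 2) ν :=
      integrable_of_bdd ((measurable_const.inner hU).pow_const 2) (b := l ^ 2 * ‖g‖ ^ 2)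
        fun y => by rw [abs_of_nonneg (sq_nonneg _)]; exact hMb g y
    have hsq := sq_integral_le (ν := ν) (f := fun y => ⟪g, U y⟫)
      (integrable_of_bdd (measurable_const.inner hU) (abs_inner_le_of hl g)) hi2 0
    simp only [sub_zero] at hsq
    have hv : (0 : ℝ) ≤ ∫ y, (⟪g, U y⟫ - ∫ y', ⟪g, U y'⟫ ∂ν) ^ 2 ∂ν :=
      integral_nonneg fun y => sq_nonneg _
    have hlog := Real.log_le_sub_one_of_pos (hZp g)
    rcases le_total 0 (Real.log (Z g)) with h | h
    · have hM0 : 0 ≤ M g := integral_nonneg fun y => sq_nonneg _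
      nlinarith [mul_self_le_mul_self h hlog]
    · have h' : Real.log (Z g) ^ 2 ≤ (∫ y, ⟪g, U y⟫ ∂ν) ^ 2 := by
        rw [← neg_sq, ← neg_sq (∫ y, ⟪g, U y⟫ ∂ν)]
        exact pow_le_pow_left₀ (neg_nonneg.2 h) (neg_le_neg hJ) 2
      simp only [hM]
      nlinarith [sq_nonneg (Z g - 1)]
  have hZi : Integrable Z (stdGaussian E) := Integrable.mono' (integrable_exp_norm l)
    hZm.aestronglyMeasurable (Filter.Eventually.of_forall fun g => by
      rw [Real.norm_eq_abs, abs_of_pos (hZp g)]; exact hZb g)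
  have hZ2i : Integrable (fun g => Z g ^ 2) (stdGaussian E) := by
    refine Integrable.mono' (integrable_exp_norm (2 * l))
      (hZm.pow_const 2).aestronglyMeasurable (Filter.Eventually.of_forall fun g => ?_)
    rw [Real.norm_eq_abs, abs_of_nonneg (sq_nonneg _)]
    refine (pow_le_pow_left₀ (hZp g).le (hZb g) 2).trans_eq ?_
    rw [← Real.exp_nat_mul]
    push_cast
    ring_nf
  have hMj : Integrable (fun z : E × X => ⟪z.1, U z.2⟫ ^ 2) ((stdGaussian E).prod ν) :=
    Integrable.mono' (((integrable_norm_pow (E := E) 2).comp_fst ν).const_mul (l ^ 2))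
      hMm.aestronglyMeasurable (Filter.Eventually.of_forall fun z => by
        rw [Real.norm_eq_abs, abs_of_nonneg (sq_nonneg _)]; exact hMb _ _)
  have hMi : Integrable M (stdGaussian E) := hMj.integral_prod_left
  have hL : Integrable (fun g => Real.log (Z g) ^ 2) (stdGaussian E) :=
    Integrable.mono' (hMi.add ((hZ2i.sub' (hZi.const_mul 2)).add (integrable_const 1)))
      (hZm.log.pow_const 2).aestronglyMeasurable (Filter.Eventually.of_forall fun g => by
        rw [Real.norm_eq_abs, abs_of_nonneg (sq_nonneg _)]; exact hpt g)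
  refine (integral_mono hL (hMi.add ((hZ2i.sub' (hZi.const_mul 2)).add (integrable_const 1)))
    hpt).trans ?_
  simp only [Pi.add_apply]
  rw [integral_add hMi (by exact (hZ2i.sub' (hZi.const_mul 2)).add (integrable_const 1)),
    integral_add (hZ2i.sub' (hZi.const_mul 2)) (integrable_const _),
    integral_sub hZ2i (hZi.const_mul 2), integral_const_mul]
  simp only [integral_const, probReal_univ, one_smul]
  -- the three moments
  have h1 : ∫ g, M g ∂stdGaussian E ≤ l ^ 2 := by
    simp only [hM]
    rw [integral_integral_swap hMj]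
    simp only [integral_inner_sq]
    refine (integral_mono ?_ (integrable_const (l ^ 2)) hl0).trans_eq (by simp)
    exact integrable_of_bdd (hU.norm.pow_const 2) (b := l ^ 2) fun y => by
      rw [abs_of_nonneg (sq_nonneg _)]; exact hl0 y
  have h2 : 1 ≤ ∫ g, Z g ∂stdGaussian E := by
    have hj : Integrable (fun z : E × X => Real.exp ⟪z.1, U z.2⟫) ((stdGaussian E).prod ν) :=
      Integrable.mono' ((integrable_exp_norm l).comp_fst ν) hjm.aestronglyMeasurable
        (Filter.Eventually.of_forall fun z => by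
          rw [Real.norm_eq_abs, Real.abs_exp, Real.exp_le_exp]
          exact (le_abs_self _).trans (abs_inner_le_of hl _ _))
    simp only [hZ]
    rw [integral_integral_swap hj]
    simp only [integral_exp_inner]
    refine le_trans (le_of_eq (by simp)) (integral_mono (integrable_const (1 : ℝ)) ?_ fun y =>
      Real.one_le_exp (by positivity))
    exact integrable_of_bdd ((hU.norm.pow_const 2).div_const 2).exp (b := Real.exp (l ^ 2))
      fun y => by
        rw [Real.abs_exp, Real.exp_le_exp]
        linarith [hl0 y, sq_nonneg ‖U y‖]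
  have h3 : ∫ g, Z g ^ 2 ∂stdGaussian E ≤ 1 + 4 * l ^ 2 := by
    have hj2m : Measurable fun z : E × (X × X) => Real.exp ⟪z.1, U z.2.1 + U z.2.2⟫ :=
      (measurable_fst.inner ((hU.comp (measurable_fst.comp measurable_snd)).add
        (hU.comp (measurable_snd.comp measurable_snd)))).exp
    have hn : ∀ p : X × X, ‖U p.1 + U p.2‖ ≤ 2 * l := fun p => by
      linarith [norm_add_le (U p.1) (U p.2), hl p.1, hl p.2]
    have hj2 : Integrable (fun z : E × (X × X) => Real.exp ⟪z.1, U z.2.1 + U z.2.2⟫)
        ((stdGaussian E).prod (ν.prod ν)) :=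
      Integrable.mono' ((integrable_exp_norm (2 * l)).comp_fst (ν.prod ν)) hj2m.aestronglyMeasurable
        (Filter.Eventually.of_forall fun z => by
          rw [Real.norm_eq_abs, Real.abs_exp, Real.exp_le_exp]
          exact (le_abs_self _).trans (abs_inner_le_of (U := fun p : X × X => U p.1 + U p.2) hn _ _))
    have e : ∀ g, Z g ^ 2 = ∫ p, Real.exp ⟪g, U p.1 + U p.2⟫ ∂ν.prod ν := fun g => by
      simp only [hZ, sq, inner_add_right, Real.exp_add]
      rw [integral_prod_mul (fun y => Real.exp ⟪g, U y⟫) fun y => Real.exp ⟪g, U y⟫]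
    simp only [e]
    rw [integral_integral_swap hj2]
    simp only [integral_exp_inner]
    have hy : Real.exp (2 * l ^ 2) ≤ 1 + 4 * l ^ 2 := by
      refine (Real.exp_bound_div_one_sub_of_interval (by positivity) (by linarith)).trans ?_
      rw [div_le_iff₀ (by linarith)]
      nlinarith [sq_nonneg l]
    refine le_trans (le_trans (b := ∫ _p, Real.exp (2 * l ^ 2) ∂ν.prod ν) ?_ (le_of_eq (by simp))) hy
    refine integral_mono ?_ (integrable_const (Real.exp (2 * l ^ 2))) fun p => ?_
    · exact integrable_of_bdd ((((hU.comp measurable_fst).add (hU.comp measurable_snd)).norm.pow_const 2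
        ).div_const 2).exp (b := Real.exp (2 * l ^ 2)) fun p => by
          rw [Real.abs_exp, Real.exp_le_exp]
          nlinarith [mul_self_le_mul_self (norm_nonneg _) (hn p)]
    · rw [Real.exp_le_exp]
      nlinarith [mul_self_le_mul_self (norm_nonneg _) (hn p)]
  linarith

/-- Variance in a field cut into `k` independent pieces. -/
lemma variance_pieces (hU : Measurable U) {l : ℝ} (hl : ∀ y, ‖U y‖ ≤ l) (hl2 : l ^ 2 ≤ 1 / 4) :
    ∀ (k : ℕ) (w : X → ℝ), Wt w →
      ∫ h, (lz μ U w (Real.sqrt k • h) - ∫ h', lz μ U w (Real.sqrt k • h') ∂stdGaussian E) ^ 2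
        ∂stdGaussian E ≤ 5 * l ^ 2 * k := by
  intro k
  induction k with
  | zero => intro w _; simp
  | succ k ih =>
    intro w hw
    set γ := stdGaussian E
    set a := Real.sqrt (k : ℝ) with ha
    set Z : E × E → ℝ := fun p => lz μ U w (a • p.1 + (1 : ℝ) • p.2) with hZ
    set V : E → X → ℝ := fun g y => w y * Real.exp ⟪g, U y⟫ with hV
    have hVw : ∀ g, Wt (V g) := fun g => hw.mul (wt_field hU hl g)
    have hZV : ∀ h g, Z (h, g) = lz μ U (V g) (a • h) := fun h g => by
      simp only [hZ, lz, hV, one_smul, inner_add_left, Real.exp_add]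
      congr 1
      funext y
      ring
    have hZm : Measurable Z :=
      measurable_lz (W := fun _ : E × E => w) hU (hw.meas.comp measurable_snd)
        ((measurable_fst.const_smul a).add (measurable_snd.const_smul (1 : ℝ)))
    have hmap := gauss_add (E := E) (a := a) (b := 1) (c := Real.sqrt (k + 1 : ℕ)) (by
      rw [ha, Real.sq_sqrt (by positivity), Real.sq_sqrt (by positivity)]; push_cast; ring)
    have hpush : ∀ F : E → ℝ, Measurable F →
        ∫ h, F (Real.sqrt (k + 1 : ℕ) • h) ∂γ = ∫ p, F (a • p.1 + (1 : ℝ) • p.2) ∂γ.prod γ := fun F hF => by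
      rw [← integral_map (φ := fun h : E => Real.sqrt (k + 1 : ℕ) • h)
          (Measurable.aemeasurable (by fun_prop)) hF.aestronglyMeasurable, ← hmap,
        integral_map (Measurable.aemeasurable (by fun_prop)) hF.aestronglyMeasurable]
    have hlm : Measurable (lz μ U w) :=
      measurable_lz (W := fun _ : E => w) hU (hw.meas.comp measurable_snd) measurable_id
    set M := ∫ h', lz μ U w (Real.sqrt (k + 1 : ℕ) • h') ∂γ
    rw [hpush (fun h => (lz μ U w h - M) ^ 2) ((hlm.sub_const M).pow_const 2)]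
    have hMZ : M = ∫ p, Z p ∂γ.prod γ := hpush _ hlm
    have hb : ∀ p, |Z p| ≤ |logI μ w| + |l| * (|a| + 1) * (‖p.1‖ + ‖p.2‖) := fun p => by
      have h1 := abs_lz_sub (μ := μ) hw hU hl (a • p.1 + (1 : ℝ) • p.2)
      have h2 : ‖a • p.1 + (1 : ℝ) • p.2‖ ≤ (|a| + 1) * (‖p.1‖ + ‖p.2‖) := by
        refine (norm_add_le _ _).trans ?_
        rw [norm_smul, norm_smul, norm_one, Real.norm_eq_abs]
        nlinarith [norm_nonneg p.1, norm_nonneg p.2, abs_nonneg a]
      have h3 := mul_le_mul (le_abs_self l) h2 (norm_nonneg _) (abs_nonneg l)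
      linarith [abs_sub_abs_le_abs_sub (Z p) (logI μ w)]
    have hZi : Integrable Z (γ.prod γ) := by
      refine Integrable.mono' ((integrable_const |logI μ w|).add
        ((((integrable_norm_pow (E := E) 1).comp_fst γ).add
          ((integrable_norm_pow (E := E) 1).comp_snd γ)).const_mul (|l| * (|a| + 1))))
        hZm.aestronglyMeasurable (Filter.Eventually.of_forall fun p => ?_)
      simpa using hb p
    have hZ2i : Integrable (fun p => (Z p - M) ^ 2) (γ.prod γ) := by
      refine Integrable.mono' ((integrable_const (2 * (|logI μ w| + |M|) ^ 2)).add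
        ((((integrable_norm_pow (E := E) 2).comp_fst γ).add
          ((integrable_norm_pow (E := E) 2).comp_snd γ)).const_mul (4 * (|l| * (|a| + 1)) ^ 2)))
        ((hZm.sub_const M).pow_const 2).aestronglyMeasurable
        (Filter.Eventually.of_forall fun p => ?_)
      rw [Real.norm_eq_abs, abs_of_nonneg (sq_nonneg _)]
      simp only [Pi.add_apply]
      set c := |l| * (|a| + 1)
      set n1 := ‖p.1‖
      set n2 := ‖p.2‖
      have h0 : |Z p - M| ≤ (|logI μ w| + |M|) + c * (n1 + n2) := by linarith [abs_sub (Z p) M, hb p]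
      have h4 := mul_self_le_mul_self (abs_nonneg _) h0
      rw [abs_mul_abs_self] at h4
      nlinarith [sq_nonneg (|logI μ w| + |M| - c * (n1 + n2)), mul_nonneg (sq_nonneg c) (sq_nonneg (n1 - n2))]
    rw [integral_prod_symm (fun p => (Z p - M) ^ 2) hZ2i]
    set m : E → ℝ := fun g => ∫ h, Z (h, g) ∂γ with hm
    set c0 := ∫ h, lz μ U w (a • h) ∂γ
    have hZg : ∀ g, Integrable (fun h => Z (h, g)) γ ∧ Integrable (fun h => Z (h, g) ^ 2) γ :=
      fun g => by simp only [hZV]; exact integrable_lz (hVw g) hU hl a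
    have hsplit : ∀ g, ∫ h, (Z (h, g) - M) ^ 2 ∂γ =
        (∫ h, (Z (h, g) - m g) ^ 2 ∂γ) + (m g - M) ^ 2 := fun g =>
      sq_integral_le (hZg g).1 (hZg g).2 M
    have hmi : Integrable m γ := hZi.integral_prod_right
    have hmm : Measurable m := (hZm.stronglyMeasurable.integral_prod_left' (μ := γ)).measurable
    have hMm : M = ∫ g, m g ∂γ := by rw [hMZ]; exact integral_prod_symm Z hZi
    have hin : ∀ g, ∫ h, (Z (h, g) - m g) ^ 2 ∂γ ≤ 5 * l ^ 2 * k := fun g => by
      simp only [hm, hZV]
      exact ih _ (hVw g)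
    -- the piece added last
    set D : E × E → ℝ := fun p => Z p - lz μ U w (a • p.1) with hD
    have hDm : Measurable D := hZm.sub (hlm.comp (measurable_fst.const_smul a))
    have hDeq : ∀ h g, D (h, g) = Real.log (∫ y, Real.exp ⟪g, U y⟫
        ∂gibbs μ fun y => w y * Real.exp ⟪a • h, U y⟫) := fun h g => by
      have e := logI_mul (μ := μ) (hw.mul (wt_field hU hl (a • h))) (wt_field hU hl g)
      simp only [hD, hZ, lz, one_smul, inner_add_left, Real.exp_add, ← mul_assoc]
      rw [e]
      ring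
    have hDb : ∀ h g, |D (h, g)| ≤ |l| * ‖g‖ := fun h g => by
      rw [hDeq]
      have := isProbabilityMeasure_gibbs (μ := μ) (hw.mul (wt_field hU hl (a • h)))
      exact abs_log_integral_exp_le (measurable_const.inner hU)
        fun y => (abs_inner_le_of hl g y).trans (mul_le_mul_of_nonneg_right (le_abs_self l) (norm_nonneg g))
    have hD2i : Integrable (fun p => D p ^ 2) (γ.prod γ) :=
      Integrable.mono' (((integrable_norm_pow (E := E) 2).comp_snd γ).const_mul (|l| ^ 2))
        (hDm.pow_const 2).aestronglyMeasurable (Filter.Eventually.of_forall fun p => by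
          rw [Real.norm_eq_abs, abs_of_nonneg (sq_nonneg _), ← mul_pow, ← sq_abs (D p)]
          exact pow_le_pow_left₀ (abs_nonneg _) (hDb p.1 p.2) 2)
    have hmc : ∀ g, (m g - c0) ^ 2 ≤ ∫ h, D (h, g) ^ 2 ∂γ := fun g => by
      have hDg : Integrable (fun h => D (h, g)) γ := (hZg g).1.sub (integrable_lz hw hU hl a).1
      have hD2g : Integrable (fun h => D (h, g) ^ 2) γ :=
        integrable_of_bdd ((hDm.comp (measurable_id.prodMk measurable_const)).pow_const 2)
          (b := (|l| * ‖g‖) ^ 2) fun h => by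
            rw [abs_pow]
            exact pow_le_pow_left₀ (abs_nonneg _) (hDb h g) 2
      have e : m g - c0 = ∫ h, D (h, g) ∂γ := (integral_sub (hZg g).1 (integrable_lz hw hU hl a).1).symm
      have h := sq_integral_le hDg hD2g 0
      simp only [sub_zero] at h
      rw [e, h]
      exact le_add_of_nonneg_left (integral_nonneg fun _ => sq_nonneg _)
    have hmM : Integrable (fun g => (m g - M) ^ 2) γ :=
      Integrable.mono' hZ2i.integral_prod_right ((hmm.sub_const M).pow_const 2).aestronglyMeasurable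
        (Filter.Eventually.of_forall fun g => by
          rw [Real.norm_eq_abs, abs_of_nonneg (sq_nonneg _)]
          show (m g - M) ^ 2 ≤ ∫ h, (Z (h, g) - M) ^ 2 ∂γ
          rw [hsplit g]
          exact le_add_of_nonneg_left (integral_nonneg fun _ => sq_nonneg _))
    have hm2 : Integrable (fun g => m g ^ 2) γ := by
      refine ((hmM.add (hmi.const_mul (2 * M))).sub' (integrable_const (M ^ 2))).congr
        (Filter.Eventually.of_forall fun g => ?_)
      simp only [Pi.add_apply]
      ring
    have hout : ∫ g, (m g - M) ^ 2 ∂γ ≤ 5 * l ^ 2 := by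
      have h := sq_integral_le hmi hm2 c0
      rw [← hMm] at h
      have hle : ∫ g, (m g - M) ^ 2 ∂γ ≤ ∫ g, (m g - c0) ^ 2 ∂γ := by
        linarith [sq_nonneg (M - c0)]
      refine hle.trans ?_
      refine le_trans (integral_mono_of_nonneg (Filter.Eventually.of_forall fun g => sq_nonneg _)
        hD2i.integral_prod_right (Filter.Eventually.of_forall hmc)) ?_
      rw [← integral_prod_symm (fun p => D p ^ 2) hD2i, integral_prod _ hD2i]
      refine (integral_mono hD2i.integral_prod_left (integrable_const (5 * l ^ 2)) fun h => ?_).trans_eq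
        (by simp)
      simp only [hDeq]
      have := isProbabilityMeasure_gibbs (μ := μ) (hw.mul (wt_field hU hl (a • h)))
      exact integral_lz_sq_le hU hl hl2
    refine (integral_mono hZ2i.integral_prod_right ((integrable_const (5 * l ^ 2 * k)).add hmM)
      fun g => by
        simp only [Pi.add_apply]
        rw [hsplit g]
        linarith [hin g]).trans ?_
    simp only [Pi.add_apply]
    rw [integral_add (integrable_const _) hmM]
    simp only [integral_const, probReal_univ, one_smul]
    push_cast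
    linarith

/-- Variance of the log-partition function in a Gaussian field. -/
theorem variance_field (hw : Wt w) {W : X → E} (hW : Measurable W) {L : ℝ} (hL : ∀ y, ‖W y‖ ≤ L) :
    ∫ h, (lz μ W w h - ∫ h', lz μ W w h' ∂stdGaussian E) ^ 2 ∂stdGaussian E ≤ 5 * L ^ 2 := by
  set K : ℕ := ⌈4 * L ^ 2⌉₊ + 1 with hK
  have hK0 : (0 : ℝ) < K := by rw [hK]; positivity
  have hKL : 4 * L ^ 2 ≤ K := (Nat.le_ceil _).trans (by rw [hK]; simp)
  set r := Real.sqrt (K : ℝ) with hr
  have hr0 : 0 < r := Real.sqrt_pos.2 hK0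
  have hl : ∀ y, ‖r⁻¹ • W y‖ ≤ L / r := fun y => by
    rw [norm_smul, Real.norm_eq_abs, abs_inv, abs_of_pos hr0, inv_mul_eq_div]
    exact div_le_div_of_nonneg_right (hL y) hr0.le
  have hr2 : r ^ 2 = K := Real.sq_sqrt hK0.le
  have h2 : (L / r) ^ 2 ≤ 1 / 4 := by
    rw [div_pow, hr2, div_le_iff₀ hK0]
    linarith
  have h := variance_pieces (μ := μ) (hW.const_smul r⁻¹) hl h2 K w hw
  have e : ∀ h, lz μ (fun y => r⁻¹ • W y) w (r • h) = lz μ W w h := fun h => by
    simp only [lz, real_inner_smul_left, real_inner_smul_right, ← mul_assoc, inv_mul_cancel₀ hr0.ne',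
      one_mul]
  rw [← hr] at h
  have e' : ∀ h, lz μ (r⁻¹ • W) w (r • h) = lz μ W w h := e
  simp only [e'] at h
  refine h.trans_eq ?_
  rw [div_pow, hr2]
  field_simp

end field

end Vale.Agent.P157.Low
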