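import Vale.Agent.P157.Low.GGStein

/-!
Fluctuations of the perturbation fields: a bound on the error in the Ghirlanda–Guerra identities,
averaged over the coefficients.
-/

namespace Vale.Agent.P157.Low

open MeasureTheory ProbabilityTheory
open scoped RealInnerProductSpace

variable {N P : ℕ}

/-- Uniform law on `[1, 2]`. -/
noncomputable def unitLaw : Measure ℝ := volume.restrict (Set.Icc 1 2)

instance : IsProbabilityMeasure unitLaw := ⟨by simp [unitLaw]; norm_num⟩

lemma integral_unitLaw (g : ℝ → ℝ) : ∫ t, g t ∂unitLaw = ∫ t in (1 : ℝ)..2, g t := by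
  rw [intervalIntegral.integral_of_le one_le_two, unitLaw, integral_Icc_eq_integral_Ioc]

lemma ae_unitLaw : ∀ᵐ t ∂unitLaw, t ∈ Set.Icc (1 : ℝ) 2 := ae_restrict_mem measurableSet_Icc

/-- A monotone function of linear growth gains little over a short shift. -/
lemma integral_shift_le {G : ℝ → ℝ} (hG : Monotone G) {a : ℝ} (ha : 0 ≤ a)
    (hb : ∀ t, |G t| ≤ a * |t|) {η : ℝ} (hη : 0 < η) :
    ∫ t, (G (t + η) - G (t - η)) ∂unitLaw ≤ 12 * a * η := by
  have hp : Monotone fun t => G (t + η) := fun s t h => hG (by linarith)
  have hm : Monotone fun t => G (t - η) := fun s t h => hG (by linarith)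
  rw [integral_unitLaw]
  rcases le_or_gt 1 η with h1 | h1
  · refine (intervalIntegral.integral_mono_on one_le_two (hp.intervalIntegrable.sub hm.intervalIntegrable)
      intervalIntegrable_const (g := fun _ => 12 * a * η) fun t ht => ?_).trans_eq (by
        rw [intervalIntegral.integral_const]; norm_num)
    obtain ⟨t1, t2⟩ := ht
    have e1 := (abs_le.1 (hb (t + η))).2
    have e2 := (abs_le.1 (hb (t - η))).1
    have b1 : |t + η| ≤ 3 * η := abs_le.2 ⟨by linarith, by linarith⟩
    have b2 : |t - η| ≤ 3 * η := abs_le.2 ⟨by linarith, by linarith⟩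
    show G (t + η) - G (t - η) ≤ 12 * a * η
    nlinarith [mul_le_mul_of_nonneg_left b1 ha, mul_le_mul_of_nonneg_left b2 ha]
  · rw [intervalIntegral.integral_sub hp.intervalIntegrable hm.intervalIntegrable,
      intervalIntegral.integral_comp_add_right G η, intervalIntegral.integral_comp_sub_right G η]
    have hi : ∀ c d, IntervalIntegrable G volume c d := fun c d => hG.intervalIntegrable
    rw [← intervalIntegral.integral_add_adjacent_intervals (hi (1 + η) (2 - η)) (hi (2 - η) (2 + η)),
      ← intervalIntegral.integral_add_adjacent_intervals (hi (1 - η) (1 + η)) (hi (1 + η) (2 - η))]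
    have e1 : ∫ t in (2 - η)..(2 + η), G t ≤ 2 * η * (3 * a) := by
      refine (intervalIntegral.integral_mono_on (by linarith) (hi _ _) intervalIntegrable_const
        (g := fun _ => 3 * a) fun t ht => ?_).trans_eq (by rw [intervalIntegral.integral_const, smul_eq_mul]; ring)
      have := mul_le_mul_of_nonneg_left (abs_le.2 ⟨by linarith [ht.1], by linarith [ht.2]⟩ : |t| ≤ 3) ha
      linarith [(abs_le.1 (hb t)).2]
    have e2 : 2 * η * (-(3 * a)) ≤ ∫ t in (1 - η)..(1 + η), G t := by
      refine le_trans (le_of_eq ?_) (intervalIntegral.integral_mono_on (by linarith)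
        intervalIntegrable_const (hi _ _) (f := fun _ => -(3 * a)) fun t ht => ?_)
      · rw [intervalIntegral.integral_const, smul_eq_mul]; ring
      have := mul_le_mul_of_nonneg_left (abs_le.2 ⟨by linarith [ht.1], by linarith [ht.2]⟩ : |t| ≤ 3) ha
      linarith [(abs_le.1 (hb t)).1]
    linarith

/-- Replacing one coordinate preserves the product law. -/
lemma measurePreserving_update {ι : Type} [Fintype ι] [DecidableEq ι] {ν : Measure ℝ}
    [IsProbabilityMeasure ν] (p : ι) :
    MeasurePreserving (fun z : (ι → ℝ) × ℝ => Function.update z.1 p z.2)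
      ((Measure.pi fun _ : ι => ν).prod ν) (Measure.pi fun _ : ι => ν) := by
  have hm : Measurable fun z : (ι → ℝ) × ℝ => Function.update z.1 p z.2 :=
    measurable_pi_lambda _ fun i => by
      by_cases h : i = p
      · subst h; simpa using measurable_snd
      · simpa [h, Function.comp_def] using (measurable_pi_apply (X := fun _ : ι => ℝ) i).comp measurable_fst
  refine ⟨hm, (Measure.pi_eq fun t ht => ?_).symm⟩
  rw [Measure.map_apply hm (MeasurableSet.univ_pi ht)]
  have e : (fun z : (ι → ℝ) × ℝ => Function.update z.1 p z.2) ⁻¹' Set.pi Set.univ t =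
      Set.pi Set.univ (Function.update t p Set.univ) ×ˢ t p := by
    ext z
    simp only [Set.mem_preimage, Set.mem_pi, Set.mem_univ, true_implies, Set.mem_prod]
    constructor
    · intro h
      refine ⟨fun i => ?_, by simpa using h p⟩
      by_cases hi : i = p
      · subst hi; simp
      · simpa [hi] using h i
    · rintro ⟨h, hp⟩ i
      by_cases hi : i = p
      · subst hi; simpa using hp
      · simpa [hi] using h i
  rw [e, Measure.prod_prod, Measure.pi_pi, ← Finset.mul_prod_erase Finset.univ (fun i => ν (t i))
    (Finset.mem_univ p), ← Finset.mul_prod_erase Finset.univ (fun i => ν (Function.update t p Set.univ i))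
    (Finset.mem_univ p)]
  simp only [Function.update_self, measure_univ, one_mul]
  rw [mul_comm]
  congr 1
  exact Finset.prod_congr rfl fun i hi => by rw [Function.update_of_ne (Finset.ne_of_mem_erase hi)]

section system

variable (S : Sys) (u : S.X → EuclideanSpace ℝ (Fin N))

/-- The perturbed log-partition function. -/
noncomputable def pertLog (s : ℝ) (x : Fin P → ℝ) (z : S.Ω × PertSpace N P) : ℝ :=
  logI S.ref (pertW S u s x z)

/-- Its expectation. -/
noncomputable def pertF (s : ℝ) (x : Fin P → ℝ) : ℝ :=
  ∫ z, pertLog S u s x z ∂S.law.prod (stdGaussian (PertSpace N P))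

/-- The expected Gibbs variance of the field. -/
noncomputable def powVar (s : ℝ) (x : Fin P → ℝ) (p : Fin P) (z : S.Ω × PertSpace N P) : ℝ :=
  ∫ a, (powField S u p z a - powMean S u s x p z) ^ 2 ∂gibbs S.ref (pertW S u s x z)

variable {S u} (hu : Measurable u) (hu1 : ∀ a, ‖u a‖ = 1) {s : ℝ} {x : Fin P → ℝ} {p : Fin P}

lemma pertW_update (t : ℝ) (z : S.Ω × PertSpace N P) :
    pertW S u s (Function.update x p t) z = fun a =>
      pertW S u s (Function.update x p 0) z a * Real.exp (t * (s * powField S u p z a)) := by
  funext a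
  simp only [pertW, powField]
  rw [pertVec_update, mul_assoc (S.w z.1 a), ← Real.exp_add, inner_add_right, real_inner_smul_right]
  ring_nf

include hu hu1 in
/-- Derivative of the mean field along its own coefficient. -/
lemma hasDerivAt_powMean (t : ℝ) (z : S.Ω × PertSpace N P) :
    HasDerivAt (fun r => powMean S u s (Function.update x p r) p z)
      (s * powVar S u s (Function.update x p t) p z) t := by
  have hh := measurable_powField' hu p z
  have hw := wt_pertW hu hu1 s (Function.update x p 0) z
  have := isProbabilityMeasure_gibbs (μ := S.ref) (wt_pertW hu hu1 s (Function.update x p t) z)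
  have h := hasDerivAt_gibbsMean (μ := S.ref) hw (ξ := fun a => s * powField S u p z a)
    (hh.const_mul s) (c := |s| * ‖z.2‖) (fun a => by
      rw [abs_mul]; exact mul_le_mul_of_nonneg_left (abs_powField_le hu1 z a) (abs_nonneg s))
    hh (abs_powField_le hu1 z) t
  simp only [← pertW_update (x := x)] at h
  refine h.congr_deriv ?_
  have hi := integrable_of_bdd (ν := gibbs S.ref (pertW S u s (Function.update x p t) z)) hh
    (abs_powField_le hu1 z)
  have hi2 : Integrable (fun a => powField S u p z a ^ 2)
      (gibbs S.ref (pertW S u s (Function.update x p t) z)) :=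
    integrable_of_bdd (hh.pow_const 2) (b := ‖z.2‖ ^ 2) fun a => by
      rw [abs_pow]; exact pow_le_pow_left₀ (abs_nonneg _) (abs_powField_le hu1 z a) 2
  have hsq := sq_integral_le hi hi2 0
  simp only [sub_zero] at hsq
  simp only [powVar, powMean, mul_left_comm _ s, integral_const_mul, ← sq]
  rw [hsq]
  ring

include hu hu1 in
/-- Supporting lines of the log-partition function. -/
lemma pertLog_support (a b : ℝ) (z : S.Ω × PertSpace N P) :
    (b - a) * (s * powMean S u s (Function.update x p a) p z) ≤
      pertLog S u s (Function.update x p b) z - pertLog S u s (Function.update x p a) z := by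
  have hh := measurable_powField' hu p z
  have hw := wt_pertW hu hu1 s (Function.update x p a) z
  have := isProbabilityMeasure_gibbs (μ := S.ref) hw
  have hb : ∀ y, |(b - a) * (s * powField S u p z y)| ≤ |b - a| * (|s| * ‖z.2‖) := fun y => by
    rw [abs_mul, abs_mul]
    exact mul_le_mul_of_nonneg_left
      (mul_le_mul_of_nonneg_left (abs_powField_le hu1 z y) (abs_nonneg s)) (abs_nonneg _)
  have hm : Measurable fun y => (b - a) * (s * powField S u p z y) := (hh.const_mul s).const_mul _
  have e : pertW S u s (Function.update x p b) z = fun y =>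
      pertW S u s (Function.update x p a) z y * Real.exp ((b - a) * (s * powField S u p z y)) := by
    rw [pertW_update (x := x) (t := b), pertW_update (x := x) (t := a)]
    funext y
    rw [mul_assoc, ← Real.exp_add]
    ring_nf
  have h := integral_le_log_integral_exp (ν := gibbs S.ref (pertW S u s (Function.update x p a) z)) hm hb
  rw [integral_const_mul, integral_const_mul] at h
  simp only [pertLog, e]
  rw [logI_mul hw (Wt.exp hm hb), add_sub_cancel_left]
  exact h

include hu hu1 in
lemma powMean_mono (hs : 0 < s) (z : S.Ω × PertSpace N P) :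
    Monotone fun t => powMean S u s (Function.update x p t) p z := fun a b hab => by
  rcases hab.eq_or_lt with rfl | hlt
  · exact le_rfl
  have h1 := pertLog_support hu hu1 (s := s) (x := x) (p := p) a b z
  have h2 := pertLog_support hu hu1 (s := s) (x := x) (p := p) b a z
  have h3 : (b - a) * s * powMean S u s (Function.update x p a) p z ≤
      (b - a) * s * powMean S u s (Function.update x p b) p z := by linarith
  exact le_of_mul_le_mul_left h3 (mul_pos (sub_pos.2 hlt) hs)

include hu hu1 in
lemma powM_mono (hs : 0 < s) : Monotone fun t => powM S u s (Function.update x p t) p := fun _ _ hab =>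
  integral_mono (integrable_powMean hu hu1) (integrable_powMean hu hu1)
    fun z => powMean_mono hu hu1 hs z hab

include hu hu1 in
lemma abs_pertLog_sub (z : S.Ω × PertSpace N P) :
    |pertLog S u s x z - logI S.ref (S.w z.1)| ≤ |s| * (∑ q, |x q|) * ‖z.2‖ := by
  have hw := S.wt z.1
  have hm : Measurable fun a => s * ⟪z.2, pertVec x (u a)⟫ :=
    (measurable_const.inner ((measurable_pertVec x).comp hu)).const_mul s
  have hb : ∀ a, |s * ⟪z.2, pertVec x (u a)⟫| ≤ |s| * (∑ q, |x q|) * ‖z.2‖ := fun a => by
    rw [abs_mul, mul_assoc]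
    refine mul_le_mul_of_nonneg_left ((abs_real_inner_le_norm _ _).trans ?_) (abs_nonneg s)
    rw [mul_comm]
    exact mul_le_mul_of_nonneg_right (norm_pertVec_le x _ (hu1 a)) (norm_nonneg _)
  have := isProbabilityMeasure_gibbs (μ := S.ref) hw
  rw [pertLog, show pertW S u s x z = fun a => S.w z.1 a * Real.exp (s * ⟪z.2, pertVec x (u a)⟫) from rfl,
    logI_mul hw (Wt.exp hm hb), add_sub_cancel_left]
  exact abs_log_integral_exp_le hm hb

include hu in
lemma measurable_pertLog : Measurable fun z => pertLog S u s x z :=
  measurable_logI (measurable_pertW' hu s x)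

include hu hu1 in
lemma integrable_pertLog (h0 : Integrable (fun ω => logI S.ref (S.w ω)) S.law) :
    Integrable (fun z => pertLog S u s x z) (S.law.prod (stdGaussian (PertSpace N P))) := by
  refine Integrable.mono' ((h0.abs.comp_fst (stdGaussian (PertSpace N P))).add
    (((integrable_norm_pow (E := PertSpace N P) 1).comp_snd S.law).const_mul (|s| * ∑ q, |x q|)))
    (measurable_pertLog hu).aestronglyMeasurable (Filter.Eventually.of_forall fun z => ?_)
  simp only [Pi.add_apply, Real.norm_eq_abs, pow_one]
  linarith [abs_sub_abs_le_abs_sub (pertLog S u s x z) (logI S.ref (S.w z.1)),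
    abs_pertLog_sub hu hu1 (s := s) (x := x) z]

include hu hu1 in
/-- Fluctuation of the perturbed log-partition function. -/
lemma pertLog_fluct (hs : 0 < s) {V : ℝ}
    (hV : ∀ F : S.X → ℝ, Measurable F → (∃ b, ∀ a, |F a| ≤ b) →
      Integrable (fun ω => logI S.ref (fun a => S.w ω a * Real.exp (F a))) S.law ∧
      ∫ ω, |logI S.ref (fun a => S.w ω a * Real.exp (F a)) -
        ∫ ω', logI S.ref (fun a => S.w ω' a * Real.exp (F a)) ∂S.law| ∂S.law ≤ V)
    {L : ℝ} (hL : 0 < L) (hxL : ∑ q, |x q| ≤ L) :
    ∫ z, |pertLog S u s x z - pertF S u s x| ∂S.law.prod (stdGaussian (PertSpace N P)) ≤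
      V + 3 * s * L := by
  set γ := stdGaussian (PertSpace N P)
  have h0 : Integrable (fun ω => logI S.ref (S.w ω)) S.law := by
    have := (hV (fun _ => 0) measurable_const ⟨0, fun _ => by simp⟩).1
    simpa using this
  have hi := integrable_pertLog hu hu1 (s := s) (x := x) h0
  have hm : Measurable fun z => pertLog S u s x z := measurable_pertLog hu
  have hgm : Measurable fun J => ∫ ω, pertLog S u s x (ω, J) ∂S.law :=
    (hm.stronglyMeasurable.integral_prod_left' (μ := S.law)).measurable
  have hψm : Measurable fun ω => ∫ J, pertLog S u s x (ω, J) ∂γ :=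
    (hm.stronglyMeasurable.integral_prod_right' (ν := γ)).measurable
  have hsl : ∀ ω, Integrable (fun J => pertLog S u s x (ω, J)) γ := fun ω => by
    refine Integrable.mono' ((integrable_const |logI S.ref (S.w ω)|).add
      ((integrable_norm_pow (E := PertSpace N P) 1).const_mul (|s| * ∑ q, |x q|)))
      (hm.comp (measurable_const.prodMk measurable_id)).aestronglyMeasurable
      (Filter.Eventually.of_forall fun J => ?_)
    simp only [Pi.add_apply, Real.norm_eq_abs, pow_one]
    linarith [abs_sub_abs_le_abs_sub (pertLog S u s x (ω, J)) (logI S.ref (S.w ω)),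
      abs_pertLog_sub hu hu1 (s := s) (x := x) (ω, J)]
  have hgi : Integrable (fun J => ∫ ω, pertLog S u s x (ω, J) ∂S.law) γ := hi.integral_prod_right
  have hψi : Integrable (fun ω => ∫ J, pertLog S u s x (ω, J) ∂γ) S.law := hi.integral_prod_left
  have hF : pertF S u s x = ∫ J, ∫ ω, pertLog S u s x (ω, J) ∂S.law ∂γ := integral_prod_symm _ hi
  -- fluctuation in the disorder at a given field
  have h2 : Integrable (fun z : S.Ω × PertSpace N P =>
      |pertLog S u s x z - ∫ ω, pertLog S u s x (ω, z.2) ∂S.law|) (S.law.prod γ) :=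
    (hi.sub' (hgi.comp_snd S.law)).abs
  have hω : ∫ ω, |(∫ J, pertLog S u s x (ω, J) ∂γ) - pertF S u s x| ∂S.law ≤ V := by
    refine le_trans (integral_mono (hψi.sub' (integrable_const _)).abs h2.integral_prod_left fun ω => ?_) ?_
    · simp only [hF]
      rw [← integral_sub (hsl ω) hgi]
      exact abs_integral_le_integral_abs
    · rw [← integral_prod _ h2, integral_prod_symm _ h2]
      refine (integral_mono h2.integral_prod_right (integrable_const V) fun J => ?_).trans_eq (by simp)
      exact (hV (fun a => s * ⟪J, pertVec x (u a)⟫)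
        ((measurable_const.inner ((measurable_pertVec x).comp hu)).const_mul s)
        ⟨|s| * (‖J‖ * L), fun a => by
          rw [abs_mul]
          exact mul_le_mul_of_nonneg_left ((abs_real_inner_le_norm _ _).trans
            (mul_le_mul_of_nonneg_left ((norm_pertVec_le x _ (hu1 a)).trans hxL) (norm_nonneg _)))
            (abs_nonneg s)⟩).2
  -- fluctuation in the field at given disorder
  set c := 3 * (s * L) with hc
  have hc0 : 0 < c := by positivity
  have hUn : ∀ a, ‖s • pertVec x (u a)‖ ≤ s * L := fun a => by
    rw [norm_smul, Real.norm_eq_abs, abs_of_pos hs]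
    exact mul_le_mul_of_nonneg_left ((norm_pertVec_le x _ (hu1 a)).trans hxL) hs.le
  have h1 : ∀ ω, ∫ J, |pertLog S u s x (ω, J) - ∫ J', pertLog S u s x (ω, J') ∂γ| ∂γ ≤ c := fun ω => by
    have hUm : Measurable fun a => s • pertVec x (u a) := ((measurable_pertVec x).comp hu).const_smul s
    have e : ∀ J, pertLog S u s x (ω, J) = lz S.ref (fun a => s • pertVec x (u a)) (S.w ω) J := fun J => by
      simp only [pertLog, lz, real_inner_smul_right]
      rfl
    have hvar := variance_field (μ := S.ref) (S.wt ω) hUm hUn
    simp only [← e] at hvar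
    set m := ∫ J', pertLog S u s x (ω, J') ∂γ
    have hsq : Integrable (fun J => (pertLog S u s x (ω, J) - m) ^ 2) γ := by
      have h := integrable_lz (μ := S.ref) (S.wt ω) hUm hUn 1
      simp only [one_smul, ← e] at h
      refine ((h.2.sub' (h.1.const_mul (2 * m))).add (integrable_const (m ^ 2))).congr
        (Filter.Eventually.of_forall fun J => ?_)
      simp only [Pi.add_apply]
      ring
    refine (integral_mono ((hsl ω).sub' (integrable_const _)).abs
      (((hsq.div_const c).add (integrable_const c)).div_const 2) fun J => ?_).trans ?_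
    · simp only [Pi.add_apply]
      rw [le_div_iff₀ two_pos, ← sq_abs, ← sub_nonneg]
      have e : |pertLog S u s x (ω, J) - m| ^ 2 / c + c - |pertLog S u s x (ω, J) - m| * 2 =
          (|pertLog S u s x (ω, J) - m| - c) ^ 2 / c := by field_simp; ring
      rw [e]
      positivity
    · simp only [Pi.add_apply]
      rw [integral_div, integral_add (hsq.div_const c) (integrable_const c), integral_div]
      simp only [integral_const, probReal_univ, one_smul]
      have hd : (∫ J, (pertLog S u s x (ω, J) - m) ^ 2 ∂γ) / c ≤ c := by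
        rw [div_le_iff₀ hc0, hc]
        nlinarith [sq_nonneg (s * L)]
      linarith
  have hA : Integrable (fun z : S.Ω × PertSpace N P =>
      |pertLog S u s x z - ∫ J, pertLog S u s x (z.1, J) ∂γ|) (S.law.prod γ) :=
    (hi.sub' (hψi.comp_fst γ)).abs
  have hB : Integrable (fun z : S.Ω × PertSpace N P =>
      |(∫ J, pertLog S u s x (z.1, J) ∂γ) - pertF S u s x|) (S.law.prod γ) :=
    ((hψi.comp_fst γ).sub' (integrable_const _)).abs
  refine (integral_mono (hi.sub' (integrable_const _)).abs (hA.add hB) fun z => abs_sub_le _ _ _).trans ?_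
  simp only [Pi.add_apply]
  rw [integral_add hA hB, integral_prod _ hA, integral_prod _ hB]
  have e1 : ∫ ω, ∫ J, |pertLog S u s x (ω, J) - ∫ J', pertLog S u s x (ω, J') ∂γ| ∂γ ∂S.law ≤ c :=
    (integral_mono hA.integral_prod_left (integrable_const c) h1).trans_eq (by simp)
  simp only [integral_const, probReal_univ, one_smul]
  rw [hc] at e1
  linarith

include hu hu1 in
lemma powVar_bounds (z : S.Ω × PertSpace N P) :
    0 ≤ powVar S u s x p z ∧ powVar S u s x p z ≤ 4 * ‖z.2‖ ^ 2 := by
  have := isProbabilityMeasure_gibbs (μ := S.ref) (wt_pertW hu hu1 s x z)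
  refine ⟨integral_nonneg fun a => sq_nonneg _, ?_⟩
  refine (integral_mono_of_nonneg (Filter.Eventually.of_forall fun a => sq_nonneg _)
    (integrable_const (4 * ‖z.2‖ ^ 2)) (Filter.Eventually.of_forall fun a => ?_)).trans_eq (by simp)
  show (powField S u p z a - powMean S u s x p z) ^ 2 ≤ 4 * ‖z.2‖ ^ 2
  rw [← sq_abs]
  have h := abs_sub (powField S u p z a) (powMean S u s x p z)
  have h1 := abs_powField_le (p := p) hu1 z a
  have h2 := abs_powMean_le hu hu1 (s := s) (x := x) (p := p) z
  nlinarith [abs_nonneg (powField S u p z a - powMean S u s x p z)]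

include hu hu1 in
lemma measurable_powVar (s : ℝ) (p : Fin P) :
    Measurable fun k : (Fin P → ℝ) × (S.Ω × PertSpace N P) => powVar S u s k.1 p k.2 := by
  have h := measurable_pertAvg hu hu1 (s := s) (n := 1)
    (Θ := fun k a => (powField S u p k.2 (a 0) - powMean S u s k.1 p k.2) ^ 2)
    (((measurable_powField hu p
      (f := fun q : ((Fin P → ℝ) × (S.Ω × PertSpace N P)) × (Fin 1 → S.X) => q.1.2)
      (measurable_snd.comp measurable_fst)
      (g := fun q => q.2 0) ((measurable_pi_apply 0).comp measurable_snd)).sub
        ((measurable_powMean hu hu1 s p).comp measurable_fst)).pow_const 2)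
  have e : (fun k : (Fin P → ℝ) × (S.Ω × PertSpace N P) => pertAvg S u s k.1
      (fun a : Fin 1 → S.X => (powField S u p k.2 (a 0) - powMean S u s k.1 p k.2) ^ 2) k.2) =
      fun k => powVar S u s k.1 p k.2 := funext fun k => by
    have := isProbabilityMeasure_gibbs (μ := S.ref) (wt_pertW hu hu1 s k.1 k.2)
    simp only [pertAvg, powVar]
    exact integral_pi_one (n := 1)
      (f := fun y => (powField S u p k.2 y - powMean S u s k.1 p k.2) ^ 2)
      (((measurable_powField' hu p k.2).sub_const _).pow_const 2) 0
  rw [← e]
  exact h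

include hu hu1 in
lemma measurable_powM (s : ℝ) (p : Fin P) :
    Measurable fun x : Fin P → ℝ => powM S u s x p :=
  ((measurable_powMean hu hu1 s p).stronglyMeasurable.integral_prod_right'
    (ν := S.law.prod (stdGaussian (PertSpace N P)))).measurable

include hu hu1 in
lemma integrable_powVar :
    Integrable (fun z => powVar S u s x p z) (S.law.prod (stdGaussian (PertSpace N P))) :=
  Integrable.mono' (((integrable_norm_pow (E := PertSpace N P) 2).comp_snd S.law).const_mul 4)
    ((measurable_powVar hu hu1 s p).comp (measurable_const.prodMk measurable_id)).aestronglyMeasurable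
    (Filter.Eventually.of_forall fun z => by
      rw [Real.norm_eq_abs, abs_of_nonneg (powVar_bounds hu hu1 z).1]
      exact (powVar_bounds hu hu1 z).2)

include hu hu1 in
/-- The expected Gibbs variance integrates to the increment of the mean. -/
lemma integral_powVar (hs : 0 < s) :
    Integrable (fun t => ∫ z, powVar S u s (Function.update x p t) p z
        ∂S.law.prod (stdGaussian (PertSpace N P))) unitLaw ∧
      ∫ t, ∫ z, powVar S u s (Function.update x p t) p z
        ∂S.law.prod (stdGaussian (PertSpace N P)) ∂unitLaw ≤ 6 := by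
  set μ' := S.law.prod (stdGaussian (PertSpace N P))
  have hm : Measurable fun q : ℝ × (S.Ω × PertSpace N P) =>
      powVar S u s (Function.update x p q.1) p q.2 := by
    have h1 : Measurable fun q : ℝ × (S.Ω × PertSpace N P) => Function.update x p q.1 :=
      (measurable_update x (a := p)).comp measurable_fst
    have h2 := (measurable_powVar hu hu1 s p).comp (h1.prodMk measurable_snd)
    simpa only [Function.comp_def] using h2
  have hint : Integrable (fun q : ℝ × (S.Ω × PertSpace N P) =>
      powVar S u s (Function.update x p q.1) p q.2) (unitLaw.prod μ') :=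
    Integrable.mono' ((((integrable_norm_pow (E := PertSpace N P) 2).comp_snd S.law).const_mul 4).comp_snd
      unitLaw) hm.aestronglyMeasurable (Filter.Eventually.of_forall fun q => by
      rw [Real.norm_eq_abs, abs_of_nonneg (powVar_bounds hu hu1 _).1]
      exact (powVar_bounds hu hu1 _).2)
  refine ⟨hint.integral_prod_left, ?_⟩
  rw [integral_integral_swap (f := fun t z => powVar S u s (Function.update x p t) p z) hint]
  have e : ∀ z, ∫ t, powVar S u s (Function.update x p t) p z ∂unitLaw =
      (powMean S u s (Function.update x p 2) p z - powMean S u s (Function.update x p 1) p z) / s := by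
    intro z
    rw [integral_unitLaw, eq_div_iff hs.ne', mul_comm, ← intervalIntegral.integral_const_mul]
    refine intervalIntegral.integral_eq_sub_of_hasDerivAt (fun t _ => hasDerivAt_powMean hu hu1 t z) ?_
    refine (intervalIntegrable_const (c := s * (4 * ‖z.2‖ ^ 2))).mono_fun'
      ((hm.comp (measurable_id.prodMk measurable_const)).const_mul s).aestronglyMeasurable
      (Filter.Eventually.of_forall fun t => ?_)
    dsimp only
    rw [Real.norm_eq_abs, abs_of_nonneg (mul_nonneg hs.le (powVar_bounds hu hu1 z).1)]
    exact mul_le_mul_of_nonneg_left (powVar_bounds hu hu1 z).2 hs.le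
  simp only [e]
  rw [integral_div, integral_sub (integrable_powMean hu hu1) (integrable_powMean hu hu1), ← powM, ← powM,
    div_le_iff₀ hs]
  have h1 := (abs_le.1 (abs_powM_le hu hu1 (x := Function.update x p 2) (p := p) hs.le)).2
  have h2 := (abs_le.1 (abs_powM_le hu hu1 (x := Function.update x p 1) (p := p) hs.le)).1
  simp only [Function.update_self, abs_two, abs_one] at h1 h2
  linarith

include hu hu1 in
/-- The error at one coefficient, by convexity. -/
lemma err_point_le (hs : 0 < s) {V : ℝ}
    (hV : ∀ F : S.X → ℝ, Measurable F → (∃ b, ∀ a, |F a| ≤ b) →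
      Integrable (fun ω => logI S.ref (fun a => S.w ω a * Real.exp (F a))) S.law ∧
      ∫ ω, |logI S.ref (fun a => S.w ω a * Real.exp (F a)) -
        ∫ ω', logI S.ref (fun a => S.w ω' a * Real.exp (F a)) ∂S.law| ∂S.law ≤ V)
    (hx : ∀ q, |x q| ≤ 2) {t η : ℝ} (ht : t ∈ Set.Icc (1 : ℝ) 2) (hη : 0 < η) :
    pertRep S u s (Function.update x p t) 1
        (fun z a => |powField S u p z (a 0) - powM S u s (Function.update x p t) p|) ≤
      (1 + ∫ z, powVar S u s (Function.update x p t) p z
          ∂S.law.prod (stdGaussian (PertSpace N P))) / 2 +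
        3 * (V + 3 * s * (2 * P + 2 + η)) / (η * s) +
        (powM S u s (Function.update x p (t + η)) p - powM S u s (Function.update x p (t - η)) p) := by
  set μ' := S.law.prod (stdGaussian (PertSpace N P))
  set y : ℝ → Fin P → ℝ := fun r => Function.update x p r
  set L := 2 * (P : ℝ) + 2 + η
  have hL : 0 < L := by positivity
  have h0 : Integrable (fun ω => logI S.ref (S.w ω)) S.law := by
    have := (hV (fun _ => 0) measurable_const ⟨0, fun _ => by simp⟩).1
    simpa using this
  have hφ : ∀ r, Integrable (fun z => pertLog S u s (y r) z) μ' := fun r =>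
    integrable_pertLog hu hu1 h0
  have hsum : ∀ r, |r| ≤ 2 + η → ∑ q, |y r q| ≤ L := fun r hr => by
    rw [← Finset.add_sum_erase _ _ (Finset.mem_univ p)]
    have hle : ∑ q ∈ Finset.univ.erase p, |y r q| ≤ ∑ _q : Fin P, (2 : ℝ) :=
      (Finset.sum_le_sum fun q hq => (by
        simp only [y, Function.update_of_ne (Finset.ne_of_mem_erase hq)]; exact hx q : |y r q| ≤ 2)).trans
        (Finset.sum_le_sum_of_subset_of_nonneg (Finset.erase_subset _ _) fun _ _ _ => zero_le_two)
    simp only [Finset.sum_const, Finset.card_univ, Fintype.card_fin, nsmul_eq_mul] at hle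
    simp only [y, Function.update_self, L] at hle ⊢
    linarith
  have hfl : ∀ r, |r| ≤ 2 + η → ∫ z, |pertLog S u s (y r) z - pertF S u s (y r)| ∂μ' ≤ V + 3 * s * L :=
    fun r hr => pertLog_fluct hu hu1 hs hV hL (hsum r hr)
  set Δ : ℝ → S.Ω × PertSpace N P → ℝ := fun r z => |pertLog S u s (y r) z - pertF S u s (y r)|
  have hΔ : ∀ r, Integrable (Δ r) μ' := fun r => ((hφ r).sub' (integrable_const _)).abs
  set m : ℝ → ℝ := fun r => powM S u s (y r) p
  have hA : ∀ r, Integrable (fun z => powMean S u s (y r) p z) μ' := fun r => integrable_powMean hu hu1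
  have hFs : ∀ a b, (b - a) * (s * m a) ≤ pertF S u s (y b) - pertF S u s (y a) := fun a b => by
    simp only [m, pertF, powM]
    rw [← integral_sub (hφ b) (hφ a), ← integral_const_mul, ← integral_const_mul]
    exact integral_mono (((hA a).const_mul s).const_mul _) ((hφ b).sub' (hφ a))
      fun z => pertLog_support hu hu1 a b z
  have hmono := powM_mono hu hu1 (x := x) (p := p) hs
  have hdis : ∀ z, |powMean S u s (y t) p z - m t| ≤
      (Δ (t + η) z + Δ t z + Δ (t - η) z) / (η * s) + (m (t + η) - m (t - η)) := fun z => by
    have h1 : (t + η - t) * (s * powMean S u s (y t) p z) ≤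
        pertLog S u s (y (t + η)) z - pertLog S u s (y t) z := pertLog_support hu hu1 t (t + η) z
    have h2 : (t - η - t) * (s * powMean S u s (y t) p z) ≤
        pertLog S u s (y (t - η)) z - pertLog S u s (y t) z := pertLog_support hu hu1 t (t - η) z
    have f1 := hFs (t + η) t
    have f2 := hFs (t - η) t
    have g1 : m t ≤ m (t + η) := hmono (by linarith)
    have g2 : m (t - η) ≤ m t := hmono (by linarith)
    have a1 := abs_le.1 (le_refl (Δ (t + η) z))
    have a2 := abs_le.1 (le_refl (Δ t z))
    have a3 := abs_le.1 (le_refl (Δ (t - η) z))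
    simp only [Δ] at a1 a2 a3 ⊢
    have hηs : 0 < η * s := mul_pos hη hs
    rw [div_add' _ _ _ hηs.ne', le_div_iff₀ hηs, ← abs_of_pos hηs, ← abs_mul, abs_of_pos hηs, abs_le]
    have k1 := mul_le_mul_of_nonneg_left g1 hηs.le
    have k2 := mul_le_mul_of_nonneg_left g2 hηs.le
    constructor <;>
      linarith [abs_nonneg (pertLog S u s (y (t + η)) z - pertF S u s (y (t + η))),
        abs_nonneg (pertLog S u s (y (t - η)) z - pertF S u s (y (t - η)))]
  have hVar := integrable_powVar hu hu1 (s := s) (x := y t) (p := p)
  have hD : Integrable (fun z => (Δ (t + η) z + Δ t z + Δ (t - η) z) / (η * s) +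
      (m (t + η) - m (t - η))) μ' :=
    ((((hΔ (t + η)).add (hΔ t)).add (hΔ (t - η))).div_const _).add (integrable_const _)
  have hT : Integrable (fun z => (1 + powVar S u s (y t) p z) / 2) μ' :=
    ((integrable_const 1).add hVar).div_const 2
  have hpt : ∀ z, pertAvg S u s (y t) (fun a : Fin 1 → S.X => |powField S u p z (a 0) - m t|) z ≤
      (1 + powVar S u s (y t) p z) / 2 +
        ((Δ (t + η) z + Δ t z + Δ (t - η) z) / (η * s) + (m (t + η) - m (t - η))) := fun z => by
    have := isProbabilityMeasure_gibbs (μ := S.ref) (wt_pertW hu hu1 s (y t) z)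
    have hh := measurable_powField' hu p z
    set A := powMean S u s (y t) p z
    have hi1 : Integrable (fun a => (powField S u p z a - A) ^ 2) (gibbs S.ref (pertW S u s (y t) z)) :=
      integrable_of_bdd ((hh.sub_const A).pow_const 2) (b := (‖z.2‖ + |A|) ^ 2) fun a => by
        rw [abs_pow]
        exact pow_le_pow_left₀ (abs_nonneg _)
          ((abs_sub _ _).trans (add_le_add (abs_powField_le hu1 z a) le_rfl)) 2
    simp only [pertAvg]
    rw [integral_pi_one (n := 1) (f := fun a => |powField S u p z a - m t|) (hh.sub_const _).abs 0]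
    refine (integral_mono (integrable_of_bdd (hh.sub_const _).abs (b := ‖z.2‖ + |m t|) fun a => by
        rw [abs_abs]; exact (abs_sub _ _).trans (add_le_add (abs_powField_le hu1 z a) le_rfl))
      ((((integrable_const 1).add hi1).div_const 2).add (integrable_const |A - m t|)) fun a => ?_).trans ?_
    · simp only [Pi.add_apply]
      refine (abs_sub_le _ A _).trans ?_
      have := sq_nonneg (|powField S u p z a - A| - 1)
      nlinarith [sq_abs (powField S u p z a - A)]
    · simp only [Pi.add_apply]
      have hi2 : Integrable (fun a => (1 + (powField S u p z a - A) ^ 2) / 2)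
          (gibbs S.ref (pertW S u s (y t) z)) := ((integrable_const 1).add hi1).div_const 2
      rw [integral_add hi2 (integrable_const _), integral_div, integral_add (integrable_const 1) hi1]
      simp only [integral_const, probReal_univ, one_smul]
      exact add_le_add le_rfl (hdis z)
  refine (integral_mono ?_ (hT.add hD) hpt).trans ?_
  · exact integrable_pertAvg hu hu1 (Θ := fun z (a : Fin 1 → S.X) => |powField S u p z (a 0) - m t|)
      ((measurable_powField_rep hu p 0).sub_const _).abs (b := |m t|) (c := 1) fun z a => by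
        rw [abs_abs, one_mul]
        linarith [abs_sub (powField S u p z (a 0)) (m t), abs_powField_le (p := p) hu1 z (a 0)]
  · simp only [Pi.add_apply]
    have hS2 : Integrable (fun z => Δ (t + η) z + Δ t z) μ' := (hΔ (t + η)).add (hΔ t)
    have hS3 : Integrable (fun z => (Δ (t + η) z + Δ t z + Δ (t - η) z) / (η * s)) μ' :=
      (hS2.add (hΔ (t - η))).div_const _
    rw [integral_add hT hD, integral_div, integral_add (integrable_const 1) hVar,
      integral_add hS3 (integrable_const _), integral_div, integral_add hS2 (hΔ (t - η)),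
      integral_add (hΔ (t + η)) (hΔ t)]
    simp only [integral_const, probReal_univ, one_smul]
    rw [← add_assoc]
    refine add_le_add (add_le_add le_rfl (div_le_div_of_nonneg_right ?_ (mul_pos hη hs).le)) le_rfl
    have ht1 : |t + η| ≤ 2 + η := abs_le.2 ⟨by linarith [ht.1], by linarith [ht.2]⟩
    have ht2 : |t| ≤ 2 + η := abs_le.2 ⟨by linarith [ht.1], by linarith [ht.2]⟩
    have ht3 : |t - η| ≤ 2 + η := abs_le.2 ⟨by linarith [ht.1], by linarith [ht.2]⟩
    linarith [hfl _ ht1, hfl _ ht2, hfl _ ht3]

end system

end Vale.Agent.P157.Low
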