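import Vale.Agent.P157.Low.Sys

/-!
The perturbation by tensor powers of the feature vectors.
-/

namespace Vale.Agent.P157.Low

open MeasureTheory ProbabilityTheory
open scoped RealInnerProductSpace

/-- Coordinates of the perturbation: tensor powers `1, …, P` of `ℝ^N`. -/
abbrev PertSpace (N P : ℕ) := EuclideanSpace ℝ ((p : Fin P) × (Fin ((p : ℕ) + 1) → Fin N))

variable {N P : ℕ}

/-- The combined feature with coefficients `x`. -/
noncomputable def pertVec (x : Fin P → ℝ) (u : EuclideanSpace ℝ (Fin N)) : PertSpace N P :=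
  WithLp.toLp 2 fun i => x i.1 * ∏ k, u (i.2 k)

/-- The feature of the power `p + 1` alone. -/
noncomputable def powVec (p : Fin P) (u : EuclideanSpace ℝ (Fin N)) : PertSpace N P :=
  pertVec (fun q => if q = p then 1 else 0) u

lemma norm_pertVec_le (x : Fin P → ℝ) (u : EuclideanSpace ℝ (Fin N)) (hu : ‖u‖ = 1) :
    ‖pertVec x u‖ ≤ ∑ q, |x q| := by
  have h1 : ∑ i, u i ^ 2 = 1 := by
    rw [← EuclideanSpace.real_norm_sq_eq, hu, one_pow]
  have e : ‖pertVec x u‖ ^ 2 = ∑ q, x q ^ 2 := by
    rw [EuclideanSpace.real_norm_sq_eq, Fintype.sum_sigma]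
    refine Finset.sum_congr rfl fun q _ => ?_
    simp only [pertVec, mul_pow, ← Finset.mul_sum, ← Finset.prod_pow]
    rw [← Fintype.prod_sum (fun (_ : Fin ((q : ℕ) + 1)) j => u j ^ 2)]
    simp [h1]
  have h2 : ∑ q, x q ^ 2 ≤ (∑ q, |x q|) ^ 2 := by
    calc ∑ q, x q ^ 2 = ∑ q, |x q| ^ 2 := by simp [sq_abs]
      _ ≤ (∑ q, |x q|) ^ 2 := Finset.sum_sq_le_sq_sum_of_nonneg fun q _ => abs_nonneg _
  exact (pow_le_pow_iff_left₀ (norm_nonneg _) (Finset.sum_nonneg fun q _ => abs_nonneg _)
    two_ne_zero).1 (e.trans_le h2)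

lemma measurable_pertVec (x : Fin P → ℝ) : Measurable (pertVec (N := N) x) := by
  unfold pertVec; fun_prop

/-- A system perturbed at strength `s` by the powers of the features `u`. -/
noncomputable def Sys.perturb (S : Sys) (u : S.X → EuclideanSpace ℝ (Fin N)) (hu : Measurable u)
    (hu1 : ∀ a, ‖u a‖ = 1) (s : ℝ) (x : Fin P → ℝ) : Sys where
  Ω := S.Ω × PertSpace N P
  mΩ := inferInstance
  law := S.law.prod (stdGaussian (PertSpace N P))
  prob := inferInstance
  X := S.X
  mX := S.mX
  ref := S.ref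
  probRef := S.probRef
  E := S.E
  normE := S.normE
  innerE := S.innerE
  finE := S.finE
  mE := S.mE
  borelE := S.borelE
  v := S.v
  measV := S.measV
  unit := S.unit
  w p a := S.w p.1 a * Real.exp (s * ⟪p.2, pertVec x (u a)⟫)
  measW := (S.measW.comp ((measurable_fst.comp measurable_fst).prodMk measurable_snd)).mul
    (((measurable_snd.comp measurable_fst).inner
      ((measurable_pertVec x).comp (hu.comp measurable_snd))).const_mul s).exp
  wt p := (S.wt p.1).mul (Wt.exp (F := fun a => s * ⟪p.2, pertVec x (u a)⟫)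
    ((measurable_const.inner ((measurable_pertVec x).comp hu)).const_mul s)
    (β := |s| * (‖p.2‖ * ∑ q, |x q|)) fun a => by
      rw [abs_mul]
      refine mul_le_mul_of_nonneg_left ((abs_real_inner_le_norm _ _).trans
        (mul_le_mul_of_nonneg_left ?_ (norm_nonneg _))) (abs_nonneg _)
      exact norm_pertVec_le x (u a) (hu1 a))

/-- Fluctuation of the power `p + 1` of a perturbed system, divided by the strength. -/
noncomputable def ggErr (S : Sys) (u : S.X → EuclideanSpace ℝ (Fin N)) (hu : Measurable u)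
    (hu1 : ∀ a, ‖u a‖ = 1) (s : ℝ) (x : Fin P → ℝ) (p : Fin P) : ℝ :=
  let T := S.perturb u hu hu1 s x
  let m := T.avgRep 1 fun ω a => ⟪ω.2, powVec p (u (a 0))⟫
  (T.avgRep 1 fun ω a => |⟪ω.2, powVec p (u (a 0))⟫ - m|) / s

/-- The box of coefficients. -/
def box (P : ℕ) : Set (Fin P → ℝ) := Set.pi Set.univ fun _ => Set.Icc (1 : ℝ) 2

end Vale.Agent.P157.Low
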