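import Vale.Agent.P157.Low.Stein
import Vale.Agent.P157.Low.GGBase
import Vale.Agent.P157.Low.Pert

/-!
The integration-by-parts identity of the perturbation.
-/

namespace Vale.Agent.P157.Low

open MeasureTheory ProbabilityTheory
open scoped RealInnerProductSpace

variable {N P : ℕ}

section algebra

/-- Inner product of a power with the combined feature. -/
lemma inner_powVec_pertVec (x : Fin P → ℝ) (p : Fin P) (a b : EuclideanSpace ℝ (Fin N)) :
    ⟪powVec p a, pertVec x b⟫ = x p * ⟪a, b⟫ ^ ((p : ℕ) + 1) := by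
  have hab : ⟪a, b⟫ = ∑ j, a j * b j := by simp [PiLp.inner_apply, mul_comm]
  rw [PiLp.inner_apply, Fintype.sum_sigma, Finset.sum_eq_single p]
  · simp only [powVec, pertVec, RCLike.inner_apply, conj_trivial, if_true]
    rw [← Fin.prod_const, hab, Fintype.prod_sum, Finset.mul_sum]
    refine Finset.sum_congr rfl fun i _ => ?_
    rw [Finset.prod_mul_distrib]
    ring
  · intro q _ hq
    simp [powVec, pertVec, hq]
  · simp

lemma pertVec_update (x : Fin P → ℝ) (p : Fin P) (t : ℝ) (u : EuclideanSpace ℝ (Fin N)) :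
    pertVec (Function.update x p t) u = pertVec (Function.update x p 0) u + t • powVec p u := by
  ext ⟨q, i⟩
  by_cases hq : q = p
  · subst hq
    simp [pertVec, powVec]
  · simp [pertVec, powVec, hq]

lemma norm_powVec_le (p : Fin P) (u : EuclideanSpace ℝ (Fin N)) (hu : ‖u‖ = 1) : ‖powVec p u‖ ≤ 1 :=
  (norm_pertVec_le _ u hu).trans (le_of_eq (by simp [apply_ite abs]))

lemma abs_inner_pow_le {a b : EuclideanSpace ℝ (Fin N)} (ha : ‖a‖ = 1) (hb : ‖b‖ = 1) (k : ℕ) :
    |⟪a, b⟫ ^ k| ≤ 1 := by
  rw [abs_pow]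
  exact pow_le_one₀ (abs_nonneg _) (by simpa [ha, hb] using abs_real_inner_le_norm a b)

end algebra

section system

variable (S : Sys) (u : S.X → EuclideanSpace ℝ (Fin N))

/-- The perturbed weight. -/
noncomputable def pertW (s : ℝ) (x : Fin P → ℝ) (z : S.Ω × PertSpace N P) (a : S.X) : ℝ :=
  S.w z.1 a * Real.exp (s * ⟪z.2, pertVec x (u a)⟫)

/-- The perturbed replica average at given disorder. -/
noncomputable def pertAvg (s : ℝ) (x : Fin P → ℝ) {n : ℕ} (Θ : (Fin n → S.X) → ℝ)
    (z : S.Ω × PertSpace N P) : ℝ :=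
  ∫ a, Θ a ∂Measure.pi (fun _ : Fin n => gibbs S.ref (pertW S u s x z))

/-- The perturbed replica average. -/
noncomputable def pertRep (s : ℝ) (x : Fin P → ℝ) (n : ℕ)
    (Θ : S.Ω × PertSpace N P → (Fin n → S.X) → ℝ) : ℝ :=
  ∫ z, pertAvg S u s x (Θ z) z ∂S.law.prod (stdGaussian (PertSpace N P))

/-- The field of the power `p + 1`. -/
noncomputable def powField (p : Fin P) (z : S.Ω × PertSpace N P) (a : S.X) : ℝ :=
  ⟪z.2, powVec p (u a)⟫

/-- Its Gibbs mean. -/
noncomputable def powMean (s : ℝ) (x : Fin P → ℝ) (p : Fin P) (z : S.Ω × PertSpace N P) : ℝ :=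
  ∫ a, powField S u p z a ∂gibbs S.ref (pertW S u s x z)

/-- Its expected Gibbs mean. -/
noncomputable def powM (s : ℝ) (x : Fin P → ℝ) (p : Fin P) : ℝ :=
  ∫ z, powMean S u s x p z ∂S.law.prod (stdGaussian (PertSpace N P))

variable {S u} (hu : Measurable u) (hu1 : ∀ a, ‖u a‖ = 1) {s : ℝ} {x : Fin P → ℝ} {p : Fin P}

include hu in
lemma measurable_pertW (s : ℝ) : Measurable (Function.uncurry fun k : (Fin P → ℝ) × (S.Ω × PertSpace N P) =>
    pertW S u s k.1 k.2) := by
  have h : Measurable fun q : (Fin P → ℝ) × EuclideanSpace ℝ (Fin N) => pertVec q.1 q.2 := by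
    unfold pertVec; fun_prop
  exact (S.measW.comp ((measurable_fst.comp (measurable_snd.comp measurable_fst)).prodMk
    measurable_snd)).mul (((measurable_snd.comp (measurable_snd.comp measurable_fst)).inner
      (h.comp ((measurable_fst.comp measurable_fst).prodMk (hu.comp measurable_snd)))).const_mul s).exp

include hu hu1 in
lemma wt_pertW (s : ℝ) (x : Fin P → ℝ) (z : S.Ω × PertSpace N P) : Wt (pertW S u s x z) :=
  (S.perturb u hu hu1 s x).wt z

include hu in
lemma measurable_pertW' (s : ℝ) (x : Fin P → ℝ) :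
    Measurable (Function.uncurry (pertW S u s x)) :=
  (measurable_pertW hu s).comp ((measurable_const.prodMk measurable_fst).prodMk measurable_snd)

include hu in
lemma measurable_powField (p : Fin P) {K : Type} [MeasurableSpace K] {f : K → S.Ω × PertSpace N P}
    (hf : Measurable f) {g : K → S.X} (hg : Measurable g) :
    Measurable fun k => powField S u p (f k) (g k) := by
  unfold powField powVec
  exact (measurable_snd.comp hf).inner ((measurable_pertVec _).comp (hu.comp hg))

include hu in
lemma measurable_powField' (p : Fin P) (z : S.Ω × PertSpace N P) : Measurable (powField S u p z) :=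
  measurable_powField hu p measurable_const measurable_id

include hu in
lemma measurable_powField_rep (p : Fin P) {n : ℕ} (l : Fin n) :
    Measurable (Function.uncurry fun (z : S.Ω × PertSpace N P) (a : Fin n → S.X) =>
      powField S u p z (a l)) :=
  measurable_powField hu p (f := fun q : (S.Ω × PertSpace N P) × (Fin n → S.X) => q.1) measurable_fst
    (g := fun q => q.2 l) ((measurable_pi_apply l).comp measurable_snd)

include hu1 in
lemma abs_powField_le (z : S.Ω × PertSpace N P) (a : S.X) : |powField S u p z a| ≤ ‖z.2‖ :=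
  (abs_real_inner_le_norm _ _).trans
    ((mul_le_mul_of_nonneg_left (norm_powVec_le p _ (hu1 a)) (norm_nonneg _)).trans_eq (mul_one _))

include hu hu1 in
lemma measurable_pertAvg {n : ℕ} {Θ : (Fin P → ℝ) × (S.Ω × PertSpace N P) → (Fin n → S.X) → ℝ}
    (hΘ : Measurable (Function.uncurry Θ)) :
    Measurable fun k => pertAvg S u s k.1 (Θ k) k.2 :=
  measurable_gibbsAvg (measurable_pertW hu s) (fun k => wt_pertW hu hu1 s k.1 k.2) hΘ

include hu hu1 in
lemma measurable_pertAvg' {n : ℕ} {Θ : S.Ω × PertSpace N P → (Fin n → S.X) → ℝ}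
    (hΘ : Measurable (Function.uncurry Θ)) : Measurable fun z => pertAvg S u s x (Θ z) z :=
  measurable_gibbsAvg (measurable_pertW' hu s x) (fun z => wt_pertW hu hu1 s x z) hΘ

include hu hu1 in
lemma abs_pertAvg_le {n : ℕ} {Θ : (Fin n → S.X) → ℝ} {b : ℝ} (hb : ∀ a, |Θ a| ≤ b)
    (z : S.Ω × PertSpace N P) : |pertAvg S u s x Θ z| ≤ b :=
  abs_gibbsAvg_le (wt_pertW hu hu1 s x z) hb

include hu hu1 in
lemma integrable_pertAvg {n : ℕ} {Θ : S.Ω × PertSpace N P → (Fin n → S.X) → ℝ}
    (hΘ : Measurable (Function.uncurry Θ)) {b c : ℝ} (hb : ∀ z a, |Θ z a| ≤ b + c * ‖z.2‖) :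
    Integrable (fun z => pertAvg S u s x (Θ z) z) (S.law.prod (stdGaussian (PertSpace N P))) := by
  refine Integrable.mono' ((integrable_const b).add
    (((integrable_norm_pow (E := PertSpace N P) 1).comp_snd S.law).const_mul c))
    (measurable_pertAvg' hu hu1 hΘ).aestronglyMeasurable (Filter.Eventually.of_forall fun z => ?_)
  simpa using abs_pertAvg_le hu hu1 (fun a => hb z a) z

include hu hu1 in
lemma abs_pertRep_le {n : ℕ} {Θ : S.Ω × PertSpace N P → (Fin n → S.X) → ℝ} {b : ℝ}
    (hb : ∀ z a, |Θ z a| ≤ b) : |pertRep S u s x n Θ| ≤ b := by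
  rw [pertRep, ← Real.norm_eq_abs]
  exact (norm_integral_le_of_norm_le_const (Filter.Eventually.of_forall fun z =>
    (Real.norm_eq_abs _).trans_le (abs_pertAvg_le hu hu1 (hb z) z))).trans_eq (by simp)

include hu hu1 in
/-- Gaussian integration by parts in one coordinate of the perturbation. -/
lemma stein_coord {n : ℕ} {Ψ : (Fin n → S.X) → ℝ} (hΨ : Measurable Ψ) {D : ℝ} (hD : ∀ a, |Ψ a| ≤ D)
    (ω : S.Ω) (i : (q : Fin P) × (Fin ((q : ℕ) + 1) → Fin N)) :
    ∫ J, J i * pertAvg S u s x Ψ (ω, J) ∂stdGaussian (PertSpace N P) =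
      ∫ J, (pertAvg S u s x (fun a => Ψ a * ∑ j, s * (pertVec x (u (a j))) i) (ω, J) -
        n * pertAvg S u s x
          (fun a : Fin (n + 1) → S.X => Ψ (a ∘ Fin.castSucc) * (s * (pertVec x (u (a (Fin.last n)))) i))
          (ω, J)) ∂stdGaussian (PertSpace N P) := by
  set v : PertSpace N P := EuclideanSpace.single i 1
  set ξ : S.X → ℝ := fun a => s * (pertVec x (u a)) i with hξ
  have hξm : Measurable ξ := Measurable.const_mul
    (((continuous_apply i).comp (PiLp.continuous_ofLp 2 _)).measurable.comp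
      ((measurable_pertVec x).comp hu)) s
  set c := |s| * ∑ q, |x q|
  have hξb : ∀ a, |ξ a| ≤ c := fun a => by
    simp only [hξ, abs_mul]
    refine mul_le_mul_of_nonneg_left (le_trans ?_ (norm_pertVec_le x _ (hu1 a))) (abs_nonneg s)
    simpa using PiLp.norm_apply_le (pertVec x (u a)) i
  set Y : (Fin n → S.X) → ℝ := fun a => Ψ a * ∑ j, ξ (a j)
  set Y' : (Fin (n + 1) → S.X) → ℝ := fun a => Ψ (a ∘ Fin.castSucc) * ξ (a (Fin.last n))
  have hYm : Measurable Y := hΨ.mul (Finset.measurable_sum _ fun j _ => hξm.comp (measurable_pi_apply j))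
  have hcs : Measurable fun a : Fin (n + 1) → S.X => a ∘ Fin.castSucc :=
    measurable_pi_lambda _ fun j => measurable_pi_apply _
  have hY'm : Measurable Y' := (hΨ.comp hcs).mul
    (hξm.comp (measurable_pi_apply _))
  have hYb : ∀ a, |Y a| ≤ |D| * (n * c) := fun a => by
    rw [abs_mul]
    exact mul_le_mul ((hD a).trans (le_abs_self D))
      ((Finset.abs_sum_le_sum_abs _ _).trans ((Finset.sum_le_sum fun j _ => hξb _).trans_eq (by simp)))
      (abs_nonneg _) (abs_nonneg _)
  have hY'b : ∀ a, |Y' a| ≤ |D| * c := fun a => by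
    rw [abs_mul]
    exact mul_le_mul ((hD _).trans (le_abs_self D)) (hξb _) (abs_nonneg _) (abs_nonneg _)
  have hc : 0 ≤ c := by positivity
  set C := |D| + |D| * (n * c) + n * (|D| * c)
  have hGb : ∀ J, |pertAvg S u s x Ψ (ω, J)| ≤ C := fun J => by
    refine (abs_pertAvg_le hu hu1 (fun a => (hD a).trans (le_abs_self D)) _).trans ?_
    have : 0 ≤ |D| * (n * c) + n * (|D| * c) := by positivity
    linarith
  have h := stein_unit (v := v) (by simp [v]) (G := fun J => pertAvg S u s x Ψ (ω, J))
    (G' := fun J => pertAvg S u s x Y (ω, J) - n * pertAvg S u s x Y' (ω, J))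
    ((measurable_pertAvg' hu hu1 (Θ := fun _ => Ψ) (hΨ.comp measurable_snd)).comp
      (measurable_const.prodMk measurable_id))
    (((measurable_pertAvg' hu hu1 (Θ := fun _ => Y) (hYm.comp measurable_snd)).comp
      (measurable_const.prodMk measurable_id)).sub
      (((measurable_pertAvg' hu hu1 (Θ := fun _ => Y') (hY'm.comp measurable_snd)).comp
        (measurable_const.prodMk measurable_id)).const_mul _))
    (fun J => ?_) hGb (fun J => ?_)
  · simpa [v, EuclideanSpace.inner_single_right] using h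
  · have e : (fun t : ℝ => pertAvg S u s x Ψ (ω, J + t • v)) = fun t =>
        ∫ a, Ψ a ∂Measure.pi (fun _ : Fin n =>
          gibbs S.ref fun y => pertW S u s x (ω, J) y * Real.exp (t * ξ y)) := by
      funext t
      have ew : pertW S u s x (ω, J + t • v) =
          fun y => pertW S u s x (ω, J) y * Real.exp (t * ξ y) := by
        funext y
        simp only [pertW, hξ, v, mul_assoc, ← Real.exp_add, inner_add_left, real_inner_smul_left,
          EuclideanSpace.inner_single_left, map_one, one_mul]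
        ring_nf
      simp only [pertAvg, ew]
    have hw := wt_pertW hu hu1 s x (ω, J)
    have := isProbabilityMeasure_gibbs (μ := S.ref) hw
    rw [e]
    refine (hasDerivAt_gibbsAvg hw hξm hξb hΨ hD).congr_deriv ?_
    simp only [pertAvg]
    rw [integral_pi_last hY'm hY'b]
    simp only [Y', Fin.snoc_comp_castSucc, Fin.snoc_last, integral_const_mul, integral_mul_const]
    rfl
  · have hn : 0 ≤ |D| := abs_nonneg D
    refine (abs_sub _ _).trans ?_
    rw [abs_mul, Nat.abs_cast]
    have h1 := abs_pertAvg_le hu hu1 (s := s) (x := x) hYb (ω, J)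
    have h2 := mul_le_mul_of_nonneg_left (abs_pertAvg_le hu hu1 (s := s) (x := x) hY'b (ω, J))
      (Nat.cast_nonneg' (α := ℝ) n)
    linarith

include hu hu1 in
/-- The identity at a given unperturbed disorder. -/
lemma pert_stein_key {n : ℕ} (l : Fin n) {Ψ : (Fin n → S.X) → ℝ} (hΨ : Measurable Ψ) {D : ℝ}
    (hD : ∀ a, |Ψ a| ≤ D) (ω : S.Ω) :
    ∫ J, pertAvg S u s x (fun a => Ψ a * powField S u p (ω, J) (a l)) (ω, J)
        ∂stdGaussian (PertSpace N P) =
      ∫ J, s * x p * (pertAvg S u s x (fun a => ∑ j, Ψ a * ⟪u (a l), u (a j)⟫ ^ ((p : ℕ) + 1)) (ω, J) -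
        n * pertAvg S u s x (fun a : Fin (n + 1) → S.X => Ψ (a ∘ Fin.castSucc) *
          ⟪u (a l.castSucc), u (a (Fin.last n))⟫ ^ ((p : ℕ) + 1)) (ω, J))
        ∂stdGaussian (PertSpace N P) := by
  set k := (p : ℕ) + 1
  set Θ : (Fin n → S.X) → ℝ := fun a => ∑ j, Ψ a * ⟪u (a l), u (a j)⟫ ^ k
  set Θ' : (Fin (n + 1) → S.X) → ℝ := fun a =>
    Ψ (a ∘ Fin.castSucc) * ⟪u (a l.castSucc), u (a (Fin.last n))⟫ ^ k
  set e : (q : Fin P) × (Fin ((q : ℕ) + 1) → Fin N) → S.X → ℝ := fun i a => (powVec p (u a)) i
  set V : (q : Fin P) × (Fin ((q : ℕ) + 1) → Fin N) → S.X → ℝ :=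
    fun i a => s * (pertVec x (u a)) i
  have happ : ∀ i, Measurable fun v : PertSpace N P => v i := fun i =>
    ((continuous_apply i).comp (PiLp.continuous_ofLp 2 _)).measurable
  have hem : ∀ i, Measurable (e i) := fun i => (happ i).comp ((measurable_pertVec _).comp hu)
  have hVm : ∀ i, Measurable (V i) := fun i =>
    ((happ i).comp ((measurable_pertVec _).comp hu)).const_mul s
  have hVb : ∀ i a, |V i a| ≤ |s| * ∑ q, |x q| := fun i a => by
    simp only [V, abs_mul]
    refine mul_le_mul_of_nonneg_left (le_trans ?_ (norm_pertVec_le x _ (hu1 a))) (abs_nonneg s)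
    simpa using PiLp.norm_apply_le (pertVec x (u a)) i
  have heb : ∀ i a, |e i a| ≤ 1 := fun i a =>
    le_trans (by simpa using PiLp.norm_apply_le (powVec p (u a)) i) (norm_powVec_le p _ (hu1 a))
  set Ψi : _ → (Fin n → S.X) → ℝ := fun i a => Ψ a * e i (a l)
  have hΨim : ∀ i, Measurable (Ψi i) := fun i => hΨ.mul ((hem i).comp (measurable_pi_apply l))
  have hΨib : ∀ i a, |Ψi i a| ≤ |D| := fun i a => by
    rw [abs_mul]
    exact (mul_le_mul ((hD a).trans (le_abs_self D)) (heb i _) (abs_nonneg _)
      (abs_nonneg _)).trans_eq (mul_one _)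
  set A : _ → (Fin n → S.X) → ℝ := fun i a => Ψi i a * ∑ j, V i (a j)
  set A' : _ → (Fin (n + 1) → S.X) → ℝ := fun i a => Ψi i (a ∘ Fin.castSucc) * V i (a (Fin.last n))
  have hcs : Measurable fun a : Fin (n + 1) → S.X => a ∘ Fin.castSucc :=
    measurable_pi_lambda _ fun j => measurable_pi_apply _
  have hAm : ∀ i, Measurable (A i) := fun i =>
    (hΨim i).mul (Finset.measurable_sum _ fun j _ => (hVm i).comp (measurable_pi_apply j))
  have hA'm : ∀ i, Measurable (A' i) := fun i =>
    ((hΨim i).comp hcs).mul ((hVm i).comp (measurable_pi_apply _))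
  have hAb : ∀ i a, |A i a| ≤ |D| * (n * (|s| * ∑ q, |x q|)) := fun i a => by
    rw [abs_mul]
    exact mul_le_mul (hΨib i a)
      ((Finset.abs_sum_le_sum_abs _ _).trans ((Finset.sum_le_sum fun j _ => hVb i _).trans_eq (by simp)))
      (abs_nonneg _) (abs_nonneg _)
  have hA'b : ∀ i a, |A' i a| ≤ |D| * (|s| * ∑ q, |x q|) := fun i a => by
    rw [abs_mul]
    exact mul_le_mul (hΨib i _) (hVb i _) (abs_nonneg _) (abs_nonneg _)
  have hp : ∀ J, ∀ (m : ℕ), IsProbabilityMeasure
      (Measure.pi fun _ : Fin m => gibbs S.ref (pertW S u s x (ω, J))) := fun J m => by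
    have := isProbabilityMeasure_gibbs (μ := S.ref) (wt_pertW hu hu1 s x (ω, J))
    infer_instance
  have hsum : ∀ {m : ℕ} (J : PertSpace N P)
      (B : ((q : Fin P) × (Fin ((q : ℕ) + 1) → Fin N)) → (Fin m → S.X) → ℝ) (b : ℝ),
      (∀ i, Measurable (B i)) → (∀ i a, |B i a| ≤ b) →
      ∑ i, pertAvg S u s x (B i) (ω, J) = pertAvg S u s x (fun a => ∑ i, B i a) (ω, J) := by
    intro m J B b hB hb
    have := hp J m
    simp only [pertAvg]
    rw [integral_finsetSum _ fun i _ => integrable_of_bdd (hB i) (hb i)]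
  have hleft : ∀ J, pertAvg S u s x (fun a => Ψ a * powField S u p (ω, J) (a l)) (ω, J) =
      ∑ i, J i * pertAvg S u s x (Ψi i) (ω, J) := fun J => by
    have := hp J n
    simp only [pertAvg, ← integral_const_mul]
    rw [← integral_finsetSum _ fun i _ =>
      (integrable_of_bdd (hΨim i) (hΨib i)).const_mul _]
    refine integral_congr_ae (Filter.Eventually.of_forall fun a => ?_)
    simp only [powField, Ψi, e, PiLp.inner_apply, RCLike.inner_apply, conj_trivial, Finset.mul_sum]
    exact Finset.sum_congr rfl fun i _ => by ring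
  have hint : ∀ i, Integrable (fun J => J i * pertAvg S u s x (Ψi i) (ω, J))
      (stdGaussian (PertSpace N P)) := fun i => by
    refine Integrable.mono' (((integrable_norm_pow (E := PertSpace N P) 1)).mul_const |D|)
      (((happ i)).mul ((measurable_pertAvg' hu hu1 (Θ := fun _ => Ψi i)
        ((hΨim i).comp measurable_snd)).comp (measurable_const.prodMk measurable_id))
        ).aestronglyMeasurable (Filter.Eventually.of_forall fun J => ?_)
    rw [Real.norm_eq_abs, abs_mul, pow_one]
    exact mul_le_mul (by simpa using PiLp.norm_apply_le J i)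
      (abs_pertAvg_le hu hu1 (hΨib i) _) (abs_nonneg _) (norm_nonneg _)
  have hint' : ∀ i, Integrable (fun J => pertAvg S u s x (A i) (ω, J) -
      n * pertAvg S u s x (A' i) (ω, J)) (stdGaussian (PertSpace N P)) := fun i =>
    (integrable_of_bdd ((measurable_pertAvg' hu hu1 (Θ := fun _ => A i)
        ((hAm i).comp measurable_snd)).comp (measurable_const.prodMk measurable_id))
      fun J => abs_pertAvg_le hu hu1 (hAb i) _).sub'
    ((integrable_of_bdd ((measurable_pertAvg' hu hu1 (Θ := fun _ => A' i)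
        ((hA'm i).comp measurable_snd)).comp (measurable_const.prodMk measurable_id))
      fun J => abs_pertAvg_le hu hu1 (hA'b i) _).const_mul _)
  simp only [hleft]
  rw [integral_finsetSum _ fun i _ => hint i]
  simp only [fun i => stein_coord hu hu1 (s := s) (x := x) (hΨim i) (hΨib i) ω i]
  refine (integral_finsetSum _ fun i _ => hint' i).symm.trans
    (integral_congr_ae (Filter.Eventually.of_forall fun J => ?_))
  simp only [Finset.sum_sub_distrib, ← Finset.mul_sum, hsum J A _ hAm hAb, hsum J A' _ hA'm hA'b]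
  have he : ∀ a b, ∑ i, e i a * V i b = s * x p * ⟪u a, u b⟫ ^ k := fun a b => by
    rw [mul_assoc, ← inner_powVec_pertVec]
    simp only [e, V, PiLp.inner_apply, RCLike.inner_apply, conj_trivial, Finset.mul_sum]
    exact Finset.sum_congr rfl fun i _ => by ring
  have eA : (fun a => ∑ i, A i a) = fun a => s * x p * Θ a := funext fun a => by
    simp only [A, Ψi, Θ, Finset.mul_sum]
    rw [Finset.sum_comm]
    refine Finset.sum_congr rfl fun j _ => ?_
    simp only [mul_assoc, ← Finset.mul_sum, he]
    ring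
  have eA' : (fun a => ∑ i, A' i a) = fun a => s * x p * Θ' a := funext fun a => by
    simp only [A', Ψi, Θ', Function.comp_apply, mul_assoc, ← Finset.mul_sum, he]
    ring
  rw [eA, eA']
  simp only [pertAvg, integral_const_mul]
  ring

include hu hu1 in
/-- The first-order identity of the perturbation. -/
lemma pert_stein {n : ℕ} (l : Fin n) {Ψ : (Fin n → S.X) → ℝ} (hΨ : Measurable Ψ) {D : ℝ}
    (hD : ∀ a, |Ψ a| ≤ D) :
    pertRep S u s x n (fun z a => Ψ a * powField S u p z (a l)) =
      s * x p * ((∑ j, pertRep S u s x n fun _ a => Ψ a * ⟪u (a l), u (a j)⟫ ^ ((p : ℕ) + 1)) -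
        n * pertRep S u s x (n + 1) fun _ a =>
          Ψ (a ∘ Fin.castSucc) * ⟪u (a l.castSucc), u (a (Fin.last n))⟫ ^ ((p : ℕ) + 1)) := by
  set k := (p : ℕ) + 1
  set Θ : (Fin n → S.X) → ℝ := fun a => ∑ j, Ψ a * ⟪u (a l), u (a j)⟫ ^ k with hΘ
  set Θ' : (Fin (n + 1) → S.X) → ℝ := fun a =>
    Ψ (a ∘ Fin.castSucc) * ⟪u (a l.castSucc), u (a (Fin.last n))⟫ ^ k with hΘ'
  have hua : ∀ {n : ℕ} (j : Fin n), Measurable fun a : Fin n → S.X => u (a j) :=
    fun j => hu.comp (measurable_pi_apply j)
  have hj : ∀ j, Measurable fun a => Ψ a * ⟪u (a l), u (a j)⟫ ^ k :=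
    fun j => hΨ.mul (((hua l).inner (hua j)).pow_const k)
  have hjb : ∀ j a, |Ψ a * ⟪u (a l), u (a j)⟫ ^ k| ≤ |D| := fun j a => by
    rw [abs_mul]
    exact (mul_le_mul ((hD a).trans (le_abs_self D)) (abs_inner_pow_le (hu1 _) (hu1 _) k)
      (abs_nonneg _) (abs_nonneg _)).trans_eq (mul_one _)
  have hΘm : Measurable Θ := Finset.measurable_sum _ fun j _ => hj j
  have hΨ' : Measurable fun a : Fin (n + 1) → S.X => Ψ (a ∘ Fin.castSucc) :=
    hΨ.comp (measurable_pi_lambda _ fun j => measurable_pi_apply _)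
  have hΘ'm : Measurable Θ' := hΨ'.mul (((hua _).inner (hua _)).pow_const k)
  have hΘb : ∀ a, |Θ a| ≤ n * |D| := fun a =>
    (Finset.abs_sum_le_sum_abs _ _).trans ((Finset.sum_le_sum fun j _ => hjb j a).trans_eq (by simp))
  have hΘ'b : ∀ a, |Θ' a| ≤ |D| := fun a => by
    rw [abs_mul]
    exact (mul_le_mul ((hD _).trans (le_abs_self D)) (abs_inner_pow_le (hu1 _) (hu1 _) k)
      (abs_nonneg _) (abs_nonneg _)).trans_eq (mul_one _)
  have key := pert_stein_key hu hu1 (s := s) (x := x) (p := p) l hΨ hD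
  rw [← hΘ, ← hΘ'] at key
  have hi : Integrable (fun z => pertAvg S u s x (fun a => Ψ a * powField S u p z (a l)) z)
      (S.law.prod (stdGaussian (PertSpace N P))) :=
    integrable_pertAvg hu hu1 (Θ := fun z a => Ψ a * powField S u p z (a l))
      ((hΨ.comp measurable_snd).mul (measurable_powField_rep hu p l))
      (b := 0) (c := |D|) fun z a => by
        rw [zero_add, abs_mul]
        exact mul_le_mul ((hD a).trans (le_abs_self D)) (abs_powField_le hu1 z _) (abs_nonneg _)
          (abs_nonneg _)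
  have hiΘ : Integrable (fun z => pertAvg S u s x Θ z) (S.law.prod (stdGaussian (PertSpace N P))) :=
    integrable_pertAvg hu hu1 (Θ := fun _ => Θ) (hΘm.comp measurable_snd) (b := n * |D|) (c := 0)
      fun z a => by simpa using hΘb a
  have hiΘ' : Integrable (fun z => pertAvg S u s x Θ' z) (S.law.prod (stdGaussian (PertSpace N P))) :=
    integrable_pertAvg hu hu1 (Θ := fun _ => Θ') (hΘ'm.comp measurable_snd) (b := |D|) (c := 0)
      fun z a => by simpa using hΘ'b a
  rw [pertRep, integral_prod _ hi]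
  simp only [key]
  rw [← integral_prod (fun z => s * x p * (pertAvg S u s x Θ z - n * pertAvg S u s x Θ' z))
      ((hiΘ.sub' (hiΘ'.const_mul _)).const_mul _),
    integral_const_mul, integral_sub hiΘ (hiΘ'.const_mul _), integral_const_mul]
  have eΘ : (∫ z, pertAvg S u s x Θ z ∂S.law.prod (stdGaussian (PertSpace N P))) =
      ∑ j, pertRep S u s x n fun _ a => Ψ a * ⟪u (a l), u (a j)⟫ ^ k := by
    simp only [pertRep]
    rw [← integral_finsetSum _ fun j _ => integrable_pertAvg hu hu1
      (Θ := fun _ a => Ψ a * ⟪u (a l), u (a j)⟫ ^ k) ((hj j).comp measurable_snd) (b := |D|) (c := 0)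
      fun z a => by simpa using hjb j a]
    refine integral_congr_ae (Filter.Eventually.of_forall fun z => ?_)
    have := isProbabilityMeasure_gibbs (μ := S.ref) (wt_pertW hu hu1 s x z)
    simp only [pertAvg, hΘ]
    rw [integral_finsetSum _ fun j _ => integrable_of_bdd (hj j) (hjb j)]
  rw [eΘ]
  rfl

include hu hu1 in
lemma measurable_powMean (s : ℝ) (p : Fin P) :
    Measurable fun k : (Fin P → ℝ) × (S.Ω × PertSpace N P) => powMean S u s k.1 p k.2 := by
  have h := measurable_pertAvg hu hu1 (s := s) (n := 1) (Θ := fun k a => powField S u p k.2 (a 0))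
    (measurable_powField hu p
      (f := fun q : ((Fin P → ℝ) × (S.Ω × PertSpace N P)) × (Fin 1 → S.X) => q.1.2)
      (measurable_snd.comp measurable_fst)
      (g := fun q => q.2 0) ((measurable_pi_apply 0).comp measurable_snd))
  have e : (fun k : (Fin P → ℝ) × (S.Ω × PertSpace N P) =>
      pertAvg S u s k.1 (fun a : Fin 1 → S.X => powField S u p k.2 (a 0)) k.2) =
      fun k => powMean S u s k.1 p k.2 := funext fun k => by
    have := isProbabilityMeasure_gibbs (μ := S.ref) (wt_pertW hu hu1 s k.1 k.2)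
    simp only [pertAvg, powMean]
    exact integral_pi_one (n := 1) (f := powField S u p k.2)
      (measurable_powField' hu p _) 0
  rw [← e]
  exact h

include hu hu1 in
lemma abs_powMean_le (z : S.Ω × PertSpace N P) : |powMean S u s x p z| ≤ ‖z.2‖ := by
  have := isProbabilityMeasure_gibbs (μ := S.ref) (wt_pertW hu hu1 s x z)
  rw [powMean, ← Real.norm_eq_abs]
  exact (norm_integral_le_of_norm_le_const (Filter.Eventually.of_forall fun a =>
    (Real.norm_eq_abs _).trans_le (abs_powField_le hu1 z a))).trans_eq (by simp)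

include hu hu1 in
lemma integrable_powMean :
    Integrable (fun z => powMean S u s x p z) (S.law.prod (stdGaussian (PertSpace N P))) :=
  Integrable.mono' (by simpa using (integrable_norm_pow (E := PertSpace N P) 1).comp_snd S.law)
    ((measurable_powMean hu hu1 s p).comp (measurable_const.prodMk measurable_id)).aestronglyMeasurable
    (Filter.Eventually.of_forall fun z => (Real.norm_eq_abs _).trans_le (abs_powMean_le hu hu1 z))

include hu hu1 in
lemma powMean_eq (z : S.Ω × PertSpace N P) :
    powMean S u s x p z = pertAvg S u s x (fun a : Fin 1 → S.X => powField S u p z (a 0)) z := by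
  have := isProbabilityMeasure_gibbs (μ := S.ref) (wt_pertW hu hu1 s x z)
  exact (integral_pi_one (measurable_powField' hu p _) 0).symm

include hu hu1 in
/-- The mean field of the power `p + 1`. -/
lemma powM_eq : powM S u s x p = s * x p * (1 - pertRep S u s x 2 fun _ a =>
    ⟪u (a 0), u (a 1)⟫ ^ ((p : ℕ) + 1)) := by
  have h := pert_stein hu hu1 (s := s) (x := x) (p := p) (n := 1) 0 (Ψ := fun _ => 1) measurable_const
    (D := 1) fun _ => by simp
  simp only [one_mul, Fin.sum_univ_one, Nat.cast_one, Fin.castSucc_zero] at h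
  have e1 : (pertRep S u s x 1 fun _ a => ⟪u (a 0), u (a 0)⟫ ^ ((p : ℕ) + 1)) = 1 := by
    simp only [pertRep, pertAvg, real_inner_self_eq_norm_sq, hu1, one_pow]
    have : ∀ z, IsProbabilityMeasure (gibbs S.ref (pertW S u s x z)) := fun z =>
      isProbabilityMeasure_gibbs (wt_pertW hu hu1 s x z)
    simp
  rw [powM]
  simp only [powMean_eq hu hu1]
  rw [← pertRep, h, e1]
  rfl

include hu hu1 in
lemma abs_powM_le (hs : 0 ≤ s) : |powM S u s x p| ≤ 2 * s * |x p| := by
  rw [powM_eq hu hu1, abs_mul, abs_mul, abs_of_nonneg hs]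
  have h := abs_pertRep_le hu hu1 (s := s) (x := x) (n := 2) (b := 1)
    (Θ := fun _ a => ⟪u (a 0), u (a 1)⟫ ^ ((p : ℕ) + 1)) fun z a => abs_inner_pow_le (hu1 _) (hu1 _) _
  have h0 : 0 ≤ s * |x p| := by positivity
  calc s * |x p| * |1 - _| ≤ s * |x p| * (1 + 1) :=
        mul_le_mul_of_nonneg_left ((abs_sub _ _).trans (add_le_add (abs_one).le h)) h0
    _ = _ := by ring

include hu hu1 in
lemma ggErr_eq : ggErr S u hu hu1 s x p =
    pertRep S u s x 1 (fun z a => |powField S u p z (a 0) - powM S u s x p|) / s := by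
  have e : (S.perturb u hu hu1 s x).avgRep 1
      (fun ω a => ⟪ω.2, powVec p (u (a 0))⟫) = powM S u s x p := by
    rw [powM]
    simp only [powMean_eq hu hu1]
    rfl
  simp only [ggErr]
  rw [e]
  rfl

include hu hu1 in
/-- A bounded function of the replicas is correlated with the field by at most the error. -/
lemma abs_cov_le {n : ℕ} (l : Fin n) {Ψ : (Fin n → S.X) → ℝ} (hΨ : Measurable Ψ) {D : ℝ}
    (hD : ∀ a, |Ψ a| ≤ D) :
    |pertRep S u s x n (fun z a => Ψ a * powField S u p z (a l)) -
        pertRep S u s x n (fun _ a => Ψ a) * powM S u s x p| ≤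
      D * pertRep S u s x 1 fun z a => |powField S u p z (a 0) - powM S u s x p| := by
  set M := powM S u s x p
  have hjm : Measurable (Function.uncurry fun (z : S.Ω × PertSpace N P) (a : Fin n → S.X) =>
      powField S u p z (a l)) :=
    measurable_powField_rep hu p l
  have hj1 : Measurable (Function.uncurry fun (z : S.Ω × PertSpace N P) (a : Fin 1 → S.X) =>
      |powField S u p z (a 0) - M|) :=
    ((measurable_powField_rep hu p 0).sub_const M).abs
  have hD0 : ∀ a, 0 ≤ D := fun a => (abs_nonneg _).trans (hD a)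
  have hI : Integrable (fun z => pertAvg S u s x (fun a => Ψ a * powField S u p z (a l)) z)
      (S.law.prod (stdGaussian (PertSpace N P))) :=
    integrable_pertAvg hu hu1 (Θ := fun z a => Ψ a * powField S u p z (a l))
      ((hΨ.comp measurable_snd).mul hjm) (b := 0) (c := D) fun z a => by
        rw [zero_add, abs_mul]
        exact mul_le_mul (hD a) (abs_powField_le hu1 z _) (abs_nonneg _) (hD0 a)
  have hI2 : Integrable (fun z => pertAvg S u s x Ψ z) (S.law.prod (stdGaussian (PertSpace N P))) :=
    integrable_pertAvg hu hu1 (Θ := fun _ => Ψ) (hΨ.comp measurable_snd) (b := D) (c := 0)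
      fun z a => by simpa using hD a
  have hI3 : Integrable (fun z => pertAvg S u s x (fun a : Fin 1 → S.X =>
      |powField S u p z (a 0) - M|) z) (S.law.prod (stdGaussian (PertSpace N P))) :=
    integrable_pertAvg hu hu1 (Θ := fun z (a : Fin 1 → S.X) => |powField S u p z (a 0) - M|) hj1
      (b := |M|) (c := 1) fun z a => by
        rw [abs_abs, one_mul]
        linarith [abs_sub (powField S u p z (a 0)) M, abs_powField_le (p := p) hu1 z (a 0)]
  simp only [pertRep]
  rw [← integral_mul_const, ← integral_const_mul, ← integral_sub hI (hI2.mul_const M),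
    ← Real.norm_eq_abs]
  refine norm_integral_le_of_norm_le (hI3.const_mul D) (Filter.Eventually.of_forall fun z => ?_)
  have hp := isProbabilityMeasure_gibbs (μ := S.ref) (wt_pertW hu hu1 s x z)
  have hf : Measurable (powField S u p z) :=
    measurable_powField' hu p z
  have h1 : Integrable (fun a => Ψ a * powField S u p z (a l))
      (Measure.pi fun _ : Fin n => gibbs S.ref (pertW S u s x z)) :=
    integrable_of_bdd (hΨ.mul (hf.comp (measurable_pi_apply l))) (b := D * ‖z.2‖) fun a => by
      rw [abs_mul]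
      exact mul_le_mul (hD a) (abs_powField_le hu1 z _) (abs_nonneg _) (hD0 a)
  have h2 : Integrable (fun a => |powField S u p z (a l) - M|)
      (Measure.pi fun _ : Fin n => gibbs S.ref (pertW S u s x z)) :=
    integrable_of_bdd (((hf.comp (measurable_pi_apply l)).sub_const M).abs) (b := ‖z.2‖ + |M|)
      fun a => by
        rw [abs_abs]
        linarith [abs_sub (powField S u p z (a l)) M, abs_powField_le (p := p) hu1 z (a l)]
  simp only [pertAvg]
  rw [integral_pi_one (n := 1) (f := fun y => |powField S u p z y - M|) (hf.sub_const M).abs 0,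
    ← integral_pi_one (ν := gibbs S.ref (pertW S u s x z)) (n := n)
      (f := fun y => |powField S u p z y - M|) (hf.sub_const M).abs l,
    ← integral_mul_const, ← integral_const_mul, ← integral_sub h1 ((integrable_of_bdd hΨ hD).mul_const M)]
  refine norm_integral_le_of_norm_le (h2.const_mul D) (Filter.Eventually.of_forall fun a => ?_)
  rw [Real.norm_eq_abs, ← mul_sub, abs_mul]
  exact mul_le_mul_of_nonneg_right (hD a) (abs_nonneg _)

end system

end Vale.Agent.P157.Low
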