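import Vale.Agent.P157.Low.CubeFacts
import Vale.Agent.P157.Low.TiltLimit
import Vale.Agent.P157.Low.Parisi

/-!
Values of a discretisation in the cavity computation.
-/

namespace Vale.Agent.P157.Low

open MeasureTheory ProbabilityTheory

variable {A : Arr} {K : ℕ}

/-- The conjugate overlaps of a discretisation. -/
noncomputable def Discr.rval (D : Discr A K) (f : ℝ → ℝ) (j : Fin (D.r + 1)) : ℝ :=
  conj f D.C.cdf D.q j

/-- The diagonal conjugate overlap of a discretisation. -/
noncomputable def Discr.rdiag (D : Discr A K) (f : ℝ → ℝ) : ℝ := conjDiag f D.C.cdf D.q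

/-- The pairing of overlaps with conjugate overlaps. -/
noncomputable def Discr.pairing (D : Discr A K) (f : ℝ → ℝ) : ℝ :=
  ∑ B, D.C.P 2 B * (D.q (B 0 1) * D.rval f (B 0 1))

/-- The spin value of a discretisation. -/
noncomputable def Discr.spinVal (D : Discr A K) (f : ℝ → ℝ) (α L : ℝ) : ℝ :=
  potUp D.C.cdf (incr fun j => α * D.rval f j)
    (fun y => Real.log (heat (coshT L) (α * (D.rdiag f - D.rval f (Fin.last D.r))) y)) (D.r + 1) 0

end Vale.Agent.P157.Low
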