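import Vale.Agent.P157.Low.Gauss2Law
import Vale.Agent.P157.Low.CascadeHeat

/-!
Gaussian averages at a covariance: law by Gram matrix, symmetries, derivative in the covariance.
-/

namespace Vale.Agent.P157.Low

open MeasureTheory ProbabilityTheory Filter Set
open scoped RealInnerProductSpace Topology

variable {n : ℕ} {E : Type} [NormedAddCommGroup E] [InnerProductSpace ℝ E] [FiniteDimensional ℝ E]
  [MeasurableSpace E] [BorelSpace E]

/-- A Gaussian average depends only on the Gram matrix. -/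
theorem integral_inner_eq_GE (v : Fin n → E) {Θ : (Fin n → ℝ) → ℝ} (hΘ : Measurable Θ) :
    ∫ g, Θ (fun l => ⟪g, v l⟫) ∂stdGaussian E = GE (fun a b => ⟪v a, v b⟫) Θ :=
  integral_inner_GE v hΘ

/-- Unused coordinates drop out and coordinates may be permuted or repeated. -/
theorem GE_sub {k : ℕ} {C : Mat n} (hC : (Matrix.of C).PosSemidef) (e : Fin k → Fin n)
    {Θ : (Fin k → ℝ) → ℝ} (hΘ : Measurable Θ) :
    GE (sub C e) Θ = GE C fun x => Θ fun a => x (e a) := by
  obtain ⟨v, hv⟩ := exists_vec hC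
  have h1 := integral_inner_GE v (hΘ.comp (by fun_prop : Measurable fun (x : Fin n → ℝ) a => x (e a)))
  have h2 := integral_inner_GE (fun a => v (e a)) hΘ
  simp only [hv] at h1 h2
  exact h2.symm.trans h1

/-- Averaging out independent noise on every coordinate. -/
theorem GE_add_diag {C : Mat n} (hC : (Matrix.of C).PosSemidef) {s : ℝ} (hs : 0 ≤ s)
    (F : Fin n → ℝ → ℝ) (hF : ∀ l, Measurable (F l)) (hb : ∀ l, ∃ B, ∀ y, |F l y| ≤ B) :
    GE (fun a b => C a b + if a = b then s else 0) (fun x => ∏ l, F l (x l)) =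
      GE C fun x => ∏ l, heat (F l) s (x l) := by
  have hm : Measurable fun x : Fin n → ℝ => ∏ l, F l (x l) :=
    Finset.measurable_prod _ fun l _ => (hF l).comp (measurable_pi_apply l)
  choose B hB using hb
  rw [← integral_noise_GE hC hs hm, integral_prod]
  · exact integral_congr_ae (Eventually.of_forall fun x =>
      integral_fintype_prod_eq_prod fun l z => F l (x l + Real.sqrt s * z))
  · refine Integrable.mono' (integrable_const (∏ l, B l))
      ((hm.comp (by fun_prop : Measurable fun (p : EuclideanSpace ℝ (Fin n) × (Fin n → ℝ)) l =>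
          p.1 l + Real.sqrt s * p.2 l)).aestronglyMeasurable)
      (Eventually.of_forall fun p => ?_)
    rw [Real.norm_eq_abs, Finset.abs_prod]
    exact Finset.prod_le_prod (fun l _ => abs_nonneg _) fun l _ => hB l _

/-- Continuity in the covariance on positive semidefinite matrices. -/
theorem continuousOn_GE {Θ : (Fin n → ℝ) → ℝ} (hΘ : Continuous Θ) (hb : ∃ B, ∀ x, |Θ x| ≤ B) :
    ContinuousOn (fun C : Mat n => GE C Θ) {C | (Matrix.of C).PosSemidef} := by
  obtain ⟨B, hB⟩ := hb
  intro C0 h0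
  refine tendsto_of_seq_tendsto fun u hu => ?_
  obtain ⟨hu1, hu2⟩ := tendsto_nhdsWithin_iff.1 hu
  obtain ⟨K, hK⟩ := eventually_atTop.1 hu2
  rw [← tendsto_add_atTop_iff_nat K]
  exact tendsto_GE (fun k => hK _ (Nat.le_add_left K k)) h0 ((tendsto_add_atTop_iff_nat K).2 hu1) hΘ hB

/-- A bounded continuous extension of the Gaussian average to all matrices. -/
theorem exists_GE_ext {Θ : (Fin n → ℝ) → ℝ} (hΘ : Continuous Θ) {B : ℝ} (hb : ∀ x, |Θ x| ≤ B) :
    ∃ G : Mat n → ℝ, Continuous G ∧ (∀ C, |G C| ≤ B) ∧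
      ∀ C, (Matrix.of C).PosSemidef → G C = GE C Θ := by
  have hB0 : 0 ≤ B := (abs_nonneg _).trans (hb 0)
  set f : C({C : Mat n | (Matrix.of C).PosSemidef}, ℝ) :=
    ⟨fun C => GE C.1 Θ, (continuousOn_GE hΘ ⟨B, hb⟩).domRestrict⟩
  have hf : ∀ C, |f C| ≤ B := fun C => by
    simpa [f, GE] using norm_integral_le_of_norm_le_const (C := B)
      (μ := multivariateGaussian (0 : EuclideanSpace ℝ (Fin n)) (Matrix.of C.1))
      (f := fun x => Θ (WithLp.ofLp x))
      (Eventually.of_forall fun x => by rw [Real.norm_eq_abs]; exact hb _)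
  obtain ⟨g, hg, hgf⟩ := ContinuousMap.exists_restrict_eq_forall_mem_of_closed f
    (t := Set.Icc (-B) B) (fun C => abs_le.1 (hf C)) ⟨0, by linarith, hB0⟩ isClosed_psd
  exact ⟨g, g.continuous, fun C => abs_le.2 (hg C), fun C hC => congrArg (fun φ => φ ⟨C, hC⟩) hgf⟩

/-- The covariance of levels of an ultrametric matrix is positive semidefinite. -/
theorem posSemidef_lcov {r : ℕ} {d : Fin (r + 1) → ℝ} (hd : ∀ j, 0 ≤ d j) {A : LMat r n}
    (hs : ∀ a b, A a b = A b a) (hdiag : ∀ a, A a a = Fin.last r)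
    (hu : ∀ a b c, min (A a b) (A b c) ≤ A a c) : (Matrix.of (lcov d A)).PosSemidef := by
  classical
  refine posSemidef_of_sum (fun a b => ?_) fun x => ?_
  · simp only [lcov, hs a b]
  simp only [lcov, Finset.mul_sum]
  rw [Finset.sum_congr rfl fun a _ => Finset.sum_comm, Finset.sum_comm]
  refine Finset.sum_nonneg fun i _ => ?_
  have hrefl : ∀ a, i ≤ A a a := fun a => by rw [hdiag]; exact Fin.le_last i
  have htr : ∀ {a b c}, i ≤ A a b → i ≤ A b c → i ≤ A a c := fun {a b c} h1 h2 =>
    (le_min h1 h2).trans (hu a b c)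
  let K : Setoid (Fin n) := ⟨fun a b => i ≤ A a b, hrefl, fun h => by rwa [hs], htr⟩
  have hblock : ∀ a b, (i ≤ A a b) ↔ Quotient.mk K a = Quotient.mk K b := fun a b =>
    (Quotient.eq (r := K)).symm
  have hq : (∑ a, ∑ b, x a * x b * if i ≤ A a b then d i else 0) =
      d i * ∑ q : Quotient K, (∑ a, if Quotient.mk K a = q then x a else 0) ^ 2 := by
    simp only [hblock, pow_two, Finset.sum_mul, Finset.mul_sum]
    rw [Finset.sum_comm (γ := Quotient K)]
    refine Finset.sum_congr rfl fun a _ => ?_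
    rw [Finset.sum_comm (γ := Quotient K)]
    refine Finset.sum_congr rfl fun b _ => ?_
    simp [eq_comm, mul_comm]
  rw [hq]
  exact mul_nonneg (hd i) (Finset.sum_nonneg fun q _ => sq_nonneg _)

/-- Heat of a function with bounded derivatives has bounded derivatives. -/
theorem Sm.heat {G : ℝ → ℝ} (hG : Sm G) (τ : ℝ) : Sm (Low.heat G τ) := by
  obtain ⟨B, hB⟩ := hG.bdd
  have hbc : ∀ k ≤ 3, BC (iteratedDeriv k G) := fun k hk =>
    ⟨hG.smooth.continuous_iteratedDeriv k (by exact_mod_cast hk), B, hB k hk⟩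
  have hd : ∀ k < 3, ∀ y, HasDerivAt (Low.heat (iteratedDeriv k G) τ)
      (Low.heat (iteratedDeriv (k + 1) G) τ y) y := fun k hk y => by
    refine hasDerivAt_heat_space (fun z => ?_) (hbc k hk.le) (hbc (k + 1) hk) τ y
    rw [iteratedDeriv_succ]
    exact ((hG.smooth.differentiable_iteratedDeriv k (by exact_mod_cast hk)) z).hasDerivAt
  have hit : ∀ k ≤ 3, iteratedDeriv k (Low.heat G τ) = Low.heat (iteratedDeriv k G) τ := by
    intro k
    induction k with
    | zero => simp
    | succ k ih =>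
      intro hk
      rw [iteratedDeriv_succ, ih (by omega)]
      exact funext fun y => (hd k (by omega) y).deriv
  refine ⟨contDiff_nat_iff_iteratedDeriv.2 ⟨fun m hm => ?_, fun m hm => ?_⟩, B, fun k hk y => ?_⟩
  · rw [hit m hm]
    exact ((hbc m hm).heat τ).cont
  · rw [hit m hm.le]
    exact fun y => (hd m hm y).differentiableAt
  · rw [hit k hk]
    exact abs_heat_le_bdd (hB k hk) τ y

/-- Derivative of a heat average along a line in time and space. -/
theorem hasDerivAt_heat_curve {G : ℝ → ℝ} (hG : Sm G) {q t : ℝ} (ht : t < q) {y : ℝ → ℝ} {y' : ℝ}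
    (hy : HasDerivAt y y' t) :
    HasDerivAt (fun t => Low.heat G (q - t) (y t))
      (-(Low.heat (deriv (deriv G)) (q - t) (y t)) / 2 + Low.heat (deriv G) (q - t) (y t) * y') t := by
  set a := t - 1 with ha
  have hy' : HasDerivAt (fun s => y (s + a)) y' 1 := by
    have h0 : HasDerivAt y y' (1 + a) := by simpa [ha] using hy
    exact h0.comp_add_const 1 a
  have h : HasDerivAt (fun s => Low.heat G (q - a - s) (y (s + a)))
      (-(Low.heat (deriv (deriv G)) (q - a - 1) (y (1 + a))) / 2 +
        Low.heat (deriv G) (q - a - 1) (y (1 + a)) * y') (t - a) := by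
    rw [show t - a = 1 by simp [ha]]
    exact (Flow.heatBack (q - a) (Fn.ofSm hG)).dt 1 ⟨one_pos, by linarith⟩ _ _ hy'
  have h2 := h.comp_sub_const t a
  simpa only [show ∀ s, q - a - (s - a) = q - s from fun s => by ring, sub_add_cancel,
    show q - a - 1 = q - t by rw [ha]; ring, show 1 + a = t by rw [ha]; ring] using h2

end Vale.Agent.P157.Low
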