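import Vale.Agent.P157.Low.Defs
import Vale.Agent.P157.Gauss

/-!
Laws of Gaussian vectors through their characteristic functions.
-/

namespace Vale.Agent.P157.Low

open MeasureTheory ProbabilityTheory Complex WithLp Filter
open scoped RealInnerProductSpace Topology MatrixOrder

variable {n : ℕ}

lemma posSemidef_of_sum {C : Mat n} (hs : ∀ a b, C a b = C b a)
    (h : ∀ x : Fin n → ℝ, 0 ≤ ∑ a, ∑ b, x a * x b * C a b) : (Matrix.of C).PosSemidef := by
  refine Matrix.posSemidef_iff_dotProduct_mulVec.2 ⟨?_, fun x => ?_⟩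
  · ext a b
    simp [Matrix.conjTranspose_apply, hs b a]
  · simp only [star_trivial, dotProduct, Matrix.mulVec, Matrix.of_apply, Finset.mul_sum]
    refine (h x).trans_eq (Finset.sum_congr rfl fun a _ => Finset.sum_congr rfl fun b _ => by ring)

lemma dot_mulVec (C : Mat n) (x : Fin n → ℝ) :
    x ⬝ᵥ (Matrix.of C).mulVec x = ∑ a, ∑ b, x a * x b * C a b := by
  simp only [dotProduct, Matrix.mulVec, Matrix.of_apply, Finset.mul_sum]
  exact Finset.sum_congr rfl fun a _ => Finset.sum_congr rfl fun b _ => by ring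

variable {E : Type} [NormedAddCommGroup E] [InnerProductSpace ℝ E]

lemma norm_sum_sq (v : Fin n → E) (x : Fin n → ℝ) :
    ‖∑ l, x l • v l‖ ^ 2 = ∑ a, ∑ b, x a * x b * ⟪v a, v b⟫ := by
  rw [← real_inner_self_eq_norm_sq, sum_inner]
  refine Finset.sum_congr rfl fun a _ => ?_
  rw [inner_sum]
  refine Finset.sum_congr rfl fun b _ => ?_
  rw [real_inner_smul_left, real_inner_smul_right]
  ring

lemma gram_psd (v : Fin n → E) : (Matrix.of fun a b => ⟪v a, v b⟫).PosSemidef :=
  posSemidef_of_sum (fun a b => real_inner_comm _ _) fun x => by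
    rw [← norm_sum_sq]
    exact sq_nonneg _

/-- A positive semidefinite matrix is a Gram matrix. -/
lemma exists_vec {C : Mat n} (hC : (Matrix.of C).PosSemidef) :
    ∃ v : Fin n → EuclideanSpace ℝ (Fin n), ∀ a b, ⟪v a, v b⟫ = C a b := by
  set S := CFC.sqrt (Matrix.of C)
  have hSS : S * S = Matrix.of C := CFC.sqrt_mul_sqrt_self _ hC.nonneg
  have hS : S.IsHermitian := (Matrix.nonneg_iff_posSemidef.1 (CFC.sqrt_nonneg _)).1
  refine ⟨fun a => toLp 2 (S a), fun a b => ?_⟩
  have h := congrFun (congrFun hSS a) b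
  simp only [Matrix.mul_apply, Matrix.of_apply] at h
  simp only [PiLp.inner_apply, RCLike.inner_apply, conj_trivial]
  refine Eq.trans (Finset.sum_congr rfl fun i _ => ?_) h
  have := congrFun (congrFun hS.eq b) i
  simp only [Matrix.conjTranspose_apply, star_trivial] at this
  rw [this, mul_comm]

/-- A bounded measurable function of a vector whose characters are those of a Gaussian. -/
lemma integral_eq_GE {α : Type} [MeasurableSpace α] {μ : Measure α} [IsProbabilityMeasure μ]
    {T : α → Fin n → ℝ} (hT : Measurable T) {C : Mat n} (hC : (Matrix.of C).PosSemidef)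
    (h : ∀ t : Fin n → ℝ, ∫ p, cexp ((∑ l, t l * T p l : ℝ) * I) ∂μ =
      cexp (-((∑ a, ∑ b, t a * t b * C a b : ℝ) : ℂ) / 2))
    {Θ : (Fin n → ℝ) → ℝ} (hΘ : Measurable Θ) :
    ∫ p, Θ (T p) ∂μ = GE C Θ := by
  have hm : Measurable fun p => (toLp 2 (T p) : EuclideanSpace ℝ (Fin n)) := by fun_prop
  have : IsProbabilityMeasure (μ.map fun p => (toLp 2 (T p) : EuclideanSpace ℝ (Fin n))) :=
    Measure.isProbabilityMeasure_map hm.aemeasurable
  have hlaw : μ.map (fun p => (toLp 2 (T p) : EuclideanSpace ℝ (Fin n))) =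
      multivariateGaussian (0 : EuclideanSpace ℝ (Fin n)) (Matrix.of C) := by
    refine Measure.ext_of_charFun ?_
    funext t
    rw [charFun_apply, integral_map hm.aemeasurable (Continuous.aestronglyMeasurable (by fun_prop)),
      charFun_multivariateGaussian hC, inner_zero_right, dot_mulVec]
    simp only [PiLp.inner_apply, RCLike.inner_apply, conj_trivial]
    rw [h (ofLp t)]
    congr 1
    push_cast
    ring
  rw [GE, ← hlaw]
  exact (integral_map (f := fun x : EuclideanSpace ℝ (Fin n) => Θ (ofLp x)) hm.aemeasurable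
    (hΘ.comp (by fun_prop : Measurable fun x : EuclideanSpace ℝ (Fin n) => ofLp x)).aestronglyMeasurable).symm

variable [FiniteDimensional ℝ E] [MeasurableSpace E] [BorelSpace E]

lemma integral_inner_GE (v : Fin n → E) {Θ : (Fin n → ℝ) → ℝ} (hΘ : Measurable Θ) :
    ∫ g, Θ (fun l => ⟪g, v l⟫) ∂stdGaussian E = GE (fun a b => ⟪v a, v b⟫) Θ := by
  refine integral_eq_GE (by fun_prop) (gram_psd v) (fun t => ?_) hΘ
  have e : ∀ g : E, ∑ l, t l * ⟪g, v l⟫ = ⟪g, ∑ l, t l • v l⟫ := fun g => by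
    rw [inner_sum]
    exact Finset.sum_congr rfl fun l _ => (real_inner_smul_right _ _ _).symm
  simp only [e]
  rw [integral_cexp_inner, ← norm_sum_sq]
  push_cast
  rfl

/-- Independent noise added on every coordinate. -/
lemma integral_noise_GE {C : Mat n} (hC : (Matrix.of C).PosSemidef) {s : ℝ} (hs : 0 ≤ s)
    {Θ : (Fin n → ℝ) → ℝ} (hΘ : Measurable Θ) :
    ∫ p, Θ (fun l => p.1 l + Real.sqrt s * p.2 l) ∂(multivariateGaussian (0 : EuclideanSpace ℝ (Fin n))
      (Matrix.of C)).prod (Measure.pi fun _ : Fin n => gaussianReal 0 1) =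
      GE (fun a b => C a b + if a = b then s else 0) Θ := by
  have hsC : ∀ a b, C a b = C b a := fun a b => by simpa using (congrFun (congrFun hC.1.eq a) b).symm
  have hq : ∀ t : Fin n → ℝ, ∑ a, ∑ b, t a * t b * (C a b + if a = b then s else 0) =
      (∑ a, ∑ b, t a * t b * C a b) + ∑ a, s * t a ^ 2 := fun t => by
    simp [mul_add, Finset.sum_add_distrib, mul_ite, pow_two, mul_comm s]
  refine integral_eq_GE (T := fun (p : EuclideanSpace ℝ (Fin n) × (Fin n → ℝ)) l =>
    p.1 l + Real.sqrt s * p.2 l) (by fun_prop) (posSemidef_of_sum (fun a b => ?_) fun t => ?_)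
    (fun t => ?_) hΘ
  · rcases eq_or_ne a b with rfl | h
    · rfl
    · simp [h, h.symm, hsC a b]
  · rw [hq]
    refine add_nonneg ?_ (Finset.sum_nonneg fun a _ => mul_nonneg hs (sq_nonneg _))
    rw [← dot_mulVec]
    simpa using (Matrix.posSemidef_iff_dotProduct_mulVec.1 hC).2 t
  have e : ∀ p : EuclideanSpace ℝ (Fin n) × (Fin n → ℝ),
      cexp ((∑ l, t l * (p.1 l + Real.sqrt s * p.2 l) : ℝ) * I) =
        cexp ((⟪p.1, toLp 2 t⟫ : ℝ) * I) *
          ∏ l, cexp (((t l * Real.sqrt s) * p.2 l : ℝ) * I) := fun p => by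
    rw [← Complex.exp_sum, ← Complex.exp_add, PiLp.inner_apply]
    congr 1
    simp only [RCLike.inner_apply, conj_trivial]
    push_cast
    rw [Finset.sum_mul, Finset.sum_mul, ← Finset.sum_add_distrib]
    exact Finset.sum_congr rfl fun l _ => by ring
  simp only [e]
  rw [integral_prod_mul (fun x : EuclideanSpace ℝ (Fin n) => cexp ((⟪x, toLp 2 t⟫ : ℝ) * I))
    (fun z : Fin n → ℝ => ∏ l, cexp (((t l * Real.sqrt s) * z l : ℝ) * I)),
    integral_fintype_prod_eq_prod (fun l (z : ℝ) => cexp (((t l * Real.sqrt s) * z : ℝ) * I)),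
    Finset.prod_congr rfl fun l _ => integral_cexp_gaussian (t l * Real.sqrt s), ← Complex.exp_sum]
  have hc := charFun_multivariateGaussian (μ := (0 : EuclideanSpace ℝ (Fin n))) hC (toLp 2 t)
  rw [charFun_apply, inner_zero_right, dot_mulVec, ofLp_toLp] at hc
  rw [hc, ← Complex.exp_add, hq]
  congr 1
  have h2 : ∀ l, (((t l * Real.sqrt s : ℝ) : ℂ)) ^ 2 = ((s * t l ^ 2 : ℝ) : ℂ) := fun l => by
    rw [← Complex.ofReal_pow, mul_pow, Real.sq_sqrt hs, mul_comm]
  simp only [h2]
  push_cast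
  simp only [← Finset.sum_div, Finset.sum_neg_distrib]
  ring

/-- Continuity in the covariance. -/
lemma tendsto_GE {C : ℕ → Mat n} {C0 : Mat n} (hC : ∀ k, (Matrix.of (C k)).PosSemidef)
    (h0 : (Matrix.of C0).PosSemidef) (h : Tendsto C atTop (𝓝 C0)) {Θ : (Fin n → ℝ) → ℝ}
    (hΘ : Continuous Θ) {B : ℝ} (hB : ∀ x, |Θ x| ≤ B) :
    Tendsto (fun k => GE (C k) Θ) atTop (𝓝 (GE C0 Θ)) := by
  set μ : ℕ → ProbabilityMeasure (EuclideanSpace ℝ (Fin n)) := fun k =>
    ⟨multivariateGaussian 0 (Matrix.of (C k)), inferInstance⟩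
  set μ0 : ProbabilityMeasure (EuclideanSpace ℝ (Fin n)) :=
    ⟨multivariateGaussian 0 (Matrix.of C0), inferInstance⟩
  have ht : Tendsto μ atTop (𝓝 μ0) := by
    refine ProbabilityMeasure.tendsto_iff_tendsto_charFun.2 fun t => ?_
    show Tendsto (fun k => charFun (multivariateGaussian 0 (Matrix.of (C k))) t) atTop
      (𝓝 (charFun (multivariateGaussian 0 (Matrix.of C0)) t))
    simp only [charFun_multivariateGaussian (hC _), charFun_multivariateGaussian h0, dot_mulVec]
    have hc : Continuous fun D : Mat n =>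
        cexp ((⟪t, (0 : EuclideanSpace ℝ (Fin n))⟫ : ℝ) * I -
          ((∑ a, ∑ b, t a * t b * D a b : ℝ) : ℂ) / 2) := by fun_prop
    exact (hc.tendsto C0).comp h
  exact ProbabilityMeasure.tendsto_iff_forall_integral_tendsto.1 ht
    (BoundedContinuousFunction.ofNormedAddCommGroup (fun x => Θ (ofLp x)) (hΘ.comp (by fun_prop)) B
      fun x => by rw [Real.norm_eq_abs]; exact hB _)

lemma isClosed_psd : IsClosed {C : Mat n | (Matrix.of C).PosSemidef} := by
  have : {C : Mat n | (Matrix.of C).PosSemidef} =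
      (⋂ a, ⋂ b, {C : Mat n | C a b = C b a}) ∩
        ⋂ x : Fin n → ℝ, {C : Mat n | 0 ≤ ∑ a, ∑ b, x a * x b * C a b} := by
    ext C
    simp only [Set.mem_inter_iff, Set.mem_iInter, Set.mem_ofPred_eq]
    refine ⟨fun h => ⟨fun a b => by simpa using (congrFun (congrFun h.1.eq a) b).symm, fun x => ?_⟩,
      fun h => posSemidef_of_sum h.1 h.2⟩
    rw [← dot_mulVec]
    simpa using (Matrix.posSemidef_iff_dotProduct_mulVec.1 h).2 x
  rw [this]
  exact (isClosed_iInter fun a => isClosed_iInter fun b => isClosed_eq (by fun_prop) (by fun_prop)).inter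
    (isClosed_iInter fun x => isClosed_le continuous_const (by fun_prop))

end Vale.Agent.P157.Low
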