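import Vale.Agent.P157.Low.Replica

/-!
Correlation matrices form a compact set, and laws of Gram matrices have convergent subsequences
in every dimension at once.
-/

namespace Vale.Agent.P157.Low

open MeasureTheory ProbabilityTheory Filter
open scoped RealInnerProductSpace Topology

/-- Correlation matrices. -/
def corrSet (n : ℕ) : Set (Mat n) :=
  {R | (∀ a b, |R a b| ≤ 1) ∧ (∀ a b, R a b = R b a) ∧ (∀ a, R a a = 1) ∧
    ∀ c : Fin n → ℝ, 0 ≤ ∑ a, ∑ b, c a * c b * R a b}

lemma isCompact_corrSet (n : ℕ) : IsCompact (corrSet n) := by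
  refine IsCompact.of_isClosed_subset
    (isCompact_univ_pi fun _ : Fin n => isCompact_univ_pi fun _ : Fin n =>
      (isCompact_Icc : IsCompact (Set.Icc (-1 : ℝ) 1))) ?_ fun R hR => ?_
  · simp only [corrSet, Set.ofPred_and, Set.ofPred_forall]
    refine ((isClosed_iInter fun a => isClosed_iInter fun b => ?_).inter
      ((isClosed_iInter fun a => isClosed_iInter fun b => ?_).inter
        ((isClosed_iInter fun a => ?_).inter (isClosed_iInter fun c => ?_))))
    · exact isClosed_le (by fun_prop) continuous_const
    · exact isClosed_eq (by fun_prop) (by fun_prop)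
    · exact isClosed_eq (by fun_prop) continuous_const
    · exact isClosed_le continuous_const (by fun_prop)
  · exact fun a _ b _ => abs_le.1 (hR.1 a b)

instance compactSpace_corrSet (n : ℕ) : CompactSpace (corrSet n) :=
  isCompact_iff_compactSpace.1 (isCompact_corrSet n)

namespace Sys

variable (S : Sys)

lemma gram_mem {n : ℕ} (x : Fin n → S.X) : S.gram x ∈ corrSet n := by
  refine ⟨S.abs_gram_le x, fun a b => real_inner_comm _ _, fun a => ?_, fun c => ?_⟩
  · simp [gram, S.unit]
  · have h : ∑ a, ∑ b, c a * c b * S.gram x a b =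
        ⟪∑ a, c a • S.v (x a), ∑ b, c b • S.v (x b)⟫ := by
      simp only [sum_inner, inner_sum, real_inner_smul_left, real_inner_smul_right, gram]
      refine Finset.sum_congr rfl fun a _ => Finset.sum_congr rfl fun b _ => ?_
      rw [real_inner_comm (S.v (x a)) (S.v (x b))]
      ring
    rw [h]
    exact real_inner_self_nonneg

lemma measurable_gramC (n : ℕ) :
    Measurable fun p : S.Ω × (Fin n → S.X) => (⟨S.gram p.2, S.gram_mem p.2⟩ : corrSet n) :=
  ((S.measurable_gram n).comp measurable_snd).subtype_mk

/-- Law of the Gram matrix, among correlation matrices. -/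
noncomputable def corrLaw (n : ℕ) : ProbabilityMeasure (corrSet n) :=
  ⟨(S.repLaw n).map fun p => ⟨S.gram p.2, S.gram_mem p.2⟩,
    Measure.isProbabilityMeasure_map (S.measurable_gramC n).aemeasurable⟩

lemma exists_bound_gram {n : ℕ} {F : Mat n → ℝ} (hF : Continuous F) :
    ∃ D, ∀ x : Fin n → S.X, |F (S.gram x)| ≤ D := by
  obtain ⟨D, hD⟩ := (isCompact_corrSet n).exists_bound_of_continuousOn hF.continuousOn
  exact ⟨D, fun x => by simpa [Real.norm_eq_abs] using hD _ (S.gram_mem x)⟩

lemma integral_corrLaw {n : ℕ} {F : Mat n → ℝ} (hF : Continuous F) :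
    S.expect F = ∫ R : corrSet n, F R ∂(S.corrLaw n : Measure (corrSet n)) := by
  obtain ⟨D, hD⟩ := S.exists_bound_gram hF
  rw [expect, avgRep_eq S (Θ := fun _ x => F (S.gram x))
    (hF.measurable.comp ((S.measurable_gram n).comp measurable_snd)) (fun _ x => hD x)]
  exact (integral_map (S.measurable_gramC n).aemeasurable
    (hF.comp continuous_subtype_val).measurable.aestronglyMeasurable).symm

end Sys

/-- A subsequence along which the Gram matrices of every number of replicas converge in law. -/
lemma exists_corr_limit (S : ℕ → Sys) :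
    ∃ φ : ℕ → ℕ, StrictMono φ ∧ ∃ μ : ∀ n, ProbabilityMeasure (corrSet n),
      ∀ n (F : Mat n → ℝ), Continuous F →
        Tendsto (fun j => (S (φ j)).expect F) atTop (𝓝 (∫ R : corrSet n, F R ∂(μ n : Measure (corrSet n)))) := by
  obtain ⟨μ, -, φ, hφ, hlim⟩ := (isCompact_univ (X := ∀ n, ProbabilityMeasure (corrSet n))).tendsto_subseq
    (x := fun j n => (S j).corrLaw n) fun _ => Set.mem_univ _
  refine ⟨φ, hφ, μ, fun n F hF => ?_⟩
  have h := (ProbabilityMeasure.tendsto_iff_forall_integral_tendsto.1
    (tendsto_pi_nhds.1 hlim n))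
    (BoundedContinuousFunction.mkOfCompact ⟨fun R => F R, hF.comp continuous_subtype_val⟩)
  simp only [BoundedContinuousFunction.mkOfCompact_apply, ContinuousMap.coe_mk] at h
  simpa only [Sys.integral_corrLaw _ hF, Function.comp_apply] using h

/-- The law on all matrices of a law on correlation matrices. -/
noncomputable def matLaw {n : ℕ} (μ : ProbabilityMeasure (corrSet n)) : Measure (Mat n) :=
  (μ : Measure (corrSet n)).map Subtype.val

instance isProbabilityMeasure_matLaw {n : ℕ} (μ : ProbabilityMeasure (corrSet n)) :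
    IsProbabilityMeasure (matLaw μ) :=
  Measure.isProbabilityMeasure_map measurable_subtype_coe.aemeasurable

lemma ae_matLaw {n : ℕ} (μ : ProbabilityMeasure (corrSet n)) : ∀ᵐ R ∂matLaw μ, R ∈ corrSet n := by
  exact (ae_map_iff measurable_subtype_coe.aemeasurable
    (isCompact_corrSet n).isClosed.measurableSet).2 (Eventually.of_forall fun R => R.2)

lemma integral_matLaw {n : ℕ} (μ : ProbabilityMeasure (corrSet n)) {F : Mat n → ℝ}
    (hF : Continuous F) : ∫ R, F R ∂matLaw μ = ∫ R : corrSet n, F R ∂(μ : Measure (corrSet n)) :=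
  integral_map measurable_subtype_coe.aemeasurable hF.aestronglyMeasurable

lemma integrable_matLaw {n : ℕ} (μ : ProbabilityMeasure (corrSet n)) {F : Mat n → ℝ}
    (hF : Continuous F) : Integrable F (matLaw μ) := by
  obtain ⟨D, hD⟩ := (isCompact_corrSet n).exists_bound_of_continuousOn hF.continuousOn
  exact Integrable.of_bound hF.aestronglyMeasurable D ((ae_matLaw μ).mono fun R hR => hD R hR)

end Vale.Agent.P157.Low
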