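import Vale.Agent.P157.Low.Cavity
import Vale.Agent.P157.Low.Borel
import Vale.Agent.P157.RSB.Bound

/-!
The Parisi formula as a lower bound, and as the limit for the positive-definite class.
-/

namespace Vale.Agent.P157.Low

open MeasureTheory Filter
open scoped Topology

/-- Parisi's formula bounds the pressure from below for every bounded Borel potential. -/
theorem parisi_lower {f : ℝ → ℝ} (hf : Measurable f) (hfb : ∃ B, ∀ x, |f x| ≤ B) {α : ℝ} (hα : 0 < α)
    {c : ℝ} (hc : ∀ q0 ls, RsbParam q0 ls → c ≤ parisiIsing f α q0 ls) {η : ℝ} (hη : 0 < η) :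
    ∀ᶠ N : ℕ in atTop, c - η ≤ cubePressure f N ⌊α * N⌋₊ :=
  borel_of_smooth hα (fun _ h _ hc' _ hη' => smooth_lower h hα hc' hη') hf hfb hc hη

/-- For the positive-definite class the limit on the cube is Parisi's formula. -/
theorem parisi_formula {f : ℝ → ℝ} {a : ℝ} {ν : Measure ℝ} [IsFiniteMeasure ν]
    (hlt : ν.real Set.univ < a) (heq : ∀ x, Real.exp (f x) = a - ∫ t, Real.cos (t * x) ∂ν)
    {α : ℝ} (hα : 0 < α) :
    ∃ p, Tendsto (fun N : ℕ => cubePressure f N ⌊α * N⌋₊) atTop (𝓝 p) ∧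
      IsGLB {v | ∃ q0 ls, RsbParam q0 ls ∧ v = parisiIsing f α q0 ls} p := by
  obtain ⟨⟨p, hp, hle⟩, -⟩ := RSB.parisi_upper_bound hlt heq hα
  have hk := ker_symmetrise hlt heq
  refine ⟨p, hp, ?_, fun c hc => ?_⟩
  · rintro v ⟨q0, ls, h, rfl⟩
    exact hle q0 ls h
  · refine le_of_forall_pos_le_add fun η hη => ?_
    have := ge_of_tendsto hp (parisi_lower hk.pot.meas ⟨_, hk.pot.bound⟩ hα
      (fun q0 ls h => hc ⟨q0, ls, h, rfl⟩) hη)
    linarith

end Vale.Agent.P157.Low
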