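import Vale.Agent.P157.Low.Sys
import Vale.Agent.P157.Kernel

/-!
Replica averages of a system as integrals against one measure.
-/

namespace Vale.Agent.P157.Low

open MeasureTheory ProbabilityTheory Filter
open scoped RealInnerProductSpace Topology

section Pi

variable {X : Type} [MeasurableSpace X]

/-- Restriction of a power of a probability measure along distinct indices. -/
lemma map_pi_comp (ν : Measure X) [IsProbabilityMeasure ν] {k n : ℕ} {e : Fin k → Fin n}
    (he : Function.Injective e) :
    (Measure.pi fun _ : Fin n => ν).map (fun x => fun a => x (e a)) =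
      Measure.pi fun _ : Fin k => ν := by
  classical
  refine (Measure.pi_eq fun s hs => ?_).symm
  have hpre : (fun x : Fin n → X => fun a => x (e a)) ⁻¹' (Set.pi Set.univ s) =
      Set.pi Set.univ (fun l => if h : ∃ a, e a = l then s h.choose else Set.univ) := by
    ext x
    simp only [Set.mem_preimage, Set.mem_pi, Set.mem_univ, true_implies]
    constructor
    · intro h l
      split_ifs with hl
      · have := h hl.choose
        rwa [hl.choose_spec] at this
      · trivial
    · intro h a
      have hl : ∃ a', e a' = e a := ⟨a, rfl⟩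
      have := h (e a)
      rwa [dif_pos hl, he hl.choose_spec] at this
  rw [Measure.map_apply (by fun_prop) (MeasurableSet.univ_pi hs), hpre, Measure.pi_pi]
  have himg : ∏ l, ν (if h : ∃ a, e a = l then s h.choose else Set.univ) =
      ∏ l ∈ Finset.univ.image e, ν (if h : ∃ a, e a = l then s h.choose else Set.univ) := by
    refine (Finset.prod_subset (Finset.subset_univ _) fun l _ hl => ?_).symm
    have : ¬∃ a, e a = l := fun ⟨a, ha⟩ => hl (Finset.mem_image.2 ⟨a, Finset.mem_univ _, ha⟩)
    rw [dif_neg this, measure_univ]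
  rw [himg, Finset.prod_image fun a _ b _ h => he h]
  refine Finset.prod_congr rfl fun a _ => ?_
  have hl : ∃ a', e a' = e a := ⟨a, rfl⟩
  rw [dif_pos hl, he hl.choose_spec]

/-- A power of a probability measure splits into two blocks of indices. -/
lemma map_pi_split (ν : Measure X) [IsProbabilityMeasure ν] (n k : ℕ) :
    (Measure.pi fun _ : Fin (n + k) => ν).map
        (fun x => (fun l => x (Fin.castAdd k l), fun l => x (Fin.natAdd n l))) =
      (Measure.pi fun _ : Fin n => ν).prod (Measure.pi fun _ : Fin k => ν) := by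
  have h := (measurePreserving_sumPiEquivProdPi (fun _ : Fin n ⊕ Fin k => ν)).comp
    ((measurePreserving_piCongrLeft (fun _ : Fin (n + k) => ν) finSumFinEquiv).symm)
  exact h.map_eq

end Pi

section Gibbs

variable {X : Type} [MeasurableSpace X] {μ : Measure X} [IsProbabilityMeasure μ] {w : X → ℝ}

lemma pi_gibbs (hw : Wt w) (n : ℕ) :
    Measure.pi (fun _ : Fin n => gibbs μ w) =
      (Measure.pi fun _ : Fin n => μ).withDensity
        fun x => ENNReal.ofReal (∏ l, w (x l) / ∫ y, w y ∂μ) := by
  have := isProbabilityMeasure_gibbs (μ := μ) hw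
  have hI := hw.integral_pos (μ := μ)
  have hint : Integrable (fun y => w y / ∫ z, w z ∂μ) μ := hw.integrable.div_const _
  refine Measure.pi_eq fun s hs => ?_
  rw [withDensity_apply _ (MeasurableSet.univ_pi hs), Measure.restrict_pi_pi,
    ← ofReal_integral_eq_lintegral_ofReal
      (Integrable.fintype_prod (μ := fun i => μ.restrict (s i)) fun i => hint.restrict)
      (Eventually.of_forall fun x => Finset.prod_nonneg fun l _ =>
        div_nonneg (hw.pos _).le hI.le),
    integral_fintype_prod_eq_prod (fun (_ : Fin n) y => w y / ∫ z, w z ∂μ),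
    ENNReal.ofReal_prod_of_nonneg fun i _ =>
      integral_nonneg fun y => div_nonneg (hw.pos y).le hI.le]
  refine Finset.prod_congr rfl fun i _ => ?_
  rw [gibbs, withDensity_apply _ (hs i),
    ofReal_integral_eq_lintegral_ofReal hint.restrict
      (Eventually.of_forall fun y => div_nonneg (hw.pos y).le hI.le)]

lemma integral_pi_gibbs_rep (hw : Wt w) {n : ℕ} (F : (Fin n → X) → ℝ) :
    ∫ x, F x ∂Measure.pi (fun _ : Fin n => gibbs μ w) =
      (∫ x, (∏ l, w (x l)) * F x ∂Measure.pi fun _ : Fin n => μ) / (∫ y, w y ∂μ) ^ n := by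
  have hI := hw.integral_pos (μ := μ)
  have hm : Measurable fun x : Fin n → X => ∏ l, w (x l) / ∫ y, w y ∂μ := by
    have := hw.meas
    fun_prop
  rw [pi_gibbs hw, integral_withDensity_eq_integral_toReal_smul hm.ennreal_ofReal
    (Eventually.of_forall fun x => ENNReal.ofReal_lt_top), ← integral_div]
  refine integral_congr_ae (Eventually.of_forall fun x => ?_)
  simp only
  rw [smul_eq_mul,
    ENNReal.toReal_ofReal (Finset.prod_nonneg fun l _ => div_nonneg (hw.pos (x l)).le hI.le),
    Finset.prod_div_distrib, Finset.prod_const, Finset.card_univ, Fintype.card_fin]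
  ring

/-- Replica averages of a product weight. -/
lemma integral_pi_gibbs_mul (hw : Wt w) {u : X → ℝ} (hu : Wt u) {n : ℕ} (F : (Fin n → X) → ℝ) :
    ∫ x, F x ∂Measure.pi (fun _ : Fin n => gibbs μ fun y => w y * u y) =
      (∫ x, (∏ l, u (x l)) * F x ∂Measure.pi fun _ : Fin n => gibbs μ w) /
        (∫ y, u y ∂gibbs μ w) ^ n := by
  have hI := hw.integral_pos (μ := μ)
  rw [integral_pi_gibbs_rep (hw.mul hu), integral_pi_gibbs_rep hw, integral_gibbs hw, div_pow,
    div_div_div_cancel_right₀ (pow_ne_zero _ hI.ne')]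
  congr 1
  refine integral_congr_ae (Eventually.of_forall fun x => ?_)
  simp only [Finset.prod_mul_distrib]
  ring

end Gibbs

namespace Sys

variable (S : Sys)

/-- Disorder together with `n` replicas. -/
noncomputable def repLaw (n : ℕ) : Measure (S.Ω × (Fin n → S.X)) :=
  (S.law.prod (Measure.pi fun _ : Fin n => S.ref)).withDensity
    fun p => ENNReal.ofReal (∏ l, S.w p.1 (p.2 l) / ∫ y, S.w p.1 y ∂S.ref)

lemma measurable_mass : Measurable fun ω => ∫ y, S.w ω y ∂S.ref :=
  (S.measW.stronglyMeasurable.integral_prod_right').measurable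

lemma measurable_density (n : ℕ) : Measurable fun p : S.Ω × (Fin n → S.X) =>
    ∏ l, S.w p.1 (p.2 l) / ∫ y, S.w p.1 y ∂S.ref := by
  refine Finset.measurable_prod _ fun l _ => ?_
  exact (S.measW.comp (measurable_fst.prodMk ((measurable_pi_apply l).comp measurable_snd))).div
    (S.measurable_mass.comp measurable_fst)

instance isProbabilityMeasure_repLaw (n : ℕ) : IsProbabilityMeasure (S.repLaw n) := by
  refine ⟨?_⟩
  rw [repLaw, withDensity_apply _ MeasurableSet.univ, Measure.restrict_univ,
    lintegral_prod _ (S.measurable_density n).ennreal_ofReal.aemeasurable]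
  have h : ∀ ω, ∫⁻ x : Fin n → S.X, ENNReal.ofReal (∏ l, S.w ω (x l) / ∫ y, S.w ω y ∂S.ref)
      ∂(Measure.pi fun _ : Fin n => S.ref) = 1 := fun ω => by
    have := isProbabilityMeasure_gibbs (μ := S.ref) (S.wt ω)
    rw [← setLIntegral_univ, ← withDensity_apply _ MeasurableSet.univ, ← pi_gibbs (S.wt ω),
      measure_univ]
  simp only [h]
  simp

lemma measurable_gram (n : ℕ) : Measurable (S.gram (n := n)) := by
  refine measurable_pi_lambda _ fun a => measurable_pi_lambda _ fun b => ?_
  exact (S.measV.comp (measurable_pi_apply a)).inner (S.measV.comp (measurable_pi_apply b))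

lemma integrable_repLaw {n : ℕ} {Θ : S.Ω → (Fin n → S.X) → ℝ}
    (hm : Measurable (Function.uncurry Θ)) {D : ℝ} (hb : ∀ ω x, |Θ ω x| ≤ D) :
    Integrable (Function.uncurry Θ) (S.repLaw n) :=
  Integrable.of_bound hm.aestronglyMeasurable D
    (Eventually.of_forall fun p => by rw [Real.norm_eq_abs]; exact hb p.1 p.2)

lemma avgRep_eq {n : ℕ} {Θ : S.Ω → (Fin n → S.X) → ℝ}
    (hm : Measurable (Function.uncurry Θ)) {D : ℝ} (hb : ∀ ω x, |Θ ω x| ≤ D) :
    S.avgRep n Θ = ∫ p, Θ p.1 p.2 ∂S.repLaw n := by
  have hI := fun ω => (S.wt ω).integral_pos (μ := S.ref)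
  have hint : Integrable (fun p : S.Ω × (Fin n → S.X) =>
      (∏ l, S.w p.1 (p.2 l) / ∫ y, S.w p.1 y ∂S.ref) * Θ p.1 p.2)
      (S.law.prod (Measure.pi fun _ : Fin n => S.ref)) := by
    have h : Integrable (Function.uncurry Θ) (S.repLaw n) := S.integrable_repLaw hm hb
    rw [repLaw, integrable_withDensity_iff (S.measurable_density n).ennreal_ofReal
      (Eventually.of_forall fun p => ENNReal.ofReal_lt_top)] at h
    refine h.congr (Eventually.of_forall fun p => ?_)
    simp only [Function.uncurry]
    rw [ENNReal.toReal_ofReal (Finset.prod_nonneg fun l _ =>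
      div_nonneg ((S.wt p.1).pos _).le (hI p.1).le), mul_comm]
  have e : ∫ p, Θ p.1 p.2 ∂S.repLaw n = ∫ p, (∏ l, S.w p.1 (p.2 l) / ∫ y, S.w p.1 y ∂S.ref) *
      Θ p.1 p.2 ∂S.law.prod (Measure.pi fun _ : Fin n => S.ref) := by
    rw [repLaw, integral_withDensity_eq_integral_toReal_smul (S.measurable_density n).ennreal_ofReal
      (Eventually.of_forall fun p => ENNReal.ofReal_lt_top)]
    refine integral_congr_ae (Eventually.of_forall fun p => ?_)
    simp only [smul_eq_mul]
    rw [ENNReal.toReal_ofReal (Finset.prod_nonneg fun l _ =>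
      div_nonneg ((S.wt p.1).pos _).le (hI p.1).le)]
  rw [e, integral_prod _ hint, avgRep]
  refine integral_congr_ae (Eventually.of_forall fun ω => ?_)
  simp only
  rw [integral_pi_gibbs_rep (S.wt ω), ← integral_div]
  refine integral_congr_ae (Eventually.of_forall fun x => ?_)
  simp only [Finset.prod_div_distrib, Finset.prod_const, Finset.card_univ, Fintype.card_fin]
  ring

/-- Law of the Gram matrix of `n` replicas. -/
noncomputable def gramLaw (n : ℕ) : Measure (Mat n) :=
  (S.repLaw n).map fun p => S.gram p.2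

instance isProbabilityMeasure_gramLaw (n : ℕ) : IsProbabilityMeasure (S.gramLaw n) :=
  Measure.isProbabilityMeasure_map ((S.measurable_gram n).comp measurable_snd).aemeasurable

lemma abs_gram_le {n : ℕ} (x : Fin n → S.X) (a b : Fin n) : |S.gram x a b| ≤ 1 := by
  have h := abs_real_inner_le_norm (S.v (x a)) (S.v (x b))
  rwa [S.unit, S.unit, one_mul] at h

lemma expect_eq {n : ℕ} {Φ : Mat n → ℝ} (hΦ : Measurable Φ) {D : ℝ}
    (hD : ∀ x : Fin n → S.X, |Φ (S.gram x)| ≤ D) : S.expect Φ = ∫ R, Φ R ∂S.gramLaw n := by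
  rw [expect, avgRep_eq S (Θ := fun _ x => Φ (S.gram x))
    (hΦ.comp ((S.measurable_gram n).comp measurable_snd)) (fun _ x => hD x), gramLaw,
    integral_map (φ := fun p : S.Ω × (Fin n → S.X) => S.gram p.2)
      ((S.measurable_gram n).comp measurable_snd).aemeasurable hΦ.aestronglyMeasurable]

/-- Restriction to distinct replicas. -/
lemma avgRep_marg {k n : ℕ} {e : Fin k → Fin n} (he : Function.Injective e)
    {Θ : S.Ω → (Fin k → S.X) → ℝ} (hm : Measurable (Function.uncurry Θ)) :
    S.avgRep n (fun ω x => Θ ω fun a => x (e a)) = S.avgRep k Θ := by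
  refine integral_congr_ae (Eventually.of_forall fun ω => ?_)
  have := isProbabilityMeasure_gibbs (μ := S.ref) (S.wt ω)
  simp only
  rw [← map_pi_comp (gibbs S.ref (S.w ω)) he, integral_map (measurable_pi_lambda _ fun a => measurable_pi_apply (e a)).aemeasurable]
  exact (hm.comp (measurable_const.prodMk measurable_id)).aestronglyMeasurable

end Sys

end Vale.Agent.P157.Low
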