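import Vale.Agent.P157.Low.Borel

/-!
From smooth to bounded Borel potentials on the sphere.

Smoothing the potential multiplies the conjugate overlaps `R` by `c = 1 - e` and costs `e R_top / 2`
in the pairing term. In the spherical entropy the multiplier `z` then becomes `z / c`, or `1 + R_top`
when `z / c` is larger: beyond that value the entropy grows at least like `z - log (z - R_top)`.
-/

namespace Vale.Agent.P157.Low

open MeasureTheory Filter ProbabilityTheory
open scoped RealInnerProductSpace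

/-! ### The spherical entropy -/

/-- Multipliers move with `z`. -/
lemma rsbMult_shift : ∀ (ls : List (ℝ × ℝ)) (R : ℕ → ℝ) (z : ℝ),
    rsbMult ls R z = z + rsbMult ls R 0
  | [], R, z => by simp [rsbMult]
  | (m, d) :: ls, R, z => by
    have h := rsbMult_shift ls (fun j => R (j + 1)) z
    simp only [rsbMult, h]
    ring

/-- Multipliers scale with the conjugate overlaps. -/
lemma rsbMult_scale (c : ℝ) : ∀ (ls : List (ℝ × ℝ)) (R : ℕ → ℝ) (z : ℝ),
    rsbMult ls (fun j => c * R j) (c * z) = c * rsbMult ls R z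
  | [], R, z => by simp [rsbMult]
  | (m, d) :: ls, R, z => by
    have h := rsbMult_scale c ls (fun j => R (j + 1)) z
    simp only [rsbMult, h]
    ring

/-- The logarithmic terms are scale invariant. -/
lemma rsbLogs_scale {c : ℝ} (hc : c ≠ 0) : ∀ (ls : List (ℝ × ℝ)) (R : ℕ → ℝ) (z : ℝ),
    rsbLogs ls (fun j => c * R j) (c * z) = rsbLogs ls R z
  | [], R, z => by simp [rsbLogs]
  | (m, d) :: ls, R, z => by
    have h := rsbLogs_scale hc ls (fun j => R (j + 1)) z
    simp only [rsbLogs, rsbMult_scale c ((m, d) :: ls) R z, rsbMult_scale c ls (fun j => R (j + 1)) z,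
      h, mul_div_mul_left _ _ hc]

/-- The exponents only matter through the levels. -/
lemma rsbMult_shrink (e : ℝ) : ∀ (ls : List (ℝ × ℝ)) (R : ℕ → ℝ) (z : ℝ),
    rsbMult (shrink e ls) R z = rsbMult ls R z
  | [], R, z => rfl
  | (m, d) :: ls, R, z => by
    have h := rsbMult_shrink e ls (fun j => R (j + 1)) z
    simp only [shrink, List.map_cons, rsbMult] at h ⊢
    rw [h]

lemma rsbLogs_shrink (e : ℝ) : ∀ (ls : List (ℝ × ℝ)) (R : ℕ → ℝ) (z : ℝ),
    rsbLogs (shrink e ls) R z = rsbLogs ls R z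
  | [], R, z => rfl
  | (m, d) :: ls, R, z => by
    have h := rsbLogs_shrink e ls (fun j => R (j + 1)) z
    have hW := rsbMult_shrink e ls (fun j => R (j + 1)) z
    have hW' := rsbMult_shrink e ((m, d) :: ls) R z
    simp only [shrink, List.map_cons] at h hW hW' ⊢
    simp only [rsbLogs, h, hW, hW']

/-- One level. -/
lemma level_mono {m y p D s : ℝ} (hm : 0 < m) (hp : 0 < p) (hD : 0 ≤ D) (hy : p ≤ y)
    (hyD : p + D ≤ y + m * D) (hs : 0 ≤ s) :
    Real.log ((y + m * D) / y) / m - Real.log (p + D) + Real.log p ≤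
      Real.log ((y + s + m * D) / (y + s)) / m - Real.log (p + s + D) + Real.log (p + s) := by
  set φ : ℝ → ℝ := fun t => (Real.log (y + t + m * D) - Real.log (y + t)) / m -
    Real.log (p + t + D) + Real.log (p + t) with hφ
  have hd : ∀ t : ℝ, 0 ≤ t → HasDerivAt φ
      (((y + t + m * D)⁻¹ - (y + t)⁻¹) / m - (p + t + D)⁻¹ + (p + t)⁻¹) t := by
    intro t ht
    have h1 : HasDerivAt (fun u => Real.log (y + u + m * D)) (y + t + m * D)⁻¹ t := by
      simpa using (((hasDerivAt_id t).const_add y).add_const (m * D)).log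
        (show y + t + m * D ≠ 0 from ne_of_gt (by nlinarith [mul_nonneg hm.le hD]))
    have h2 : HasDerivAt (fun u => Real.log (y + u)) (y + t)⁻¹ t := by
      simpa using ((hasDerivAt_id t).const_add y).log (show y + t ≠ 0 from ne_of_gt (by linarith))
    have h3 : HasDerivAt (fun u => Real.log (p + u + D)) (p + t + D)⁻¹ t := by
      simpa using (((hasDerivAt_id t).const_add p).add_const D).log
        (show p + t + D ≠ 0 from ne_of_gt (by linarith))
    have h4 : HasDerivAt (fun u => Real.log (p + u)) (p + t)⁻¹ t := by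
      simpa using ((hasDerivAt_id t).const_add p).log (show p + t ≠ 0 from ne_of_gt (by linarith))
    exact (((h1.sub h2).div_const m).sub h3).add h4
  have hmono : MonotoneOn φ (Set.Ici 0) := by
    refine monotoneOn_of_hasDerivWithinAt_nonneg (convex_Ici 0)
      (fun t ht => (hd t ht).continuousAt.continuousWithinAt)
      (fun t ht => (hd t (interior_subset ht)).hasDerivWithinAt) fun t ht => ?_
    have ht0 : (0 : ℝ) ≤ t := interior_subset ht
    have hmD : 0 ≤ m * D := mul_nonneg hm.le hD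
    have a1 : 0 < y + t := by linarith
    have a2 : 0 < p + t := by linarith
    have e1 : ((y + t + m * D)⁻¹ - (y + t)⁻¹) / m = -(D / ((y + t) * (y + t + m * D))) := by
      have : (y + t + m * D) ≠ 0 := ne_of_gt (by linarith)
      field_simp
      ring
    have e2 : -(p + t + D)⁻¹ + (p + t)⁻¹ = D / ((p + t) * (p + t + D)) := by
      have : (p + t + D) ≠ 0 := ne_of_gt (by linarith)
      field_simp
      ring
    have e3 : D / ((y + t) * (y + t + m * D)) ≤ D / ((p + t) * (p + t + D)) :=
      div_le_div_of_nonneg_left hD (by positivity)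
        (mul_le_mul (by linarith) (by linarith) (by linarith) a1.le)
    linarith
  have h := hmono Set.self_mem_Ici hs hs
  simp only [hφ, add_zero] at h
  rwa [Real.log_div (ne_of_gt (by nlinarith [mul_nonneg hm.le hD])) (ne_of_gt (by linarith)),
    Real.log_div (ne_of_gt (by nlinarith [mul_nonneg hm.le hD])) (ne_of_gt (by linarith))]

/-- The logarithmic terms beyond the top conjugate overlap. -/
lemma logs_mono : ∀ (ls : List (ℝ × ℝ)) (R : ℕ → ℝ), (∀ p ∈ ls, 0 < p.1 ∧ p.1 ≤ 1) →
    (∀ j < ls.length, R j ≤ R (j + 1)) → 0 ≤ R 0 →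
    (∀ a, 0 < a → a + R 0 ≤ rsbMult ls R (a + R ls.length)) ∧
      ∀ a s, 0 < a → 0 ≤ s →
        2 * rsbLogs ls R (a + R ls.length) - Real.log (a + R ls.length) + Real.log (a + R 0) ≤
          2 * rsbLogs ls R (a + s + R ls.length) - Real.log (a + s + R ls.length) +
            Real.log (a + s + R 0)
  | [], R, _, _, _ => by simp [rsbMult, rsbLogs]
  | (m, d) :: ls, R, hb, hR, hR0 => by
    obtain ⟨hm, hm1⟩ := hb (m, d) List.mem_cons_self
    have hΔ : 0 ≤ R 1 - R 0 := by linarith [hR 0 (by simp)]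
    obtain ⟨ihW, ihL⟩ := logs_mono ls (fun j => R (j + 1)) (fun p hp => hb p (List.mem_cons_of_mem _ hp))
      (fun j hj => hR (j + 1) (by simpa using hj)) (by linarith)
    have hlen : ((m, d) :: ls).length = ls.length + 1 := rfl
    have hW : ∀ a, 0 < a → a + R 0 ≤ rsbMult ((m, d) :: ls) R (a + R (ls.length + 1)) := by
      intro a ha
      have h1 := ihW a ha
      simp only [rsbMult] at h1 ⊢
      nlinarith
    refine ⟨fun a ha => by rw [hlen]; exact hW a ha, fun a s ha hs => ?_⟩
    rw [hlen]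
    have h1 := ihL a s ha hs
    have hWs : ∀ t, rsbMult ((m, d) :: ls) R (a + t + R (ls.length + 1)) =
        rsbMult ((m, d) :: ls) R (a + R (ls.length + 1)) + t := fun t => by
      rw [rsbMult_shift _ _ (a + t + _), rsbMult_shift _ _ (a + R _)]; ring
    have hW' : ∀ t, rsbMult ls (fun j => R (j + 1)) (a + t + R (ls.length + 1)) =
        rsbMult ((m, d) :: ls) R (a + t + R (ls.length + 1)) + m * (R 1 - R 0) := fun t => by
      simp only [rsbMult]; ring
    have h2 := level_mono (m := m) (y := rsbMult ((m, d) :: ls) R (a + R (ls.length + 1)))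
      (p := a + R 0) (D := R 1 - R 0) hm (by linarith) hΔ (hW a ha) ?_ hs
    swap
    · have h3 := ihW a ha
      have h4 := hW' 0
      simp only [add_zero] at h3 h4
      rw [h4] at h3
      linarith
    rw [← hWs s, ← hW' s] at h2
    have h0 := hW' 0
    rw [add_zero] at h0
    rw [← h0] at h2
    have e : ∀ L x : ℝ, 2 * (L + x / (2 * m)) = 2 * L + x / m := fun L x => by
      field_simp
    simp only [rsbLogs, e, zero_add] at h1 ⊢
    rw [show a + R 0 + s = a + s + R 0 by ring, show a + R 0 + (R 1 - R 0) = a + R 1 by ring,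
      show a + s + R 0 + (R 1 - R 0) = a + s + R 1 by ring] at h2
    linarith

/-- Twice the spherical entropy. -/
noncomputable def ent2 (ls : List (ℝ × ℝ)) (R : ℕ → ℝ) (z : ℝ) : ℝ :=
  z - 1 - Real.log z + 2 * rsbLogs ls R z + R 0 / rsbMult ls R z

/-- Beyond the top conjugate overlap the entropy grows at least like `z - log (z - R_top)`. -/
lemma ent2_grow {ls : List (ℝ × ℝ)} {R : ℕ → ℝ} (hb : ∀ p ∈ ls, 0 < p.1 ∧ p.1 ≤ 1)
    (hR : ∀ j < ls.length, R j ≤ R (j + 1)) (hR0 : 0 ≤ R 0) {a s : ℝ} (ha : 0 < a) (hs : 0 ≤ s) :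
    ent2 ls R (a + R ls.length) - a + Real.log a ≤
      ent2 ls R (a + s + R ls.length) - (a + s) + Real.log (a + s) := by
  obtain ⟨hW, hL⟩ := logs_mono ls R hb hR hR0
  have h1 := hL a s ha hs
  set W := rsbMult ls R (a + R ls.length) with hWdef
  have hWs : rsbMult ls R (a + s + R ls.length) = W + s := by
    rw [hWdef, rsbMult_shift _ _ (a + s + _), rsbMult_shift _ _ (a + R _)]; ring
  have hW1 : a + R 0 ≤ W := hW a ha
  set φ : ℝ → ℝ := fun t => R 0 / (W + t) + Real.log (a + t) - Real.log (a + t + R 0) with hφ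
  have hd : ∀ t : ℝ, 0 ≤ t → HasDerivAt φ
      (-(R 0) / (W + t) ^ 2 + (a + t)⁻¹ - (a + t + R 0)⁻¹) t := by
    intro t ht
    have h2 : HasDerivAt (fun u => R 0 / (W + u)) (-(R 0) / (W + t) ^ 2) t := by
      have h := (hasDerivAt_const t (R 0)).div ((hasDerivAt_id t).const_add W)
        (show W + t ≠ 0 from ne_of_gt (by linarith))
      exact h.congr_deriv (by simp)
    have h3 : HasDerivAt (fun u => Real.log (a + u)) (a + t)⁻¹ t := by
      simpa using ((hasDerivAt_id t).const_add a).log (show a + t ≠ 0 from ne_of_gt (by linarith))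
    have h4 : HasDerivAt (fun u => Real.log (a + u + R 0)) (a + t + R 0)⁻¹ t := by
      simpa using (((hasDerivAt_id t).const_add a).add_const (R 0)).log
        (show a + t + R 0 ≠ 0 from ne_of_gt (by linarith))
    exact (h2.add h3).sub h4
  have hmono : MonotoneOn φ (Set.Ici 0) := by
    refine monotoneOn_of_hasDerivWithinAt_nonneg (convex_Ici 0)
      (fun t ht => (hd t ht).continuousAt.continuousWithinAt)
      (fun t ht => (hd t (interior_subset ht)).hasDerivWithinAt) fun t ht => ?_
    have ht0 : (0 : ℝ) ≤ t := interior_subset ht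
    have a1 : 0 < a + t := by linarith
    have a2 : 0 < a + t + R 0 := by linarith
    have e1 : (a + t)⁻¹ - (a + t + R 0)⁻¹ = R 0 / ((a + t) * (a + t + R 0)) := by
      field_simp
      ring
    have e2 : R 0 / (W + t) ^ 2 ≤ R 0 / ((a + t) * (a + t + R 0)) :=
      div_le_div_of_nonneg_left hR0 (by positivity)
        (by rw [sq]; exact mul_le_mul (by linarith) (by linarith) a2.le (by linarith))
    rw [neg_div]
    linarith
  have h2 := hmono Set.self_mem_Ici hs hs
  simp only [hφ, add_zero] at h2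
  simp only [ent2, hWs, ← hWdef]
  linarith

/-- Shrinking the conjugate overlaps. -/
lemma ent2_shrink {ls : List (ℝ × ℝ)} {R : ℕ → ℝ} (hb : ∀ p ∈ ls, 0 < p.1 ∧ p.1 ≤ 1)
    (hR : ∀ j < ls.length, R j ≤ R (j + 1)) (hR0 : 0 ≤ R 0) {c z : ℝ} (hc : 0 < c) (hc1 : c ≤ 1)
    (hz : 1 ≤ z) (hW : 0 < rsbMult ls (fun j => c * R j) z) :
    ∃ z', 1 ≤ z' ∧ 0 < rsbMult ls R z' ∧
      ent2 ls R z' ≤ ent2 ls (fun j => c * R j) z + (1 - c) * R ls.length := by
  set τ := R ls.length with hτ
  have hτ0 : 0 ≤ τ := by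
    have : ∀ j, j ≤ ls.length → R 0 ≤ R j := by
      intro j
      induction j with
      | zero => exact fun _ => le_rfl
      | succ j ih => exact fun hj => (ih (by omega)).trans (hR j (by omega))
    exact hR0.trans (this _ le_rfl)
  set w := z / c with hw
  have hzw : z = c * w := by rw [hw]; field_simp
  have hw1 : 1 ≤ w := by rw [hw, le_div_iff₀ hc]; linarith
  have hsc : ent2 ls (fun j => c * R j) z = ent2 ls R w + (c - 1) * w - Real.log c := by
    rw [hzw]
    simp only [ent2, rsbMult_scale, rsbLogs_scale hc.ne', mul_div_mul_left _ _ hc.ne']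
    rw [Real.log_mul hc.ne' (by linarith)]
    ring
  have hlc := Real.log_le_sub_one_of_pos hc
  rcases le_or_gt w (1 + τ) with h | h
  · refine ⟨w, hw1, ?_, ?_⟩
    · rw [hzw, rsbMult_scale] at hW
      exact (mul_pos_iff_of_pos_left hc).1 hW
    · rw [hsc]
      nlinarith
  · obtain ⟨hW1, -⟩ := logs_mono ls R hb hR hR0
    refine ⟨1 + τ, by linarith, (show (0 : ℝ) < 1 + R 0 by linarith).trans_le (hW1 1 one_pos), ?_⟩
    have hg := ent2_grow hb hR hR0 (a := 1) (s := w - τ - 1) one_pos (by linarith)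
    rw [Real.log_one, show 1 + (w - τ - 1) + R ls.length = w by rw [hτ]; ring,
      show 1 + (w - τ - 1) = w - τ by ring] at hg
    have hl := Real.log_le_sub_one_of_pos (mul_pos hc (show 0 < w - τ by linarith))
    rw [Real.log_mul hc.ne' (by linarith)] at hl
    rw [hsc]
    linarith

/-- Parisi's spherical functional of the smoothed potential dominates the original one at shrunk
overlaps and a moved multiplier. -/
lemma parisiSphere_fsm_le {f : ℝ → ℝ} {B : ℝ} (hf : Measurable f) (hB : ∀ x, |f x| ≤ B) {α : ℝ}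
    (hα : 0 ≤ α) {e : ℝ} (he : 0 < e) (he1 : e < 1) {q0 : ℝ} {ls : List (ℝ × ℝ)} (h : RsbParam q0 ls)
    {z : ℝ} (hz : 1 ≤ z) (hW : 0 < rsbMult ls (fun j => α * rsbOverlap (fsm f e) q0 ls j) z) :
    ∃ z', 1 ≤ z' ∧
      0 < rsbMult (shrink e ls) (fun j => α * rsbOverlap f ((1 - e) * q0) (shrink e ls) j) z' ∧
      parisiSphere f α ((1 - e) * q0) (shrink e ls) z' ≤ parisiSphere (fsm f e) α q0 ls z := by
  have hp := (shrink_param he he1 h).1
  obtain ⟨h0, hmono⟩ := overlap_props hf hB hp
  have hlen : (shrink e ls).length = ls.length := by simp [shrink]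
  rw [hlen] at hmono
  set R := rsbOverlap f ((1 - e) * q0) (shrink e ls) with hR
  rw [rsbOverlap_fsm hf hB he he1 h] at hW
  simp only [mul_left_comm α (1 - e)] at hW
  obtain ⟨z', hz', hW', hle⟩ := ent2_shrink (ls := ls) (R := fun j => α * R j) (c := 1 - e)
    (fun p hp' => ⟨(h.2.2.1 p hp').1, (h.2.2.1 p hp').2.1⟩)
    (fun j hj => mul_le_mul_of_nonneg_left (hmono j hj) hα) (mul_nonneg hα h0) (by linarith)
    (by linarith) hz hW
  refine ⟨z', hz', by rwa [rsbMult_shrink], ?_⟩
  simp only [parisiSphere, rsbEnergy_fsm hf hB he he1 h, rsbOverlap_fsm hf hB he he1 h, ← hR,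
    rsbPair_shrink, rsbMult_shrink, rsbLogs_shrink, mul_left_comm α (1 - e)]
  simp only [ent2, sub_sub_cancel] at hle
  simp only [← div_div] at hle ⊢
  field_simp at hle ⊢
  linarith

/-! ### Stability of the pressure -/

section stability

variable {f h φ : ℝ → ℝ} {B C : ℝ} {N : ℕ}

/-- The Hamiltonian of the patterns on the unit sphere. -/
noncomputable def sham (f : ℝ → ℝ) {M : ℕ} (g : Fin M → EuclideanSpace ℝ (Fin N)) (u : Sph N) : ℝ :=
  ∑ a, f ⟪g a, (u : EuclideanSpace ℝ (Fin N))⟫

/-- Partition function on the unit sphere. -/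
noncomputable def sZ (f : ℝ → ℝ) {M : ℕ} (g : Fin M → EuclideanSpace ℝ (Fin N)) : ℝ :=
  ∫ u, Real.exp (sham f g u) ∂sphereMeasure N

/-- The Gibbs average of one pattern's error. -/
noncomputable def sgibbs (h φ : ℝ → ℝ) {M : ℕ} (g : Fin M → EuclideanSpace ℝ (Fin N)) (a : Fin M) : ℝ :=
  (∫ u, Real.exp (sham h g u) * φ ⟪g a, (u : EuclideanSpace ℝ (Fin N))⟫ ∂sphereMeasure N) / sZ h g

/-- The law of a field along a unit vector. -/
lemma map_sfield (v : Sph N) :
    (stdGaussian (EuclideanSpace ℝ (Fin N))).map (fun g => ⟪g, (v : EuclideanSpace ℝ (Fin N))⟫) =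
      gaussianReal 0 1 := by
  have hn : ‖(v : EuclideanSpace ℝ (Fin N))‖ = 1 := norm_eq_of_mem_sphere v
  have : IsProbabilityMeasure ((stdGaussian (EuclideanSpace ℝ (Fin N))).map
      fun g => ⟪g, (v : EuclideanSpace ℝ (Fin N))⟫) :=
    Measure.isProbabilityMeasure_map (Measurable.aemeasurable (by fun_prop))
  refine Measure.ext_of_charFun ?_
  funext t
  rw [charFun_apply_real, charFun_gaussianReal, integral_map (Measurable.aemeasurable (by fun_prop))
    (Continuous.aestronglyMeasurable (by fun_prop))]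
  have e : ∀ g : EuclideanSpace ℝ (Fin N),
      Complex.exp ((t : ℂ) * (⟪g, (v : EuclideanSpace ℝ (Fin N))⟫ : ℝ) * Complex.I) =
        Complex.exp ((⟪g, t • (v : EuclideanSpace ℝ (Fin N))⟫ : ℝ) * Complex.I) := fun g => by
    rw [real_inner_smul_right g _ t]; push_cast; ring_nf
  simp only [e, integral_cexp_inner, norm_smul, hn, mul_one, Real.norm_eq_abs]
  congr 1
  rw [← Complex.ofReal_pow, sq_abs]
  push_cast
  ring

lemma abs_sham_le (hB : ∀ x, |f x| ≤ B) {M : ℕ} (g : Fin M → EuclideanSpace ℝ (Fin N)) (u : Sph N) :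
    |sham f g u| ≤ M * B :=
  (Finset.abs_sum_le_sum_abs _ _).trans ((Finset.sum_le_sum fun a _ => hB _).trans (le_of_eq (by simp)))

lemma measurable_sfield {M : ℕ} (a : Fin M) : Measurable
    fun p : (Fin M → EuclideanSpace ℝ (Fin N)) × Sph N =>
      ⟪p.1 a, (p.2 : EuclideanSpace ℝ (Fin N))⟫ :=
  ((measurable_pi_apply a).comp measurable_fst).inner (measurable_subtype_coe.comp measurable_snd)

lemma measurable_sham (hf : Measurable f) (M : ℕ) : Measurable
    fun p : (Fin M → EuclideanSpace ℝ (Fin N)) × Sph N => sham f p.1 p.2 :=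
  Finset.measurable_sum _ fun a _ => hf.comp (measurable_sfield a)

variable [IsProbabilityMeasure (sphereMeasure N)]

lemma integrable_weight (hf : Measurable f) (hB : ∀ x, |f x| ≤ B) {M : ℕ}
    (g : Fin M → EuclideanSpace ℝ (Fin N)) {G : Sph N → ℝ} (hG : Measurable G) {K : ℝ}
    (hK : ∀ u, |G u| ≤ K) :
    Integrable (fun u => Real.exp (sham f g u) * G u) (sphereMeasure N) := by
  refine Integrable.mono' (integrable_const (Real.exp (M * B) * K))
    (((measurable_sham hf M).comp measurable_prodMk_left).exp.mul hG).aestronglyMeasurable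
    (Eventually.of_forall fun u => ?_)
  rw [Real.norm_eq_abs, abs_mul, Real.abs_exp]
  exact mul_le_mul (Real.exp_le_exp.2 (abs_le.1 (abs_sham_le hB g u)).2) (hK u) (abs_nonneg _)
    (Real.exp_pos _).le

lemma integrable_exp_sham (hf : Measurable f) (hB : ∀ x, |f x| ≤ B) {M : ℕ}
    (g : Fin M → EuclideanSpace ℝ (Fin N)) :
    Integrable (fun u => Real.exp (sham f g u)) (sphereMeasure N) := by
  simpa using integrable_weight hf hB g (G := fun _ => (1 : ℝ)) measurable_const (K := 1) (by simp)

lemma sZ_mem (hf : Measurable f) (hB : ∀ x, |f x| ≤ B) {M : ℕ}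
    (g : Fin M → EuclideanSpace ℝ (Fin N)) :
    Real.exp (-(M * B)) ≤ sZ f g ∧ sZ f g ≤ Real.exp (M * B) := by
  constructor
  · refine le_trans (le_of_eq (by simp)) (integral_mono (integrable_const (Real.exp (-(M * B))))
      (integrable_exp_sham hf hB g) fun u => Real.exp_le_exp.2 (abs_le.1 (abs_sham_le hB g u)).1)
  · refine le_trans (integral_mono (integrable_exp_sham hf hB g) (integrable_const (Real.exp (M * B)))
      fun u => Real.exp_le_exp.2 (abs_le.1 (abs_sham_le hB g u)).2) (le_of_eq (by simp))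

lemma sZ_pos (hf : Measurable f) (hB : ∀ x, |f x| ≤ B) {M : ℕ}
    (g : Fin M → EuclideanSpace ℝ (Fin N)) : 0 < sZ f g :=
  (Real.exp_pos _).trans_le (sZ_mem hf hB g).1

lemma measurable_sZ (hf : Measurable f) (M : ℕ) :
    Measurable fun g : Fin M → EuclideanSpace ℝ (Fin N) => sZ f g :=
  ((measurable_sham hf M).exp.stronglyMeasurable.integral_prod_right' (ν := sphereMeasure N)).measurable

lemma integrable_log_sZ (hf : Measurable f) (hB : ∀ x, |f x| ≤ B) (M : ℕ) :
    Integrable (fun g : Fin M → EuclideanSpace ℝ (Fin N) => Real.log (sZ f g))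
      (Measure.pi fun _ => stdGaussian (EuclideanSpace ℝ (Fin N))) := by
  refine Integrable.mono' (integrable_const (M * B)) (measurable_sZ hf M).log.aestronglyMeasurable
    (Eventually.of_forall fun g => ?_)
  rw [Real.norm_eq_abs, abs_le, Real.le_log_iff_exp_le (sZ_pos hf hB g),
    Real.log_le_iff_le_exp (sZ_pos hf hB g)]
  exact sZ_mem hf hB g

lemma log_sZ_le (hf : Measurable f) (hfB : ∀ x, |f x| ≤ B) (hh : Measurable h) (hhB : ∀ x, |h x| ≤ B)
    {M : ℕ} (g : Fin M → EuclideanSpace ℝ (Fin N)) :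
    Real.log (sZ h g) ≤ Real.log (sZ f g) + ∑ a, sgibbs h (fun x => |f x - h x|) g a := by
  set T := ∑ a, sgibbs h (fun x => |f x - h x|) g a with hT
  set D : Sph N → ℝ := fun u => ∑ a, |f ⟪g a, (u : EuclideanSpace ℝ (Fin N))⟫ -
    h ⟪g a, (u : EuclideanSpace ℝ (Fin N))⟫| with hD
  have hDm : Measurable D := Finset.measurable_sum _ fun a _ =>
    ((hf.sub hh).comp ((measurable_sfield a).comp measurable_prodMk_left)).abs
  have hDb : ∀ u, |D u| ≤ M * (2 * B) := fun u => by
    rw [abs_of_nonneg (Finset.sum_nonneg fun a _ => abs_nonneg _)]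
    refine (Finset.sum_le_sum fun a _ => (abs_sub _ _).trans (add_le_add (hfB _) (hhB _))).trans
      (le_of_eq ?_)
    simp; ring
  have hpi : ∀ a : Fin M, Integrable (fun u => Real.exp (sham h g u) *
      |f ⟪g a, (u : EuclideanSpace ℝ (Fin N))⟫ - h ⟪g a, (u : EuclideanSpace ℝ (Fin N))⟫|)
      (sphereMeasure N) := fun a =>
    integrable_weight hh hhB g ((hf.sub hh).comp ((measurable_sfield a).comp measurable_prodMk_left)).abs
      (K := 2 * B) fun u => by
        rw [abs_abs]
        refine (abs_sub _ _).trans ?_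
        linarith [hfB (⟪g a, (u : EuclideanSpace ℝ (Fin N))⟫),
          hhB (⟪g a, (u : EuclideanSpace ℝ (Fin N))⟫)]
  have hT' : T * sZ h g = ∫ u, Real.exp (sham h g u) * D u ∂sphereMeasure N := by
    simp only [hT, sgibbs, Finset.sum_mul, div_mul_cancel₀ _ (sZ_pos hh hhB g).ne', hD, Finset.mul_sum]
    rw [integral_finsetSum _ fun a _ => hpi a]
  have hkey : Real.exp (-T) * sZ h g ≤ sZ f g := by
    have h1 : ∀ u, Real.exp (-T) * (Real.exp (sham h g u) * (1 + T) - Real.exp (sham h g u) * D u) ≤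
        Real.exp (sham f g u) := fun u => by
      have hle : sham h g u - D u ≤ sham f g u := by
        simp only [sham, hD, ← Finset.sum_sub_distrib]
        refine Finset.sum_le_sum fun a _ => ?_
        linarith [neg_abs_le (f ⟪g a, (u : EuclideanSpace ℝ (Fin N))⟫ -
          h ⟪g a, (u : EuclideanSpace ℝ (Fin N))⟫)]
      calc Real.exp (-T) * (Real.exp (sham h g u) * (1 + T) - Real.exp (sham h g u) * D u)
          = Real.exp (-T) * Real.exp (sham h g u) * (-D u + T + 1) := by ring
        _ ≤ Real.exp (-T) * Real.exp (sham h g u) * Real.exp (-D u + T) :=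
            mul_le_mul_of_nonneg_left (Real.add_one_le_exp _) (by positivity)
        _ = Real.exp (sham h g u - D u) := by rw [← Real.exp_add, ← Real.exp_add]; ring_nf
        _ ≤ _ := Real.exp_le_exp.2 hle
    have i1 := (integrable_exp_sham hh hhB g).mul_const (1 + T)
    have i2 := integrable_weight hh hhB g hDm hDb
    have hi := integral_mono ((i1.sub i2).const_mul (Real.exp (-T))) (integrable_exp_sham hf hfB g) h1
    simp only [Pi.sub_apply] at hi
    rw [integral_const_mul, integral_sub i1 i2, integral_mul_const, ← hT'] at hi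
    unfold sZ at hi ⊢
    linarith
  have hl := Real.log_le_log (mul_pos (Real.exp_pos _) (sZ_pos hh hhB g)) hkey
  rw [Real.log_mul (Real.exp_pos _).ne' (sZ_pos hh hhB g).ne', Real.log_exp] at hl
  linarith

lemma integral_sgibbs (hh : Measurable h) (hB : ∀ x, |h x| ≤ B) (hφ : Measurable φ)
    (hφ0 : ∀ x, 0 ≤ φ x) (hφC : ∀ x, φ x ≤ C) {k : ℕ} (a : Fin (k + 1)) :
    Integrable (fun g => sgibbs h φ g a) (Measure.pi fun _ => stdGaussian (EuclideanSpace ℝ (Fin N))) ∧
      ∫ g, sgibbs h φ g a ∂Measure.pi (fun _ => stdGaussian (EuclideanSpace ℝ (Fin N))) ≤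
        Real.exp (2 * B) * ∫ x, φ x ∂gaussianReal 0 1 := by
  set μ := stdGaussian (EuclideanSpace ℝ (Fin N))
  have hφb : ∀ x, |φ x| ≤ C := fun x => by rw [abs_of_nonneg (hφ0 x)]; exact hφC x
  have hm : Measurable fun g : Fin (k + 1) → EuclideanSpace ℝ (Fin N) => sgibbs h φ g a :=
    (((measurable_sham hh (k + 1)).exp.mul (hφ.comp (measurable_sfield a))).stronglyMeasurable.integral_prod_right'
      (ν := sphereMeasure N)).measurable.div (measurable_sZ hh _)
  have hnum : ∀ g : Fin (k + 1) → EuclideanSpace ℝ (Fin N), Integrable (fun u =>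
      Real.exp (sham h g u) * φ ⟪g a, (u : EuclideanSpace ℝ (Fin N))⟫) (sphereMeasure N) := fun g =>
    integrable_weight hh hB g (hφ.comp ((measurable_sfield a).comp measurable_prodMk_left))
      fun u => hφb _
  have hbd : ∀ g : Fin (k + 1) → EuclideanSpace ℝ (Fin N), 0 ≤ sgibbs h φ g a ∧ sgibbs h φ g a ≤ C := fun g => by
    refine ⟨div_nonneg (integral_nonneg fun u => mul_nonneg (Real.exp_pos _).le (hφ0 _))
      (sZ_pos hh hB g).le, ?_⟩
    rw [sgibbs, div_le_iff₀ (sZ_pos hh hB g), sZ, ← integral_const_mul]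
    exact integral_mono (hnum g) ((integrable_exp_sham hh hB g).const_mul C) fun u => by
      rw [mul_comm C]; exact mul_le_mul_of_nonneg_left (hφC _) (Real.exp_pos _).le
  have hi : Integrable (fun g => sgibbs h φ g a) (Measure.pi fun _ => μ) :=
    Integrable.mono' (integrable_const C) hm.aestronglyMeasurable
      (Eventually.of_forall fun g => by rw [Real.norm_eq_abs, abs_of_nonneg (hbd g).1]; exact (hbd g).2)
  refine ⟨hi, ?_⟩
  set e := (MeasurableEquiv.piFinSuccAbove (fun _ : Fin (k + 1) => EuclideanSpace ℝ (Fin N)) a).symm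
  have mp : MeasurePreserving e (μ.prod (Measure.pi fun _ : Fin k => μ)) (Measure.pi fun _ => μ) :=
    (measurePreserving_piFinSuccAbove (fun _ : Fin (k + 1) => μ) a).symm _
  have hi2 : Integrable (fun p => sgibbs h φ (e p) a) (μ.prod (Measure.pi fun _ : Fin k => μ)) :=
    mp.integrable_comp_of_integrable hi
  rw [← mp.integral_comp' (fun g => sgibbs h φ g a), integral_prod_symm _ hi2]
  set K := Real.exp (2 * B) * ∫ x, φ x ∂gaussianReal 0 1
  refine (integral_mono hi2.integral_prod_right (integrable_const K) fun g' => ?_).trans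
    (le_of_eq (by simp))
  have hsplit : ∀ (x : EuclideanSpace ℝ (Fin N)) (u : Sph N),
      sham h (e (x, g')) u = h ⟪x, (u : EuclideanSpace ℝ (Fin N))⟫ + sham h g' u := fun x u => by
    have hins : e (x, g') = Fin.insertNth a x g' := rfl
    rw [sham, hins, Fin.sum_univ_succAbove _ a, sham]
    simp [Fin.insertNth_apply_same, Fin.insertNth_apply_succAbove]
  have hsame : ∀ x, e (x, g') a = x := fun x => by
    rw [show e (x, g') = Fin.insertNth a x g' from rfl, Fin.insertNth_apply_same]
  set Z' := sZ h g' with hZ'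
  have hZ0 : 0 < Z' := sZ_pos hh hB g'
  set ψ : EuclideanSpace ℝ (Fin N) × Sph N → ℝ := fun p =>
    Real.exp (sham h g' p.2) * φ ⟪p.1, (p.2 : EuclideanSpace ℝ (Fin N))⟫ with hψ
  have hψi : Integrable ψ (μ.prod (sphereMeasure N)) := by
    refine Integrable.mono' (integrable_const (Real.exp (k * B) * C))
      ((((measurable_sham hh k).comp measurable_prodMk_left).exp.comp measurable_snd).mul
        (hφ.comp (measurable_fst.inner (measurable_subtype_coe.comp measurable_snd)))).aestronglyMeasurable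
      (Eventually.of_forall fun p => ?_)
    rw [Real.norm_eq_abs, hψ, abs_mul, Real.abs_exp]
    exact mul_le_mul (Real.exp_le_exp.2 (abs_le.1 (abs_sham_le hB g' p.2)).2) (hφb _) (abs_nonneg _)
      (Real.exp_pos _).le
  have hpt : ∀ x, sgibbs h φ (e (x, g')) a ≤
      Real.exp (2 * B) / Z' * ∫ u, ψ (x, u) ∂sphereMeasure N := fun x => by
    have hden : Real.exp (-B) * Z' ≤ sZ h (e (x, g')) := by
      rw [hZ', sZ, ← integral_const_mul]
      refine integral_mono ((integrable_exp_sham hh hB g').const_mul _)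
        (integrable_exp_sham hh hB _) fun u => ?_
      rw [hsplit, Real.exp_add]
      exact mul_le_mul_of_nonneg_right (Real.exp_le_exp.2 (abs_le.1 (hB _)).1) (Real.exp_pos _).le
    have hup : ∫ u, Real.exp (sham h (e (x, g')) u) *
        φ ⟪e (x, g') a, (u : EuclideanSpace ℝ (Fin N))⟫ ∂sphereMeasure N ≤
        Real.exp B * ∫ u, ψ (x, u) ∂sphereMeasure N := by
      rw [← integral_const_mul]
      refine integral_mono (hnum _) ((integrable_weight hh hB g'
        (hφ.comp (measurable_const.inner measurable_subtype_coe)) fun u => hφb _).const_mul _) fun u => ?_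
      simp only [hψ, hsplit, hsame, Real.exp_add, mul_assoc]
      exact mul_le_mul_of_nonneg_right (Real.exp_le_exp.2 (abs_le.1 (hB _)).2)
        (mul_nonneg (Real.exp_pos _).le (hφ0 _))
    refine (div_le_div₀ (mul_nonneg (Real.exp_pos _).le (integral_nonneg fun u =>
      mul_nonneg (Real.exp_pos _).le (hφ0 _))) hup (mul_pos (Real.exp_pos _) hZ0) hden).trans (le_of_eq ?_)
    rw [two_mul, Real.exp_add, Real.exp_neg]
    field_simp
    rfl
  refine (integral_mono_of_nonneg (Eventually.of_forall fun x => (hbd _).1)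
    (hψi.integral_prod_left.const_mul _) (Eventually.of_forall hpt)).trans (le_of_eq ?_)
  rw [integral_const_mul, integral_integral_swap hψi]
  have hlaw : ∀ u : Sph N, ∫ x, ψ (x, u) ∂μ =
      Real.exp (sham h g' u) * ∫ x, φ x ∂gaussianReal 0 1 := fun u => by
    simp only [hψ, integral_const_mul]
    rw [← map_sfield u, integral_map (Measurable.aemeasurable (by fun_prop)) hφ.aestronglyMeasurable]
  simp only [hlaw, integral_mul_const]
  show Real.exp (2 * B) / Z' * (Z' * _) = _
  rw [← mul_assoc, div_mul_cancel₀ _ hZ0.ne']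

omit [IsProbabilityMeasure (sphereMeasure N)] in
lemma spherePressure_eq (hN : 1 ≤ N) (f : ℝ → ℝ) (M : ℕ) :
    spherePressure f N M =
      (∫ g, Real.log (sZ f g) ∂Measure.pi fun _ : Fin M => stdGaussian (EuclideanSpace ℝ (Fin N))) / N := by
  have hs : Real.sqrt N ≠ 0 := Real.sqrt_ne_zero'.2 (by exact_mod_cast hN)
  simp only [spherePressure, real_inner_smul_right, mul_div_cancel_left₀ _ hs]
  rfl

/-- Moving the potential costs its mean absolute change, once per pattern. -/
lemma spherePressure_stable (hf : Measurable f) (hfB : ∀ x, |f x| ≤ B) (hh : Measurable h)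
    (hhB : ∀ x, |h x| ≤ B) (hN : 1 ≤ N) (M : ℕ) : spherePressure h N M ≤ spherePressure f N M +
      (M : ℝ) / N * (Real.exp (2 * B) * ∫ x, |f x - h x| ∂gaussianReal 0 1) := by
  set μ := Measure.pi fun _ : Fin M => stdGaussian (EuclideanSpace ℝ (Fin N)) with hμ
  set E := Real.exp (2 * B) * ∫ x, |f x - h x| ∂gaussianReal 0 1
  have key : ∫ g, Real.log (sZ h g) ∂μ ≤ (∫ g, Real.log (sZ f g) ∂μ) + M * E := by
    have hg : ∀ a : Fin M, Integrable (fun g => sgibbs h (fun x => |f x - h x|) g a) μ ∧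
        ∫ g, sgibbs h (fun x => |f x - h x|) g a ∂μ ≤ E := by
      intro a
      have := a.isLt
      obtain ⟨k, rfl⟩ : ∃ k, M = k + 1 := ⟨M - 1, by omega⟩
      exact integral_sgibbs hh hhB (hf.sub hh).abs (fun x => abs_nonneg _) (C := 2 * B)
        (fun x => (abs_sub _ _).trans (by linarith [hfB x, hhB x])) a
    have hi3 : Integrable (fun g => ∑ a, sgibbs h (fun x => |f x - h x|) g a) μ :=
      integrable_finsetSum _ fun a _ => (hg a).1
    refine (integral_mono (integrable_log_sZ hh hhB M) ((integrable_log_sZ hf hfB M).add hi3)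
      fun g => log_sZ_le hf hfB hh hhB g).trans ?_
    rw [integral_add' (integrable_log_sZ hf hfB M) hi3, integral_finsetSum _ fun a _ => (hg a).1]
    refine add_le_add_right ((Finset.sum_le_sum fun a _ => (hg a).2).trans (le_of_eq ?_)) _
    simp
  rw [spherePressure_eq hN, spherePressure_eq hN, div_mul_eq_mul_div, ← add_div]
  exact div_le_div_of_nonneg_right key (Nat.cast_nonneg N)

end stability

/-- A lower bound by Parisi's functional passes from smooth to bounded Borel potentials. -/
theorem sph_borel_of_smooth {α : ℝ} (hα : 0 < α)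
    (hs : ∀ f : ℝ → ℝ, Smf f → ∀ c, (∀ q0 ls z, RsbParam q0 ls → 1 ≤ z →
        0 < rsbMult ls (fun j => α * rsbOverlap f q0 ls j) z → c ≤ parisiSphere f α q0 ls z) →
      ∀ η, 0 < η → ∀ᶠ N : ℕ in atTop, c - η ≤ spherePressure f N ⌊α * N⌋₊)
    {f : ℝ → ℝ} (hf : Measurable f) (hfb : ∃ B, ∀ x, |f x| ≤ B) {c : ℝ}
    (hc : ∀ q0 ls z, RsbParam q0 ls → 1 ≤ z →
      0 < rsbMult ls (fun j => α * rsbOverlap f q0 ls j) z → c ≤ parisiSphere f α q0 ls z)
    {η : ℝ} (hη : 0 < η) :
    ∀ᶠ N : ℕ in atTop, c - η ≤ spherePressure f N ⌊α * N⌋₊ := by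
  obtain ⟨B, hB⟩ := hfb
  obtain ⟨e, he, he1, hint⟩ := tendsto_fsm hf hB
    (δ := η / (2 * α * Real.exp (2 * B))) (by positivity)
  have hsmf := smf_fsm hf hB he
  have hc' : ∀ q0 ls z, RsbParam q0 ls → 1 ≤ z →
      0 < rsbMult ls (fun j => α * rsbOverlap (fsm f e) q0 ls j) z →
      c ≤ parisiSphere (fsm f e) α q0 ls z := fun q0 ls z h hz hW => by
    obtain ⟨z', hz', hW', hle⟩ := parisiSphere_fsm_le hf hB hα.le he he1 h hz hW
    exact (hc _ _ _ (shrink_param he he1 h).1 hz' hW').trans hle
  filter_upwards [hs (fsm f e) hsmf c hc' (η / 2) (by positivity), eventually_ge_atTop 1] with N h1 hN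
  have := isProbabilityMeasure_sphereMeasure hN
  have h2 := spherePressure_stable hf hB hsmf.smooth.continuous.measurable (abs_fsm_le hf hB e) hN ⌊α * N⌋₊
  have hN0 : (0 : ℝ) < N := by exact_mod_cast hN
  have hM : (⌊α * N⌋₊ : ℝ) / N ≤ α := by
    rw [div_le_iff₀ hN0]; exact Nat.floor_le (by positivity)
  have hE : Real.exp (2 * B) * ∫ x, |f x - fsm f e x| ∂gaussianReal 0 1 ≤ η / (2 * α) := by
    refine (mul_le_mul_of_nonneg_left hint (Real.exp_pos _).le).trans (le_of_eq ?_)
    field_simp
  have hE0 : 0 ≤ Real.exp (2 * B) * ∫ x, |f x - fsm f e x| ∂gaussianReal 0 1 :=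
    mul_nonneg (Real.exp_pos _).le (integral_nonneg fun x => abs_nonneg _)
  have h3 : (⌊α * N⌋₊ : ℝ) / N * (Real.exp (2 * B) * ∫ x, |f x - fsm f e x| ∂gaussianReal 0 1) ≤ η / 2 := by
    refine (mul_le_mul hM hE hE0 hα.le).trans (le_of_eq ?_)
    field_simp
  linarith

end Vale.Agent.P157.Low
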