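import Vale.Agent.P157.Low.ParisiX
import Vale.Agent.P157.RSB.SphereEntropy

/-!
Nested values of quadratic potentials, and their lower bound under a hyperbolic perturbation.
-/

namespace Vale.Agent.P157.Low

open MeasureTheory ProbabilityTheory

/-- A Gaussian average of the exponential of a quadratic polynomial. -/
lemma gauss_quad_lin {a k : ℝ} (h : 2 * a * k ^ 2 < 1) (b x : ℝ) :
    Integrable (fun z : ℝ => Real.exp (a * (x + k * z) ^ 2 + b * (x + k * z))) (gaussianReal 0 1) ∧
      ∫ z, Real.exp (a * (x + k * z) ^ 2 + b * (x + k * z)) ∂gaussianReal 0 1 =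
        Real.exp ((a * x ^ 2 + b * x + b ^ 2 * k ^ 2 / 2) / (1 - 2 * a * k ^ 2)) /
          Real.sqrt (1 - 2 * a * k ^ 2) := by
  rcases eq_or_ne a 0 with rfl | ha
  · have e : ∀ z : ℝ, Real.exp (0 * (x + k * z) ^ 2 + b * (x + k * z)) =
        Real.exp (b * x) * Real.exp (b * k * z) := fun z => by rw [← Real.exp_add]; ring_nf
    simp only [e]
    refine ⟨(integrable_exp_mul_gaussianReal _).const_mul _, ?_⟩
    rw [integral_const_mul, integral_exp_gauss, ← Real.exp_add]
    simp [mul_pow]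
  · have hD : 1 - 2 * a * k ^ 2 ≠ 0 := by linarith
    have e : ∀ z : ℝ, Real.exp (a * (x + k * z) ^ 2 + b * (x + k * z)) =
        Real.exp (-(b ^ 2 / (4 * a))) * Real.exp (a * (x + b / (2 * a) + k * z) ^ 2) := fun z => by
      rw [← Real.exp_add]
      congr 1
      field_simp
      ring
    obtain ⟨hi, he⟩ := RSB.gauss_quad h (x + b / (2 * a))
    simp only [e]
    refine ⟨hi.const_mul _, ?_⟩
    rw [integral_const_mul, he, mul_div_assoc', ← Real.exp_add]
    congr 2
    rw [show -(b ^ 2 / (4 * a)) = -(b ^ 2 / (4 * a)) * (1 - 2 * a * k ^ 2) / (1 - 2 * a * k ^ 2) by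
      rw [mul_div_assoc, div_self hD, mul_one], ← add_div]
    congr 1
    field_simp
    ring

/-- The same average against a hyperbolic cosine. -/
lemma gauss_quad_cosh {a k : ℝ} (h : 2 * a * k ^ 2 < 1) (κ x : ℝ) :
    Integrable (fun z : ℝ => Real.exp (a * (x + k * z) ^ 2) * Real.cosh (κ * (x + k * z)))
        (gaussianReal 0 1) ∧
      ∫ z, Real.exp (a * (x + k * z) ^ 2) * Real.cosh (κ * (x + k * z)) ∂gaussianReal 0 1 =
        Real.exp (κ ^ 2 * k ^ 2 / (2 * (1 - 2 * a * k ^ 2))) *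
          Real.cosh (κ * x / (1 - 2 * a * k ^ 2)) *
            (Real.exp (a * x ^ 2 / (1 - 2 * a * k ^ 2)) / Real.sqrt (1 - 2 * a * k ^ 2)) := by
  have e : ∀ z : ℝ, Real.exp (a * (x + k * z) ^ 2) * Real.cosh (κ * (x + k * z)) =
      1 / 2 * Real.exp (a * (x + k * z) ^ 2 + κ * (x + k * z)) +
        1 / 2 * Real.exp (a * (x + k * z) ^ 2 + -κ * (x + k * z)) := fun z => by
    rw [Real.cosh_eq, Real.exp_add, Real.exp_add]; ring_nf
  obtain ⟨i1, e1⟩ := gauss_quad_lin h κ x
  obtain ⟨i2, e2⟩ := gauss_quad_lin h (-κ) x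
  simp only [e]
  refine ⟨(i1.const_mul _).add (i2.const_mul _), ?_⟩
  rw [integral_add (i1.const_mul _) (i2.const_mul _), integral_const_mul, integral_const_mul, e1, e2,
    Real.cosh_eq]
  set D := 1 - 2 * a * k ^ 2 with hD
  have f1 : (a * x ^ 2 + κ * x + κ ^ 2 * k ^ 2 / 2) / D =
      κ ^ 2 * k ^ 2 / (2 * D) + κ * x / D + a * x ^ 2 / D := by ring_nf
  have f2 : (a * x ^ 2 + -κ * x + (-κ) ^ 2 * k ^ 2 / 2) / D =
      κ ^ 2 * k ^ 2 / (2 * D) + -(κ * x / D) + a * x ^ 2 / D := by ring_nf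
  rw [f1, f2]
  simp only [Real.exp_add]
  ring

variable {ι : Type}

/-- The quadratic coefficient left by the levels of a list. -/
noncomputable def qmult (m d : ι → ℝ) : List ι → ℝ → ℝ
  | [], z => z
  | i :: l, z => qmult m d l z - m i * d i

/-- The constant left by the levels of a list. -/
noncomputable def qlogs (m d : ι → ℝ) : List ι → ℝ → ℝ
  | [], _ => 0
  | i :: l, z => qlogs m d l z + Real.log (qmult m d l z / qmult m d (i :: l) z) / (2 * m i)

lemma qmult_add (m d : ι → ℝ) : ∀ (l : List ι) (z Δ : ℝ), qmult m d l (z + Δ) = qmult m d l z + Δ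
  | [], _, _ => rfl
  | i :: l, z, Δ => by simp only [qmult, qmult_add m d l]; ring

lemma qmult_le (m d : ι → ℝ) : ∀ {l : List ι}, (∀ i ∈ l, 0 < m i ∧ 0 ≤ d i) → ∀ z, qmult m d l z ≤ z
  | [], _, _ => le_rfl
  | i :: l, h, z => by
    obtain ⟨hm, hd⟩ := h i (List.mem_cons_self ..)
    have := qmult_le m d (fun j hj => h j (List.mem_cons_of_mem _ hj)) z
    simp only [qmult]
    linarith [mul_nonneg hm.le hd]

lemma le_qmult (m d : ι → ℝ) : ∀ {l : List ι}, (∀ i ∈ l, m i ≤ 1 ∧ 0 ≤ d i) →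
    ∀ z, z - (l.map d).sum ≤ qmult m d l z
  | [], _, _ => by simp [qmult]
  | i :: l, h, z => by
    obtain ⟨hm, hd⟩ := h i (List.mem_cons_self ..)
    have := le_qmult m d (fun j hj => h j (List.mem_cons_of_mem _ hj)) z
    simp only [qmult, List.map_cons, List.sum_cons]
    linarith [mul_le_of_le_one_left hd hm]

/-- The constant is at least that of a single level of exponent one. -/
lemma qlogs_ge (m d : ι → ℝ) : ∀ {l : List ι}, (∀ i ∈ l, 0 < m i ∧ m i ≤ 1 ∧ 0 ≤ d i) →
    ∀ z, 0 < qmult m d l z → Real.log z / 2 - Real.log (qmult m d l z) / 2 ≤ qlogs m d l z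
  | [], _, _, _ => by simp [qmult, qlogs]
  | i :: l, h, z, hz => by
    obtain ⟨hm, hm1, hd⟩ := h i (List.mem_cons_self ..)
    simp only [qmult] at hz
    have hle : qmult m d l z - m i * d i ≤ qmult m d l z := by linarith [mul_nonneg hm.le hd]
    have hz' := hz.trans_le hle
    have ih := qlogs_ge m d (fun j hj => h j (List.mem_cons_of_mem _ hj)) z hz'
    simp only [qmult, qlogs]
    have hl : 0 ≤ Real.log (qmult m d l z / (qmult m d l z - m i * d i)) :=
      Real.log_nonneg (by rw [le_div_iff₀ hz]; linarith)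
    have h2 := div_le_div_of_nonneg_left hl (by linarith : 0 < 2 * m i) (by linarith : 2 * m i ≤ 2)
    rw [Real.log_div hz'.ne' hz.ne'] at h2 ⊢
    linarith

lemma sum_map_nonneg {d : ι → ℝ} : ∀ {l : List ι}, (∀ i ∈ l, 0 ≤ d i) → 0 ≤ (l.map d).sum
  | [], _ => by simp
  | i :: l, h => by
    simp only [List.map_cons, List.sum_cons]
    exact add_nonneg (h i (List.mem_cons_self ..)) (sum_map_nonneg fun j hj => h j (List.mem_cons_of_mem _ hj))

/-- A quadratic lower bound with hyperbolic errors passes through the levels. -/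
theorem casc_quad_ge {m d : ι → ℝ} {g : ℝ → ℝ} {K z c K1 K2 κ1 κ2 : ℝ} (hg : RSB.Lip K g) (hz : 0 < z)
    (hK1 : 0 ≤ K1) (hK2 : 0 ≤ K2)
    (hle : ∀ y, y ^ 2 / (2 * z) + c - (K1 * Real.cosh (κ1 * y) + K2 * Real.cosh (κ2 * y)) ≤ g y) :
    ∀ {l : List ι}, RSB.Good (gaussianReal 0 1) m (sigd d) l → (∀ i ∈ l, 0 ≤ d i) →
      0 < qmult m d l z → ∀ x,
      x ^ 2 / (2 * qmult m d l z) + (c + qlogs m d l z) -
          (K1 * Real.exp (κ1 ^ 2 * (z / qmult m d l z) ^ 2 * (l.map d).sum / 2) *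
              Real.cosh (κ1 * (z / qmult m d l z) * x) +
            K2 * Real.exp (κ2 ^ 2 * (z / qmult m d l z) ^ 2 * (l.map d).sum / 2) *
              Real.cosh (κ2 * (z / qmult m d l z) * x)) ≤
        RSB.casc (gaussianReal 0 1) m (sigd d) l g x
  | [], _, _, _, x => by
    simpa [qmult, qlogs, RSB.casc, div_self hz.ne'] using hle x
  | i :: l, h, hd, hpos, x => by
    obtain ⟨⟨hm, hs⟩, hgl⟩ := RSB.good_cons.1 h
    have hdi := hd i (List.mem_cons_self ..)
    have hdl : ∀ j ∈ l, 0 ≤ d j := fun j hj => hd j (List.mem_cons_of_mem _ hj)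
    simp only [qmult] at hpos
    set z1 := qmult m d l z with hz1
    set z2 := z1 - m i * d i with hz2
    have h12 : z2 ≤ z1 := by linarith [mul_nonneg hm.le hdi]
    have hz10 : 0 < z1 := hpos.trans_le h12
    have ih := casc_quad_ge hg hz hK1 hK2 hle hgl hdl hz10
    set S := (l.map d).sum with hS
    have hS0 : 0 ≤ S := sum_map_nonneg hdl
    set V := RSB.casc (gaussianReal 0 1) m (sigd d) l g with hV
    have wV := RSB.casc_wgt h hg x
    set k := Real.sqrt (d i) with hk
    have hk2 : k ^ 2 = d i := Real.sq_sqrt hdi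
    set a := m i / (2 * z1) with ha
    have hD : 1 - 2 * a * k ^ 2 = z2 / z1 := by rw [hk2, ha, hz2]; field_simp
    have hlt : 2 * a * k ^ 2 < 1 := by have := div_pos hpos hz10; linarith
    set I := Real.exp (a * x ^ 2 / (z2 / z1)) / Real.sqrt (z2 / z1) with hI
    have hI0 : 0 < I := by have := div_pos hpos hz10; positivity
    obtain ⟨q0i, q0e⟩ := RSB.gauss_quad hlt x
    obtain ⟨q1i, q1e⟩ := gauss_quad_cosh hlt (κ1 * (z / z1)) x
    obtain ⟨q2i, q2e⟩ := gauss_quad_cosh hlt (κ2 * (z / z1)) x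
    rw [hD, ← hI] at q0e q1e q2e
    set C1 := K1 * Real.exp (κ1 ^ 2 * (z / z1) ^ 2 * S / 2) with hC1
    set C2 := K2 * Real.exp (κ2 ^ 2 * (z / z1) ^ 2 * S / 2) with hC2
    set H1 := Real.exp ((κ1 * (z / z1)) ^ 2 * k ^ 2 / (2 * (z2 / z1))) *
      Real.cosh (κ1 * (z / z1) * x / (z2 / z1)) with hH1
    set H2 := Real.exp ((κ2 * (z / z1)) ^ 2 * k ^ 2 / (2 * (z2 / z1))) *
      Real.cosh (κ2 * (z / z1) * x / (z2 / z1)) with hH2
    set c1 := c + qlogs m d l z with hc1
    set e := m i * (C1 * H1 + C2 * H2) with he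
    set w : ℝ → ℝ := fun t => Real.exp (a * (x + k * t) ^ 2)
    set D : ℝ → ℝ := fun t =>
      C1 * Real.cosh (κ1 * (z / z1) * (x + k * t)) + C2 * Real.cosh (κ2 * (z / z1) * (x + k * t))
    have hpt : ∀ t, Real.exp (m i * c1 - e) *
        ((1 + e) * w t - m i * (C1 * (w t * Real.cosh (κ1 * (z / z1) * (x + k * t))) +
          C2 * (w t * Real.cosh (κ2 * (z / z1) * (x + k * t))))) ≤
          Real.exp (m i * V (x + k * t)) := fun t => by
      have hb : (x + k * t) ^ 2 / (2 * z1) + c1 - D t ≤ V (x + k * t) := ih (x + k * t)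
      refine le_trans ?_ (Real.exp_le_exp.2 (mul_le_mul_of_nonneg_left hb hm.le))
      have h1 := Real.add_one_le_exp (e - m i * D t)
      calc Real.exp (m i * c1 - e) * ((1 + e) * w t - m i *
            (C1 * (w t * Real.cosh (κ1 * (z / z1) * (x + k * t))) +
              C2 * (w t * Real.cosh (κ2 * (z / z1) * (x + k * t)))))
          = Real.exp (m i * c1 - e) * w t * (e - m i * D t + 1) := by simp only [D]; ring
        _ ≤ Real.exp (m i * c1 - e) * w t * Real.exp (e - m i * D t) :=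
            mul_le_mul_of_nonneg_left h1 (mul_nonneg (Real.exp_pos _).le (Real.exp_pos _).le)
        _ = _ := by
            simp only [w, ← Real.exp_add, ha]
            congr 1
            ring
    have hR : Integrable (fun t => C1 * (w t * Real.cosh (κ1 * (z / z1) * (x + k * t))) +
        C2 * (w t * Real.cosh (κ2 * (z / z1) * (x + k * t)))) (gaussianReal 0 1) :=
      (q1i.const_mul C1).add (q2i.const_mul C2)
    have hVi : Integrable (fun t => Real.exp (m i * V (x + k * t))) (gaussianReal 0 1) := wV.int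
    have hl := integral_mono (((q0i.const_mul (1 + e)).sub (hR.const_mul (m i))).const_mul
      (Real.exp (m i * c1 - e))) hVi hpt
    simp only [Pi.sub_apply] at hl
    rw [integral_const_mul, integral_sub (q0i.const_mul (1 + e)) (hR.const_mul (m i)), integral_const_mul,
      integral_const_mul, integral_add (q1i.const_mul C1) (q2i.const_mul C2), integral_const_mul,
      integral_const_mul, q0e, q1e, q2e] at hl
    have hl' : Real.exp (m i * c1 - e) * I ≤ ∫ t, Real.exp (m i * V (x + k * t)) ∂gaussianReal 0 1 := by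
      refine le_trans (le_of_eq ?_) hl
      rw [he]
      ring
    have hlog := Real.log_le_log (mul_pos (Real.exp_pos _) hI0) hl'
    rw [Real.log_mul (Real.exp_pos _).ne' hI0.ne', Real.log_exp] at hlog
    have hdiv := div_le_div_of_nonneg_right hlog hm.le
    have hlI : Real.log I / m i = x ^ 2 / (2 * z2) + Real.log (z1 / z2) / (2 * m i) := by
      have hq := div_pos hpos hz10
      rw [hI, Real.log_div (Real.exp_pos _).ne' (Real.sqrt_pos.2 hq).ne', Real.log_exp,
        Real.log_sqrt hq.le, Real.log_div hpos.ne' hz10.ne', Real.log_div hz10.ne' hpos.ne', ha]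
      field_simp
      ring
    have hρ : z / z1 ≤ z / z2 := div_le_div_of_nonneg_left hz.le hpos h12
    have hρ0 : 0 ≤ z / z1 := (div_pos hz hz10).le
    have hbound : ∀ (κ Kc : ℝ), 0 ≤ Kc →
        Kc * Real.exp (κ ^ 2 * (z / z1) ^ 2 * S / 2) *
            (Real.exp ((κ * (z / z1)) ^ 2 * k ^ 2 / (2 * (z2 / z1))) *
              Real.cosh (κ * (z / z1) * x / (z2 / z1))) ≤
          Kc * Real.exp (κ ^ 2 * (z / z2) ^ 2 * (d i + S) / 2) * Real.cosh (κ * (z / z2) * x) :=
      fun κ Kc hKc => by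
      rw [show κ * (z / z1) * x / (z2 / z1) = κ * (z / z2) * x by field_simp, mul_assoc Kc, mul_assoc Kc,
        ← mul_assoc (Real.exp (κ ^ 2 * (z / z1) ^ 2 * S / 2)), ← Real.exp_add]
      refine mul_le_mul_of_nonneg_left (mul_le_mul_of_nonneg_right (Real.exp_le_exp.2 ?_)
        (Real.cosh_pos _).le) hKc
      rw [show (κ * (z / z1)) ^ 2 * k ^ 2 / (2 * (z2 / z1)) = κ ^ 2 * (z / z1) * (z / z2) * d i / 2 by
        rw [hk2]; field_simp]
      have h2 : κ ^ 2 * (z / z1) ^ 2 * S ≤ κ ^ 2 * (z / z2) ^ 2 * S :=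
        mul_le_mul_of_nonneg_right (mul_le_mul_of_nonneg_left (pow_le_pow_left₀ hρ0 hρ 2) (sq_nonneg _)) hS0
      have h3 : κ ^ 2 * (z / z1) * (z / z2) * d i ≤ κ ^ 2 * (z / z2) ^ 2 * d i := by
        rw [pow_two (z / z2), ← mul_assoc]
        exact mul_le_mul_of_nonneg_right (mul_le_mul_of_nonneg_right
          (mul_le_mul_of_nonneg_left hρ (sq_nonneg _)) (div_pos hz hpos).le) hdi
      linarith
    have b1 := hbound κ1 K1 hK1
    have b2 := hbound κ2 K2 hK2
    rw [add_div, hlI, show (m i * c1 - e) / m i = c1 - (C1 * H1 + C2 * H2) by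
      rw [he]; field_simp] at hdiv
    simp only [qmult, qlogs, List.map_cons, List.sum_cons, RSB.casc, RSB.lexp, sigd, ← hV, ← hk,
      ← hz1, ← hz2, ← hS]
    simp only [hC1, hC2, hH1, hH2, hc1] at hdiv
    linarith

end Vale.Agent.P157.Low
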