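import Vale.Agent.P157.Low.SphDriftTilt
import Vale.Agent.P157.Low.DriftLimit

/-!
The drift of one added pattern, for arbitrary systems.
-/

namespace Vale.Agent.P157.Low

open MeasureTheory ProbabilityTheory Filter
open scoped RealInnerProductSpace Topology

variable {f : ℝ → ℝ} {B : ℝ} {A : Arr}

lemma measurable_driftF (f : ℝ → ℝ) : Measurable (driftF f) := by
  unfold driftF
  exact (measurable_deriv _).sub (measurable_id.mul (measurable_deriv f))

/-- The drift at one added pattern is pairing minus diagonal. -/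
lemma tiltF_driftF (hf : Pot f B) (hs : Smf f) (S : Sys) :
    (S.tiltF hf).avgRep 1 (fun (p : S.Ω × S.E) (r : Fin 1 → S.X) => driftF f ⟪p.2, S.v (r 0)⟫) =
      (S.tiltF hf).avgRep 2 (fun (p : S.Ω × S.E) (r : Fin 2 → S.X) =>
        ⟪S.v (r 0), S.v (r 1)⟫ * (deriv f ⟪p.2, S.v (r 0)⟫ * deriv f ⟪p.2, S.v (r 1)⟫)) -
      (S.tiltF hf).avgRep 1 (fun (p : S.Ω × S.E) (r : Fin 1 → S.X) => deriv f ⟪p.2, S.v (r 0)⟫ ^ 2) := by
  obtain ⟨a, ha⟩ := hs.bdD_deriv.bdd
  obtain ⟨a2, ha2⟩ := hs.bdD_deriv₂.bdd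
  have ha0 : 0 ≤ a := (abs_nonneg _).trans (ha 0)
  have ha20 : 0 ≤ a2 := (abs_nonneg _).trans (ha2 0)
  have hy := measurable_tilt_field S (0 : Fin 1)
  have hone : ∀ g : S.E, (1 : ℝ) ≤ (1 + ‖g‖) ^ 2 := fun g => by nlinarith [norm_nonneg g]
  have i2 := integrable_tiltF hf S (n := 1) (Θ := fun p r => deriv (deriv f) ⟪p.2, S.v (r 0)⟫) (C := a2)
    ((measurable_deriv _).comp hy) fun p r => (ha2 _).trans (le_mul_of_one_le_right ha20 (hone _))
  have iy := integrable_tiltF hf S (n := 1) (Θ := fun p r => ⟪p.2, S.v (r 0)⟫ * deriv f ⟪p.2, S.v (r 0)⟫)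
    (C := a) (hy.mul ((measurable_deriv f).comp hy)) fun p r => by
      rw [abs_mul, mul_comm a]
      refine mul_le_mul ((abs_inner_unit_le S _ _).trans ?_) (ha _) (abs_nonneg _) (by positivity)
      nlinarith [norm_nonneg p.2]
  have iq := integrable_tiltF hf S (n := 1) (Θ := fun p r => deriv f ⟪p.2, S.v (r 0)⟫ ^ 2) (C := a ^ 2)
    (((measurable_deriv f).comp hy).pow_const 2) fun p r => by
      rw [abs_pow]
      exact (pow_le_pow_left₀ (abs_nonneg _) (ha _) 2).trans (le_mul_of_one_le_right (sq_nonneg a) (hone _))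
  have e := tiltF_stein hf S (F := deriv f) hs.bdD_deriv.down.down hs.bdD.down.down.down.down
  have hq : (fun (p : S.Ω × S.E) (r : Fin 1 → S.X) =>
      deriv (deriv f) ⟪p.2, S.v (r 0)⟫ + deriv f ⟪p.2, S.v (r 0)⟫ * deriv f ⟪p.2, S.v (r 0)⟫) =
      fun p r => deriv (deriv f) ⟪p.2, S.v (r 0)⟫ + deriv f ⟪p.2, S.v (r 0)⟫ ^ 2 := by
    funext p r; ring
  rw [hq] at e
  have hadd := (S.tiltF hf).avgRep_add i2 iq
  have hsub := (S.tiltF hf).avgRep_sub i2 iy
  refine Eq.trans hsub ?_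
  exact (congrArg (_ - ·) (e.trans (congrArg (· - _) hadd))).trans (by ring)

/-- The truncated mean is near pairing minus diagonal. -/
lemma abs_driftT_sub_le_of_conv (hf : Pot f B) (hs : Smf f) {t b : ℝ} (ht : 0 < t)
    (hb : ∀ y, |deriv f y| ≤ b) {S : ℕ → Sys} (h : Conv S A) :
    |ratioArr A (Real.exp B) (expW f) (fun _ : Mat 1 => (1 : ℝ)) (fun _ => driftT f t) -
      driftVal f B A| ≤ 2 * b * t * Real.exp (2 * B) := by
  have hW := weight_expW_drift hf hs
  have hm := measurable_expW hf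
  have hT := bdD_driftT hs t
  obtain ⟨a2, ha2⟩ := hs.bdD_deriv₂.bdd
  obtain ⟨C, hC⟩ := hT.bdd
  have hb0 : 0 ≤ b := (abs_nonneg _).trans (hb 0)
  have l1 := h.insert hW hm (Real.exp_pos (-B)) (expW_mem hf) (Φ := fun _ : Mat 1 => (1 : ℝ))
    continuous_const ⟨1, fun _ => by simp⟩ (fun _ => driftT f t) (fun _ => hT.cont) fun _ => hT.bdd
  have l2 := h.insert hW hm (Real.exp_pos (-B)) (expW_mem hf) continuous_clipR ⟨1, abs_clipR_le⟩
    ![deriv f, deriv f] (fun l => by fin_cases l <;> simp [hs.bdD_deriv.cont])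
    (fun l => by fin_cases l <;> simp [hs.bdD_deriv.bdd])
  have l3 := h.insert hW hm (Real.exp_pos (-B)) (expW_mem hf) (Φ := fun _ : Mat 1 => (1 : ℝ))
    continuous_const ⟨1, fun _ => by simp⟩ (fun _ => fun y => deriv f y ^ 2)
    (fun _ => hs.bdD_deriv.sq.cont) fun _ => hs.bdD_deriv.sq.bdd
  refine le_of_tendsto (l1.sub (l2.sub l3)).abs (Eventually.of_forall fun j => ?_)
  set T := S j
  have hc : ∀ r : Fin 2 → T.X, clipR (T.gram r) = ⟪T.v (r 0), T.v (r 1)⟫ := fun r =>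
    clipR_eq (T.abs_gram_le r 0 1)
  have e2 : (T.tiltF hf).avgRep 2 (fun (p : T.Ω × T.E) (r : Fin 2 → T.X) =>
      clipR (T.gram r) * (deriv f ⟪p.2, T.v (r 0)⟫ * deriv f ⟪p.2, T.v (r 1)⟫)) =
      (T.tiltF hf).avgRep 2 (fun (p : T.Ω × T.E) (r : Fin 2 → T.X) =>
        ⟪T.v (r 0), T.v (r 1)⟫ * (deriv f ⟪p.2, T.v (r 0)⟫ * deriv f ⟪p.2, T.v (r 1)⟫)) :=
    congrArg _ (funext fun p => funext fun r => congrArg (· * _) (hc r))
  simp only [one_mul, Fin.prod_univ_one, Fin.prod_univ_two, Matrix.cons_val_zero, Matrix.cons_val_one]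
  refine le_of_eq_of_le (congrArg abs (congrArg (_ - ·)
    ((congrArg (· - _) e2).trans (tiltF_driftF hf hs T).symm))) ?_
  have hy := measurable_tilt_field T (0 : Fin 1)
  have iT := integrable_tiltF hf T (n := 1) (Θ := fun p r => driftT f t ⟪p.2, T.v (r 0)⟫) (C := C)
    (hT.cont.measurable.comp hy) fun p r => (hC _).trans (le_mul_of_one_le_right
      ((abs_nonneg _).trans (hC 0)) (by nlinarith [norm_nonneg p.2]))
  have iF := integrable_tiltF hf T (n := 1) (Θ := fun p r => driftF f ⟪p.2, T.v (r 0)⟫) (C := a2 + b)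
    ((measurable_driftF f).comp hy) fun p r => by
      rw [driftF]
      refine (abs_sub _ _).trans ?_
      rw [abs_mul]
      refine (add_le_add (ha2 _) (mul_le_mul (abs_inner_unit_le T _ _) (hb _) (abs_nonneg _)
        (norm_nonneg _))).trans ?_
      have h1 : 1 ≤ (1 + ‖p.2‖) ^ 2 := by nlinarith [norm_nonneg p.2]
      have h2 : ‖p.2‖ ≤ (1 + ‖p.2‖) ^ 2 := by nlinarith [norm_nonneg p.2]
      nlinarith [mul_le_mul_of_nonneg_left h1 ((abs_nonneg _).trans (ha2 0)),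
        mul_le_mul_of_nonneg_left h2 hb0]
  have isq := integrable_tiltF hf T (n := 1) (Θ := fun p r => ⟪p.2, T.v (r 0)⟫ ^ 2) (C := 1)
    (hy.pow_const 2) fun p r => by
      rw [abs_pow, one_mul]
      exact pow_le_pow_left₀ (abs_nonneg _)
        ((abs_inner_unit_le T _ _).trans (by linarith [norm_nonneg p.2])) 2
  have iD : Integrable (Function.uncurry fun (p : T.Ω × T.E) (r : Fin 1 → T.X) =>
      driftT f t ⟪p.2, T.v (r 0)⟫ - driftF f ⟪p.2, T.v (r 0)⟫) ((T.tiltF hf).repLaw 1) := iT.sub iF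
  refine le_of_eq_of_le (congrArg abs ((T.tiltF hf).avgRep_sub iT iF).symm) ?_
  refine ((T.tiltF hf).abs_avgRep_le_mul iD isq (a := 2 * b * t) fun p r => ?_).trans
    (mul_le_mul_of_nonneg_left (tiltF_sq_le hf T) (by positivity))
  rw [abs_sub_comm]
  exact abs_drift_sub_le ht hb _

end Vale.Agent.P157.Low
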