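import Vale.Agent.P157.Low.SphFacts
import Vale.Agent.P157.Low.CubePairs

/-!
Sums over pairs of patterns, nonnegative sums over patterns, and fluctuations of the log-partition
function on the sphere with a Poisson number of patterns.
-/

namespace Vale.Agent.P157.Low

open MeasureTheory ProbabilityTheory Filter
open scoped RealInnerProductSpace Topology

variable {f : ℝ → ℝ} {B : ℝ} {P : ℕ}

section Palm

variable {N : ℕ}

/-- Replica averages of a twice tilted system. -/
lemma sphTilt₂_avgRep (hf : Pot f B) (lam : ℝ) (k : ℕ) (x : Fin P → ℝ) {n : ℕ}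
    (Θ : (sphSys hf N lam (k + 1 + 1) x).Ω → (Fin n → Sph (N + 1)) → ℝ)
    (hΘ : Measurable (Function.uncurry Θ)) :
    (((sphSys hf N lam k x).tiltF hf).tiltF hf).avgRep n
        (fun p r => Θ (sphAppend (sphAppend p.1, p.2)) r) =
      (sphSys hf N lam (k + 1 + 1) x).avgRep n Θ := by
  have hmp : MeasurePreserving (fun p : ((sphSys hf N lam k x).Ω × Sp (N + 1)) × Sp (N + 1) =>
      sphAppend (sphAppend p.1, p.2))
      (((sphSys hf N lam k x).law.prod (stdGaussian (Sp (N + 1)))).prod (stdGaussian (Sp (N + 1))))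
      (sphSys hf N lam (k + 1 + 1) x).law :=
    (measurePreserving_sphAppend (N := N) hf lam (k + 1) x).comp
      ((measurePreserving_sphAppend (N := N) hf lam k x).prod (MeasurePreserving.id (stdGaussian (Sp (N + 1)))))
  rw [sphSys_avgRep hf lam (k + 1 + 1) x]
  refine Eq.trans ?_ ((integral_map hmp.measurable.aemeasurable
    (f := fun ω => sphRep ((sphSys hf N lam (k + 1 + 1) x).w ω) (Θ ω)) ?_).symm.trans (by rw [hmp.map_eq]))
  · refine integral_congr_ae (Eventually.of_forall fun p => ?_)
    refine congrArg (fun w => sphRep w (Θ (sphAppend (sphAppend p.1, p.2)))) (funext fun r => ?_)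
    rw [← sphTilt_w hf N lam (k + 1) x (sphAppend p.1, p.2) r, ← sphTilt_w hf N lam k x p.1 r]
    rfl
  · exact (measurable_sphSys_rep hf lam (k + 1 + 1) x hΘ).aestronglyMeasurable

/-- A sum over ordered pairs of patterns is an average at two more patterns. -/
theorem sphSys_palm₂ (hf : Pot f B) (N : ℕ) {lam : ℝ} (hl : 0 ≤ lam) (x : Fin P → ℝ) {n : ℕ}
    (Θ Θ' : (Fin n → ℝ) → ℝ) (hΘ : Measurable Θ) (hΘb : ∃ C, ∀ y, |Θ y| ≤ C)
    (hΘ' : Measurable Θ') (hΘb' : ∃ C, ∀ y, |Θ' y| ≤ C) :
    (sphSys hf N lam 0 x).avgRep n (fun ω r =>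
        ∑ a ∈ Finset.range (sphCnt ω), ∑ b ∈ (Finset.range (sphCnt ω)).erase a,
          Θ (fun l => sphPat ω a (r l)) * Θ' fun l => sphPat ω b (r l)) =
      lam ^ 2 * (((sphSys hf N lam 0 x).tiltF hf).tiltF hf).avgRep n (fun p (r : Fin n → Sph (N + 1)) =>
        Θ (fun l => ⟪p.1.2, ((r l : Sph (N + 1)) : Sp (N + 1))⟫) * Θ' fun l => ⟪p.2, ((r l : Sph (N + 1)) : Sp (N + 1))⟫) := by
  obtain ⟨C, hC⟩ := hΘb
  obtain ⟨C', hC'⟩ := hΘb'
  have hC0 : 0 ≤ C := (abs_nonneg _).trans (hC fun _ => 0)
  have hD0 : 0 ≤ C * C' := mul_nonneg hC0 ((abs_nonneg _).trans (hC' fun _ => 0))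
  set G := fun (g : ℕ → Sp (N + 1)) (a b : ℕ) (r : Fin n → Sph (N + 1)) =>
    Θ (fun l => ⟪g a, ((r l : Sph (N + 1)) : Sp (N + 1))⟫) * Θ' (fun l => ⟪g b, ((r l : Sph (N + 1)) : Sp (N + 1))⟫) with hG
  have m1 : ∀ a, Measurable fun q : (ℕ → Sp (N + 1)) × (Fin n → Sph (N + 1)) => fun l =>
      ⟪q.1 a, ((q.2 l : Sph (N + 1)) : Sp (N + 1))⟫ := fun a =>
    measurable_pi_lambda _ fun l => Measurable.inner ((measurable_pi_apply a).comp measurable_fst)
      (measurable_subtype_coe.comp ((measurable_pi_apply l).comp measurable_snd))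
  have hGm : ∀ a b, Measurable (Function.uncurry fun g : ℕ → Sp (N + 1) => G g a b) := fun a b =>
    (hΘ.comp (m1 a)).mul (hΘ'.comp (m1 b))
  have hGb : ∀ g a b r, |G g a b r| ≤ C * C' := fun g a b r => by
    simp only [hG]
    rw [abs_mul]
    exact mul_le_mul (hC _) (hC' _) (abs_nonneg _) hC0
  set π := patLaw (N + 1)
  set γ := stdGaussian (PertSpace (N + 1) P)
  set I : ℕ → ℝ := fun m => ∫ p, sphRep (sphCw f N x m p.1 p.2) (G p.1 (m - 2) (m - 1)) ∂π.prod γ
  have hint : ∀ M a b, Integrable (fun p => sphRep (sphCw f N x M p.1 p.2) (G p.1 a b)) (π.prod γ) :=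
    fun M a b => Integrable.mono' (integrable_const (C * C'))
      (measurable_sphRep_fixed hf x M (hGm a b)).aestronglyMeasurable
      (Eventually.of_forall fun p => (Real.norm_eq_abs _).trans_le
        (abs_sphRep_le (wt_sphCw hf x M p.1 p.2) (hGb p.1 a b)))
  have hswap : ∀ M a b, a < M → b < M → a ≠ b →
      ∫ p, sphRep (sphCw f N x M p.1 p.2) (G p.1 a b) ∂π.prod γ = I M := fun M a b ha hb hab => by
    simp only [I]
    rw [integral_prod_symm _ (hint M a b), integral_prod_symm _ (hint M (M - 2) (M - 1))]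
    refine integral_congr_ae (Eventually.of_forall fun J => ?_)
    set s := Equiv.swap (M - 2) a
    set e : Equiv.Perm ℕ := (Equiv.swap (M - 1) (s b)).trans s with he
    have hne : M - 2 ≠ M - 1 := by omega
    have hsb : s b ≠ M - 2 := fun h => hab (by
      have h' := congrArg s h
      rw [Equiv.swap_apply_self, Equiv.swap_apply_left] at h'
      exact h'.symm)
    have e1 : e (M - 1) = b := by
      rw [he, Equiv.trans_apply, Equiv.swap_apply_left, Equiv.swap_apply_self]
    have e2 : e (M - 2) = a := by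
      rw [he, Equiv.trans_apply, Equiv.swap_apply_of_ne_of_ne hne (Ne.symm hsb), Equiv.swap_apply_left]
    have hsbM : s b < M := by
      rcases eq_or_ne b (M - 2) with h | h
      · simpa [s, h] using ha
      · rcases eq_or_ne b a with h' | h'
        · exact absurd h'.symm hab
        · simpa [s, Equiv.swap_apply_of_ne_of_ne h h'] using hb
    have hmove : ∀ c, e c ≠ c → c < M := fun c hc => by
      by_contra hcM
      refine hc ?_
      have h1 : c ≠ M - 1 := by omega
      have h2 : c ≠ s b := by omega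
      have h3 : c ≠ M - 2 := by omega
      have h4 : c ≠ a := by omega
      rw [he, Equiv.trans_apply, Equiv.swap_apply_of_ne_of_ne h1 h2,
        Equiv.swap_apply_of_ne_of_ne h3 h4]
    have h := integral_sphCw_perm (N := N) hf x (M := M) e hmove (fun g => G g (M - 2) (M - 1))
      (hGm (M - 2) (M - 1)) J
    simpa [G, Function.comp_apply, e1, e2] using h
  have hL : (sphSys hf N lam 0 x).avgRep n (fun ω r =>
        ∑ a ∈ Finset.range (sphCnt ω), ∑ b ∈ (Finset.range (sphCnt ω)).erase a,
          Θ (fun l => sphPat ω a (r l)) * Θ' fun l => sphPat ω b (r l)) =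
      lam ^ 2 * ∫ M, I (M + 1 + 1) ∂poiLaw lam := by
    refine (sphSys_avgRep hf lam 0 x _).trans ?_
    refine (integral_sphSys_law hf lam 0 x (integrable_sphSys_of_le hf lam 0 x (C := C * C') (j := 2)
      (measurable_sphSys_rep hf lam 0 x ?_) fun ω => ?_)).trans ?_
    on_goal 3 =>
      have e : ∀ M : ℕ, ∫ p, sphRep (sphCw f N x (M + 0) p.1 p.2)
          (fun r => ∑ a ∈ Finset.range (M + 0), ∑ b ∈ (Finset.range (M + 0)).erase a,
            G p.1 a b r) ∂π.prod γ = (M : ℝ) * (((M : ℝ) - 1) * I M) := fun M => by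
        simp only [Nat.add_zero]
        rw [integral_congr_ae (Eventually.of_forall fun p : (ℕ → Sp (N + 1)) × PertSpace (N + 1) P =>
          (sphRep_sum (h := fun a r => ∑ b ∈ (Finset.range M).erase a, G p.1 a b r) (wt_sphCw hf x M p.1 p.2)
            (Finset.range M) (fun a => Finset.measurable_sum _ fun b _ => (hGm a b).comp measurable_prodMk_left)
            (C := ((M : ℝ) + 1) * (C * C')) fun a r => (Finset.abs_sum_le_sum_abs _ _).trans
              ((Finset.sum_le_sum fun b _ => hGb p.1 a b r).trans (by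
                rw [Finset.sum_const, nsmul_eq_mul]
                refine mul_le_mul_of_nonneg_right ?_ hD0
                exact_mod_cast (Finset.card_le_card (Finset.erase_subset a (Finset.range M))).trans (by simp))))
            |>.trans (Finset.sum_congr rfl fun a _ => sphRep_sum (h := fun b => G p.1 a b) (wt_sphCw hf x M p.1 p.2)
              ((Finset.range M).erase a) (fun b => (hGm a b).comp measurable_prodMk_left)
              fun b r => hGb p.1 a b r))]
        rw [integral_finsetSum _ fun a _ => integrable_finsetSum _ fun b _ => hint M a b]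
        rw [Finset.sum_congr rfl fun a ha => (show _ = ((M : ℝ) - 1) * I M by
          rw [integral_finsetSum _ fun b _ => hint M a b, Finset.sum_congr rfl fun b hb =>
              hswap M a b (Finset.mem_range.1 ha) (Finset.mem_range.1 (Finset.mem_of_mem_erase hb))
                (Finset.ne_of_mem_erase hb).symm,
            Finset.sum_const, Finset.card_erase_of_mem ha, Finset.card_range, nsmul_eq_mul,
            Nat.cast_sub (by have := Finset.mem_range.1 ha; omega), Nat.cast_one])]
        rw [Finset.sum_const, Finset.card_range, nsmul_eq_mul]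
      refine (integral_congr_ae (Eventually.of_forall e)).trans ?_
      have h1 := poisson_palm lam.toNNReal fun m => ((m : ℝ) - 1) * I m
      have h2 := poisson_palm lam.toNNReal fun m => I (m + 1)
      rw [Real.coe_toNNReal _ hl] at h1 h2
      refine h1.trans ?_
      simp only [Nat.cast_add, Nat.cast_one, add_sub_cancel_right]
      rw [h2, sq, mul_assoc]
      rfl
    · exact measurable_count fun M => show Measurable (Function.uncurry fun (g : ℕ → Sp (N + 1))
          (r : Fin n → Sph (N + 1)) => ∑ a ∈ Finset.range (M + 0),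
            ∑ b ∈ (Finset.range (M + 0)).erase a, G g a b r) from
        Finset.measurable_sum (Finset.range (M + 0)) fun a _ =>
          Finset.measurable_sum ((Finset.range (M + 0)).erase a) fun b _ => hGm a b
    · refine (abs_sphRep_le ((sphSys hf N lam 0 x).wt ω) fun r => ?_).trans
        (mul_le_mul_of_nonneg_left (by nlinarith [Nat.cast_nonneg (α := ℝ) ω.1.1]) hD0 :
          (C * C') * ((ω.1.1 : ℝ) * ω.1.1) ≤ _)
      refine (Finset.abs_sum_le_sum_abs _ _).trans ((Finset.sum_le_sum fun a _ =>
        (Finset.abs_sum_le_sum_abs _ _).trans ((Finset.sum_le_sum_of_subset_of_nonneg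
          (Finset.erase_subset _ _) fun b _ _ => abs_nonneg _).trans
            (Finset.sum_le_sum fun b _ => hGb ω.1.2 a b r))).trans_eq ?_)
      simp [sphCnt]
      ring
  rw [hL]
  congr 1
  set Θ1 : (sphSys hf N lam (0 + 1 + 1) x).Ω → (Fin n → Sph (N + 1)) → ℝ :=
    fun ω r => G ω.1.2 ω.1.1 (ω.1.1 + 1) r
  have hm1 : Measurable (Function.uncurry Θ1) :=
    measurable_count (H := fun M g r => G g M (M + 1) r) fun M => hGm M (M + 1)
  have e := sphTilt₂_avgRep (N := N) hf lam 0 x Θ1 hm1
  have e' : (((sphSys hf N lam 0 x).tiltF hf).tiltF hf).avgRep n (fun p (r : Fin n → Sph (N + 1)) =>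
      Θ (fun l => ⟪p.1.2, ((r l : Sph (N + 1)) : Sp (N + 1))⟫) * Θ' fun l => ⟪p.2, ((r l : Sph (N + 1)) : Sp (N + 1))⟫) =
      (((sphSys hf N lam 0 x).tiltF hf).tiltF hf).avgRep n
        (fun p r => Θ1 (sphAppend (sphAppend p.1, p.2)) r) := by
    refine integral_congr_ae (Eventually.of_forall fun p =>
      integral_congr_ae (Eventually.of_forall fun (r : Fin n → Sph (N + 1)) => ?_))
    simp [Θ1, G, sphAppend]
    have hu : ∀ (g : ℕ → Sp (N + 1)) (M : ℕ) z z',
        z = Function.update (Function.update g M z) (M + 1) z' M ∧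
          z' = Function.update (Function.update g M z) (M + 1) z' (M + 1) := fun g M z z' => by
      simp
    exact congrArg₂ (fun (u u' : Sp (N + 1)) => Θ (fun l => ⟪u, ((r l : Sph (N + 1)) : Sp (N + 1))⟫) *
      Θ' fun l => ⟪u', ((r l : Sph (N + 1)) : Sp (N + 1))⟫) (hu _ _ _ _).1 (hu _ _ _ _).2
  rw [e']
  refine Eq.trans ?_ e.symm
  refine Eq.trans ?_ (sphSys_avgRep hf lam (0 + 1 + 1) x Θ1).symm
  refine Eq.trans ?_ (integral_sphSys_law hf lam (0 + 1 + 1) x (integrable_sphSys_of_le hf lam (0 + 1 + 1) x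
    (C := C * C') (j := 0) (measurable_sphSys_rep hf lam (0 + 1 + 1) x hm1) fun ω => by
      simpa using abs_sphRep_le ((sphSys hf N lam (0 + 1 + 1) x).wt ω)
        (hGb ω.1.2 ω.1.1 (ω.1.1 + 1)))).symm
  rfl

end Palm

section Fluct

variable {N : ℕ}

/-- Fluctuations of the unperturbed log-partition function under any reference tilt. -/
theorem sphBase_fluct (hf : Pot f B) {N : ℕ} {lam : ℝ} (hl : 0 ≤ lam)
    {F : (Sph (N + 1)) → ℝ} (hFm : Measurable F) (hFb : ∃ b, ∀ a, |F a| ≤ b) :
    Integrable (fun ω => logI (sphBase hf N lam 0).ref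
        (fun a => (sphBase hf N lam 0).w ω a * Real.exp (F a))) (sphBase hf N lam 0).law ∧
      ∫ ω, |logI (sphBase hf N lam 0).ref (fun a => (sphBase hf N lam 0).w ω a * Real.exp (F a)) -
          ∫ ω', logI (sphBase hf N lam 0).ref (fun a => (sphBase hf N lam 0).w ω' a * Real.exp (F a))
            ∂(sphBase hf N lam 0).law| ∂(sphBase hf N lam 0).law ≤
        6 * (B + 1) * (Real.sqrt lam + 1) := by
  set μ := sphereMeasure (N + 1)
  set v : Sph (N + 1) → Sp (N + 1) := Subtype.val
  have hv : Measurable v := measurable_subtype_coe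
  set w : (Sph (N + 1)) → ℝ := fun a => Real.exp (F a)
  obtain ⟨β, hβ⟩ := hFb
  have hw : Wt w := Wt.exp hFm (β := β) hβ
  set π := patLaw (N + 1)
  set Lm : ℕ → ℝ := fun M => L μ f v M w with hLm
  set H : ℕ × (ℕ → Sp (N + 1)) → ℝ := fun ω => logI (sphBase hf N lam 0).ref
    (fun a => (sphBase hf N lam 0).w ω a * Real.exp (F a)) with hH
  show Integrable H ((poiLaw lam).prod π) ∧
    ∫ ω, |H ω - ∫ ω', H ω' ∂(poiLaw lam).prod π| ∂(poiLaw lam).prod π ≤ _
  have hHz : ∀ (M : ℕ) g, H (M, g) = logZ μ f v w (fun a : Fin M => g a) := fun M g => by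
    simp only [hH, logI, logZ]
    congr 1
    refine integral_congr_ae (Eventually.of_forall fun (a : Sph (N + 1)) => ?_)
    simp only [sphBase, Nat.add_zero]
    rw [mul_comm, ← Fin.sum_univ_eq_sum_range (fun b => f ⟪g b, (a : Sp (N + 1))⟫) M]
  have hB := hf.nonneg
  have hfirst : ∀ M : ℕ, MeasurePreserving (fun (g : ℕ → Sp (N + 1)) (a : Fin M) => g a) π
      (Measure.pi fun _ : Fin M => stdGaussian (Sp (N + 1))) := fun M =>
    ⟨measurable_pi_lambda _ fun a => measurable_pi_apply _, map_first_patterns M⟩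
  have hHm : Measurable H := measurable_from_prod_countable_right fun M => by
    rw [funext (hHz M)]
    exact (measurable_logZ (μ := μ) hf hv hw.meas).comp (hfirst M).measurable
  have hHb : ∀ q : ℕ × (ℕ → Sp (N + 1)), |H q| ≤ |logI μ w| + q.1 * B := fun q => by
    rw [show q = (q.1, q.2) from rfl, hHz]
    have h := abs_logZ_sub (μ := μ) hf hv hw (fun a : Fin q.1 => q.2 a)
    have := abs_sub_abs_le_abs_sub (logZ μ f v w fun a : Fin q.1 => q.2 a) (logI μ w)
    linarith
  have hc : Integrable (fun M : ℕ => |logI μ w| + (M : ℝ) * B) (poiLaw lam) := by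
    refine (integrable_const _).add (Integrable.mul_const ?_ B)
    simpa using integrable_poiLaw_pow lam 1
  have hHi : Integrable H ((poiLaw lam).prod π) :=
    (hc.comp_fst π).mono' hHm.aestronglyMeasurable
      (Eventually.of_forall fun q => (Real.norm_eq_abs _).trans_le (hHb q))
  refine ⟨hHi, ?_⟩
  have hmean : ∀ M, ∫ g, H (M, g) ∂π = Lm M := fun M => by
    simp only [hHz, hLm]
    rw [L_eq_integral hf hv M w hw]
    show _ = ∫ g, logZ μ f v w g ∂Measure.pi fun _ : Fin M => stdGaussian (Sp (N + 1))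
    rw [← (hfirst M).map_eq, integral_map (hfirst M).measurable.aemeasurable
        (measurable_logZ (μ := μ) hf hv hw.meas).aestronglyMeasurable]
  have hsec : ∀ M, Integrable (fun g => H (M, g)) π := fun M =>
    Integrable.of_bound (hHm.comp measurable_prodMk_left).aestronglyMeasurable (|logI μ w| + M * B)
      (Eventually.of_forall fun g => (Real.norm_eq_abs _).trans_le (hHb (M, g)))
  set m := ∫ ω, H ω ∂(poiLaw lam).prod π with hm
  have hmL : m = ∫ M, Lm M ∂poiLaw lam := by
    rw [hm, integral_prod _ hHi]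
    exact integral_congr_ae (Eventually.of_forall hmean)
  set s := Real.sqrt lam + 1 with hs
  have hs0 : 0 < s := by positivity
  have hls : lam ≤ s ^ 2 := by
    rw [hs]; nlinarith [Real.sq_sqrt hl, Real.sqrt_nonneg lam]
  set t := 2 * (B + 1) * s with ht
  have ht0 : 0 < t := by rw [ht]; positivity
  -- fluctuation at a fixed count
  have hfix : ∀ M : ℕ, ∫ g, |H (M, g) - Lm M| ∂π ≤ 4 * B ^ 2 / (2 * t) * M + t / 2 := fun M => by
    have hsq : Integrable (fun g => (H (M, g) - Lm M) ^ 2) π :=
      Integrable.of_bound (((hHm.comp measurable_prodMk_left).sub_const _).pow_const 2).aestronglyMeasurable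
        ((|logI μ w| + M * B + |Lm M|) ^ 2) (Eventually.of_forall fun g => by
          rw [Real.norm_eq_abs, abs_pow]
          exact pow_le_pow_left₀ (abs_nonneg _)
            ((abs_sub _ _).trans (by linarith [hHb (M, g)])) 2)
    refine (integral_mono ((hsec M).sub (integrable_const _)).abs
      ((hsq.div_const (2 * t)).add (integrable_const (t / 2)))
      fun g => abs_le_amgm _ ht0).trans ?_
    simp only [Pi.add_apply]
    rw [integral_add (hsq.div_const _) (integrable_const _), integral_div, integral_const, probReal_univ,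
      one_smul, mul_comm (4 * B ^ 2 / (2 * t)), ← mul_div_assoc, mul_comm (M : ℝ)]
    refine add_le_add (div_le_div_of_nonneg_right ?_ (by positivity)) le_rfl
    have hv2 := variance_logZ (μ := μ) hf hv M w hw
    rw [← (hfirst M).map_eq, integral_map (hfirst M).measurable.aemeasurable
      (((measurable_logZ (μ := μ) hf hv hw.meas).sub_const _).pow_const 2).aestronglyMeasurable] at hv2
    simpa only [hHz, hLm] using hv2
  -- fluctuation of the count
  set c0 := Lm ⌊lam⌋₊
  have hcount : ∀ M : ℕ, |Lm M - c0| ≤ (1 + B) * (|(M : ℝ) - lam| + 1) := fun M => by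
    refine (L_lipschitz (μ := μ) hf hv hw M ⌊lam⌋₊).trans (mul_le_mul_of_nonneg_left ?_ (by linarith))
    have h1 := Nat.floor_le hl
    have h2 := Nat.lt_floor_add_one lam
    refine (abs_sub_le (M : ℝ) lam ⌊lam⌋₊).trans (add_le_add le_rfl ?_)
    rw [abs_of_nonneg (by linarith)]
    linarith
  have hM1 : Integrable (fun M : ℕ => |(M : ℝ) - lam|) (poiLaw lam) :=
    (Integrable.sub (by simpa using integrable_poiLaw_pow lam 1) (integrable_const lam)).abs
  have hcnt : ∫ M : ℕ, |(M : ℝ) - lam| ∂poiLaw lam ≤ s := by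
    have h2 : Integrable (fun M : ℕ => ((M : ℝ) - lam) ^ 2) (poiLaw lam) :=
      integrable_poisson_of_le (C := (1 + lam) ^ 2) (j := 2) fun n => by
        rw [abs_pow, ← mul_pow]
        refine pow_le_pow_left₀ (abs_nonneg _) (abs_le.2 ⟨?_, ?_⟩) 2 <;>
          nlinarith [mul_nonneg hl (Nat.cast_nonneg (α := ℝ) n)]
    refine (integral_mono hM1 ((h2.div_const (2 * s)).add (integrable_const (s / 2)))
      fun M => abs_le_amgm _ hs0).trans ?_
    simp only [Pi.add_apply]
    rw [integral_add (h2.div_const _) (integrable_const _), integral_div, integral_const, probReal_univ,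
      one_smul, poiLaw_variance hl]
    have : lam / (2 * s) ≤ s / 2 := by
      rw [div_le_div_iff₀ (by positivity) (by norm_num)]; nlinarith
    linarith
  have hLmi : Integrable Lm (poiLaw lam) := hHi.integral_prod_left.congr (Eventually.of_forall hmean)
  have hLc : Integrable (fun M => |Lm M - c0|) (poiLaw lam) := (hLmi.sub (integrable_const _)).abs
  have hEc : ∫ M, |Lm M - c0| ∂poiLaw lam ≤ (1 + B) * (s + 1) := by
    refine (integral_mono hLc ((hM1.add (integrable_const 1)).const_mul _) hcount).trans ?_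
    simp only [Pi.add_apply]
    rw [integral_const_mul, integral_add hM1 (integrable_const _)]
    simp only [integral_const, probReal_univ, one_smul]
    exact mul_le_mul_of_nonneg_left (by linarith) (by linarith)
  have hcm : |c0 - m| ≤ (1 + B) * (s + 1) := by
    refine le_trans ?_ hEc
    rw [hmL, abs_sub_comm, show (∫ M, Lm M ∂poiLaw lam) - c0 = ∫ M, (Lm M - c0) ∂poiLaw lam by
      rw [integral_sub hLmi (integrable_const _)]; simp]
    exact abs_integral_le_integral_abs
  clear_value Lm c0 t s
  have hbound : Integrable (fun M : ℕ => 4 * B ^ 2 / (2 * t) * (M : ℝ) + t / 2 + |Lm M - c0| + |c0 - m|)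
      (poiLaw lam) :=
    (((Integrable.const_mul (by simpa using integrable_poiLaw_pow lam 1) _).add (integrable_const _)).add
      hLc).add (integrable_const _)
  rw [integral_prod (fun ω => |H ω - m|) ((hHi.sub (integrable_const m)).abs)]
  refine (integral_mono ((hHi.sub (integrable_const m)).abs.integral_prod_left) hbound
    fun M => ?_).trans ?_
  · have i1 : Integrable (fun g => |H (M, g) - Lm M|) π := ((hsec M).sub (integrable_const _)).abs
    calc ∫ g, |H (M, g) - m| ∂π ≤ ∫ g, (|H (M, g) - Lm M| + (|Lm M - c0| + |c0 - m|)) ∂π :=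
          integral_mono ((hsec M).sub (integrable_const _)).abs (i1.add (integrable_const _)) fun g =>
            (abs_sub_le _ (Lm M) _).trans (add_le_add le_rfl (abs_sub_le _ c0 _))
      _ = (∫ g, |H (M, g) - Lm M| ∂π) + (|Lm M - c0| + |c0 - m|) := by
          rw [integral_add i1 (integrable_const _)]; simp
      _ ≤ _ := by linarith [hfix M]
  · have hid : Integrable (fun M : ℕ => (M : ℝ)) (poiLaw lam) := by
      simpa using integrable_poiLaw_pow lam 1
    have i1 : Integrable (fun M : ℕ => 4 * B ^ 2 / (2 * t) * (M : ℝ) + t / 2) (poiLaw lam) :=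
      (hid.const_mul (4 * B ^ 2 / (2 * t))).add (integrable_const (t / 2))
    have i2 : Integrable (fun M : ℕ => 4 * B ^ 2 / (2 * t) * (M : ℝ) + t / 2 + |Lm M - c0|) (poiLaw lam) :=
      i1.add hLc
    rw [integral_add i2 (integrable_const _), integral_add i1 hLc,
      integral_add (hid.const_mul (4 * B ^ 2 / (2 * t))) (integrable_const _), integral_const_mul,
      poiLaw_id hl]
    simp only [integral_const, probReal_univ, one_smul]
    have h3 : 4 * B ^ 2 / (2 * t) * lam ≤ (B + 1) * s := by
      rw [div_mul_eq_mul_div, div_le_iff₀ (by positivity), ht]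
      nlinarith [mul_le_mul (by nlinarith : B ^ 2 ≤ (B + 1) ^ 2) hls hl (sq_nonneg (B + 1))]
    rw [show t / 2 = (B + 1) * s by rw [ht]; ring]
    have hs1 : 1 ≤ s := by rw [hs]; linarith [Real.sqrt_nonneg lam]
    have : (B + 1) * 1 ≤ (B + 1) * s := mul_le_mul_of_nonneg_left hs1 (by linarith)
    linarith

end Fluct

end Vale.Agent.P157.Low
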