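import Vale.Agent.P157.Low.SphPairs

/-!
Nonnegative sums over the patterns on the sphere.
-/

namespace Vale.Agent.P157.Low

open MeasureTheory ProbabilityTheory Filter
open scoped RealInnerProductSpace Topology ENNReal

variable {f : ℝ → ℝ} {B : ℝ} {P : ℕ}

variable {N : ℕ}

lemma lintegral_sphGibbs {w : Sph (N + 1) → ℝ} (hw : Wt w) {F : Sph (N + 1) → ℝ≥0∞}
    (hF : Measurable F) :
    ∫⁻ θ, F θ ∂gibbs (sphereMeasure (N + 1)) w =
      ∫⁻ θ, ENNReal.ofReal (w θ / ∫ y, w y ∂sphereMeasure (N + 1)) * F θ ∂sphereMeasure (N + 1) := by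
  rw [gibbs, lintegral_withDensity_eq_lintegral_mul _ (hw.meas.div_const _).ennreal_ofReal hF]
  rfl

lemma measurable_lintegral_sphGibbs {Ω : Type} [MeasurableSpace Ω] {w : Ω → Sph (N + 1) → ℝ}
    (hw : Measurable (Function.uncurry w)) (hwt : ∀ ω, Wt (w ω))
    {F : Ω → Sph (N + 1) → ℝ≥0∞} (hF : Measurable (Function.uncurry F)) :
    Measurable fun ω => ∫⁻ θ, F ω θ ∂gibbs (sphereMeasure (N + 1)) (w ω) := by
  simp only [fun ω => lintegral_sphGibbs (hwt ω)
    (show Measurable (F ω) from hF.comp measurable_prodMk_left)]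
  have hI : Measurable fun ω => ∫ y, w ω y ∂sphereMeasure (N + 1) :=
    (hw.stronglyMeasurable.integral_prod_right').measurable
  exact ((hw.div (hI.comp measurable_fst)).ennreal_ofReal.mul hF).lintegral_prod_right'

/-- A tilt by one bounded pattern changes the Gibbs density by at most `exp (2 B)`. -/
lemma density_tilt_le {w : Sph (N + 1) → ℝ} (hw : Wt w) {F : Sph (N + 1) → ℝ} (hF : Measurable F)
    (hFb : ∀ θ, |F θ| ≤ B) (θ : Sph (N + 1)) :
    w θ * Real.exp (F θ) / ∫ y, w y * Real.exp (F y) ∂sphereMeasure (N + 1) ≤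
      Real.exp (2 * B) * (w θ / ∫ y, w y ∂sphereMeasure (N + 1)) := by
  set σ := sphereMeasure (N + 1)
  have hu : Wt fun y => Real.exp (F y) := Wt.exp hF (β := B) hFb
  have hI : 0 < ∫ y, w y ∂σ := hw.integral_pos
  have hI' : 0 < ∫ y, w y * Real.exp (F y) ∂σ := (hw.mul hu).integral_pos
  have hlow : Real.exp (-B) * ∫ y, w y ∂σ ≤ ∫ y, w y * Real.exp (F y) ∂σ := by
    rw [← integral_const_mul]
    refine integral_mono (hw.integrable.const_mul _) (hw.mul hu).integrable fun y => ?_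
    rw [mul_comm (Real.exp (-B))]
    exact mul_le_mul_of_nonneg_left (Real.exp_le_exp.2 (abs_le.1 (hFb y)).1) (hw.pos y).le
  have hhigh : Real.exp (F θ) ≤ Real.exp B := Real.exp_le_exp.2 (abs_le.1 (hFb θ)).2
  calc w θ * Real.exp (F θ) / ∫ y, w y * Real.exp (F y) ∂σ
      ≤ w θ * Real.exp B / (Real.exp (-B) * ∫ y, w y ∂σ) :=
        div_le_div₀ (mul_nonneg (hw.pos θ).le (Real.exp_pos _).le)
          (mul_le_mul_of_nonneg_left hhigh (hw.pos θ).le) (by positivity) hlow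
    _ = Real.exp (2 * B) * (w θ / ∫ y, w y ∂σ) := by
        rw [Real.exp_neg, show (2 : ℝ) * B = B + B by ring, Real.exp_add]
        field_simp

/-- One pattern inside the Gibbs measure costs at most `exp (2 B)` times its Gaussian average. -/
lemma lintegral_one_pattern (hf : Pot f B) (x : Fin P → ℝ) {ψ : ℝ → ℝ} (hψ : Measurable ψ)
    (h0 : ∀ y, 0 ≤ ψ y) (hi : Integrable ψ (gaussianReal 0 1)) {M a : ℕ} (ha : a < M)
    (J : PertSpace (N + 1) P) :
    ∫⁻ g, ∫⁻ θ, ENNReal.ofReal (ψ ⟪g a, ((θ : Sph (N + 1)) : Sp (N + 1))⟫)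
        ∂gibbs (sphereMeasure (N + 1)) (sphCw f N x M g J) ∂patLaw (N + 1) ≤
      ENNReal.ofReal (Real.exp (2 * B)) * ENNReal.ofReal (∫ y, ψ y ∂gaussianReal 0 1) := by
  obtain ⟨m, rfl⟩ : ∃ m, M = m + 1 := ⟨M - 1, by omega⟩
  set π := patLaw (N + 1)
  set σ := sphereMeasure (N + 1)
  set γ := stdGaussian (Sp (N + 1))
  have hfield : ∀ b, Measurable fun q : (ℕ → Sp (N + 1)) × Sph (N + 1) =>
      ENNReal.ofReal (ψ ⟪q.1 b, (q.2 : Sp (N + 1))⟫) := fun b =>
    (hψ.comp (Measurable.inner ((measurable_pi_apply b).comp measurable_fst)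
      (measurable_subtype_coe.comp measurable_snd))).ennreal_ofReal
  have hcw : ∀ k, Measurable fun q : (ℕ → Sp (N + 1)) × Sph (N + 1) => sphCw f N x k q.1 J q.2 :=
    fun k => Measurable.comp
      (g := fun p : ((ℕ → Sp (N + 1)) × PertSpace (N + 1) P) × Sph (N + 1) =>
        sphCw f N x k p.1.1 p.1.2 p.2)
      (f := fun q : (ℕ → Sp (N + 1)) × Sph (N + 1) => ((q.1, J), q.2))
      (measurable_sphCw_fixed hf x k)
      ((measurable_fst.prodMk measurable_const).prodMk measurable_snd)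
  have hH : ∀ b, Measurable fun g : ℕ → Sp (N + 1) => ∫⁻ θ, ENNReal.ofReal (ψ ⟪g b, (θ : Sp (N + 1))⟫)
      ∂gibbs σ (sphCw f N x (m + 1) g J) := fun b =>
    measurable_lintegral_sphGibbs (w := fun g => sphCw f N x (m + 1) g J)
      (F := fun g θ => ENNReal.ofReal (ψ ⟪g b, (θ : Sp (N + 1))⟫)) (hcw (m + 1))
      (fun g => wt_sphCw hf x _ g J) (hfield b)
  -- move the pattern to the last position
  have hperm : ∫⁻ g, ∫⁻ θ, ENNReal.ofReal (ψ ⟪g a, (θ : Sp (N + 1))⟫)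
        ∂gibbs σ (sphCw f N x (m + 1) g J) ∂π =
      ∫⁻ g, ∫⁻ θ, ENNReal.ofReal (ψ ⟪g m, (θ : Sp (N + 1))⟫)
        ∂gibbs σ (sphCw f N x (m + 1) g J) ∂π := by
    set e := Equiv.swap a m
    have he : ∀ b, e b ≠ b → b < m + 1 := fun b hb => by
      rcases eq_or_ne b a with rfl | h1
      · exact ha
      · rcases eq_or_ne b m with rfl | h2
        · omega
        · exact absurd (Equiv.swap_apply_of_ne_of_ne h1 h2) hb
    conv_lhs => rw [show π = π.map (fun g => g ∘ e) from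
      (map_comp_perm (γ := stdGaussian (Sp (N + 1))) e).symm]
    rw [lintegral_map (hH a) (by fun_prop)]
    refine lintegral_congr fun g => ?_
    rw [sphCw_perm x e he g J]
    simp [e]
  rw [hperm]
  -- take it out of the Gibbs measure
  have hupd : ∫⁻ g, ∫⁻ θ, ENNReal.ofReal (ψ ⟪g m, (θ : Sp (N + 1))⟫)
        ∂gibbs σ (sphCw f N x (m + 1) g J) ∂π =
      ∫⁻ g, ∫⁻ z, ∫⁻ θ, ENNReal.ofReal (ψ ⟪z, (θ : Sp (N + 1))⟫)
        ∂gibbs σ (fun θ => sphCw f N x m g J θ * Real.exp (f ⟪z, (θ : Sp (N + 1))⟫)) ∂γ ∂π := by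
    conv_lhs => rw [show π = (π.prod γ).map (fun p => Function.update p.1 m p.2) from
      (map_update_pattern (γ := stdGaussian (Sp (N + 1))) m).symm]
    have hh : Measurable fun p : (ℕ → Sp (N + 1)) × Sp (N + 1) =>
        ∫⁻ θ, ENNReal.ofReal (ψ ⟪Function.update p.1 m p.2 m, (θ : Sp (N + 1))⟫)
          ∂gibbs σ (sphCw f N x (m + 1) (Function.update p.1 m p.2) J) :=
      (hH m).comp (measurable_update_pattern m)
    rw [lintegral_map (hH m) (measurable_update_pattern m), lintegral_prod _ hh.aemeasurable]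
    refine lintegral_congr fun g => lintegral_congr fun z => ?_
    dsimp only
    rw [Function.update_self, funext fun θ => sphCw_succ (f := f) x m g z J θ]
  rw [hupd]
  have hmass : ∀ g, ∫⁻ θ, ENNReal.ofReal (sphCw f N x m g J θ / ∫ y, sphCw f N x m g J y ∂σ) ∂σ = 1 :=
    fun g => by
      have hw := wt_sphCw hf x m g J
      have := isProbabilityMeasure_gibbs (μ := σ) hw
      have h := lintegral_sphGibbs hw (F := fun _ => 1) measurable_const
      simpa using h.symm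
  have hgauss : ∀ θ : Sph (N + 1), ∫⁻ z, ENNReal.ofReal (ψ ⟪z, (θ : Sp (N + 1))⟫) ∂γ =
      ENNReal.ofReal (∫ y, ψ y ∂gaussianReal 0 1) := fun θ => by
    rw [← (measurePreserving_inner (mem_sphere_zero_iff_norm.1 θ.2)).lintegral_comp hψ.ennreal_ofReal |>.trans
      (ofReal_integral_eq_lintegral_ofReal hi (Eventually.of_forall h0)).symm]
  calc ∫⁻ g, ∫⁻ z, ∫⁻ θ, ENNReal.ofReal (ψ ⟪z, (θ : Sp (N + 1))⟫)
        ∂gibbs σ (fun θ => sphCw f N x m g J θ * Real.exp (f ⟪z, (θ : Sp (N + 1))⟫)) ∂γ ∂π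
      ≤ ∫⁻ _g, ENNReal.ofReal (Real.exp (2 * B)) * ENNReal.ofReal (∫ y, ψ y ∂gaussianReal 0 1) ∂π := by
        refine lintegral_mono fun g => ?_
        set w := sphCw f N x m g J
        have hw : Wt w := wt_sphCw hf x m g J
        have hFz : ∀ z : Sp (N + 1), Measurable fun θ : Sph (N + 1) => f ⟪z, (θ : Sp (N + 1))⟫ :=
          fun z => hf.meas.comp (Measurable.inner measurable_const measurable_subtype_coe)
        have hψ2 : Measurable fun q : Sp (N + 1) × Sph (N + 1) =>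
            ENNReal.ofReal (w q.2 / ∫ y, w y ∂σ) * ENNReal.ofReal (ψ ⟪q.1, (q.2 : Sp (N + 1))⟫) :=
          ((hw.meas.comp measurable_snd).div_const _).ennreal_ofReal.mul
            (hψ.comp (Measurable.inner measurable_fst
              (measurable_subtype_coe.comp measurable_snd))).ennreal_ofReal
        calc ∫⁻ z, ∫⁻ θ, ENNReal.ofReal (ψ ⟪z, (θ : Sp (N + 1))⟫)
              ∂gibbs σ (fun θ => w θ * Real.exp (f ⟪z, (θ : Sp (N + 1))⟫)) ∂γ
            ≤ ∫⁻ z, ENNReal.ofReal (Real.exp (2 * B)) * ∫⁻ θ, ENNReal.ofReal (w θ / ∫ y, w y ∂σ) *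
                ENNReal.ofReal (ψ ⟪z, (θ : Sp (N + 1))⟫) ∂σ ∂γ := by
              refine lintegral_mono fun z => ?_
              have hu : Wt fun θ : Sph (N + 1) => Real.exp (f ⟪z, (θ : Sp (N + 1))⟫) :=
                Wt.exp (hFz z) (β := B) fun θ => hf.bound _
              have hF : Measurable fun θ : Sph (N + 1) => ENNReal.ofReal (ψ ⟪z, (θ : Sp (N + 1))⟫) :=
                (hψ.comp (Measurable.inner measurable_const measurable_subtype_coe)).ennreal_ofReal
              rw [lintegral_sphGibbs (hw.mul hu) hF, ← lintegral_const_mul' _ _ ENNReal.ofReal_ne_top]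
              refine lintegral_mono fun θ => ?_
              rw [← mul_assoc, ← ENNReal.ofReal_mul (Real.exp_pos _).le]
              exact mul_le_mul' (ENNReal.ofReal_le_ofReal
                (density_tilt_le hw (hFz z) (fun θ => hf.bound _) θ)) le_rfl
          _ = ENNReal.ofReal (Real.exp (2 * B)) * ∫⁻ θ, ∫⁻ z, ENNReal.ofReal (w θ / ∫ y, w y ∂σ) *
                ENNReal.ofReal (ψ ⟪z, (θ : Sp (N + 1))⟫) ∂γ ∂σ := by
              rw [lintegral_const_mul' _ _ ENNReal.ofReal_ne_top,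
                lintegral_lintegral_swap hψ2.aemeasurable]
          _ = _ := by
              simp only [lintegral_const_mul' _ _ ENNReal.ofReal_ne_top, hgauss]
              rw [lintegral_mul_const' _ _ ENNReal.ofReal_ne_top, hmass g, one_mul]
    _ = _ := by rw [lintegral_const, measure_univ, mul_one]

/-- All patterns together, at a fixed count. -/
lemma lintegral_patterns_le (hf : Pot f B) (x : Fin P → ℝ) (j : ℕ) {ψ : ℝ → ℝ} (hψ : Measurable ψ)
    (h0 : ∀ y, 0 ≤ ψ y) (hi : Integrable ψ (gaussianReal 0 1)) (M : ℕ) (J : PertSpace (N + 1) P) :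
    ∫⁻ g, ∫⁻ θ, ENNReal.ofReal ((M : ℝ) ^ j * ∑ a ∈ Finset.range M,
        ψ ⟪g a, ((θ : Sph (N + 1)) : Sp (N + 1))⟫)
        ∂gibbs (sphereMeasure (N + 1)) (sphCw f N x M g J) ∂patLaw (N + 1) ≤
      ENNReal.ofReal (Real.exp (2 * B) * (∫ y, ψ y ∂gaussianReal 0 1) * (M : ℝ) ^ (j + 1)) := by
  set π := patLaw (N + 1)
  set σ := sphereMeasure (N + 1)
  have hC0 : 0 ≤ Real.exp (2 * B) * ∫ y, ψ y ∂gaussianReal 0 1 :=
    mul_nonneg (Real.exp_pos _).le (integral_nonneg h0)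
  have hfield : ∀ a, Measurable fun q : (ℕ → Sp (N + 1)) × Sph (N + 1) =>
      ENNReal.ofReal (ψ ⟪q.1 a, (q.2 : Sp (N + 1))⟫) := fun a =>
    (hψ.comp (Measurable.inner ((measurable_pi_apply a).comp measurable_fst)
      (measurable_subtype_coe.comp measurable_snd))).ennreal_ofReal
  have e : ∀ g : ℕ → Sp (N + 1), ∫⁻ θ, ENNReal.ofReal ((M : ℝ) ^ j * ∑ a ∈ Finset.range M,
      ψ ⟪g a, ((θ : Sph (N + 1)) : Sp (N + 1))⟫) ∂gibbs σ (sphCw f N x M g J) = ENNReal.ofReal ((M : ℝ) ^ j) * ∑ a ∈ Finset.range M,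
      ∫⁻ θ, ENNReal.ofReal (ψ ⟪g a, ((θ : Sph (N + 1)) : Sp (N + 1))⟫)
        ∂gibbs σ (sphCw f N x M g J) := fun g => by
    simp only [ENNReal.ofReal_mul (by positivity : (0 : ℝ) ≤ (M : ℝ) ^ j),
      fun θ : Sph (N + 1) => ENNReal.ofReal_sum_of_nonneg
        (f := fun a => ψ ⟪g a, (θ : Sp (N + 1))⟫) (s := Finset.range M) fun a _ => h0 _]
    rw [lintegral_const_mul' _ _ ENNReal.ofReal_ne_top, lintegral_finsetSum]
    exact fun a _ => Measurable.comp (g := fun q : (ℕ → Sp (N + 1)) × Sph (N + 1) =>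
      ENNReal.ofReal (ψ ⟪q.1 a, (q.2 : Sp (N + 1))⟫)) (f := fun θ : Sph (N + 1) => (g, θ))
      (hfield a) measurable_prodMk_left
  have hm : ∀ a, Measurable fun g : ℕ → Sp (N + 1) =>
      ∫⁻ θ, ENNReal.ofReal (ψ ⟪g a, ((θ : Sph (N + 1)) : Sp (N + 1))⟫)
        ∂gibbs σ (sphCw f N x M g J) := fun a =>
    measurable_lintegral_sphGibbs (w := fun g => sphCw f N x M g J)
      (F := fun g θ => ENNReal.ofReal (ψ ⟪g a, (θ : Sp (N + 1))⟫))
      (Measurable.comp (g := fun p : ((ℕ → Sp (N + 1)) × PertSpace (N + 1) P) × Sph (N + 1) =>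
          sphCw f N x M p.1.1 p.1.2 p.2)
        (f := fun q : (ℕ → Sp (N + 1)) × Sph (N + 1) => ((q.1, J), q.2))
        (measurable_sphCw_fixed hf x M)
        ((measurable_fst.prodMk measurable_const).prodMk measurable_snd))
      (fun g => wt_sphCw hf x _ g J) (hfield a)
  simp only [e]
  rw [lintegral_const_mul' _ _ ENNReal.ofReal_ne_top, lintegral_finsetSum _ fun a _ => hm a]
  refine (mul_le_mul' le_rfl (Finset.sum_le_card_nsmul _ _ _ fun a ha =>
    lintegral_one_pattern hf x hψ h0 hi (Finset.mem_range.1 ha) J)).trans (le_of_eq ?_)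
  rw [Finset.card_range, nsmul_eq_mul, ← ENNReal.ofReal_mul (Real.exp_pos _).le,
    ← ENNReal.ofReal_natCast M, ← ENNReal.ofReal_mul (Nat.cast_nonneg M),
    ← ENNReal.ofReal_mul (by positivity)]
  congr 1
  rw [pow_succ]; ring

/-- Nonnegative sums over the patterns cost at most a constant times their Gaussian average. -/
theorem sphSys_sum_le (hf : Pot f B) (N : ℕ) {lam : ℝ} (hl : 0 ≤ lam) (x : Fin P → ℝ) (j : ℕ)
    {ψ : ℝ → ℝ} (hψ : Measurable ψ) (h0 : ∀ y, 0 ≤ ψ y)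
    (hi : Integrable ψ (gaussianReal 0 1)) :
    let S := sphSys hf N lam 0 x
    let Θ := fun (ω : S.Ω) (r : Fin 1 → Sph (N + 1)) =>
      (sphCnt ω : ℝ) ^ j * ∑ a ∈ Finset.range (sphCnt ω), ψ (sphPat ω a (r 0))
    Integrable (fun ω => ∫ r, Θ ω r ∂Measure.pi fun _ : Fin 1 => gibbs S.ref (S.w ω)) S.law ∧
      S.avgRep 1 Θ ≤ Real.exp (2 * B) * (∫ y, ψ y ∂gaussianReal 0 1) *
        ∫ M, (M : ℝ) ^ (j + 1) ∂poiLaw lam := by
  intro S Θ
  have _ := hl
  set Eψ := ∫ y, ψ y ∂gaussianReal 0 1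
  set C := Real.exp (2 * B) * Eψ
  have hC0 : 0 ≤ C := mul_nonneg (Real.exp_pos _).le (integral_nonneg h0)
  set π := patLaw (N + 1)
  set γ := stdGaussian (PertSpace (N + 1) P)
  set σ := sphereMeasure (N + 1)
  have hsum : ∀ M : ℕ, Measurable fun q : (ℕ → Sp (N + 1)) × Sph (N + 1) =>
      (M : ℝ) ^ j * ∑ a ∈ Finset.range M, ψ ⟪q.1 a, (q.2 : Sp (N + 1))⟫ := fun M =>
    (Finset.measurable_sum (Finset.range M) fun a _ => hψ.comp (Measurable.inner
      ((measurable_pi_apply a).comp measurable_fst)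
      (measurable_subtype_coe.comp measurable_snd))).const_mul _
  have hΘm : Measurable (Function.uncurry Θ) :=
    measurable_count (H := fun M g (r : Fin 1 → Sph (N + 1)) =>
      ((M + 0 : ℕ) : ℝ) ^ j * ∑ a ∈ Finset.range (M + 0), ψ ⟪g a, ((r 0 : Sph (N + 1)) : Sp (N + 1))⟫)
      fun M => Measurable.comp (g := fun q : (ℕ → Sp (N + 1)) × Sph (N + 1) =>
          ((M + 0 : ℕ) : ℝ) ^ j * ∑ a ∈ Finset.range (M + 0), ψ ⟪q.1 a, (q.2 : Sp (N + 1))⟫)
        (f := fun p : (ℕ → Sp (N + 1)) × (Fin 1 → Sph (N + 1)) => (p.1, p.2 0)) (hsum (M + 0))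
        (measurable_fst.prodMk ((measurable_pi_apply 0).comp measurable_snd))
  have hΘ0 : ∀ ω r, 0 ≤ Θ ω r := fun ω r =>
    mul_nonneg (by positivity) (Finset.sum_nonneg fun a _ => h0 _)
  set H : S.Ω → ℝ := fun ω => ∫ r, Θ ω r ∂Measure.pi fun _ : Fin 1 => gibbs S.ref (S.w ω)
  have hH0 : ∀ ω, 0 ≤ H ω := fun ω => integral_nonneg (hΘ0 ω)
  have hHm : Measurable H := measurable_sphSys_rep hf lam 0 x hΘm
  -- the value at one disorder
  set Φ : (ℕ × (ℕ → Sp (N + 1))) × PertSpace (N + 1) P → ℝ≥0∞ := fun ω =>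
    ∫⁻ θ, ENNReal.ofReal ((ω.1.1 : ℝ) ^ j * ∑ a ∈ Finset.range ω.1.1, ψ ⟪ω.1.2 a, ((θ : Sph (N + 1)) : Sp (N + 1))⟫)
      ∂gibbs σ (sphCw f N x ω.1.1 ω.1.2 ω.2) with hΦ
  have hΦm : Measurable Φ := by
    refine measurable_lintegral_sphGibbs
      (w := fun ω : (ℕ × (ℕ → Sp (N + 1))) × PertSpace (N + 1) P => sphCw f N x ω.1.1 ω.1.2 ω.2)
      (F := fun ω θ => ENNReal.ofReal ((ω.1.1 : ℝ) ^ j *
        ∑ a ∈ Finset.range ω.1.1, ψ ⟪ω.1.2 a, (θ : Sp (N + 1))⟫))
      (sphSys hf N lam 0 x).measW (fun ω => wt_sphCw hf x _ _ _) ?_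
    exact (Measurable.comp (g := fun q : ℕ × ((ℕ → Sp (N + 1)) × Sph (N + 1)) =>
        (q.1 : ℝ) ^ j * ∑ a ∈ Finset.range q.1, ψ ⟪q.2.1 a, (q.2.2 : Sp (N + 1))⟫)
      (f := fun p : ((ℕ × (ℕ → Sp (N + 1))) × PertSpace (N + 1) P) × Sph (N + 1) =>
        (p.1.1.1, p.1.1.2, p.2))
      (measurable_from_prod_countable_right hsum)
      ((measurable_fst.comp (measurable_fst.comp measurable_fst)).prodMk
        ((measurable_snd.comp (measurable_fst.comp measurable_fst)).prodMk measurable_snd))).ennreal_ofReal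
  have hle : ∀ ω, ENNReal.ofReal (H ω) ≤ Φ ω := fun ω => by
    have := isProbabilityMeasure_gibbs (μ := σ) (wt_sphCw hf x ω.1.1 ω.1.2 ω.2)
    have hH : H ω = ∫ θ, (ω.1.1 : ℝ) ^ j * ∑ a ∈ Finset.range ω.1.1,
        ψ ⟪ω.1.2 a, ((θ : Sph (N + 1)) : Sp (N + 1))⟫ ∂gibbs σ (sphCw f N x ω.1.1 ω.1.2 ω.2) :=
      integral_pi_one (n := 1) (ν := gibbs σ (sphCw f N x ω.1.1 ω.1.2 ω.2))
        ((hsum ω.1.1).comp measurable_prodMk_left) 0
    rw [hH]
    by_cases hint : Integrable (fun θ : Sph (N + 1) => (ω.1.1 : ℝ) ^ j * ∑ a ∈ Finset.range ω.1.1,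
        ψ ⟪ω.1.2 a, (θ : Sp (N + 1))⟫) (gibbs σ (sphCw f N x ω.1.1 ω.1.2 ω.2))
    · exact (ofReal_integral_eq_lintegral_ofReal hint (Eventually.of_forall fun θ =>
        mul_nonneg (by positivity) (Finset.sum_nonneg fun a _ => h0 _))).le
    · rw [integral_undef hint, ENNReal.ofReal_zero]
      exact bot_le
  -- the disorder average
  have hM : ∀ (M : ℕ) (J : PertSpace (N + 1) P),
      ∫⁻ g, Φ ((M, g), J) ∂π ≤ ENNReal.ofReal (C * (M : ℝ) ^ (j + 1)) := fun M J =>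
    lintegral_patterns_le hf x j hψ h0 hi M J
  have hpow : Integrable (fun M : ℕ => C * (M : ℝ) ^ (j + 1)) (poiLaw lam) :=
    (integrable_poiLaw_pow lam (j + 1)).const_mul C
  have htot : ∫⁻ ω, ENNReal.ofReal (H ω) ∂S.law ≤
      ENNReal.ofReal (∫ M, C * (M : ℝ) ^ (j + 1) ∂poiLaw lam) := by
    refine (lintegral_mono hle).trans ?_
    show ∫⁻ ω, Φ ω ∂(((poiLaw lam).prod π).prod γ) ≤ _
    rw [ofReal_integral_eq_lintegral_ofReal hpow (Eventually.of_forall fun M =>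
      mul_nonneg hC0 (by positivity)), lintegral_prod_symm _ hΦm.aemeasurable]
    refine (lintegral_mono fun J => le_of_eq (lintegral_prod _
      (hΦm.comp (measurable_id.prodMk measurable_const)).aemeasurable)).trans ?_
    refine (lintegral_mono fun J => lintegral_mono fun M => hM M J).trans (le_of_eq ?_)
    rw [lintegral_const, measure_univ, mul_one]
  have hHi : Integrable H S.law := by
    refine ⟨hHm.aestronglyMeasurable, ?_⟩
    rw [hasFiniteIntegral_iff_ofReal (Eventually.of_forall hH0)]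
    exact lt_of_le_of_lt htot ENNReal.ofReal_lt_top
  refine ⟨hHi, ?_⟩
  show ∫ ω, H ω ∂S.law ≤ _
  rw [← integral_const_mul]
  refine (ENNReal.ofReal_le_ofReal_iff (integral_nonneg fun M => mul_nonneg hC0 (by positivity))).1 ?_
  rw [ofReal_integral_eq_lintegral_ofReal hHi (Eventually.of_forall hH0)]
  exact htot

end Vale.Agent.P157.Low
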