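import Vale.Agent.P157.Low.SphGain
import Vale.Agent.P157.Low.SphPairs
import Vale.Agent.P157.Low.SphSumLe
import Vale.Agent.P157.Low.SphDriftCore

/-!
The drift of the new coordinate's fields on the sphere.
-/

namespace Vale.Agent.P157.Low

open MeasureTheory ProbabilityTheory Filter
open scoped RealInnerProductSpace Topology

variable {f : ℝ → ℝ} {B : ℝ} {A : Arr} {N P : ℕ}

section Meas

variable {hf : Pot f B} {lam : ℝ} {x : Fin P → ℝ}

lemma measurable_sph_count : Measurable fun ω : (sphSys hf N lam 0 x).Ω => sphCnt ω :=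
  (measurable_from_top (f := fun M : ℕ => M + 0)).comp (measurable_fst.comp measurable_fst)

lemma measurable_sph_field (a : ℕ) :
    Measurable fun q : (sphSys hf N lam 0 x).Ω × (Fin 1 → Sph (N + 1)) => sphPat q.1 a (q.2 0) :=
  (((measurable_pi_apply a).comp measurable_snd).comp
    (measurable_fst.comp measurable_fst)).inner
    (measurable_subtype_coe.comp ((measurable_pi_apply 0).comp measurable_snd))

lemma integrable_sph_count :
    Integrable (fun ω : (sphSys hf N lam 0 x).Ω => ((sphCnt ω : ℝ) + 1) ^ 2) (sphSys hf N lam 0 x).law :=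
  ((integrable_poisson_of_le (r := lam.toNNReal) (C := 1) (j := 2)
    (F := fun M : ℕ => ((((M + 0 : ℕ) : ℝ)) + 1) ^ 2) fun M => by
      rw [one_mul, abs_of_nonneg (by positivity), add_zero]).comp_fst _).comp_fst _

end Meas

/-- Second moment of the recentred sum of the truncated terms. -/
lemma sph_drift_sq (hf : Pot f B) (hs : Smf f) (t : ℝ) {lam : ℝ} (hl : 0 ≤ lam) (x : Fin P → ℝ) (ε a : ℝ) :
    (sphSys hf N lam 0 x).avgRep 1 (fun ω r =>
      (ε * (∑ b ∈ Finset.range (sphCnt ω), driftT f t (sphPat ω b (r 0))) - a) ^ 2) =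
      ε ^ 2 * (lam * ((sphSys hf N lam 0 x).tiltF hf).avgRep 1 (fun p (r : Fin 1 → Sph (N + 1)) =>
        driftT f t ⟪p.2, ((r 0 : Sph (N + 1)) : Sp (N + 1))⟫ ^ 2) +
        lam ^ 2 * (((sphSys hf N lam 0 x).tiltF hf).tiltF hf).avgRep 1 (fun p (r : Fin 1 → Sph (N + 1)) =>
          driftT f t ⟪p.1.2, ((r 0 : Sph (N + 1)) : Sp (N + 1))⟫ * driftT f t ⟪p.2, ((r 0 : Sph (N + 1)) : Sp (N + 1))⟫)) -
      2 * a * ε * (lam * ((sphSys hf N lam 0 x).tiltF hf).avgRep 1 (fun p (r : Fin 1 → Sph (N + 1)) =>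
        driftT f t ⟪p.2, ((r 0 : Sph (N + 1)) : Sp (N + 1))⟫)) +
      a ^ 2 := by
  set S := sphSys hf N lam 0 x
  set φ := driftT f t
  have hφ : Measurable φ := (bdD_driftT hs t).cont.measurable
  obtain ⟨C, hC⟩ := (bdD_driftT hs t).bdd
  have h := Sys.avgRep_sum_sq S (n := 1) (cn := fun ω => sphCnt ω) measurable_sph_count integrable_sph_count
    (u := fun i ω r => φ (sphPat ω i (r 0))) (fun i => hφ.comp (measurable_sph_field i)) (fun i ω r => hC _)
    (ψ := fun _ => 1) measurable_const (M := 1) (fun _ => by simp) ε a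
  have p1 := sphSys_palm hf N hl x (n := 1) (fun y => φ (y 0)) (hφ.comp (measurable_pi_apply 0))
    ⟨C, fun y => hC _⟩ (fun _ => 1) measurable_const ⟨1, fun _ => by simp⟩
  have p2 := sphSys_palm hf N hl x (n := 1) (fun y => φ (y 0) ^ 2)
    ((hφ.comp (measurable_pi_apply 0)).pow_const 2)
    ⟨C ^ 2, fun y => by rw [abs_pow]; exact pow_le_pow_left₀ (abs_nonneg _) (hC _) 2⟩
    (fun _ => 1) measurable_const ⟨1, fun _ => by simp⟩
  have p3 := sphSys_palm₂ hf N hl x (n := 1) (fun y => φ (y 0)) (fun y => φ (y 0))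
    (hφ.comp (measurable_pi_apply 0)) ⟨C, fun y => hC _⟩ (hφ.comp (measurable_pi_apply 0)) ⟨C, fun y => hC _⟩
  simp only [one_mul] at p1 p2
  simp only [mul_one, one_mul, one_pow] at h
  refine Eq.trans h ?_
  have e1 : S.expect (n := 1) (fun _ => (1 : ℝ)) = 1 := by
    have : ∀ ω, IsProbabilityMeasure (gibbs S.ref (S.w ω)) := fun ω =>
      isProbabilityMeasure_gibbs (μ := S.ref) (S.wt ω)
    simp [Sys.expect, Sys.avgRep]
  rw [e1]
  have k := congrArg₂ (fun u v => u + a ^ 2 * 1 + v) (congrArg₂ (fun u v => ε ^ 2 * u + ε ^ 2 * v) p2 p3)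
    (congrArg (fun u => -(2 * a * (ε * u))) p1)
  refine Eq.trans ?_ (k.trans (by ring))
  ring

/-- The truncation costs little in mean square. -/
lemma sph_drift_le (hf : Pot f B) (hs : Smf f) {t b : ℝ} (ht : 0 < t) (hb : ∀ y, |deriv f y| ≤ b)
    {lam : ℝ} (hl : 0 ≤ lam) (x : Fin P → ℝ) (ε a : ℝ) :
    (sphSys hf N lam 0 x).avgRep 1 (fun ω r =>
      (ε * (∑ c ∈ Finset.range (sphCnt ω), driftF f (sphPat ω c (r 0))) - a) ^ 2) ≤
      2 * (sphSys hf N lam 0 x).avgRep 1 (fun ω r =>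
      (ε * (∑ c ∈ Finset.range (sphCnt ω), driftT f t (sphPat ω c (r 0))) - a) ^ 2) +
        2 * ε ^ 2 * (Real.exp (2 * B) * (4 * b ^ 2 * t ^ 2 * ∫ y, y ^ 4 ∂gaussianReal 0 1) *
          (lam * (lam + 1))) := by
  set S := sphSys hf N lam 0 x
  set ψ := fun y : ℝ => 4 * b ^ 2 * t ^ 2 * y ^ 4 with hψ
  obtain ⟨hi, hle⟩ := sphSys_sum_le hf N hl x 1 (ψ := ψ) (by fun_prop)
    (fun y => by simp only [hψ]; positivity) ((integrable_pow_gauss 4).const_mul _)
  rw [integral_count_sq hl] at hle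
  simp only [hψ, integral_const_mul] at hle
  refine le_trans ?_ (add_le_add le_rfl (mul_le_mul_of_nonneg_left hle (by positivity)))
  have hprob : ∀ ω, IsProbabilityMeasure (gibbs S.ref (S.w ω)) := fun ω =>
    isProbabilityMeasure_gibbs (μ := S.ref) (S.wt ω)
  have hφ := (bdD_driftT hs t).cont.measurable
  obtain ⟨C, hC⟩ := (bdD_driftT hs t).bdd
  set TT : S.Ω → (Fin 1 → S.X) → ℝ := fun ω r =>
    ∑ c ∈ Finset.range (sphCnt ω), driftT f t (sphPat ω c (r 0))
  set PP : S.Ω → (Fin 1 → S.X) → ℝ := fun ω r =>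
    (sphCnt ω : ℝ) ^ 1 * ∑ c ∈ Finset.range (sphCnt ω), 4 * b ^ 2 * t ^ 2 * sphPat ω c (r 0) ^ 4
  have hpair : Measurable fun q : S.Ω × (Fin 1 → S.X) => (sphCnt q.1, q) :=
    (measurable_sph_count.comp measurable_fst).prodMk measurable_id
  have hTm : Measurable (Function.uncurry fun ω r => (ε * TT ω r - a) ^ 2) := by
    have h : Measurable fun q : ℕ × (S.Ω × (Fin 1 → S.X)) =>
        ∑ c ∈ Finset.range q.1, driftT f t (sphPat q.2.1 c (q.2.2 0)) :=
      measurable_from_prod_countable_right fun M =>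
        Finset.measurable_sum (Finset.range M) fun c _ => hφ.comp (measurable_sph_field c)
    exact (((h.comp hpair).const_mul ε).sub_const a).pow_const 2
  have hTI : Integrable (Function.uncurry fun ω r => (ε * TT ω r - a) ^ 2) (S.repLaw 1) := by
    refine S.integrable_repLaw_of_le ((integrable_sph_count (hf := hf) (lam := lam) (x := x) (N := N)).const_mul
      ((|ε| * |C| + |a|) ^ 2)) hTm fun ω r => ?_
    rw [abs_pow, ← mul_pow]
    refine pow_le_pow_left₀ (abs_nonneg _) ((abs_sub _ _).trans ?_) 2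
    rw [abs_mul]
    have h1 : |TT ω r| ≤ |C| * (sphCnt ω : ℝ) := by
      refine (Finset.abs_sum_le_sum_abs _ _).trans
        ((Finset.sum_le_sum fun c _ => (hC _).trans (le_abs_self C)).trans ?_)
      simp [mul_comm]
    nlinarith [mul_le_mul_of_nonneg_left h1 (abs_nonneg ε), abs_nonneg a, abs_nonneg ε,
      mul_nonneg (abs_nonneg ε) (abs_nonneg C), Nat.cast_nonneg (α := ℝ) (sphCnt ω)]
  set I : (S.Ω → (Fin 1 → S.X) → ℝ) → S.Ω → ℝ := fun Θ ω =>
    ∫ r, Θ ω r ∂Measure.pi fun _ : Fin 1 => gibbs S.ref (S.w ω)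
  have i1 : Integrable (I fun ω r => (ε * TT ω r - a) ^ 2) S.law := S.integrable_inner hTI
  have i2 : Integrable (I PP) S.law := hi
  show ∫ ω, (I fun ω r => (ε * (∑ c ∈ Finset.range (sphCnt ω), driftF f (sphPat ω c (r 0))) - a) ^ 2) ω ∂S.law ≤
    2 * (∫ ω, (I fun ω r => (ε * TT ω r - a) ^ 2) ω ∂S.law) + 2 * ε ^ 2 * ∫ ω, I PP ω ∂S.law
  rw [← integral_const_mul, ← integral_const_mul, ← integral_add (i1.const_mul 2) (i2.const_mul _)]
  refine integral_mono_of_nonneg (Eventually.of_forall fun ω => integral_nonneg fun r => sq_nonneg _)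
    ((i1.const_mul 2).add (i2.const_mul _)) (Eventually.of_forall fun ω => ?_)
  simp only [I]
  have := hprob ω
  set ν := Measure.pi fun _ : Fin 1 => gibbs S.ref (S.w ω)
  have hin : ∀ r : Fin 1 → S.X, ∀ c, |sphPat ω c (r 0)| ≤ ‖ω.1.2 c‖ := fun r c => by
    show |⟪ω.1.2 c, Subtype.val (r 0 : Sph (N + 1))⟫| ≤ _
    refine (abs_real_inner_le_norm (ω.1.2 c) (Subtype.val (r 0 : Sph (N + 1)))).trans_eq ?_
    rw [mem_sphere_zero_iff_norm.1 (Subtype.mem (r 0 : Sph (N + 1))), mul_one]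
  have jT : Integrable (fun r => (ε * TT ω r - a) ^ 2) ν :=
    Integrable.of_bound (hTm.comp (measurable_const.prodMk measurable_id)).aestronglyMeasurable
      ((|ε| * ((sphCnt ω : ℝ) * |C|) + |a|) ^ 2) (Eventually.of_forall fun r => by
        rw [Real.norm_eq_abs, abs_pow]
        refine pow_le_pow_left₀ (abs_nonneg _) ((abs_sub _ _).trans (add_le_add ?_ le_rfl)) 2
        rw [abs_mul]
        refine mul_le_mul_of_nonneg_left ((Finset.abs_sum_le_sum_abs _ _).trans
          ((Finset.sum_le_card_nsmul _ _ |C| fun c _ => (hC _).trans (le_abs_self C)).trans_eq ?_)) (abs_nonneg ε)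
        rw [Finset.card_range, nsmul_eq_mul])
  have jP : Integrable (PP ω) ν :=
    Integrable.of_bound (Measurable.aestronglyMeasurable
      ((Finset.measurable_sum (Finset.range (sphCnt ω)) fun c _ =>
        (((measurable_sph_field (hf := hf) (lam := lam) (x := x) c).comp
          (measurable_const.prodMk measurable_id)).pow_const 4).const_mul _).const_mul _))
      ((sphCnt ω : ℝ) ^ 1 * ∑ c ∈ Finset.range (sphCnt ω), 4 * b ^ 2 * t ^ 2 * ‖ω.1.2 c‖ ^ 4)
      (Eventually.of_forall fun r => by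
        rw [Real.norm_eq_abs, abs_mul, abs_of_nonneg (pow_nonneg (Nat.cast_nonneg _) 1)]
        refine mul_le_mul_of_nonneg_left ((Finset.abs_sum_le_sum_abs _ _).trans
          (Finset.sum_le_sum fun c _ => ?_)) (by positivity)
        rw [abs_mul, abs_of_nonneg (show 0 ≤ 4 * b ^ 2 * t ^ 2 by positivity), abs_pow]
        exact mul_le_mul_of_nonneg_left (pow_le_pow_left₀ (abs_nonneg _) (hin r c) 4) (by positivity))
  rw [← integral_const_mul, ← integral_const_mul, ← integral_add (jT.const_mul 2) (jP.const_mul _)]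
  refine integral_mono_of_nonneg (Eventually.of_forall fun r => sq_nonneg _)
    ((jT.const_mul 2).add (jP.const_mul _)) (Eventually.of_forall fun r => ?_)
  set F := ∑ c ∈ Finset.range (sphCnt ω), driftF f (sphPat ω c (r 0))
  set T := TT ω r with hT
  have hd : (F - T) ^ 2 ≤ PP ω r := by
    simp only [F, hT, TT, PP, ← Finset.sum_sub_distrib, pow_one]
    refine (sq_sum_le_card_mul_sum_sq (s := Finset.range (sphCnt ω))).trans ?_
    rw [Finset.card_range]
    refine mul_le_mul_of_nonneg_left (Finset.sum_le_sum fun c _ => ?_) (Nat.cast_nonneg _)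
    refine (sq_le_sq.2 ((abs_drift_sub_le ht hb _).trans (le_abs_self _))).trans_eq ?_
    ring
  calc (ε * F - a) ^ 2 = ((ε * T - a) + ε * (F - T)) ^ 2 := by ring
    _ ≤ 2 * (ε * T - a) ^ 2 + 2 * ε ^ 2 * (F - T) ^ 2 := by
        nlinarith [sq_nonneg ((ε * T - a) - ε * (F - T))]
    _ ≤ _ := add_le_add le_rfl (mul_le_mul_of_nonneg_left hd (by positivity))

/-- The second-order terms concentrate at the difference of pairing and diagonal conjugate. -/
theorem sph_drift_limit (hf : Pot f B) (hs : Smf f) {α : ℝ} (hα : 0 < α) {Ns : ℕ → ℕ}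
    (hN : Tendsto Ns atTop atTop) (Ps : ℕ → ℕ) (xs : ∀ j, Fin (Ps j) → ℝ)
    (h : Conv (fun j => sphSys hf (Ns j) (α * ((Ns j : ℝ) + 2)) 0 (xs j)) A)
    (D : ∀ K, Discr A (K + 2)) {η : ℝ} (hη : 0 < η) :
    ∀ᶠ K in atTop, ∀ᶠ j in atTop,
      (sphSys hf (Ns j) (α * ((Ns j : ℝ) + 2)) 0 (xs j)).avgRep 1 (fun ω r =>
        ((1 / ((Ns j : ℝ) + 2)) * (∑ a ∈ Finset.range (sphCnt ω),
            (deriv (deriv f) (sphPat ω a (r 0)) - sphPat ω a (r 0) * deriv f (sphPat ω a (r 0)))) -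
          α * ((D K).pairing f - (D K).rdiag f)) ^ 2) ≤ η := by
  obtain ⟨b, hb⟩ := hs.bdD_deriv.bdd
  have hb0 : 0 ≤ b := (abs_nonneg _).trans (hb 0)
  set K4 := ∫ y, y ^ 4 ∂gaussianReal 0 1
  set E := Real.exp (2 * B)
  set c1 := 2 * E * (4 * b ^ 2 * K4) * (α + α ^ 2) with hc1
  set c2 := 2 * α ^ 2 * (2 * (2 * b * E) ^ 2) with hc2
  obtain ⟨t, ht, htb⟩ : ∃ t, 0 < t ∧ (c1 + c2) * t ^ 2 < η / 2 := by
    have h : Tendsto (fun t : ℝ => (c1 + c2) * t ^ 2) (𝓝[>] 0) (𝓝 0) := by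
      have : Tendsto (fun t : ℝ => (c1 + c2) * t ^ 2) (𝓝 0) (𝓝 ((c1 + c2) * 0 ^ 2)) :=
        (by fun_prop : Continuous fun t : ℝ => (c1 + c2) * t ^ 2).tendsto 0
      simpa using this.mono_left nhdsWithin_le_nhds
    exact ((eventually_mem_nhdsWithin : ∀ᶠ s in 𝓝[>] (0 : ℝ), s ∈ Set.Ioi 0).and
      (h.eventually (gt_mem_nhds (half_pos hη)))).exists
  set m := ratioArr A (Real.exp B) (expW f) (fun _ : Mat 1 => (1 : ℝ)) (fun _ => driftT f t)
  set l := driftVal f B A
  have hml := abs_driftT_sub_le_of_conv hf hs ht hb h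
  obtain ⟨C, hC⟩ := (bdD_driftT hs t).bdd
  have hK : Tendsto (fun K => 4 * α ^ 2 * ((D K).pairing f - (D K).rdiag f - l) ^ 2) atTop (𝓝 0) := by
    simpa [l] using (((tendsto_discr_drift hf hs D).sub_const l).pow 2).const_mul (4 * α ^ 2)
  filter_upwards [hK.eventually (gt_mem_nhds (half_pos hη))] with K hKb
  set L := (D K).pairing f - (D K).rdiag f
  set lam := fun j => α * ((Ns j : ℝ) + 2)
  set ε := fun j => 1 / ((Ns j : ℝ) + 2)
  have hle : ∀ j, ε j * lam j = α := fun j => by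
    simp only [ε, lam]
    field_simp
  have hl : ∀ j, 0 ≤ lam j := fun j => mul_nonneg hα.le (by positivity)
  have hW := weight_expW_drift hf hs
  have hm := measurable_expW hf
  have l1 := h.insert hW hm (Real.exp_pos (-B)) (expW_mem hf) (Φ := fun _ : Mat 1 => (1 : ℝ))
    continuous_const ⟨1, fun _ => by simp⟩ (fun _ => driftT f t) (fun _ => (bdD_driftT hs t).cont)
    fun _ => (bdD_driftT hs t).bdd
  simp only [one_mul, Fin.prod_univ_one] at l1
  have l2 := h.insert_two hW hm (Real.exp_pos (-B)) (expW_mem hf) (bdD_driftT hs t) (bdD_driftT hs t)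
  have hε : Tendsto ε atTop (𝓝 0) := by
    have : Tendsto (fun j => ((Ns j : ℝ) + 2)) atTop atTop :=
      tendsto_atTop_add_const_right _ _ (tendsto_natCast_atTop_atTop.comp hN)
    simpa [ε, one_div, Function.comp_def] using tendsto_inv_atTop_zero.comp this
  set S := fun j => sphSys hf (Ns j) (lam j) 0 (xs j)
  have hdiag : Tendsto (fun j => α * ε j * ((S j).tiltF hf).avgRep 1
      (fun p (r : Fin 1 → Sph (Ns j + 1)) => driftT f t ⟪p.2, ((r 0 : Sph (Ns j + 1)) : Sp (Ns j + 1))⟫ ^ 2)) atTop (𝓝 0) := by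
    refine squeeze_zero_norm (a := fun j => α * ε j * C ^ 2) (fun j => ?_)
      (by simpa using (hε.const_mul α).mul_const (C ^ 2))
    rw [Real.norm_eq_abs, abs_mul, abs_of_nonneg (mul_nonneg hα.le (by positivity : (0:ℝ) ≤ ε j))]
    refine mul_le_mul_of_nonneg_left (abs_avgRep_le _ fun p r => ?_) (mul_nonneg hα.le (by positivity))
    rw [abs_pow]
    exact pow_le_pow_left₀ (abs_nonneg _) (hC _) 2
  have htrunc : Tendsto (fun j => (S j).avgRep 1 (fun ω r =>
      (ε j * (∑ a ∈ Finset.range (sphCnt ω), driftT f t (sphPat ω a (r 0))) - α * L) ^ 2)) atTop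
      (𝓝 ((α * L - α * m) ^ 2)) := by
    have h2 := ((hdiag.add (l2.const_mul (α ^ 2))).sub (l1.const_mul (2 * (α * L) * α))).add_const
      ((α * L) ^ 2)
    rw [show (α * L - α * m) ^ 2 = 0 + α ^ 2 * (m * m) - 2 * (α * L) * α * m + (α * L) ^ 2 by ring]
    refine h2.congr fun j => ?_
    have alg : ∀ d u w : ℝ, α * ε j * d + α ^ 2 * u - 2 * (α * L) * α * w + (α * L) ^ 2 =
        ε j ^ 2 * (lam j * d + lam j ^ 2 * u) - 2 * (α * L) * ε j * (lam j * w) + (α * L) ^ 2 :=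
      fun d u w => by
        linear_combination (2 * (α * L) * w - ε j * d - (α + ε j * lam j) * u) * hle j
    exact (alg _ _ _).trans (sph_drift_sq hf hs t (hl j) (xs j) (ε j) (α * L)).symm
  have hfin : 2 * (α * L - α * m) ^ 2 + c1 * t ^ 2 < η := by
    have h3 : (m - l) ^ 2 ≤ (2 * b * t * E) ^ 2 :=
      sq_le_sq.2 (hml.trans (le_abs_self _))
    have h4 := sq_nonneg ((L - l) + (m - l))
    have h5 : (α * L - α * m) ^ 2 ≤ 2 * α ^ 2 * (L - l) ^ 2 + 2 * α ^ 2 * (2 * b * t * E) ^ 2 := by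
      have := mul_le_mul_of_nonneg_left h3 (sq_nonneg α)
      nlinarith [mul_nonneg (sq_nonneg α) h4]
    have h6 : c2 * t ^ 2 = 2 * (2 * α ^ 2 * (2 * b * t * E) ^ 2) := by rw [hc2]; ring
    nlinarith
  filter_upwards [((htrunc.const_mul 2).add_const (c1 * t ^ 2)).eventually (gt_mem_nhds hfin)] with j hj
  refine le_of_lt (lt_of_le_of_lt ?_ hj)
  refine (sph_drift_le hf hs ht hb (hl j) (xs j) (ε j) (α * L)).trans (add_le_add le_rfl ?_)
  have e := hle j
  have h1 : ε j ≤ 1 := by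
    simp only [ε]
    rw [div_le_one (by positivity)]
    linarith [Nat.cast_nonneg (α := ℝ) (Ns j)]
  have h2 : ε j ^ 2 * (lam j * (lam j + 1)) ≤ α + α ^ 2 := by
    have : ε j ^ 2 * (lam j * (lam j + 1)) = (ε j * lam j) ^ 2 + ε j * (ε j * lam j) := by ring
    rw [this, e]
    nlinarith
  have hK4 : 0 ≤ K4 := integral_nonneg fun y => by positivity
  calc 2 * ε j ^ 2 * (E * (4 * b ^ 2 * t ^ 2 * K4) * (lam j * (lam j + 1)))
      = 2 * E * (4 * b ^ 2 * K4) * t ^ 2 * (ε j ^ 2 * (lam j * (lam j + 1))) := by ring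
    _ ≤ 2 * E * (4 * b ^ 2 * K4) * t ^ 2 * (α + α ^ 2) := mul_le_mul_of_nonneg_left h2 (by positivity)
    _ = c1 * t ^ 2 := by rw [hc1]; ring

end Vale.Agent.P157.Low
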