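import Vale.Agent.P157.Low.SphTeleField

/-!
Patterns and a Gaussian field over a general configuration space, averaged over the patterns and
over their Poisson number.
-/

namespace Vale.Agent.P157.Low

open MeasureTheory ProbabilityTheory Filter
open scoped RealInnerProductSpace Topology

variable {f : ℝ → ℝ} {B : ℝ} {n m P M : ℕ} {X : Type} [MeasurableSpace X]

/-- The weight of `M` patterns seen through `v`. -/
noncomputable def gW (f : ℝ → ℝ) (v : X → Sp n) (g : Fin M → Sp n) (y : X) : ℝ :=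
  Real.exp (∑ a, f ⟪g a, v y⟫)

/-- Expected log-partition function at `M` patterns through `v` with a field along `pertVec c ∘ u`. -/
noncomputable def gF (f : ℝ → ℝ) (μ : Measure X) (v : X → Sp n) (u : X → Sp m) (c : Fin P → ℝ)
    (M : ℕ) : ℝ :=
  ∫ g : Fin M → Sp n, elz μ (fun y => pertVec c (u y)) (gW f v g)
    ∂Measure.pi fun _ => stdGaussian (Sp n)

lemma gW_first (f : ℝ → ℝ) (v : X → Sp n) (M : ℕ) (g : ℕ → Sp n) (y : X) :
    gW f v (fun a : Fin M => g a) y = Real.exp (∑ a ∈ Finset.range M, f ⟪g a, v y⟫) := by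
  rw [gW, Fin.sum_univ_eq_sum_range (fun a => f ⟪g a, v y⟫) M]

variable {μ : Measure X} [IsProbabilityMeasure μ] {v : X → Sp n} {u : X → Sp m}

lemma wt_gW (hf : Pot f B) (hv : Measurable v) (g : Fin M → Sp n) : Wt (gW f v g) :=
  wt_patterns hf hv g

lemma measurable_gW (hf : Pot f B) (hv : Measurable v) :
    Measurable (Function.uncurry fun (g : Fin M → Sp n) y => gW f v g y) :=
  (Finset.measurable_sum _ fun a _ => hf.meas.comp
    (((measurable_pi_apply a).comp measurable_fst).inner (hv.comp measurable_snd))).exp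

lemma abs_logI_gW_le (hf : Pot f B) (hv : Measurable v) (g : Fin M → Sp n) :
    |logI μ (gW f v g)| ≤ M * B :=
  abs_log_integral_exp_le (Finset.measurable_sum _ fun a _ => hf.meas.comp
    (measurable_const.inner hv)) fun _ =>
    (Finset.abs_sum_le_sum_abs _ _).trans ((Finset.sum_le_sum fun _ _ => hf.bound _).trans_eq (by simp))

lemma measurable_pert_comp (c : Fin P → ℝ) (hu : Measurable u) :
    Measurable fun y => pertVec c (u y) := (measurable_pertVec c).comp hu

lemma norm_pert_le (hu1 : ∀ y, ‖u y‖ = 1) (c : Fin P → ℝ) (y : X) :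
    ‖pertVec c (u y)‖ ≤ ∑ q, |c q| := norm_pertVec_le c _ (hu1 y)

lemma abs_lz_gW_le (hf : Pot f B) (hv : Measurable v) (hu : Measurable u) (hu1 : ∀ y, ‖u y‖ = 1)
    (c : Fin P → ℝ) (g : Fin M → Sp n) (J : PertSpace m P) :
    |lz μ (fun y => pertVec c (u y)) (gW f v g) J| ≤ M * B + (∑ q, |c q|) * ‖J‖ := by
  have h1 := abs_lz_sub (μ := μ) (wt_gW hf hv g) (measurable_pert_comp c hu) (norm_pert_le hu1 c) J
  linarith [abs_sub_abs_le_abs_sub (lz μ (fun y => pertVec c (u y)) (gW f v g) J)
    (logI μ (gW f v g)), abs_logI_gW_le (μ := μ) hf hv g]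

lemma measurable_gW_fst {E : Type} [MeasurableSpace E] (hf : Pot f B) (hv : Measurable v) :
    Measurable (Function.uncurry fun (k : (Fin M → Sp n) × E) y => gW f v k.1 y) := by
  have hm : Measurable fun z : ((Fin M → Sp n) × E) × X => (z.1.1, z.2) :=
    (measurable_fst.comp measurable_fst).prodMk measurable_snd
  exact Measurable.comp (g := Function.uncurry fun (g : Fin M → Sp n) y => gW f v g y)
    (f := fun z : ((Fin M → Sp n) × E) × X => (z.1.1, z.2)) (measurable_gW hf hv) hm

lemma measurable_lz_gW (hf : Pot f B) (hv : Measurable v) (hu : Measurable u) (c : Fin P → ℝ) :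
    Measurable fun p : (Fin M → Sp n) × PertSpace m P =>
      lz μ (fun y => pertVec c (u y)) (gW f v p.1) p.2 :=
  measurable_lz (μ := μ) (W := fun (p : (Fin M → Sp n) × PertSpace m P) y => gW f v p.1 y)
    (h := fun p => p.2) (measurable_pert_comp c hu) (measurable_gW_fst hf hv) measurable_snd

lemma integrable_lz_gW (hf : Pot f B) (hv : Measurable v) (hu : Measurable u) (hu1 : ∀ y, ‖u y‖ = 1)
    (c : Fin P → ℝ) : Integrable (fun p : (Fin M → Sp n) × PertSpace m P =>
      lz μ (fun y => pertVec c (u y)) (gW f v p.1) p.2)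
      ((Measure.pi fun _ => stdGaussian (Sp n)).prod (stdGaussian (PertSpace m P))) := by
  refine Integrable.mono' ((integrable_const ((M : ℝ) * B)).add
    (((integrable_norm_pow (E := PertSpace m P) 1).comp_snd _).const_mul (∑ q, |c q|)))
    (measurable_lz_gW hf hv hu c).aestronglyMeasurable (Eventually.of_forall fun p => ?_)
  simp only [Pi.add_apply, pow_one, Real.norm_eq_abs]
  exact abs_lz_gW_le hf hv hu hu1 c p.1 p.2

lemma integrable_elz_gW (hf : Pot f B) (hv : Measurable v) (hu : Measurable u) (hu1 : ∀ y, ‖u y‖ = 1)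
    (c : Fin P → ℝ) : Integrable (fun g : Fin M → Sp n => elz μ (fun y => pertVec c (u y)) (gW f v g))
      (Measure.pi fun _ => stdGaussian (Sp n)) :=
  (integrable_lz_gW hf hv hu hu1 c).integral_prod_left

lemma abs_gF_le (hf : Pot f B) (hv : Measurable v) (hu : Measurable u) (hu1 : ∀ y, ‖u y‖ = 1)
    (c : Fin P → ℝ) (M : ℕ) : |gF f μ v u c M| ≤ M * B + (∑ q, |c q|) ^ 2 / 2 := by
  rw [← Real.norm_eq_abs]
  refine (norm_integral_le_of_norm_le_const (C := M * B + (∑ q, |c q|) ^ 2 / 2)
    (Eventually.of_forall fun g => ?_)).trans_eq (by simp)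
  rw [Real.norm_eq_abs]
  have h1 := logI_le_elz (μ := μ) (wt_gW hf hv g) (measurable_pert_comp c hu) (norm_pert_le hu1 c)
  have h2 := elz_le (μ := μ) (wt_gW hf hv g) (measurable_pert_comp c hu) (norm_pert_le hu1 c)
  obtain ⟨h3, h4⟩ := abs_le.1 (abs_logI_gW_le (μ := μ) hf hv g)
  have h5 : (0 : ℝ) ≤ (∑ q, |c q|) ^ 2 / 2 := by positivity
  exact abs_le.2 ⟨by linarith, by linarith⟩

lemma integrable_gF (hf : Pot f B) (hv : Measurable v) (hu : Measurable u) (hu1 : ∀ y, ‖u y‖ = 1)
    (c : Fin P → ℝ) (lam : ℝ) : Integrable (gF f μ v u c) (poiLaw lam) :=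
  integrable_poisson_of_le (C := B + (∑ q, |c q|) ^ 2 / 2) (j := 1) fun M => by
    refine (abs_gF_le hf hv hu hu1 c M).trans ?_
    have h1 : (0 : ℝ) ≤ (∑ q, |c q|) ^ 2 / 2 := by positivity
    have := hf.nonneg
    rw [pow_one]
    nlinarith [mul_nonneg h1 (Nat.cast_nonneg (α := ℝ) M)]

/-- A field costs at most half its squared size. -/
lemma gF_le_L (hf : Pot f B) (hv : Measurable v) (hu : Measurable u) (hu1 : ∀ y, ‖u y‖ = 1)
    (c : Fin P → ℝ) (M : ℕ) :
    gF f μ v u c M ≤ L μ f v M (fun _ => 1) + (∑ q, |c q|) ^ 2 / 2 := by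
  have hm : Measurable fun g : Fin M → Sp n => logI μ (gW f v g) :=
    measurable_logI (measurable_gW hf hv)
  have hl : Integrable (fun g : Fin M → Sp n => logI μ (gW f v g))
      (Measure.pi fun _ => stdGaussian (Sp n)) := Integrable.of_bound hm.aestronglyMeasurable _
    (Eventually.of_forall fun g => (Real.norm_eq_abs _).trans_le (abs_logI_gW_le hf hv g))
  refine (integral_mono (integrable_elz_gW hf hv hu hu1 c)
    (hl.add (integrable_const ((∑ q, |c q|) ^ 2 / 2))) fun g =>
      elz_le (wt_gW hf hv g) (measurable_pert_comp c hu) (norm_pert_le hu1 c)).trans_eq ?_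
  simp only [Pi.add_apply]
  rw [integral_add hl (integrable_const _), L_eq_integral hf hv M _ Wt.one]
  simp [logI, gW]

/-- Changing the coefficients of a field. -/
lemma elz_coeff_gen {w : X → ℝ} (hw : Wt w) (hu : Measurable u) (hu1 : ∀ y, ‖u y‖ = 1)
    {y z : Fin P → ℝ} (hy : ∀ p, 0 ≤ y p) (hz : ∀ p, 0 < z p) :
    elz μ (fun r => pertVec z (u r)) w ≤
      elz μ (fun r => pertVec y (u r)) w + (∑ p, Real.sqrt |z p ^ 2 - y p ^ 2|) ^ 2 / 2 := by
  set M := fun p => max (y p) (z p)
  have hM : ∀ p, 0 < M p := fun p => (hz p).trans_le (le_max_right _ _)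
  have key : ∀ c : Fin P → ℝ, (∀ p, 0 ≤ c p) → (∀ p, c p ≤ M p) →
      elz μ (fun r => pertVec c (u r)) w ≤ elz μ (fun r => pertVec M (u r)) w ∧
      elz μ (fun r => pertVec M (u r)) w ≤
        elz μ (fun r => pertVec c (u r)) w + (∑ p, Real.sqrt (M p ^ 2 - c p ^ 2)) ^ 2 / 2 :=
    fun c hc0 hc => by
    set a := fun i : (p : Fin P) × (Fin ((p : ℕ) + 1) → Fin m) => c i.1 / M i.1 with ha
    set b := fun i : (p : Fin P) × (Fin ((p : ℕ) + 1) → Fin m) =>
      Real.sqrt (M i.1 ^ 2 - c i.1 ^ 2) / M i.1 with hb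
    have hd : ∀ p, 0 ≤ M p ^ 2 - c p ^ 2 := fun p =>
      sub_nonneg.2 (pow_le_pow_left₀ (hc0 p) (hc p) 2)
    have hab : ∀ i, a i ^ 2 + b i ^ 2 = 1 := fun i => by
      simp only [ha, hb, div_pow, Real.sq_sqrt (hd i.1)]
      have := (hM i.1).ne'
      field_simp
      ring
    have e1 : ∀ r, cmul a (pertVec M (u r)) = pertVec c (u r) := fun r => by
      ext i
      simp only [cmul, pertVec, ha]
      have := (hM i.1).ne'
      field_simp
    have e2 : ∀ r, cmul b (pertVec M (u r)) =
        pertVec (fun p => Real.sqrt (M p ^ 2 - c p ^ 2)) (u r) := fun r => by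
      ext i
      simp only [cmul, pertVec, hb]
      have := (hM i.1).ne'
      field_simp
    have h := elz_cmul (μ := μ) hw (measurable_pert_comp M hu) (norm_pert_le hu1 M) hab
      (m := ∑ p, Real.sqrt (M p ^ 2 - c p ^ 2)) fun r => by
        rw [e2]
        refine (norm_pert_le hu1 _ r).trans_eq ?_
        simp [abs_of_nonneg (Real.sqrt_nonneg _)]
    simpa only [e1] using h
  refine ((key z (fun p => (hz p).le) fun p => le_max_right _ _).1).trans
    ((key y hy fun p => le_max_left _ _).2.trans (add_le_add le_rfl ?_))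
  refine div_le_div_of_nonneg_right (pow_le_pow_left₀ (Finset.sum_nonneg fun p _ => Real.sqrt_nonneg _)
    (Finset.sum_le_sum fun p _ => Real.sqrt_le_sqrt ?_) 2) two_pos.le
  rcases max_choice (y p) (z p) with h | h <;> simp only [M, h]
  · simp
  · exact le_abs_self _

/-- The cost of changing coefficients is small when the coefficients are close. -/
lemma gF_coeff (hf : Pot f B) (hv : Measurable v) (hu : Measurable u) (hu1 : ∀ y, ‖u y‖ = 1)
    {y z : Fin P → ℝ} (hy : ∀ p, 0 ≤ y p) (hz : ∀ p, 0 < z p) (M : ℕ) :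
    gF f μ v u z M ≤ gF f μ v u y M + (∑ p, Real.sqrt |z p ^ 2 - y p ^ 2|) ^ 2 / 2 := by
  refine (integral_mono (integrable_elz_gW hf hv hu hu1 z) ((integrable_elz_gW hf hv hu hu1 y).add
    (integrable_const _)) fun g => elz_coeff_gen (wt_gW hf hv g) hu hu1 hy hz).trans_eq ?_
  simp only [Pi.add_apply]
  rw [integral_add (integrable_elz_gW hf hv hu hu1 y) (integrable_const _)]
  simp [gF]

lemma continuousOn_gF (hf : Pot f B) (hv : Measurable v) (hu : Measurable u) (hu1 : ∀ y, ‖u y‖ = 1)
    {s : ℝ} (hs : 0 < s) (lam : ℝ) :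
    ContinuousOn (fun x : Fin P → ℝ => ∫ M, gF f μ v u (s • x) M ∂poiLaw lam) (box P) := by
  intro x hx
  have hpos : ∀ y ∈ box P, ∀ p, 0 < (s • y) p := fun y hy p =>
    mul_pos hs (lt_of_lt_of_le one_pos (hy p (Set.mem_univ p)).1)
  set d := fun y : Fin P → ℝ => (∑ p, Real.sqrt |(s • y) p ^ 2 - (s • x) p ^ 2|) ^ 2 / 2 with hd
  have hb : ∀ y ∈ box P, |(∫ M, gF f μ v u (s • y) M ∂poiLaw lam) -
      ∫ M, gF f μ v u (s • x) M ∂poiLaw lam| ≤ d y := fun y hy => by
    have key : ∀ a b : Fin P → ℝ, a ∈ box P → b ∈ box P → ∫ M, gF f μ v u (s • a) M ∂poiLaw lam ≤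
        (∫ M, gF f μ v u (s • b) M ∂poiLaw lam) +
          (∑ p, Real.sqrt |(s • a) p ^ 2 - (s • b) p ^ 2|) ^ 2 / 2 := fun a b ha hb => by
      refine (integral_mono (integrable_gF hf hv hu hu1 _ lam) ((integrable_gF hf hv hu hu1 _ lam).add
        (integrable_const _)) fun M =>
          gF_coeff hf hv hu hu1 (fun p => (hpos b hb p).le) (hpos a ha) M).trans_eq ?_
      simp only [Pi.add_apply]
      rw [integral_add (integrable_gF hf hv hu hu1 _ lam) (integrable_const _)]
      simp
    have h1 := key y x hy hx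
    have h2 := key x y hx hy
    simp only [abs_sub_comm ((s • x) _ ^ 2)] at h2
    simp only [hd]
    exact abs_le.2 ⟨by linarith, by linarith⟩
  have hd0 : Tendsto d (𝓝[box P] x) (𝓝 0) := by
    have hc : Continuous d := by simp only [hd, Pi.smul_apply, smul_eq_mul]; fun_prop
    have h := (hc.tendsto x).mono_left (nhdsWithin_le_nhds (s := box P))
    simpa [hd] using h
  show Tendsto _ _ (𝓝 _)
  rw [tendsto_iff_norm_sub_tendsto_zero]
  exact squeeze_zero' (Eventually.of_forall fun y => norm_nonneg _)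
    (eventually_mem_nhdsWithin.mono fun y hy => (Real.norm_eq_abs _).trans_le (hb y hy)) hd0

/-- A Poisson number of patterns, drawn through maps that keep their law. -/
lemma integral_count_law (hf : Pot f B) (hv : Measurable v) (hu : Measurable u)
    (hu1 : ∀ y, ‖u y‖ = 1) (c : Fin P → ℝ) (lam : ℝ) {Q : Type} [MeasurableSpace Q] {ρ : Measure Q}
    [IsProbabilityMeasure ρ] {Φ : ∀ M, Q → Fin M → Sp n}
    (hΦ : ∀ M, MeasurePreserving (Φ M) ρ (Measure.pi fun _ => stdGaussian (Sp n)))
    {G : (ℕ × Q) × PertSpace m P → ℝ}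
    (hG : ∀ M q J, G ((M, q), J) = lz μ (fun y => pertVec c (u y)) (gW f v (Φ M q)) J) :
    Integrable G (((poiLaw lam).prod ρ).prod (stdGaussian (PertSpace m P))) ∧
      ∫ w, G w ∂((poiLaw lam).prod ρ).prod (stdGaussian (PertSpace m P)) =
        ∫ M, gF f μ v u c M ∂poiLaw lam := by
  set γJ := stdGaussian (PertSpace m P)
  set U := fun y => pertVec c (u y)
  have hGm : Measurable G := by
    have h : Measurable fun p : ℕ × (Q × PertSpace m P) => lz μ U (gW f v (Φ p.1 p.2.1)) p.2.2 :=
      measurable_from_prod_countable_right fun M => by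
        have hm : Measurable fun q : Q × PertSpace m P => (Φ M q.1, q.2) :=
          ((hΦ M).measurable.comp measurable_fst).prodMk measurable_snd
        exact Measurable.comp (g := fun p : (Fin M → Sp n) × PertSpace m P => lz μ U (gW f v p.1) p.2)
          (f := fun q : Q × PertSpace m P => (Φ M q.1, q.2)) (measurable_lz_gW hf hv hu c) hm
    have e : G = (fun p : ℕ × (Q × PertSpace m P) => lz μ U (gW f v (Φ p.1 p.2.1)) p.2.2) ∘
        fun w => (w.1.1, w.1.2, w.2) := funext fun w => hG w.1.1 w.1.2 w.2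
    have hr : Measurable fun w : (ℕ × Q) × PertSpace m P => (w.1.1, w.1.2, w.2) :=
      (measurable_fst.comp measurable_fst).prodMk
        ((measurable_snd.comp measurable_fst).prodMk measurable_snd)
    rw [e]
    exact Measurable.comp h hr
  have hMi : Integrable (fun M : ℕ => (M : ℝ) * B) (poiLaw lam) :=
    integrable_poisson_of_le (C := B) (j := 1) fun M => by
      rw [abs_of_nonneg (mul_nonneg (Nat.cast_nonneg M) hf.nonneg), pow_one]
      nlinarith [hf.nonneg]
  have hJi : Integrable (fun J : PertSpace m P => (∑ q, |c q|) * ‖J‖) γJ := by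
    simpa using (integrable_norm_pow (E := PertSpace m P) 1).const_mul (∑ q, |c q|)
  have hi : Integrable G (((poiLaw lam).prod ρ).prod γJ) :=
    (((hMi.comp_fst ρ).comp_fst γJ).add (hJi.comp_snd ((poiLaw lam).prod ρ))).mono'
      hGm.aestronglyMeasurable (Eventually.of_forall fun w => by
        rw [Real.norm_eq_abs, hG w.1.1 w.1.2 w.2]
        exact abs_lz_gW_le hf hv hu hu1 c _ _)
  refine ⟨hi, ?_⟩
  rw [integral_prod _ hi, integral_prod _ hi.integral_prod_left]
  refine integral_congr_ae (Eventually.of_forall fun M => ?_)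
  have hie := integrable_elz_gW (M := M) (μ := μ) hf hv hu hu1 c
  rw [gF]
  conv_rhs => rw [← (hΦ M).map_eq]
  rw [integral_map (hΦ M).measurable.aemeasurable
    (by rw [(hΦ M).map_eq]; exact hie.aestronglyMeasurable)]
  refine integral_congr_ae (Eventually.of_forall fun q => ?_)
  simp only [elz, hG]
  rfl

/-- Keeping some coordinates of a field lowers the expectation. -/
lemma elz_restrict {w : X → ℝ} (hw : Wt w) {ι κ : Type} [Fintype ι] [Fintype κ] {e : κ → ι}
    (he : Function.Injective e) {U : X → EuclideanSpace ℝ ι} (hU : Measurable U) {l : ℝ}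
    (hl : ∀ y, ‖U y‖ ≤ l) :
    elz μ (fun y => WithLp.toLp 2 fun j => U y (e j)) w ≤ elz μ U w := by
  classical
  set o := Function.extend e (fun _ => (1 : ℝ)) 0 with ho
  set b := fun i => 1 - o i with hb
  set a : EuclideanSpace ℝ κ → EuclideanSpace ℝ ι :=
    fun g => WithLp.toLp 2 (Function.extend e (fun j => g j) 0) with ha
  set a' : EuclideanSpace ℝ ι → EuclideanSpace ℝ κ := fun t => WithLp.toLp 2 fun j => t (e j) with ha'
  have hout : ∀ (z : κ → ℝ) i, i ∉ Set.range e → Function.extend e z 0 i = 0 := fun z i hi =>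
    Function.extend_apply' _ _ _ hi
  have ham : Measurable a := by
    refine (WithLp.measurable_toLp 2 _).comp (measurable_pi_lambda _ fun i => ?_)
    by_cases hi : ∃ j, e j = i
    · obtain ⟨j, rfl⟩ := hi
      simp only [he.extend_apply]
      fun_prop
    · simp only [Function.extend_apply' _ _ _ hi]
      exact measurable_const
  have hA : ∀ g t, ⟪a g, t⟫ = ⟪g, a' t⟫ := fun g t => by
    simp only [ha, ha', PiLp.inner_apply, RCLike.inner_apply, conj_trivial]
    exact (Fintype.sum_of_injective e he _ _ (fun i hi => by simp [hout _ i hi])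
      (fun j => by simp [he.extend_apply])).symm
  have hn : ∀ t, ‖a' t‖ ^ 2 + ‖cmul b t‖ ^ 2 = ‖t‖ ^ 2 := fun t => by
    simp only [EuclideanSpace.real_norm_sq_eq, ha', cmul]
    rw [Fintype.sum_of_injective e he (fun j => t (e j) ^ 2) (fun i => o i * t i ^ 2)
      (fun i hi => by simp [ho, hout _ i hi]) (fun j => by simp [ho, he.extend_apply]),
      ← Finset.sum_add_distrib]
    refine Finset.sum_congr rfl fun i _ => ?_
    by_cases hi : ∃ j, e j = i
    · obtain ⟨j, rfl⟩ := hi
      simp [hb, ho, he.extend_apply]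
    · simp [hb, ho, Function.extend_apply' _ _ _ hi]
  have hbl : ∀ y, ‖cmul b (U y)‖ ≤ l := fun y => by
    refine le_trans ?_ (hl y)
    nlinarith [hn (U y), norm_nonneg (cmul b (U y)), norm_nonneg (U y), sq_nonneg ‖a' (U y)‖]
  exact (elz_parts (μ := μ) hw hU hl ham (measurable_cmul b) (by simp only [ha']; fun_prop)
    (measurable_cmul b) hA (inner_cmul b) hn hbl).1

end Vale.Agent.P157.Low
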