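import Vale.Agent.P157.Low.SphRep
import Vale.Agent.P157.Low.SphTeleGen
import Vale.Agent.P157.Low.Telescope

/-!
Adding coordinates one at a time on the sphere.
-/

namespace Vale.Agent.P157.Low

open MeasureTheory ProbabilityTheory Filter
open scoped RealInnerProductSpace Topology

variable {f : ℝ → ℝ} {B : ℝ} {P : ℕ}

lemma norm_sphCoe {n : ℕ} (r : Sph n) : ‖(r : Sp n)‖ = 1 := mem_sphere_zero_iff_norm.1 r.2

/-- The coordinate split off, conditioned to `[-T, T]`. -/
noncomputable def sLawT (N : ℕ) (T : ℝ) : Measure ℝ :=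
  (sLaw N (Set.Icc (-T) T))⁻¹ • (sLaw N).restrict (Set.Icc (-T) T)

/-- A split point, the coordinate split off clamped to `[-T, T]`. -/
noncomputable def splitT (N : ℕ) (T : ℝ) (z : Sph (N + 1) × ℝ) : Sp (N + 2) :=
  splitVec z.1 (max (-T) (min T z.2))

lemma measurable_splitT (N : ℕ) (T : ℝ) : Measurable (splitT N T) :=
  Measurable.comp (g := fun p : Sph (N + 1) × ℝ => splitVec p.1 p.2)
    (f := fun z : Sph (N + 1) × ℝ => (z.1, max (-T) (min T z.2))) measurable_splitVec
    (measurable_fst.prodMk (measurable_const.max (measurable_const.min measurable_snd)))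

lemma splitT_of_mem {N : ℕ} {T : ℝ} (θ : Sph (N + 1)) {s : ℝ} (hs : s ∈ Set.Icc (-T) T) :
    splitT N T (θ, s) = splitVec θ s := by
  simp [splitT, min_eq_right hs.2, max_eq_right hs.1]

lemma sq_clamp_le {T : ℝ} (hT : 0 ≤ T) (s : ℝ) : max (-T) (min T s) ^ 2 ≤ T ^ 2 := by
  have h1 : -T ≤ max (-T) (min T s) := le_max_left _ _
  have h2 : max (-T) (min T s) ≤ T := max_le (by linarith) (min_le_left _ _)
  nlinarith

lemma norm_splitT {N : ℕ} {T : ℝ} (hT : 0 ≤ T) (hTN : T ^ 2 ≤ (N : ℝ) + 2) (z : Sph (N + 1) × ℝ) :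
    ‖splitT N T z‖ = 1 := by
  have hn : (0 : ℝ) < (N : ℝ) + 2 := by positivity
  have h1 : max (-T) (min T z.2) ^ 2 / ((N : ℝ) + 2) ≤ 1 :=
    (div_le_one hn).2 ((sq_clamp_le hT z.2).trans hTN)
  refine (pow_left_inj₀ (norm_nonneg _) zero_le_one two_ne_zero).1 ?_
  rw [splitT, splitVec, norm_snocVec_sq, norm_smul, Real.norm_eq_abs, mul_pow, sq_abs,
    Real.sq_sqrt (by linarith), mul_pow, Real.sq_sqrt (by positivity),
    mem_sphere_zero_iff_norm.1 z.1.2]
  ring

/-- Old coordinates of the perturbation at a split point. -/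
lemma pertVec_splitT (N : ℕ) (T : ℝ) (c : Fin P → ℝ) (z : Sph (N + 1) × ℝ)
    (i : (p : Fin P) × (Fin ((p : ℕ) + 1) → Fin (N + 1))) :
    pertVec c (splitT N T z) (oldIdx (N + 1) P i) =
      Real.sqrt (1 - max (-T) (min T z.2) ^ 2 / ((N : ℝ) + 2)) ^ ((i.1 : ℕ) + 1) *
        pertVec c ((z.1 : Sp (N + 1))) i := by
  have e : ∀ k, splitT N T z (Fin.castSucc (i.2 k)) =
      Real.sqrt (1 - max (-T) (min T z.2) ^ 2 / ((N : ℝ) + 2)) * (z.1 : Sp (N + 1)) (i.2 k) := fun k => by
    simp [splitT, splitVec, snocVec]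
  simp only [pertVec, oldIdx, Function.comp_apply, e, Finset.prod_mul_distrib, Finset.prod_const,
    Finset.card_univ, Fintype.card_fin]
  ring

lemma sLaw_Icc_ne_zero (N : ℕ) {T : ℝ} (hT : 1 ≤ T) : sLaw N (Set.Icc (-T) T) ≠ 0 := by
  rw [sLaw, Measure.map_apply (measurable_sCoord N) measurableSet_Icc]
  intro h
  set S := {q : ℝ × ℝ | |q.2| * Real.sqrt ((N : ℝ) + 2) ≤ |q.1|}
  have hS : ((normLaw N).prod (gaussianReal 0 1)) S = 0 := by
    refine measure_mono_null (fun q hq => ?_) h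
    have h1 : |sCoord N q| ≤ 1 := by
      rw [sCoord, abs_div, abs_mul, abs_of_nonneg (Real.sqrt_nonneg _),
        abs_of_nonneg (Real.sqrt_nonneg _)]
      refine div_le_one_of_le₀ (le_trans hq ?_) (Real.sqrt_nonneg _)
      exact Real.abs_le_sqrt (by nlinarith [sq_nonneg q.2])
    obtain ⟨h2, h3⟩ := abs_le.1 h1
    exact ⟨by linarith, by linarith⟩
  have hne : ∀ᵐ r ∂normLaw N, r ≠ 0 := by
    rw [normLaw, ae_map_iff measurable_norm.aemeasurable
      (show MeasurableSet {r : ℝ | r ≠ 0} from (measurableSet_singleton 0).compl)]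
    filter_upwards [ae_ne_zero (N := N)] with g hg using norm_ne_zero_iff.2 hg
  have hmS : MeasurableSet S :=
    measurableSet_le (f := fun q : ℝ × ℝ => |q.2| * Real.sqrt ((N : ℝ) + 2))
      (g := fun q : ℝ × ℝ => |q.1|) (by fun_prop) (by fun_prop)
  have hz := (Measure.measure_prod_null hmS).1 hS
  obtain ⟨r, hr, hr0⟩ := (hz.and hne).exists
  have hv : volume (Prod.mk r ⁻¹' S) = 0 :=
    gaussianReal_absolutelyContinuous' 0 one_ne_zero hr
  have hs : 0 < Real.sqrt ((N : ℝ) + 2) := Real.sqrt_pos.2 (by positivity)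
  have hsub : Set.Ioo 0 (|r| / Real.sqrt ((N : ℝ) + 2)) ⊆ Prod.mk r ⁻¹' S := fun t ht => by
    show |t| * Real.sqrt ((N : ℝ) + 2) ≤ |r|
    rw [abs_of_pos ht.1]
    exact ((le_div_iff₀ hs).1 ht.2.le)
  have h0 := measure_mono_null hsub hv
  rw [Real.volume_Ioo, ENNReal.ofReal_eq_zero] at h0
  have : 0 < |r| / Real.sqrt ((N : ℝ) + 2) := div_pos (abs_pos.2 hr0) hs
  linarith

lemma sLaw_real_Icc_pos (N : ℕ) {T : ℝ} (hT : 1 ≤ T) : 0 < (sLaw N).real (Set.Icc (-T) T) :=
  ENNReal.toReal_pos (sLaw_Icc_ne_zero N hT) (measure_ne_top _ _)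

lemma isProbabilityMeasure_sLawT (N : ℕ) {T : ℝ} (hT : 1 ≤ T) : IsProbabilityMeasure (sLawT N T) := by
  refine ⟨?_⟩
  rw [sLawT, Measure.smul_apply, Measure.restrict_apply_univ, smul_eq_mul]
  exact ENNReal.inv_mul_cancel (sLaw_Icc_ne_zero N hT) (measure_ne_top _ _)

/-- An integral over the truncated split. -/
lemma integral_window (N : ℕ) {T : ℝ} (hT : 1 ≤ T) {F : Sph (N + 1) × ℝ → ℝ}
    (hF : Integrable F ((sphereMeasure (N + 1)).prod (sLawT N T))) :
    ∫ s in Set.Icc (-T) T, ∫ θ, F (θ, s) ∂sphereMeasure (N + 1) ∂sLaw N =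
      (sLaw N).real (Set.Icc (-T) T) * ∫ z, F z ∂(sphereMeasure (N + 1)).prod (sLawT N T) := by
  have := isProbabilityMeasure_sLawT N hT
  rw [integral_prod_symm F hF, sLawT, integral_smul_measure, ENNReal.toReal_inv, smul_eq_mul,
    ← mul_assoc, ← measureReal_def, mul_inv_cancel₀ (sLaw_real_Icc_pos N hT).ne', one_mul]

/-- Patterns of `N + 2` coordinates from patterns of `N + 1` and cavity fields. -/
lemma measurePreserving_cavPat (N M : ℕ) :
    MeasurePreserving (fun p : (ℕ → Sp (N + 1)) × (ℕ → ℝ) => fun a : Fin M => snocPat (p.1 a, p.2 a))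
      ((patLaw (N + 1)).prod fieldLaw) (Measure.pi fun _ : Fin M => stdGaussian (Sp (N + 2))) := by
  have h1 : MeasurePreserving
      (fun p : (ℕ → Sp (N + 1)) × (ℕ → ℝ) => ((fun a : Fin M => p.1 a), (fun a : Fin M => p.2 a)))
      ((patLaw (N + 1)).prod fieldLaw)
      ((Measure.pi fun _ : Fin M => stdGaussian (Sp (N + 1))).prod
        (Measure.pi fun _ : Fin M => gaussianReal 0 1)) :=
    MeasurePreserving.prod ⟨by fun_prop, map_first_patterns M⟩ ⟨by fun_prop, map_first_patterns M⟩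
  have h2 := (measurePreserving_arrowProdEquivProdArrow (Sp (N + 1)) ℝ (Fin M)
    (fun _ => stdGaussian (Sp (N + 1))) (fun _ => gaussianReal 0 1)).symm _
  have h3 := measurePreserving_pi (fun _ : Fin M => (stdGaussian (Sp (N + 1))).prod (gaussianReal 0 1))
    (fun _ : Fin M => stdGaussian (Sp (N + 2))) fun _ => measurePreserving_snocPat (n := N + 1)
  exact h3.comp (h2.comp h1)

/-- The expected log-partition function with the new coordinate. -/
lemma sphCavTop_eq (hf : Pot f B) (α : ℝ) (N : ℕ) (x : Fin P → ℝ) {T : ℝ} (hT : 1 ≤ T) :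
    sphCavTop f α N x T = Real.log ((sLaw N).real (Set.Icc (-T) T)) +
      ∫ M, gF f ((sphereMeasure (N + 1)).prod (sLawT N T)) (splitT N T) (fun z => (z.1 : Sp (N + 1)))
        (strength N • x) M ∂poiLaw (α * ((N : ℝ) + 2)) := by
  have := isProbabilityMeasure_sLawT N hT
  set μ := (sphereMeasure (N + 1)).prod (sLawT N T)
  set c := strength N • x with hc
  have hv := measurable_splitT N T
  have hu : Measurable fun z : Sph (N + 1) × ℝ => (z.1 : Sp (N + 1)) := measurable_subtype_coe.comp measurable_fst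
  have hu1 : ∀ z : Sph (N + 1) × ℝ, ‖(z.1 : Sp (N + 1))‖ = 1 := fun z => norm_sphCoe z.1
  set p := (sLaw N).real (Set.Icc (-T) T)
  have hpt : ∀ (M : ℕ) (q : (ℕ → Sp (N + 1)) × (ℕ → ℝ)) (J : PertSpace (N + 1) P),
      Real.log (∫ s in Set.Icc (-T) T, ∫ θ, sphCavW f N x ((M, q), J) (θ, s) ∂sphereMeasure (N + 1)
        ∂sLaw N) = Real.log p + lz μ (fun z => pertVec c ((z.1 : Sp (N + 1))))
          (gW f (splitT N T) fun a : Fin M => snocPat (q.1 a, q.2 a)) J := by
    intro M q J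
    set g := fun a : Fin M => snocPat (q.1 a, q.2 a)
    have hw : Wt fun z => gW f (splitT N T) g z * Real.exp ⟪J, pertVec c ((z.1 : Sp (N + 1)))⟫ :=
      (wt_gW hf hv g).mul (wt_field (measurable_pert_comp c hu) (norm_pert_le hu1 c) J)
    have e : Set.EqOn (fun s => ∫ θ, sphCavW f N x ((M, q), J) (θ, s) ∂sphereMeasure (N + 1))
        (fun s => ∫ θ, gW f (splitT N T) g (θ, s) * Real.exp ⟪J, pertVec c ((θ : Sp (N + 1)))⟫
          ∂sphereMeasure (N + 1)) (Set.Icc (-T) T) := fun s hs =>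
      integral_congr_ae (Eventually.of_forall fun θ => by
        simp only [sphCavW, gW, hc, pertVec_smul, real_inner_smul_right, splitT_of_mem θ hs]
        congr 2
        rw [← Fin.sum_univ_eq_sum_range]
        refine Finset.sum_congr rfl fun a _ => congrArg f ?_
        exact (inner_splitVec (q.1 a) (q.2 a) θ s).symm)
    rw [setIntegral_congr_fun measurableSet_Icc e, integral_window N hT hw.integrable,
      Real.log_mul (sLaw_real_Icc_pos N hT).ne' hw.integral_pos.ne']
    rfl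
  obtain ⟨hi, he⟩ := integral_count_law (μ := μ) hf hv hu hu1 c (α * ((N : ℝ) + 2))
    (ρ := (patLaw (N + 1)).prod fieldLaw) (fun M => measurePreserving_cavPat N M)
    (G := fun w => Real.log (∫ s in Set.Icc (-T) T, ∫ θ, sphCavW f N x w (θ, s)
      ∂sphereMeasure (N + 1) ∂sLaw N) - Real.log p)
    fun M q J => by rw [hpt]; ring
  rw [sphCavTop, ← he]
  refine (integral_congr_ae (Eventually.of_forall fun w =>
    (add_sub_cancel (Real.log p) _).symm)).trans ?_
  rw [integral_add (integrable_const _) hi]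
  simp

/-- The free energy of a perturbed system on the sphere. -/
lemma sphSys_free_eq (hf : Pot f B) (N : ℕ) (lam : ℝ) (x : Fin P → ℝ) :
    (sphSys hf N lam 0 x).free = ∫ M, gF f (sphereMeasure (N + 1)) (Subtype.val : Sph (N + 1) → Sp (N + 1)) (Subtype.val : Sph (N + 1) → Sp (N + 1))
      (strength N • x) M ∂poiLaw lam := by
  refine (integral_count_law (μ := sphereMeasure (N + 1)) hf measurable_subtype_coe measurable_subtype_coe
    norm_sphCoe (strength N • x) lam (ρ := patLaw (N + 1))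
    (Φ := fun M g (a : Fin M) => g a) (fun M => ⟨by fun_prop, map_first_patterns M⟩)
    (G := fun w => logI (sphSys hf N lam 0 x).ref ((sphSys hf N lam 0 x).w w)) fun M g J => ?_).2
  show _ = logI (sphereMeasure (N + 1)) _
  simp only [pertVec_smul, real_inner_smul_right, gW_first]
  rfl

lemma integrableOn_sFree (hf : Pot f B) (lam : ℝ) (N P : ℕ) :
    IntegrableOn (fun x : Fin P → ℝ => (sphSys hf N lam 0 x).free) (box P) := by
  simp only [fun x : Fin P → ℝ => sphSys_free_eq hf N lam x]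
  exact (continuousOn_gF hf measurable_subtype_coe measurable_subtype_coe norm_sphCoe (strength_pos N)
    lam).integrableOn_compact (isCompact_box P)

/-- The gain is integrable over the coefficients. -/
theorem integrableOn_sphCavDiff (hf : Pot f B) {α : ℝ} (hα : 0 ≤ α) (N P : ℕ) {T : ℝ} (hT : 1 ≤ T) :
    IntegrableOn (fun x => sphCavDiff hf α N x T) (box P) := by
  have _ := hα
  have := isProbabilityMeasure_sLawT N hT
  refine Integrable.sub ?_ (integrableOn_sFree hf _ N P)
  simp only [fun x : Fin P → ℝ => sphCavTop_eq hf α N x hT]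
  exact (continuousOn_const.add (continuousOn_gF hf (measurable_splitT N T)
    (measurable_subtype_coe.comp measurable_fst) (fun z => norm_sphCoe z.1) (strength_pos N)
    _)).integrableOn_compact (isCompact_box P)

/-- The whole sphere is above the truncated split. -/
lemma gF_split_le (hf : Pot f B) (N : ℕ) {T : ℝ} (hT : 1 ≤ T) (hTN : T ^ 2 ≤ (N : ℝ) + 2)
    (c : Fin P → ℝ) (M : ℕ) :
    Real.log ((sLaw N).real (Set.Icc (-T) T)) +
        gF f ((sphereMeasure (N + 1)).prod (sLawT N T)) (splitT N T) (splitT N T) c M ≤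
      gF f (sphereMeasure (N + 1 + 1)) (Subtype.val : Sph (N + 1 + 1) → Sp (N + 1 + 1)) (Subtype.val : Sph (N + 1 + 1) → Sp (N + 1 + 1)) c M := by
  have := isProbabilityMeasure_sLawT N hT
  set σ := sphereMeasure (N + 1)
  set μ := σ.prod (sLawT N T)
  set p := (sLaw N).real (Set.Icc (-T) T)
  have hv := measurable_splitT N T
  have hv1 := norm_splitT (N := N) (by linarith) hTN
  have key : ∀ (g : Fin M → Sp (N + 2)) (J : PertSpace (N + 2) P),
      Real.log p + lz μ (fun z => pertVec c (splitT N T z)) (gW f (splitT N T) g) J ≤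
        lz (sphereMeasure (N + 1 + 1)) (fun r => pertVec c (r : Sp (N + 1 + 1)))
          (gW f (Subtype.val : Sph (N + 1 + 1) → Sp (N + 1 + 1)) g) J := fun g J => by
    set H : Sp (N + 2) → ℝ := fun u => Real.exp (∑ a, f ⟪g a, u⟫) * Real.exp ⟪J, pertVec c u⟫
    have hHm : Measurable H :=
      (Finset.measurable_sum _ fun a _ => hf.meas.comp (measurable_const.inner measurable_id)).exp.mul
        ((measurable_const.inner (measurable_pertVec c)).exp)
    have hH0 : ∀ u, 0 ≤ H u := fun u => mul_nonneg (Real.exp_pos _).le (Real.exp_pos _).le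
    have hwT : Wt fun z => H (splitT N T z) :=
      (wt_gW hf hv g).mul (wt_field (measurable_pert_comp c hv) (norm_pert_le hv1 c) J)
    have hwS : Wt fun r : Sph (N + 1 + 1) => H (r : Sp (N + 1 + 1)) :=
      (wt_gW hf measurable_subtype_coe g).mul
        (wt_field (measurable_pert_comp c measurable_subtype_coe) (norm_pert_le norm_sphCoe c) J)
    have h1 : Integrable H ((sphereMeasure (N + 2)).map Subtype.val) :=
      (integrable_map_measure hHm.aestronglyMeasurable measurable_subtype_coe.aemeasurable).2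
        (hwS.integrable (μ := sphereMeasure (N + 1 + 1)))
    rw [map_split] at h1
    have h2 : Integrable (fun z : Sph (N + 1) × ℝ => H (splitVec z.1 z.2)) (σ.prod (sLaw N)) :=
      (integrable_map_measure hHm.aestronglyMeasurable measurable_splitVec.aemeasurable).1 h1
    have e : ∫ r, H (r : Sp (N + 1 + 1)) ∂sphereMeasure (N + 1 + 1) =
        ∫ s, ∫ θ, H (splitVec θ s) ∂σ ∂sLaw N := by
      refine Eq.trans ?_ (integral_prod_symm _ h2)
      rw [← integral_map (φ := fun z : Sph (N + 1) × ℝ => splitVec z.1 z.2)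
        measurable_splitVec.aemeasurable hHm.aestronglyMeasurable, ← map_split,
        integral_map measurable_subtype_coe.aemeasurable hHm.aestronglyMeasurable]
    have hle : p * ∫ z, H (splitT N T z) ∂μ ≤ ∫ r, H (r : Sp (N + 1 + 1)) ∂sphereMeasure (N + 1 + 1) := by
      rw [e, ← integral_window N hT hwT.integrable]
      refine (setIntegral_congr_fun measurableSet_Icc fun s hs => ?_).trans_le
        (setIntegral_le_integral h2.integral_prod_right
          (Eventually.of_forall fun s => integral_nonneg fun θ => hH0 _))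
      simp only [splitT_of_mem _ hs]
      rfl
    have hpos := sLaw_real_Icc_pos N hT
    have h3 := Real.log_le_log (mul_pos hpos hwT.integral_pos) hle
    rw [Real.log_mul hpos.ne' hwT.integral_pos.ne'] at h3
    exact h3
  have hi1 := integrable_elz_gW (M := M) (μ := μ) hf hv hv hv1 c
  rw [gF, gF]
  refine le_of_eq_of_le ?_ (integral_mono ((integrable_const (Real.log p)).add hi1)
    (integrable_elz_gW hf measurable_subtype_coe measurable_subtype_coe norm_sphCoe c) fun g => ?_)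
  · simp only [Pi.add_apply]
    rw [integral_add (integrable_const _) hi1]
    simp
  have hl1 := integrable_lz_one (μ := μ) (wt_gW hf hv g) (measurable_pert_comp c hv) (norm_pert_le hv1 c)
  refine le_of_eq_of_le ?_ (integral_mono ((integrable_const (Real.log p)).add hl1)
    (integrable_lz_one (μ := sphereMeasure (N + 1 + 1)) (wt_gW hf measurable_subtype_coe g)
      (measurable_pert_comp c measurable_subtype_coe) (norm_pert_le norm_sphCoe c)) (key g))
  simp only [Pi.add_apply]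
  rw [integral_add (integrable_const _) hl1]
  simp [elz]

/-- The price of one more coordinate. -/
noncomputable def sphStepErr (P : ℕ) (T : ℝ) (N : ℕ) : ℝ :=
  12 * (P : ℝ) ^ 2 * ((P : ℝ) + 1) * T ^ 2 * ((N : ℝ) + 1) ^ (-(1 / 5) : ℝ)

lemma strength_step (N : ℕ) :
    strength (N + 1) ^ 2 - strength N ^ 2 ≤ ((N : ℝ) + 1) ^ (-(1 / 5) : ℝ) ∧
      strength (N + 1) ^ 2 / ((N : ℝ) + 2) ≤ ((N : ℝ) + 1) ^ (-(1 / 5) : ℝ) := by
  set S := strength N ^ 2 with hS
  set S' := strength (N + 1) ^ 2 with hS'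
  have hN1 : (0 : ℝ) < (N : ℝ) + 1 := by positivity
  refine ⟨?_, ?_⟩
  · have h1 : (((N + 1 : ℕ) : ℝ) + 1) ^ (4 / 5 : ℝ) ≤
        ((N : ℝ) + 1) ^ (4 / 5 : ℝ) * (((N : ℝ) + 2) / ((N : ℝ) + 1)) := by
      rw [show ((N + 1 : ℕ) : ℝ) + 1 = ((N : ℝ) + 1) * (((N : ℝ) + 2) / ((N : ℝ) + 1)) by
        push_cast; field_simp; ring, Real.mul_rpow hN1.le (by positivity)]
      refine mul_le_mul_of_nonneg_left ?_ (by positivity)
      refine (Real.rpow_le_rpow_of_exponent_le ?_ (by norm_num : (4 / 5 : ℝ) ≤ 1)).trans_eq (Real.rpow_one _)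
      rw [le_div_iff₀ hN1]; linarith
    rw [← strength_sq, ← strength_sq, ← hS, ← hS', ← mul_div_assoc, le_div_iff₀ hN1] at h1
    rw [← strength_sq_div, le_div_iff₀ hN1, ← hS]
    nlinarith
  · have e := strength_sq_div (N + 1)
    push_cast at e
    rw [show (N : ℝ) + 1 + 1 = (N : ℝ) + 2 by ring] at e
    rw [hS', e]
    exact Real.rpow_le_rpow_of_nonpos hN1 (by linarith) (by norm_num)

/-- The expectation with the new coordinate is at most the one with one more coordinate. -/
lemma sphCavTop_le (hf : Pot f B) (α : ℝ) (N : ℕ) {T : ℝ} (hT : 1 ≤ T)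
    (hN : ((P : ℝ) + 1) * T ^ 2 ≤ (N : ℝ) + 2) {x : Fin P → ℝ} (hx : x ∈ box P) :
    sphCavTop f α N x T ≤ (sphSys hf (N + 1) (α * ((N : ℝ) + 2)) 0 x).free + sphStepErr P T N := by
  have := isProbabilityMeasure_sLawT N hT
  rw [sphCavTop_eq hf α N x hT, sphSys_free_eq hf]
  set lam := α * ((N : ℝ) + 2)
  set σ := sphereMeasure (N + 1)
  set μ := σ.prod (sLawT N T)
  have hn : (0 : ℝ) < (N : ℝ) + 2 := by positivity
  have hT0 : (0 : ℝ) ≤ T := by linarith
  have hP1 : (1 : ℝ) ≤ (P : ℝ) + 1 := le_add_of_nonneg_left (Nat.cast_nonneg _)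
  have hTN : T ^ 2 ≤ (N : ℝ) + 2 := (le_mul_of_one_le_left (sq_nonneg _) hP1).trans hN
  set δ := ((P : ℝ) + 1) * T ^ 2 / ((N : ℝ) + 2) with hδ
  have hδ0 : 0 < δ := div_pos (mul_pos (by linarith) (by positivity)) hn
  have hδ1 : δ ≤ 1 := (div_le_one hn).2 hN
  set κ0 := 1 - δ with hκ0
  set cT := fun z : Sph (N + 1) × ℝ => max (-T) (min T z.2)
  set κ := fun (z : Sph (N + 1) × ℝ) (i : (p : Fin P) × (Fin ((p : ℕ) + 1) → Fin (N + 1))) =>
    Real.sqrt (1 - cT z ^ 2 / ((N : ℝ) + 2)) ^ ((i.1 : ℕ) + 1) with hκ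
  have hκb : ∀ z i, κ z i ∈ Set.Icc κ0 (κ0 + δ) := fun z i => by
    have h2 : cT z ^ 2 / ((N : ℝ) + 2) ≤ T ^ 2 / ((N : ℝ) + 2) :=
      div_le_div_of_nonneg_right (sq_clamp_le hT0 _) hn.le
    have h3 : T ^ 2 / ((N : ℝ) + 2) ≤ 1 := (div_le_one hn).2 hTN
    have h0 : 0 ≤ cT z ^ 2 / ((N : ℝ) + 2) := by positivity
    simp only [hκ, hκ0, sub_add_cancel]
    set a := cT z ^ 2 / ((N : ℝ) + 2)
    refine ⟨?_, pow_le_one₀ (Real.sqrt_nonneg _) (Real.sqrt_le_one.2 (by linarith))⟩
    refine le_trans ?_ (pow_le_pow_left₀ (by linarith)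
      (Real.le_sqrt_of_sq_le (show (1 - a) ^ 2 ≤ 1 - a by nlinarith)) _)
    have h4 := one_add_mul_le_pow (a := -a) (by linarith) ((i.1 : ℕ) + 1)
    rw [← sub_eq_add_neg] at h4
    have h5 : (((i.1 : ℕ) + 1 : ℕ) : ℝ) * a ≤ δ := by
      have hp : (((i.1 : ℕ) + 1 : ℕ) : ℝ) ≤ (P : ℝ) + 1 := by
        have : (((i.1 : ℕ) + 1 : ℕ) : ℝ) ≤ (P : ℝ) := by exact_mod_cast Nat.succ_le_of_lt i.1.2
        linarith
      refine (mul_le_mul hp h2 h0 (by linarith)).trans_eq ?_
      rw [hδ, mul_div_assoc]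
    nlinarith
  set c := strength N • x with hc
  set c' := strength (N + 1) • x with hc'
  have hu : Measurable fun z : Sph (N + 1) × ℝ => (z.1 : Sp (N + 1)) := measurable_subtype_coe.comp measurable_fst
  have hu1 : ∀ z : Sph (N + 1) × ℝ, ‖(z.1 : Sp (N + 1))‖ = 1 := fun z => norm_sphCoe z.1
  have hv := measurable_splitT N T
  have hv1 := norm_splitT (N := N) hT0 hTN
  have hxb : ∀ q, 1 ≤ x q ∧ x q ≤ 2 := fun q => hx q (Set.mem_univ q)
  set l := ∑ q, |c' q| with hl
  have hold : ∀ M, gF f μ (splitT N T) (fun z => (z.1 : Sp (N + 1))) (κ0 • c') M ≤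
      gF f μ (splitT N T) (splitT N T) c' M + δ * l ^ 2 := fun M => by
    rw [gF, gF]
    refine (integral_mono (integrable_elz_gW (μ := μ) hf hv hu hu1 _) ((integrable_elz_gW (μ := μ) hf hv hv hv1 c').add
      (integrable_const (δ * l ^ 2))) fun g => ?_).trans_eq ?_
    swap
    · simp only [Pi.add_apply]
      rw [integral_add (integrable_elz_gW (μ := μ) hf hv hv hv1 _) (integrable_const _)]
      simp
    have hw := wt_gW (M := M) hf hv g
    have hr : Measurable fun z : Sph (N + 1) × ℝ =>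
        Real.sqrt (1 - cT z ^ 2 / ((N : ℝ) + 2)) :=
      ((((measurable_const.max (measurable_const.min measurable_snd)).pow_const 2).div_const
        _).const_sub 1).sqrt
    have h1 := elz_scale (μ := μ) hw (measurable_pert_comp c' hu) (norm_pert_le hu1 c')
      (κ := κ) (fun i => hr.pow_const _) (show 0 ≤ κ0 by linarith) hδ0 (by linarith) hκb
    have h2 := elz_restrict (μ := μ) hw (oldIdx_injective (N + 1) P)
      (measurable_pert_comp c' hv) (norm_pert_le hv1 c')
    have e1 : (fun z => WithLp.toLp 2 fun j => pertVec c' (splitT N T z) (oldIdx (N + 1) P j)) =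
        fun z => WithLp.toLp 2 fun i => κ z i * pertVec c' ((z.1 : Sp (N + 1))) i :=
      funext fun z => congrArg _ (funext fun i => pertVec_splitT N T c' z i)
    have e2 : (fun z : Sph (N + 1) × ℝ => pertVec (κ0 • c') ((z.1 : Sp (N + 1)))) =
        fun z => WithLp.toLp 2 fun i => κ0 * pertVec c' ((z.1 : Sp (N + 1))) i := by
      funext z
      rw [pertVec_smul]
      rfl
    rw [e1] at h2
    rw [Pi.add_apply, e2]
    linarith
  obtain ⟨hgrow, hlast⟩ := strength_step N
  set d := ((N : ℝ) + 1) ^ (-(1 / 5) : ℝ) with hd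
  have hd0 : 0 < d := Real.rpow_pos_of_pos (by positivity) _
  set S := strength N ^ 2 with hS
  set S' := strength (N + 1) ^ 2 with hS'
  have hSS : S ≤ S' := strength_mono_sq N
  have hS'δ : S' * δ ≤ ((P : ℝ) + 1) * T ^ 2 * d := by
    rw [hδ, mul_div_left_comm]
    exact mul_le_mul_of_nonneg_left hlast (by positivity)
  have hk : δ * l ^ 2 ≤ 4 * (P : ℝ) ^ 2 * ((P : ℝ) + 1) * T ^ 2 * d := by
    have h : l ≤ (P : ℝ) * (strength (N + 1) * 2) := by
      refine (Finset.sum_le_sum (g := fun _ : Fin P => strength (N + 1) * 2) fun q _ => ?_).trans_eq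
        (by simp)
      rw [hc', Pi.smul_apply, smul_eq_mul,
        abs_of_nonneg (mul_nonneg (strength_pos _).le (by linarith [(hxb q).1]))]
      exact mul_le_mul_of_nonneg_left (hxb q).2 (strength_pos _).le
    refine (mul_le_mul_of_nonneg_left (pow_le_pow_left₀ (Finset.sum_nonneg fun q _ => abs_nonneg _)
      h 2) hδ0.le).trans ?_
    rw [mul_pow, mul_pow, ← hS']
    nlinarith [mul_le_mul_of_nonneg_left hS'δ (by positivity : (0 : ℝ) ≤ 4 * (P : ℝ) ^ 2)]
  have hco : (∑ q, Real.sqrt |c q ^ 2 - (κ0 • c') q ^ 2|) ^ 2 / 2 ≤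
      8 * (P : ℝ) ^ 2 * ((P : ℝ) + 1) * T ^ 2 * d := by
    have hq : ∀ q, |c q ^ 2 - (κ0 • c') q ^ 2| ≤ 16 * ((P : ℝ) + 1) * T ^ 2 * d := fun q => by
      have e : c q ^ 2 - (κ0 • c') q ^ 2 = x q ^ 2 * (S - κ0 ^ 2 * S') := by
        simp only [hc, hc', Pi.smul_apply, smul_eq_mul, hS, hS']
        ring
      rw [e, abs_mul, abs_of_nonneg (sq_nonneg (x q))]
      have h4 : x q ^ 2 ≤ 4 := by nlinarith [(hxb q).1, (hxb q).2]
      refine (mul_le_mul (d := 4 * ((P : ℝ) + 1) * T ^ 2 * d) h4 ?_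
        (abs_nonneg _) (by norm_num)).trans_eq (by ring)
      have h5 : 0 ≤ S' * δ := mul_nonneg (sq_nonneg _) hδ0.le
      have h6 : S' * δ ^ 2 ≤ S' * δ :=
        mul_le_mul_of_nonneg_left (by nlinarith) (sq_nonneg _)
      have h7 : 1 ≤ ((P : ℝ) + 1) * T ^ 2 := by nlinarith
      have h8 : 0 ≤ S' * δ ^ 2 := mul_nonneg (sq_nonneg _) (sq_nonneg _)
      rw [abs_le, hκ0]
      constructor <;> nlinarith [mul_le_mul_of_nonneg_right h7 hd0.le]
    have hs : ∑ q : Fin P, Real.sqrt |c q ^ 2 - (κ0 • c') q ^ 2| ^ 2 ≤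
        (P : ℝ) * (16 * ((P : ℝ) + 1) * T ^ 2 * d) := by
      refine (Finset.sum_le_sum fun q _ => ?_).trans_eq (by
        rw [Finset.sum_const, Finset.card_univ, Fintype.card_fin, nsmul_eq_mul])
      rw [Real.sq_sqrt (abs_nonneg _)]
      exact hq q
    refine (div_le_div_of_nonneg_right sq_sum_le_card_mul_sum_sq two_pos.le).trans ?_
    rw [Finset.card_univ, Fintype.card_fin]
    linarith [mul_le_mul_of_nonneg_left hs (Nat.cast_nonneg (α := ℝ) P)]
  have key : ∀ M, Real.log ((sLaw N).real (Set.Icc (-T) T)) +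
      gF f μ (splitT N T) (fun z => (z.1 : Sp (N + 1))) c M ≤
        gF f (sphereMeasure (N + 1 + 1)) (Subtype.val : Sph (N + 1 + 1) → Sp (N + 1 + 1)) (Subtype.val : Sph (N + 1 + 1) → Sp (N + 1 + 1)) c' M + sphStepErr P T N :=
    fun M => by
    have h1 := gF_coeff (μ := μ) hf hv hu hu1 (y := κ0 • c') (z := c)
      (fun q => by
        simp only [hc', Pi.smul_apply, smul_eq_mul]
        exact mul_nonneg (by linarith) (mul_nonneg (strength_pos _).le (by linarith [(hxb q).1])))
      (fun q => by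
        simp only [hc, Pi.smul_apply, smul_eq_mul]
        exact mul_pos (strength_pos N) (by linarith [(hxb q).1])) M
    have h2 := hold M
    have h3 := gF_split_le hf N hT hTN c' M
    rw [sphStepErr, ← hd]
    linarith
  have hi := integrable_gF (μ := μ) hf hv hu hu1 c lam
  have hj := integrable_gF (μ := sphereMeasure (N + 1 + 1)) hf measurable_subtype_coe measurable_subtype_coe
    norm_sphCoe c' lam
  refine le_of_eq_of_le ?_ ((integral_mono ((integrable_const _).add hi)
    (hj.add (integrable_const (sphStepErr P T N))) key).trans_eq ?_)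
  · simp only [Pi.add_apply]
    rw [integral_add (integrable_const _) hi]
    simp
  · simp only [Pi.add_apply]
    rw [integral_add hj (integrable_const _)]
    simp

/-- The perturbed free energy against the unperturbed one at the mean number of patterns. -/
lemma sFree_le_sphereF (hf : Pot f B) {α : ℝ} (hα : 0 ≤ α) (N : ℕ) {x : Fin P → ℝ} (hx : x ∈ box P) :
    (sphSys hf N (α * ((N : ℝ) + 1)) 0 x).free ≤ sphereF f (N + 1) ⌊α * (N + 1 : ℕ)⌋₊ +
      (1 + B) * (Real.sqrt (α * ((N : ℝ) + 1)) + 2) + 2 * (P : ℝ) ^ 2 * strength N ^ 2 := by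
  rw [sphSys_free_eq hf]
  set lam := α * ((N : ℝ) + 1) with hlam
  have hl : 0 ≤ lam := mul_nonneg hα (by positivity)
  set k := ⌊α * (N + 1 : ℕ)⌋₊ with hk
  have hk' : |lam - k| ≤ 1 := by
    have h1 : (k : ℝ) ≤ lam := by
      have := Nat.floor_le (show 0 ≤ α * ((N + 1 : ℕ) : ℝ) by positivity)
      simpa [hk, hlam] using this
    have h2 : lam < k + 1 := by
      have := Nat.lt_floor_add_one (α * ((N + 1 : ℕ) : ℝ))
      simpa [hk, hlam] using this
    rw [abs_of_nonneg (by linarith)]; linarith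
  have hnorm : (∑ q, |(strength N • x) q|) ^ 2 / 2 ≤ 2 * (P : ℝ) ^ 2 * strength N ^ 2 := by
    have h : ∑ q, |(strength N • x) q| ≤ (P : ℝ) * (strength N * 2) := by
      refine (Finset.sum_le_sum (g := fun _ : Fin P => strength N * 2) fun q _ => ?_).trans_eq (by simp)
      obtain ⟨h1, h2⟩ := hx q (Set.mem_univ q)
      rw [Pi.smul_apply, smul_eq_mul, abs_of_nonneg (mul_nonneg (strength_pos N).le (by linarith))]
      exact mul_le_mul_of_nonneg_left h2 (strength_pos N).le
    have h' := pow_le_pow_left₀ (Finset.sum_nonneg fun q _ => abs_nonneg _) h 2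
    nlinarith
  set c := Real.sqrt lam + 1 with hc
  have hc0 : 0 < c := by positivity
  have hv : Integrable (fun M : ℕ => ((M : ℝ) - lam) ^ 2) (poiLaw lam) := by
    refine (((integrable_poiLaw_pow lam 2).sub ((integrable_poiLaw_pow lam 1).const_mul (2 * lam))).add
      (integrable_const (lam ^ 2))).congr (Eventually.of_forall fun M => ?_)
    simp only [Pi.add_apply, Pi.sub_apply, pow_one]
    ring
  set K := sphereF f (N + 1) k + (1 + B) + (1 + B) * (Real.sqrt lam / 2) +
    (∑ q, |(strength N • x) q|) ^ 2 / 2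
  have hB := hf.nonneg
  have hpt : ∀ M : ℕ, gF f (sphereMeasure (N + 1)) (Subtype.val : Sph (N + 1) → Sp (N + 1)) (Subtype.val : Sph (N + 1) → Sp (N + 1)) (strength N • x) M ≤
      K + (1 + B) / (2 * c) * ((M : ℝ) - lam) ^ 2 + (1 + B) / 2 := fun M => by
    refine (gF_le_L hf measurable_subtype_coe measurable_subtype_coe norm_sphCoe _ M).trans ?_
    have h1 := L_lipschitz (μ := sphereMeasure (N + 1)) hf (v := (Subtype.val : Sph (N + 1) → Sp (N + 1))) measurable_subtype_coe
      Wt.one M k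
    have e : L (sphereMeasure (N + 1)) f (Subtype.val : Sph (N + 1) → Sp (N + 1)) k (fun _ => 1) = sphereF f (N + 1) k := rfl
    rw [e] at h1
    have h2 : |(M : ℝ) - k| ≤ |(M : ℝ) - lam| + 1 := (abs_sub_le _ _ _).trans (add_le_add le_rfl hk')
    have h3 : |(M : ℝ) - lam| ≤ ((M : ℝ) - lam) ^ 2 / (2 * c) + c / 2 := by
      rw [div_add_div _ _ (by positivity) two_ne_zero, le_div_iff₀ (by positivity), ← sq_abs ((M : ℝ) - lam)]
      nlinarith [sq_nonneg (|(M : ℝ) - lam| - c)]
    have h4 := mul_le_mul_of_nonneg_left (h2.trans (add_le_add h3 le_rfl)) (by linarith : (0 : ℝ) ≤ 1 + B)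
    have h5 := (abs_le.1 h1).2
    have h6 : (1 + B) * (((M : ℝ) - lam) ^ 2 / (2 * c)) = (1 + B) / (2 * c) * ((M : ℝ) - lam) ^ 2 := by ring
    simp only [K]
    rw [hc] at h4 h6 ⊢
    linarith
  have hint : Integrable (fun M : ℕ => (1 + B) / (2 * c) * ((M : ℝ) - lam) ^ 2) (poiLaw lam) :=
    hv.const_mul _
  have hKi : Integrable (fun M : ℕ => K + (1 + B) / (2 * c) * ((M : ℝ) - lam) ^ 2) (poiLaw lam) :=
    (integrable_const _).add hint
  refine (integral_mono (integrable_gF hf measurable_subtype_coe measurable_subtype_coe norm_sphCoe _ lam)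
    (hKi.add (integrable_const ((1 + B) / 2))) hpt).trans ?_
  simp only [Pi.add_apply]
  rw [integral_add hKi (integrable_const _), integral_add (integrable_const _) hint, integral_const_mul,
    poiLaw_variance hl]
  simp only [integral_const, probReal_univ, one_smul]
  have h7 : (1 + B) / (2 * c) * lam ≤ (1 + B) * (Real.sqrt lam / 2) := by
    rw [div_mul_eq_mul_div, div_le_iff₀ (by positivity), hc]
    nlinarith [Real.sq_sqrt hl, mul_nonneg (by linarith : (0 : ℝ) ≤ 1 + B) (Real.sqrt_nonneg lam)]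
  simp only [K]
  nlinarith

/-- A lower bound for the gain of one coordinate bounds the pressure. -/
theorem pressure_of_sphCavity (hf : Pot f B) {α : ℝ} (hα : 0 < α) {c : ℝ}
    (hcav : ∀ η, 0 < η → ∃ (P : ℕ) (T : ℝ), 1 ≤ T ∧ ∀ᶠ N : ℕ in atTop,
      c - η ≤ ∫ x in box P, sphCavDiff hf α N x T) {η : ℝ} (hη : 0 < η) :
    ∀ᶠ N : ℕ in atTop, c - η ≤ spherePressure f N ⌊α * N⌋₊ := by
  obtain ⟨P, T, hT, hP⟩ := hcav (η / 4) (by linarith)
  set F := fun (N : ℕ) (x : Fin P → ℝ) => (sphSys hf N (α * ((N : ℝ) + 1)) 0 x).free with hF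
  set J := fun N : ℕ => ∫ x in box P, F N x with hJ
  have hFi : ∀ N, IntegrableOn (F N) (box P) := fun N => integrableOn_sFree hf _ N P
  have he : Tendsto (fun N => sphStepErr P T N) atTop (𝓝 0) := by
    simpa [sphStepErr] using
      (tendsto_rpow_succ (a := -(1 / 5)) (by norm_num)).const_mul
        (12 * (P : ℝ) ^ 2 * ((P : ℝ) + 1) * T ^ 2)
  have hev : ∀ᶠ N : ℕ in atTop, ((P : ℝ) + 1) * T ^ 2 ≤ (N : ℝ) + 2 := by
    filter_upwards [eventually_ge_atTop ⌈((P : ℝ) + 1) * T ^ 2⌉₊] with N hN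
    have : ((P : ℝ) + 1) * T ^ 2 ≤ (N : ℝ) := Nat.ceil_le.1 hN
    linarith
  obtain ⟨n0, hn0⟩ := eventually_atTop.1
    ((hP.and (he.eventually (gt_mem_nhds (by linarith : 0 < η / 4)))).and hev)
  have hstep : ∀ N ≥ n0, J N + (c - η / 2) ≤ J (N + 1) := fun N hN => by
    obtain ⟨⟨h1, h2⟩, h3⟩ := hn0 N hN
    have hle : ∫ x in box P, sphCavDiff hf α N x T ≤
        ∫ x in box P, (F (N + 1) x - F N x + sphStepErr P T N) := by
      refine setIntegral_mono_on (integrableOn_sphCavDiff hf hα.le N P hT)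
        (((hFi (N + 1)).sub (hFi N)).add (integrableOn_const (isCompact_box P).measure_lt_top.ne))
        (isCompact_box P).measurableSet fun x hx => ?_
      have := sphCavTop_le hf α N hT h3 hx
      simp only [hF, sphCavDiff]
      have e : α * (((N + 1 : ℕ) : ℝ) + 1) = α * ((N : ℝ) + 2) := by push_cast; ring
      rw [e]
      linarith
    have hv : ∫ x in box P, (F (N + 1) x - F N x + sphStepErr P T N) =
        J (N + 1) - J N + sphStepErr P T N := by
      have hs : IntegrableOn (fun x => F (N + 1) x - F N x) (box P) := (hFi (N + 1)).sub (hFi N)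
      rw [integral_add hs (integrableOn_const (isCompact_box P).measure_lt_top.ne),
        integral_sub (hFi (N + 1)) (hFi N), setIntegral_const, measureReal_box, one_smul]
    linarith
  have hgrow : ∀ k, J n0 + k * (c - η / 2) ≤ J (n0 + k) := fun k => by
    induction k with
    | zero => simp
    | succ k ih =>
      have := hstep (n0 + k) (Nat.le_add_right _ _)
      rw [← add_assoc]
      push_cast
      linarith
  set R := fun N : ℕ => (1 + B) * (Real.sqrt (α * ((N : ℝ) + 1)) + 2) +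
    2 * (P : ℝ) ^ 2 * strength N ^ 2 with hR
  have hup : ∀ N, J N ≤ sphereF f (N + 1) ⌊α * (N + 1 : ℕ)⌋₊ + R N := fun N => by
    refine (setIntegral_mono_on (hFi N) (integrableOn_const (isCompact_box P).measure_lt_top.ne)
      (isCompact_box P).measurableSet fun x hx => (sFree_le_sphereF hf hα.le N hx).trans_eq
        (add_assoc _ _ _)).trans_eq ?_
    rw [setIntegral_const, measureReal_box, one_smul]
  set K := |J n0| + ((n0 : ℝ) + 1) * |c - η / 2| with hK
  have hsmall : Tendsto (fun N : ℕ => (K + R N) / ((N : ℝ) + 1)) atTop (𝓝 0) := by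
    have h1 : Tendsto (fun N : ℕ => (K + 2 * (1 + B)) * ((N : ℝ) + 1) ^ (-1 : ℝ) +
        (1 + B) * Real.sqrt α * ((N : ℝ) + 1) ^ (-(1 / 2) : ℝ) +
        2 * (P : ℝ) ^ 2 * ((N : ℝ) + 1) ^ (-(1 / 5) : ℝ)) atTop (𝓝 0) := by
      simpa using (((tendsto_rpow_succ (a := -1) (by norm_num)).const_mul (K + 2 * (1 + B))).add
        ((tendsto_rpow_succ (a := -(1 / 2)) (by norm_num)).const_mul ((1 + B) * Real.sqrt α))).add
        ((tendsto_rpow_succ (a := -(1 / 5)) (by norm_num)).const_mul (2 * (P : ℝ) ^ 2))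
    refine h1.congr fun N => ?_
    have hN1 : (0 : ℝ) < (N : ℝ) + 1 := by positivity
    have e1 : ((N : ℝ) + 1) ^ (-1 : ℝ) = 1 / ((N : ℝ) + 1) := by rw [Real.rpow_neg_one, one_div]
    have e2 : ((N : ℝ) + 1) ^ (-(1 / 2) : ℝ) = Real.sqrt ((N : ℝ) + 1) / ((N : ℝ) + 1) := by
      rw [Real.sqrt_eq_rpow, ← Real.rpow_sub_one hN1.ne']
      norm_num
    rw [e1, e2, ← strength_sq_div N, hR]
    simp only
    rw [Real.sqrt_mul hα.le]
    field_simp
    ring
  have hmain : ∀ᶠ N : ℕ in atTop, c - η ≤ spherePressure f (N + 1) ⌊α * (N + 1 : ℕ)⌋₊ := by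
    filter_upwards [eventually_ge_atTop n0, hsmall.eventually (gt_mem_nhds (by linarith : 0 < η / 2))] with
      N hN hs
    rw [← sphereF_eq hf (Nat.le_add_left 1 N), le_div_iff₀ (by positivity)]
    have h1 := hgrow (N - n0)
    rw [Nat.add_sub_cancel' hN, Nat.cast_sub hN] at h1
    have h2 := hup N
    rw [div_lt_iff₀ (by positivity)] at hs
    have h3 := neg_abs_le (J n0)
    have h4 : -(((n0 : ℝ) + 1) * |c - η / 2|) ≤ -((n0 : ℝ) + 1) * (c - η / 2) := by
      have := mul_le_mul_of_nonneg_left (le_abs_self (c - η / 2)) (by positivity : (0 : ℝ) ≤ (n0 : ℝ) + 1)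
      linarith
    push_cast at h2 ⊢
    rw [hK] at hs
    nlinarith
  obtain ⟨n1, hn1⟩ := eventually_atTop.1 hmain
  refine eventually_atTop.2 ⟨n1 + 1, fun N hN => ?_⟩
  obtain ⟨k, rfl⟩ : ∃ k, N = k + 1 := ⟨N - 1, by omega⟩
  exact hn1 k (by omega)

end Vale.Agent.P157.Low
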