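import Vale.Agent.P157.Low.SphValue
import Vale.Agent.P157.Low.CavityValue

/-!
The spherical value of a discretisation.
-/

namespace Vale.Agent.P157.Low

open MeasureTheory ProbabilityTheory

variable {f : ℝ → ℝ} {B : ℝ} {A : Arr}

/-- The spin value of a discretisation on the sphere. -/
noncomputable def Discr.sphVal {K : ℕ} (D : Discr A K) (f : ℝ → ℝ) (α a T L : ℝ) : ℝ :=
  potUp D.C.cdf (incr fun j => α * D.rval f j)
    (fun y => Real.log (heat (sphG a T L) (α * (D.rdiag f - D.rval f (Fin.last D.r))) y)) (D.r + 1) 0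

/-- For every discretisation some damped drift gives a value above every lower bound of Parisi's
functional, with truncations and the range of the drift uniform in the discretisation. -/
lemma exists_sphValue_ge (hf : Pot f B) (hs : Smf f) {α : ℝ} (hα : 0 ≤ α) {c : ℝ}
    (hc : ∀ q0 ls z, RsbParam q0 ls → 1 ≤ z → 0 < rsbMult ls (fun j => α * rsbOverlap f q0 ls j) z →
      c ≤ parisiSphere f α q0 ls z) {ε : ℝ} (hε : 0 < ε) :
    ∃ T L M, 1 ≤ T ∧ 0 < L ∧ ∀ (A : Arr) (K : ℕ) (D : Discr A (K + 2)),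
      ∃ a, |a| ≤ M ∧ a ≤ α * (D.pairing f - D.rdiag f) ∧
        c - ε ≤ α * D.C.logVal (incr D.q) (Real.exp B) (Low.heat (expW f) D.rest) + D.sphVal f α a T L := by
  obtain ⟨E, -, hE⟩ := hs.exists_bound
  obtain ⟨T, L, M, hT, hL, hv⟩ := value_ge_parisiSphere hs hf.bound hα (fun x => (hE x).1) hε c
  refine ⟨T, L, M, hT, hL, fun A K D => ?_⟩
  have hlp := D.levelParam (by omega : 1 ≤ K + 2)
  obtain ⟨a, ha, had, hval⟩ := hv D.r D.C.cdf D.q hlp fun z hz hm => hc _ _ z hlp.rsbParam hz hm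
  refine ⟨a, ha, ?_, ?_⟩
  · rw [D.pairing_eq f]
    exact had
  · rw [Casc.logVal_eq _ D.incr_nonneg ((weight_expW hf hs).heat D.rest)]
    exact hval

end Vale.Agent.P157.Low
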