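import Vale.Agent.P157.Low.SphGain
import Vale.Agent.P157.Low.SphValueDiscr
import Vale.Agent.P157.Low.SpinSeries

/-!
The truncated weights are admissible, and their values vary slowly with the coefficient.
-/

namespace Vale.Agent.P157.Low

open MeasureTheory ProbabilityTheory

variable {f : ℝ → ℝ} {A : Arr}

lemma BdD.comp_bdd : ∀ {k : ℕ} {Φ s : ℝ → ℝ}, ContDiff ℝ k Φ → BdD k s → BdD k fun x => Φ (s x)
  | 0, Φ, s, hΦ, hs => ⟨hΦ.continuous.comp hs.1, by
      obtain ⟨L, hL⟩ := hs.2
      obtain ⟨C, hC⟩ := (isCompact_Icc (a := -L) (b := L)).exists_bound_of_continuousOn hΦ.continuous.continuousOn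
      exact ⟨C, fun x => by simpa [Real.norm_eq_abs] using hC (s x) (abs_le.1 (hL x))⟩⟩
  | k + 1, Φ, s, hΦ, hs => by
      push_cast at hΦ
      rw [contDiff_succ_iff_deriv] at hΦ
      refine ⟨hΦ.1.comp hs.1, ?_, ?_⟩
      · obtain ⟨L, hL⟩ := hs.2.1
        obtain ⟨C, hC⟩ := (isCompact_Icc (a := -L) (b := L)).exists_bound_of_continuousOn hΦ.1.continuous.continuousOn
        exact ⟨C, fun x => by simpa [Real.norm_eq_abs] using hC (s x) (abs_le.1 (hL x))⟩
      · rw [show deriv (fun x => Φ (s x)) = fun x => deriv Φ (s x) * deriv s x from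
          funext fun x => deriv_comp x (hΦ.1 _) (hs.1 x)]
        exact (BdD.comp_bdd hΦ.2.2 hs.down).mul hs.2.2

/-- The truncated Laplace transform is smooth. -/
lemma contDiff_trunc (a T : ℝ) : ContDiff ℝ 3 fun u => ∫ t,
    (Set.Icc (-T) T).indicator (fun t => Real.exp (a * t ^ 2 / 2) * Real.exp (u * t)) t ∂gaussianReal 0 1 := by
  set d : ℝ → ℝ := (Set.Icc (-T) T).indicator fun t => Real.exp (a * t ^ 2 / 2) with hd
  have hdm : Measurable d := Measurable.indicator (by fun_prop) measurableSet_Icc
  have hd0 : ∀ t, 0 ≤ d t := fun t => Set.indicator_nonneg (fun t _ => (Real.exp_pos _).le) t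
  set μ := (gaussianReal 0 1).withDensity fun t => ENNReal.ofReal (d t) with hμ
  have e : ∀ u t, d t * Real.exp (u * t) =
      (Set.Icc (-T) T).indicator (fun t => Real.exp (a * t ^ 2 / 2) * Real.exp (u * t)) t :=
    fun u t => by
      by_cases ht : t ∈ Set.Icc (-T) T <;> simp [hd, ht]
  have hint : ∀ u, Integrable (fun t => d t * Real.exp (u * t)) (gaussianReal 0 1) := fun u => by
    simp only [e]
    exact integrable_trunc (by fun_prop) T
  have hset : integrableExpSet id μ = Set.univ := by
    refine Set.eq_univ_of_forall fun u => ?_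
    show Integrable (fun t => Real.exp (u * t)) μ
    rw [hμ, integrable_withDensity_iff_integrable_smul₀' hdm.ennreal_ofReal.aemeasurable
      (Filter.Eventually.of_forall fun t => ENNReal.ofReal_lt_top)]
    simpa [ENNReal.toReal_ofReal (hd0 _)] using hint u
  have heq : (fun u => ∫ t, (Set.Icc (-T) T).indicator
      (fun t => Real.exp (a * t ^ 2 / 2) * Real.exp (u * t)) t ∂gaussianReal 0 1) = mgf id μ := funext fun u => by
    rw [mgf, hμ, integral_withDensity_eq_integral_toReal_smul₀ hdm.ennreal_ofReal.aemeasurable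
      (Filter.Eventually.of_forall fun t => ENNReal.ofReal_lt_top)]
    simp [ENNReal.toReal_ofReal (hd0 _), e]
  rw [heq, ← contDiffOn_univ]
  refine AnalyticOnNhd.contDiffOn (fun u _ => analyticAt_mgf ?_) uniqueDiffOn_univ
  rw [hset, interior_univ]
  trivial

/-- The truncated weight has bounded derivatives. -/
lemma sm_sphG (a T L : ℝ) : Sm (sphG a T L) := by
  refine BdD.toSm ?_
  set Φ : ℝ → ℝ := fun u => ∫ t,
    (Set.Icc (-T) T).indicator (fun t => Real.exp (a * t ^ 2 / 2) * Real.exp (u * t)) t ∂gaussianReal 0 1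
  have e : sphG a T L = fun x => 1 / 2 * (Φ (L * Real.tanh (x / L)) + Φ (-(L * Real.tanh (x / L)))) :=
    funext fun x => by
      simp only [sphG, Φ]
      rw [← integral_add (integrable_trunc (by fun_prop) T) (integrable_trunc (by fun_prop) T),
        ← integral_const_mul]
      refine integral_congr_ae (Filter.Eventually.of_forall fun t => ?_)
      by_cases ht : t ∈ Set.Icc (-T) T
      · simp only [Set.indicator_of_mem ht, Real.cosh_eq]
        ring_nf
      · simp [Set.indicator_of_notMem ht]
  rw [e]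
  have hs : BdD 3 fun x => L * Real.tanh (x / L) := (BdD.const 3 L).mul (bdD_tanh L 3)
  have hs' : BdD 3 fun x => -(L * Real.tanh (x / L)) := by
    simpa [neg_mul] using (BdD.const 3 (-L)).mul (bdD_tanh L 3)
  exact (BdD.const 3 _).mul ((BdD.comp_bdd (contDiff_trunc a T) hs).add (BdD.comp_bdd (contDiff_trunc a T) hs'))

/-- The truncated weight is admissible. -/
theorem weight_sphG (a : ℝ) {T L : ℝ} (hT : 1 ≤ T) (_hL : 0 < L) : ∃ c, Weight c (sphG a T L) := by
  obtain ⟨C, hC⟩ := (sm_sphG a T L).bdd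
  have hb : ∀ x, sphG a T L x ≤ C := fun x => (le_abs_self _).trans (by simpa using hC 0 (by norm_num) x)
  set g0 := Real.exp (-|a| / 2) * (gaussianReal 0 1).real (Set.Icc (-1) 1)
  have hg : 0 < g0 := mul_pos (Real.exp_pos _) icc_real_pos
  have hlo : ∀ x, g0 ≤ sphG a T L x := fun x => sphG_ge le_rfl hT x
  have hC0 : 0 < C := hg.trans_le ((hlo 0).trans (hb 0))
  refine ⟨C, sm_sphG a T L, hC0, 1 - g0 / C, by linarith [div_pos hg hC0], fun y => ?_⟩
  have h1 := div_le_div_of_nonneg_right (hlo y) hC0.le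
  have h2 := (div_le_one hC0).2 (hb y)
  rw [abs_le]
  constructor <;> linarith

lemma sphG_le_of_le {a b T : ℝ} (L x : ℝ) (hba : b ≤ a) :
    sphG a T L x ≤ Real.exp (T ^ 2 * (a - b) / 2) * sphG b T L x := by
  rw [sphG, sphG, ← integral_const_mul]
  refine integral_mono (integrable_trunc (continuous_sphInt a L x) T)
    ((integrable_trunc (continuous_sphInt b L x) T).const_mul _) fun t => ?_
  by_cases ht : t ∈ Set.Icc (-T) T
  · simp only [Set.indicator_of_mem ht]
    rw [← mul_assoc (Real.exp (T ^ 2 * (a - b) / 2)), ← Real.exp_add]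
    refine mul_le_mul_of_nonneg_right (Real.exp_le_exp.2 ?_) (Real.cosh_pos _).le
    have h2 : t ^ 2 ≤ T ^ 2 := sq_le_sq' ht.1 ht.2
    have := mul_le_mul_of_nonneg_left h2 (sub_nonneg.2 hba)
    linarith
  · simp [Set.indicator_of_notMem ht]

/-- Lowering the coefficient lowers the value by at most `T ^ 2` times half the drop. -/
theorem sphVal_ge_of_le {K : ℕ} (D : Discr A K) (_hs : Smf f) (α : ℝ) (_hα : 0 ≤ α) {a b T L : ℝ}
    (hT : 1 ≤ T) (hL : 0 < L) (hba : b ≤ a) :
    D.sphVal f α a T L - T ^ 2 * (a - b) / 2 ≤ D.spinValG f α (sphG b T L) := by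
  set e := T ^ 2 * (a - b) / 2 with he
  set τ := α * (D.rdiag f - D.rval f (Fin.last D.r))
  set v := incr fun j => α * D.rval f j
  have hm : ∀ j, j ≠ 0 → 0 < D.C.cdf j := D.cdfpos
  have hne : ∀ j, j ≠ 0 → D.C.cdf j ≠ 0 := fun j hj => (hm j hj).ne'
  have hgood := good_lv hm v
  simp only [Discr.sphVal, Discr.spinValG]
  rw [potUp_root hne D.C.cdf_zero, potUp_root hne D.C.cdf_zero]
  set la : ℝ → ℝ := fun y => Real.log (heat (sphG a T L) τ y)
  set lb : ℝ → ℝ := fun y => Real.log (heat (sphG b T L) τ y) with hlb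
  have hla : RSB.Lip T la := lip_logHeat_sphG a hT hL τ
  have hlb' : RSB.Lip T lb := lip_logHeat_sphG b hT hL τ
  have hshift : RSB.Lip T fun y => lb y + e :=
    ⟨hlb'.meas.add_const _, hlb'.nonneg, fun x y => by simpa using hlb'.lip x y⟩
  have hint : ∀ (c : ℝ) (y : ℝ), Integrable (fun ξ => sphG c T L (y + Real.sqrt τ * ξ)) (gaussianReal 0 1) :=
    fun c y => by
      have := (lip_logSphG c hT hL).wgt (shift_sigd (fun _ : Unit => τ) ()) y 1
      simpa [Real.exp_log (sphG_pos c hT L _), sigd] using this.int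
  have hpos : ∀ c y, 0 < heat (sphG c T L) τ y := fun c y =>
    (mul_pos (Real.exp_pos (-|c| / 2)) icc_real_pos).trans_le <| by
      refine le_trans (le_of_eq ?_) (integral_mono (integrable_const
        (Real.exp (-|c| / 2) * (gaussianReal 0 1).real (Set.Icc (-1 : ℝ) 1))) (hint c y) fun ξ =>
          sphG_ge le_rfl hT _)
      simp
  have hle : ∀ y, la y ≤ lb y + e := fun y => by
    have h : heat (sphG a T L) τ y ≤ Real.exp e * heat (sphG b T L) τ y := by
      simp only [Low.heat]
      rw [← integral_const_mul]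
      exact integral_mono (hint a y) ((hint b y).const_mul _) fun ξ => sphG_le_of_le L _ hba
    have h2 := Real.log_le_log (hpos a y) h
    rw [Real.log_mul (Real.exp_pos _).ne' (hpos b y).ne', Real.log_exp] at h2
    simp only [la, lb]
    linarith
  have iA : Integrable (fun z => RSB.casc (gaussianReal 0 1) D.C.cdf (sigd v) (lv D.r) la (Real.sqrt (v 0) * z))
      (gaussianReal 0 1) := by simpa using lip_integrable (hla.casc hgood) 0 (Real.sqrt (v 0))
  have iB : Integrable (fun z => RSB.casc (gaussianReal 0 1) D.C.cdf (sigd v) (lv D.r) lb (Real.sqrt (v 0) * z))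
      (gaussianReal 0 1) := by simpa using lip_integrable (hlb'.casc hgood) 0 (Real.sqrt (v 0))
  have h := integral_mono iA (iB.add (integrable_const e)) fun z => by
    simp only [Pi.add_apply]
    rw [← RSB.casc_add_const hlb' e hgood]
    exact RSB.casc_mono hla hshift hle hgood _
  simp only [Pi.add_apply] at h
  rw [integral_add iB (integrable_const e), integral_const] at h
  simp only [probReal_univ, one_smul] at h
  linarith

end Vale.Agent.P157.Low
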