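import Vale.Agent.P157.Low.SphExpansion
import Vale.Agent.P157.Low.SphSpinLimit
import Vale.Agent.P157.Low.SphDrift
import Vale.Agent.P157.Low.SphWeight
import Vale.Agent.P157.Low.SphValueDiscr
import Vale.Agent.P157.Low.SphTelescope
import Vale.Agent.P157.Low.Cavity

/-!
The cavity lower bound on the sphere for smooth potentials.
-/

namespace Vale.Agent.P157.Low

open MeasureTheory ProbabilityTheory Filter
open scoped RealInnerProductSpace Topology

variable {f : ℝ → ℝ} {B : ℝ}

lemma sSpinTerm_ge (hf : Pot f B) {α : ℝ} (hα : 0 ≤ α) (N : ℕ) {P : ℕ} (x : Fin P → ℝ) {T L : ℝ}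
    (hT : 1 ≤ T) (hL : 0 < L) :
    Real.log (sphFloor 0) ≤ sSpinTerm hf α N x (sphG 0 T L) := by
  rw [sSpinTerm_disLaw]
  set law := disLaw (α * ((N : ℝ) + 2)) N P
  obtain ⟨g1, hG1⟩ := exists_sphG_le 0 hT hL
  have mG : Measurable (sphG 0 T L) := measurable_sphG 0 hT hL
  have hG0 : ∀ y, sphFloor 0 ≤ sphG 0 T L y := fun y => sphG_ge (by simp) hT y
  have hi : Integrable (fun p : Dis N P × (ℕ → ℝ) => sGainInt f x (sphG 0 T L) p.1 p.2)
      (law.prod fieldLaw) :=
    (integrable_const (|Real.log (sphFloor 0)| + |Real.log g1|)).mono'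
      (measurable_sGainInt hf x mG).aestronglyMeasurable
      (Eventually.of_forall fun p => (Real.norm_eq_abs _).trans_le
        (abs_sGainInt_le hf x mG (sphFloor_pos 0) hG0 hG1 p.1 p.2))
  have hpt : ∀ p : Dis N P × (ℕ → ℝ), Real.log (sphFloor 0) ≤ sGainInt f x (sphG 0 T L) p.1 p.2 := by
    rintro ⟨⟨⟨M, g⟩, J⟩, h⟩
    refine Real.log_le_log (sphFloor_pos 0) ?_
    set Q := gibbs (sphereMeasure (N + 1)) (sphCw f N x M g J)
    have : IsProbabilityMeasure Q := isProbabilityMeasure_gibbs (wt_sphCw hf x M g J)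
    have hb : Integrable (fun θ => sphG 0 T L (sXi f M g h θ)) Q :=
      (integrable_const g1).mono' (mG.comp (measurable_sXi_fix f M g h)).aestronglyMeasurable
        (Eventually.of_forall fun θ => by
          rw [Real.norm_eq_abs, abs_of_pos ((sphFloor_pos 0).trans_le (hG0 _))]; exact hG1 _)
    simpa using integral_mono (μ := Q) (integrable_const (sphFloor 0)) hb fun θ => hG0 _
  rw [← integral_prod _ hi]
  simpa using integral_mono (μ := law.prod fieldLaw) (integrable_const _) hi hpt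

/-- The drift sum has bounded second moment. -/
lemma sph_dev_le (hf : Pot f B) (hs : Smf f) {α : ℝ} (hα : 0 < α) :
    ∃ c1, 0 ≤ c1 ∧ ∀ (N P : ℕ) (x : Fin P → ℝ),
      (sphSys hf N (α * ((N : ℝ) + 2)) 0 x).avgRep 1 (fun ω r => ((1 / ((N : ℝ) + 2)) *
        (∑ a ∈ Finset.range (sphCnt ω),
          (deriv (deriv f) (sphPat ω a (r 0)) - sphPat ω a (r 0) * deriv f (sphPat ω a (r 0)))) - 0) ^ 2) ≤
        c1 := by
  obtain ⟨E, -, hE⟩ := hs.exists_bound
  set ψ : ℝ → ℝ := fun y => 2 * E ^ 2 * (1 + y ^ 2) with hψ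
  have hψm : Measurable ψ := by fun_prop
  have hψ0 : ∀ y, 0 ≤ ψ y := fun y => by simp only [hψ]; positivity
  have hψi : Integrable ψ (gaussianReal 0 1) :=
    (((integrable_const (1 : ℝ)).add ((IsGaussian.memLp_id (gaussianReal 0 1) 2 (by simp)).integrable_sq))).const_mul _
  refine ⟨Real.exp (2 * B) * (∫ y, ψ y ∂gaussianReal 0 1) * (α ^ 2 + α),
    mul_nonneg (mul_nonneg (Real.exp_pos _).le (integral_nonneg hψ0)) (by positivity), fun N P x => ?_⟩
  set lam := α * ((N : ℝ) + 2) with hlam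
  set ε := 1 / ((N : ℝ) + 2) with hε
  have hl : 0 ≤ lam := by positivity
  have hN2 : (1 : ℝ) ≤ (N : ℝ) + 2 := by linarith [Nat.cast_nonneg (α := ℝ) N]
  obtain ⟨hint, hle⟩ := sphSys_sum_le hf N hl x 1 hψm hψ0 hψi
  rw [avgRep_sDev]
  set F : ℕ → (ℕ → Sp (N + 1)) → Sph (N + 1) → ℝ :=
    fun M g θ => (M : ℝ) * ∑ a ∈ Finset.range M, ψ (sFld g a θ)
  have mFf : ∀ M g, Measurable (F M g) := fun M g =>
    (Finset.measurable_sum (Finset.range M) fun a _ => hψm.comp (measurable_sFld g a)).const_mul _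
  set J := fun ω : Dis N P => ∫ θ, F ω.1.1 ω.1.2 θ
    ∂gibbs (sphereMeasure (N + 1)) (sphCw f N x ω.1.1 ω.1.2 ω.2)
  have e : ∀ ω : (sphSys hf N lam 0 x).Ω, (∫ r, ((sphCnt ω : ℝ) ^ 1 * ∑ a ∈ Finset.range (sphCnt ω),
      ψ (sphPat ω a (r 0)))
      ∂Measure.pi fun _ : Fin 1 => gibbs (sphSys hf N lam 0 x).ref ((sphSys hf N lam 0 x).w ω)) = J ω :=
    fun ω => by
      refine Eq.trans ?_ (sphRep_one (wt_sphCw hf x ω.1.1 ω.1.2 ω.2) (mFf _ _))
      simp only [pow_one]
      rfl
  have hJi : Integrable J (disLaw lam N P) := hint.congr (Eventually.of_forall e)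
  have hJ : ∫ ω, J ω ∂disLaw lam N P ≤
      Real.exp (2 * B) * (∫ y, ψ y ∂gaussianReal 0 1) * (lam ^ 2 + lam) := by
    refine ((integral_congr_ae (Eventually.of_forall fun ω => (e ω).symm)).trans_le hle).trans_eq ?_
    rw [show (1 + 1 : ℕ) = 2 from rfl, (integral_poiLaw_sq hl).2]
  refine (integral_mono_of_nonneg (Eventually.of_forall fun ω => integral_nonneg fun θ => sq_nonneg _)
    (hJi.const_mul (ε ^ 2)) (Eventually.of_forall fun ω => ?_)).trans ?_
  · simp only [J, ← integral_const_mul]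
    set G := gibbs (sphereMeasure (N + 1)) (sphCw f N x ω.1.1 ω.1.2 ω.2)
    have : IsProbabilityMeasure G := isProbabilityMeasure_gibbs (wt_sphCw hf x _ _ _)
    have iF : Integrable (F ω.1.1 ω.1.2) G :=
      (integrable_const ((ω.1.1 : ℝ) * ∑ a ∈ Finset.range ω.1.1, 2 * E ^ 2 * (1 + ‖ω.1.2 a‖ ^ 2))).mono'
        (mFf _ _).aestronglyMeasurable (Eventually.of_forall fun θ => by
          have hn : 0 ≤ F ω.1.1 ω.1.2 θ :=
            mul_nonneg (Nat.cast_nonneg _) (Finset.sum_nonneg fun a _ => hψ0 _)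
          rw [Real.norm_eq_abs, abs_of_nonneg hn]
          refine mul_le_mul_of_nonneg_left (Finset.sum_le_sum fun a _ =>
            mul_le_mul_of_nonneg_left (add_le_add le_rfl ?_) (by positivity)) (Nat.cast_nonneg _)
          rw [← sq_abs (sFld _ _ _)]
          exact pow_le_pow_left₀ (abs_nonneg _) (abs_sFld_le _ _ _) 2)
    refine integral_mono_of_nonneg (Eventually.of_forall fun θ => sq_nonneg _) (iF.const_mul _)
      (Eventually.of_forall fun θ => ?_)
    simp only [sDev, sub_zero, mul_pow]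
    refine mul_le_mul_of_nonneg_left (sq_sum_le_card_mul_sum_sq.trans ?_) (sq_nonneg _)
    simp only [F, Finset.card_range]
    refine mul_le_mul_of_nonneg_left (Finset.sum_le_sum fun a _ => ?_) (Nat.cast_nonneg _)
    generalize sFld ω.1.2 a θ = y
    obtain ⟨b1, b2, -⟩ := hE y
    have h1 : deriv (deriv f) y ^ 2 ≤ E ^ 2 := by
      rw [← sq_abs]; exact pow_le_pow_left₀ (abs_nonneg _) b2 2
    have h2 : deriv f y ^ 2 ≤ E ^ 2 := by
      rw [← sq_abs]; exact pow_le_pow_left₀ (abs_nonneg _) b1 2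
    simp only [hψ, drv]
    nlinarith [sq_nonneg (deriv (deriv f) y + y * deriv f y),
      mul_le_mul_of_nonneg_left h2 (sq_nonneg y)]
  rw [integral_const_mul]
  refine (mul_le_mul_of_nonneg_left hJ (sq_nonneg _)).trans ?_
  rw [← mul_assoc, mul_comm (ε ^ 2), mul_assoc]
  refine mul_le_mul_of_nonneg_left ?_ (mul_nonneg (Real.exp_pos _).le (integral_nonneg hψ0))
  rw [hε, hlam, div_pow, one_pow, div_mul_eq_mul_div, one_mul, div_le_iff₀ (by positivity)]
  nlinarith [mul_le_mul_of_nonneg_left hN2 (mul_nonneg hα.le (by positivity : (0 : ℝ) ≤ (N : ℝ) + 2))]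

/-- A crude lower bound for the gain of one coordinate. -/
lemma sphCavDiff_ge (hf : Pot f B) (hs : Smf f) {α : ℝ} (hα : 0 < α) {T : ℝ} (hT : 1 ≤ T) :
    ∃ C0, 0 ≤ C0 ∧ ∀ᶠ N : ℕ in atTop, ∀ (P : ℕ) (x : Fin P → ℝ),
      -C0 ≤ sphCavDiff hf α N x (T + 1) := by
  obtain ⟨C, hC0, hC⟩ := sph_cavity_step hf hs hα hT one_pos 0
  obtain ⟨c1, hc1, hdev⟩ := sph_dev_le hf hs hα
  refine ⟨|Real.log (sphFloor 0)| + C * (c1 + 1) + C + C + α * B,
    by have := hf.nonneg; positivity, ?_⟩
  filter_upwards [hC] with N hN P x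
  have hN2 : (1 : ℝ) ≤ (N : ℝ) + 2 := by linarith [Nat.cast_nonneg (α := ℝ) N]
  have h := hN P x 0 0 1 (by simp) le_rfl one_pos
  dsimp only at h
  have h1 := sSpinTerm_ge hf hα.le N x hT one_pos
  have h2 := sph_free_step_ge hf N hα.le x
  have h3 : C / Real.sqrt ((N : ℝ) + 2) ≤ C := div_le_self hC0 (Real.one_le_sqrt.2 hN2)
  have h4 := mul_le_mul_of_nonneg_left (add_le_add (hdev N P x)
    (div_le_self (zero_le_one (α := ℝ)) hN2)) hC0
  rw [mul_one, div_one] at h
  simp only [sphCavDiff]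
  linarith [neg_abs_le (Real.log (sphFloor 0))]

/-- The defect in the identities at one point of coefficients. -/
noncomputable def sphErr (hf : Pot f B) (α : ℝ) (N : ℕ) {P : ℕ} (x : Fin P → ℝ) (p : Fin P) : ℝ :=
  ggErr (sphBase hf N (α * ((N : ℝ) + 1)) 0) (N := N + 1) (fun r : Sph (N + 1) => (r : Sp (N + 1)))
    measurable_subtype_coe (fun r => mem_sphere_zero_iff_norm.1 r.2) (strength N) x p

lemma sphErr_nonneg (hf : Pot f B) (α : ℝ) (N : ℕ) {P : ℕ} (x : Fin P → ℝ) (p : Fin P) :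
    0 ≤ sphErr hf α N x p :=
  ggErr_nonneg _ _ _ _ (strength_pos N).le x p

/-- Coefficients with small defect have gain at least `c - η`. -/
lemma sphCavDiff_ge_of_small (hf : Pot f B) (hs : Smf f) {α : ℝ} (hα : 0 < α) {c : ℝ}
    (hc : ∀ q0 ls z, RsbParam q0 ls → 1 ≤ z → 0 < rsbMult ls (fun j => α * rsbOverlap f q0 ls j) z →
      c ≤ parisiSphere f α q0 ls z) {η : ℝ} (hη : 0 < η) :
    ∃ (P : ℕ) (T δ : ℝ), 1 ≤ T ∧ 0 < δ ∧ ∀ᶠ N : ℕ in atTop, ∀ x ∈ box P,
      ∑ p, sphErr hf α N x p ≤ δ → c - η ≤ sphCavDiff hf α N x (T + 1) := by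
  obtain ⟨T, L, M0, hT, hL, hval⟩ := exists_sphValue_ge hf hs hα.le hc (show 0 < η / 9 by linarith)
  by_contra hcon
  push Not at hcon
  have hex : ∀ j : ℕ, ∃ N, j ≤ N ∧ ∃ x ∈ box j, ∑ p, sphErr hf α N x p ≤ 1 / ((j : ℝ) + 1) ∧
      sphCavDiff hf α N x (T + 1) < c - η := fun j =>
    frequently_atTop.1 (hcon j T (1 / ((j : ℝ) + 1)) hT (by positivity)) j
  choose Ns hNs xs hxs herr hbad using hex
  have hN : Tendsto Ns atTop atTop := tendsto_atTop_mono hNs tendsto_id
  obtain ⟨φ, hφ, A, hA⟩ := exists_conv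
    (fun j => sphSys hf (Ns j) (α * ((Ns j : ℝ) + 1)) 0 (xs j)) (fun p n l Φ hΦ hΦb => by
      obtain ⟨D, hD⟩ := hΦb
      refine squeeze_zero_norm' ?_
        (by simpa using (tendsto_one_div_add_atTop_nhds_zero_nat (𝕜 := ℝ)).const_mul |D|)
      filter_upwards [eventually_gt_atTop p] with j hj
      rw [Real.norm_eq_abs]
      refine (gg_defect_le (sphBase hf (Ns j) (α * ((Ns j : ℝ) + 1)) 0) (N := Ns j + 1)
        (fun r : Sph (Ns j + 1) => (r : Sp (Ns j + 1))) measurable_subtype_coe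
        (fun r => mem_sphere_zero_iff_norm.1 r.2) (fun _ _ => rfl)
        (strength_pos (Ns j)) (hxs j) ⟨p, hj⟩ l hΦ.measurable
        (fun R => (hD R).trans (le_abs_self D))).trans ?_
      refine mul_le_mul_of_nonneg_left ?_ (abs_nonneg D)
      exact (Finset.single_le_sum (fun q _ => sphErr_nonneg hf α (Ns j) (xs j) q)
        (Finset.mem_univ (⟨p, hj⟩ : Fin j))).trans (by simpa [one_div] using herr j))
  set Ms : ℕ → ℕ := fun j => Ns (φ j) with hMs
  have hM : Tendsto Ms atTop atTop := hN.comp hφ.tendsto_atTop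
  have hA2 : Conv (fun j => sphSys hf (Ms j) (α * ((Ms j : ℝ) + 2)) 0 (xs (φ j))) A :=
    sph_conv_next (Ns := Ms) (Ps := φ) (xs := fun j => xs (φ j)) hf hs hα.le hA
  have hgain := sph_tendsto_gain (Ns := Ms) (Ps := φ) (xs := fun j => xs (φ j)) hf hs hα.le hA
  -- the grid of drifts
  set M := |M0| with hM0e
  set s := η / (4 * T ^ 2) with hse
  have hs0 : 0 < s := by positivity
  set n := ⌈2 * M / s⌉₊
  set pt : ℕ → ℝ := fun i => -M + (i : ℝ) * s with hpt
  obtain ⟨C, hC0, hC⟩ := sph_cavity_step hf hs hα hT hL M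
  set t := 9 * C / η + 1 with ht
  have ht0 : 0 < t := by positivity
  have hCt : C / t ≤ η / 9 := by
    rw [div_le_iff₀ ht0, ht, mul_add, show η / 9 * (9 * C / η) = C by field_simp]
    linarith
  set D : ∀ K, Discr A (K + 2) := fun K => (A.exists_discr (Nat.le_add_left 2 K)).some
  have hlog : ∀ᶠ K in atTop, α * logArr A (Real.exp B) (expW f) ≥
      α * (D K).C.logVal (incr (D K).q) (Real.exp B) (Low.heat (expW f) (D K).rest) - η / 9 := by
    have h := ((tendsto_logVal D (weight_expW hf hs)).const_mul α).eventually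
      (eventually_lt_nhds (show α * logArr A (Real.exp B) (expW f) <
        α * logArr A (Real.exp B) (expW f) + η / 9 by linarith))
    filter_upwards [h] with K hK
    linarith
  have hspin : ∀ᶠ K in atTop, ∀ i ∈ Finset.range (n + 1), ∀ᶠ j in atTop,
      (D K).spinValG f α (sphG (pt i) T L) - η / 9 ≤
        sSpinTerm hf α (Ms j) (xs (φ j)) (sphG (pt i) T L) := by
    refine (Finset.eventually_all _).2 fun i _ => ?_
    obtain ⟨cw, hW⟩ := weight_sphG (pt i) hT hL
    exact sph_spin_lower hf hs hα hM φ (fun j => xs (φ j)) hA2 D hW (show 0 < η / 9 by linarith)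
  have hdrift := sph_drift_limit hf hs hα hM φ (fun j => xs (φ j)) hA2 D
    (show 0 < η / (9 * (C * t + 1)) by positivity)
  obtain ⟨K, hK1, hK2, hK3⟩ := (hlog.and (hspin.and hdrift)).exists
  obtain ⟨a, haM, had, hv⟩ := hval A K (D K)
  have haM' : |a| ≤ M := haM.trans (le_abs_self M0)
  set i := ⌊(a + M) / s⌋₊ with hi
  have h0 : 0 ≤ (a + M) / s := div_nonneg (by linarith [(abs_le.1 haM').1]) hs0.le
  have hi1 : (i : ℝ) * s ≤ a + M := by
    have := Nat.floor_le h0
    rwa [le_div_iff₀ hs0] at this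
  have hi2 : a + M ≤ (i : ℝ) * s + s := by
    have := (Nat.lt_floor_add_one ((a + M) / s)).le
    rw [div_le_iff₀ hs0, ← hi] at this
    linarith
  have hin : i ∈ Finset.range (n + 1) := by
    refine Finset.mem_range.2 (Nat.lt_succ_of_le ((Nat.floor_le_ceil _).trans (Nat.ceil_le_ceil ?_)))
    exact div_le_div_of_nonneg_right (by linarith [(abs_le.1 haM').2]) hs0.le
  have hba : pt i ≤ a := by simp only [hpt]; linarith
  have hbM : |pt i| ≤ M := by
    rw [abs_le]
    simp only [hpt]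
    constructor
    · nlinarith [Nat.cast_nonneg (α := ℝ) i]
    · linarith [(abs_le.1 haM').2]
  have hround : T ^ 2 * (a - pt i) / 2 ≤ η / 8 := by
    have h : T ^ 2 * (a - pt i) ≤ T ^ 2 * s :=
      mul_le_mul_of_nonneg_left (by simp only [hpt]; linarith) (sq_nonneg T)
    have e : T ^ 2 * s = η / 4 := by rw [hse]; field_simp
    linarith
  have hsmall : ∀ᶠ j in atTop, C * t * (1 / ((Ms j : ℝ) + 2)) + C / Real.sqrt ((Ms j : ℝ) + 2) < η / 9 := by
    have h1 : Tendsto (fun j => (Ms j : ℝ) + 2) atTop atTop :=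
      tendsto_atTop_add_const_right _ _ (tendsto_natCast_atTop_atTop.comp hM)
    have h2 : Tendsto (fun j => C * t * (1 / ((Ms j : ℝ) + 2)) + C / Real.sqrt ((Ms j : ℝ) + 2)) atTop (𝓝 0) := by
      have a1 : Tendsto (fun j => C * t * (1 / ((Ms j : ℝ) + 2))) atTop (𝓝 (C * t * 0)) :=
        ((tendsto_const_nhds (x := (1 : ℝ))).div_atTop h1).const_mul (C * t)
      have a2 : Tendsto (fun j => C / Real.sqrt ((Ms j : ℝ) + 2)) atTop (𝓝 0) :=
        (tendsto_const_nhds (x := C)).div_atTop (Real.tendsto_sqrt_atTop.comp h1)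
      simpa using a1.add a2
    exact h2.eventually (eventually_lt_nhds (by linarith))
  have hgain' := hgain.eventually (eventually_gt_nhds
    (show α * logArr A (Real.exp B) (expW f) - η / 9 < α * logArr A (Real.exp B) (expW f) by linarith))
  obtain ⟨j, hj1, hj2, hj3, hj4, hj5⟩ :=
    ((hK2 i hin).and (hK3.and (hsmall.and (hgain'.and (hM.eventually hC))))).exists
  have hw := sphVal_ge_of_le (D K) hs α hα.le (f := f) hT hL hba
  have hstep := hj5 (φ j) (xs (φ j)) (pt i) (α * ((D K).pairing f - (D K).rdiag f)) t hbM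
    (hba.trans had) ht0
  have hb := hbad (φ j)
  have hdt := mul_le_mul_of_nonneg_left hj2 (mul_nonneg hC0 ht0.le)
  have e : C * t * (η / (9 * (C * t + 1))) ≤ η / 9 := by
    rw [mul_div_assoc', div_le_iff₀ (by positivity)]
    linarith
  simp only [sphCavDiff, hMs] at hb hstep hj4 hj1 hj2 hj3 hdt
  rw [mul_add] at hstep
  linarith

/-- The defect vanishes on average over the coefficients. -/
lemma tendsto_integral_sphErr (hf : Pot f B) {α : ℝ} (hα : 0 < α) (P : ℕ) (p : Fin P) :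
    (∀ N, IntegrableOn (fun x => sphErr hf α N x p) (box P)) ∧
      Tendsto (fun N => ∫ x in box P, sphErr hf α N x p) atTop (𝓝 0) := by
  obtain ⟨C, hC⟩ := integral_ggErr_le P
  have hB := hf.nonneg
  set V : ℕ → ℝ := fun N => 6 * (B + 1) * (Real.sqrt (α * ((N : ℝ) + 1)) + 1) with hV
  have hV1 : ∀ N, 1 ≤ V N := fun N => by
    simp only [hV]
    nlinarith [Real.sqrt_nonneg (α * ((N : ℝ) + 1)), mul_nonneg hB (Real.sqrt_nonneg (α * ((N : ℝ) + 1)))]
  have hs1 : ∀ N : ℕ, 1 ≤ strength N := fun N =>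
    Real.one_le_rpow (by linarith [Nat.cast_nonneg (α := ℝ) N]) (by norm_num)
  have key := fun N => hC (N + 1) (sphBase hf N (α * ((N : ℝ) + 1)) 0) (fun r : Sph (N + 1) => (r : Sp (N + 1)))
    measurable_subtype_coe (fun r => mem_sphere_zero_iff_norm.1 r.2) (strength N) (V N)
    (hs1 N) (hV1 N) (fun F hFm hFb => sphBase_fluct hf (by positivity) hFm hFb) p
  refine ⟨fun N => (key N).1, squeeze_zero (fun N => integral_nonneg fun x => sphErr_nonneg hf α N x p)
    (fun N => (key N).2) ?_⟩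
  have h0 : Tendsto (fun N : ℕ => C * Real.sqrt ((V N + strength N) / strength N ^ 2)) atTop (𝓝 0) := by
    have hb : Tendsto (fun N : ℕ => (N : ℝ) + 1) atTop atTop :=
      tendsto_atTop_add_const_right _ 1 tendsto_natCast_atTop_atTop
    have r1 : Tendsto (fun N : ℕ => ((N : ℝ) + 1) ^ (-(3 / 10) : ℝ)) atTop (𝓝 0) :=
      (tendsto_rpow_neg_atTop (by norm_num)).comp hb
    have r2 : Tendsto (fun N : ℕ => ((N : ℝ) + 1) ^ (-(2 / 5) : ℝ)) atTop (𝓝 0) :=
      (tendsto_rpow_neg_atTop (by norm_num)).comp hb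
    set K := 6 * (B + 1) * (Real.sqrt α + 1)
    have hlim : Tendsto (fun N : ℕ => (V N + strength N) / strength N ^ 2) atTop (𝓝 0) := by
      refine squeeze_zero (fun N => by have := hV1 N; have := hs1 N; positivity) (fun N => ?_)
        (by simpa using (r1.const_mul K).add r2)
      set n : ℝ := (N : ℝ) + 1 with hn
      have hn1 : 1 ≤ n := by simp [hn]
      have hn0 : 0 < n := by linarith
      have hVn : V N ≤ K * n ^ (1 / 2 : ℝ) := by
        rw [← Real.sqrt_eq_rpow]
        simp only [hV, K]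
        rw [Real.sqrt_mul hα.le, mul_assoc (6 * (B + 1))]
        refine mul_le_mul_of_nonneg_left ?_ (by positivity)
        nlinarith [Real.one_le_sqrt.2 hn1]
      have e2 : strength N ^ 2 = n ^ (4 / 5 : ℝ) := by
        rw [strength, ← hn, ← Real.rpow_natCast, ← Real.rpow_mul hn0.le]; norm_num
      rw [add_div, e2]
      refine add_le_add ?_ (le_of_eq ?_)
      · refine (div_le_div_of_nonneg_right hVn (by positivity)).trans_eq ?_
        rw [mul_div_assoc, ← Real.rpow_sub hn0]; norm_num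
      · rw [strength, ← hn, ← Real.rpow_sub hn0]; norm_num
    simpa using (hlim.sqrt).const_mul C
  refine h0.congr fun N => ?_
  rw [Real.sqrt_div (by have := hV1 N; have := hs1 N; positivity),
    Real.sqrt_sq (strength_pos N).le, mul_div_assoc]

/-- For smooth potentials the pressure on the sphere is asymptotically above every lower bound of
Parisi's functional. -/
theorem sph_smooth_lower {f : ℝ → ℝ} (hf : Smf f) {α : ℝ} (hα : 0 < α) {c : ℝ}
    (hc : ∀ q0 ls z, RsbParam q0 ls → 1 ≤ z → 0 < rsbMult ls (fun j => α * rsbOverlap f q0 ls j) z →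
      c ≤ parisiSphere f α q0 ls z) {η : ℝ} (hη : 0 < η) :
    ∀ᶠ N : ℕ in atTop, c - η ≤ spherePressure f N ⌊α * N⌋₊ := by
  obtain ⟨B, hP⟩ := exists_pot hf
  refine pressure_of_sphCavity hP hα (fun η hη => ?_) hη
  obtain ⟨P, T, δ, hT, hδ, hsmall⟩ := sphCavDiff_ge_of_small hP hf hα hc (show 0 < η / 2 by linarith)
  obtain ⟨C0, hC00, hC0⟩ := sphCavDiff_ge hP hf hα hT
  refine ⟨P, T + 1, by linarith, ?_⟩
  set M := (|c| + C0) / δ with hM
  have hM0 : 0 ≤ M := by positivity
  have hlim : Tendsto (fun N => M * ∑ p, ∫ x in box P, sphErr hP α N x p) atTop (𝓝 0) := by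
    simpa using (tendsto_finsetSum Finset.univ fun p _ => (tendsto_integral_sphErr hP hα P p).2).const_mul M
  filter_upwards [hsmall, hC0, hlim.eventually (eventually_lt_nhds (show (0 : ℝ) < η / 2 by linarith))]
    with N hN hN0 hN2
  have hfin : IsFiniteMeasure (volume.restrict (box P)) := ⟨by simp [volume_box]⟩
  have hi : IntegrableOn (fun x => ∑ p, sphErr hP α N x p) (box P) :=
    integrable_finsetSum _ fun p _ => (tendsto_integral_sphErr hP hα P p).1 N
  have hmono : ∫ x in box P, (c - η / 2 - M * ∑ p, sphErr hP α N x p) ≤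
      ∫ x in box P, sphCavDiff hP α N x (T + 1) := by
    refine setIntegral_mono_on ((integrable_const _).sub (hi.const_mul M))
      (integrableOn_sphCavDiff hP hα.le N P (by linarith : (1 : ℝ) ≤ T + 1))
      (MeasurableSet.univ_pi fun _ => measurableSet_Icc) fun x hx => ?_
    by_cases h : ∑ p, sphErr hP α N x p ≤ δ
    · have := hN x hx h
      have := mul_nonneg hM0 (Finset.sum_nonneg (s := Finset.univ) fun p (_ : p ∈ Finset.univ) =>
        sphErr_nonneg hP α N x p)
      linarith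
    · have h1 : |c| + C0 ≤ M * ∑ p, sphErr hP α N x p := by
        calc |c| + C0 = M * δ := by rw [hM]; field_simp
          _ ≤ _ := mul_le_mul_of_nonneg_left (not_le.1 h).le hM0
      linarith [hN0 P x, le_abs_self c]
  rw [integral_sub (integrable_const _) (hi.const_mul M), integral_const_mul,
    integral_finsetSum _ fun p _ => (tendsto_integral_sphErr hP hα P p).1 N, setIntegral_const] at hmono
  simp only [measureReal_def, volume_box, ENNReal.toReal_one, one_smul] at hmono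
  linarith

end Vale.Agent.P157.Low
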