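import Vale.Agent.P157.Low.SphFacts
import Vale.Agent.P157.Low.CavityGain

/-!
The gain of a Poisson number of patterns along a convergent sequence of sphere systems.
-/

namespace Vale.Agent.P157.Low

open MeasureTheory ProbabilityTheory Filter
open scoped RealInnerProductSpace Topology

variable {f : ℝ → ℝ} {B : ℝ} {P : ℕ}

lemma sph_abs_free_sub_le (hf : Pot f B) (N : ℕ) {lam : ℝ} (hl : 0 ≤ lam) (x : Fin P → ℝ) (k : ℕ) :
    |(sphSys hf N lam k x).free - (sphSys hf N lam 0 x).free| ≤ k * B := by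
  induction k with
  | zero => simp
  | succ k ih =>
    have e : (sphSys hf N lam (k + 1) x).free - (sphSys hf N lam 0 x).free =
        (sphSys hf N lam k x).logGain (expW f) +
          ((sphSys hf N lam k x).free - (sphSys hf N lam 0 x).free) := by
      rw [sphSys_logGain hf N hl k x]; ring
    rw [e]
    refine (abs_add_le _ _).trans ((add_le_add (abs_logGain_le hf _) ih).trans_eq ?_)
    push_cast; ring

lemma sph_integrable_free (hf : Pot f B) (N : ℕ) {lam : ℝ} (hl : 0 ≤ lam) (x : Fin P → ℝ) (μ : ℝ) :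
    Integrable (fun k => (sphSys hf N lam k x).free) (poiLaw μ) :=
  integrable_poisson_of_le (C := |(sphSys hf N lam 0 x).free| + B) (j := 1) fun k => by
    have := sph_abs_free_sub_le hf N hl x k
    have h' := abs_sub_abs_le_abs_sub (sphSys hf N lam k x).free (sphSys hf N lam 0 x).free
    have := mul_nonneg (abs_nonneg (sphSys hf N lam 0 x).free) (Nat.cast_nonneg (α := ℝ) k)
    rw [pow_one]
    nlinarith [hf.nonneg]

/-- The gain of the extra patterns of one more spin. -/
lemma sph_free_step (hf : Pot f B) (N : ℕ) {α : ℝ} (hα : 0 ≤ α) (x : Fin P → ℝ) :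
    (sphSys hf N (α * ((N : ℝ) + 2)) 0 x).free - (sphSys hf N (α * ((N : ℝ) + 1)) 0 x).free =
      ∫ k, ((sphSys hf N (α * ((N : ℝ) + 1)) k x).free - (sphSys hf N (α * ((N : ℝ) + 1)) 0 x).free)
        ∂poiLaw α := by
  have hl : 0 ≤ α * ((N : ℝ) + 1) := by positivity
  rw [show α * ((N : ℝ) + 2) = α * ((N : ℝ) + 1) + α by ring, sphSys_free_add hf N hl hα x,
    integral_sub (sph_integrable_free hf N hl x α) (integrable_const _)]
  simp

lemma sph_free_step_ge (hf : Pot f B) (N : ℕ) {α : ℝ} (hα : 0 ≤ α) (x : Fin P → ℝ) :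
    -(α * B) ≤ (sphSys hf N (α * ((N : ℝ) + 2)) 0 x).free - (sphSys hf N (α * ((N : ℝ) + 1)) 0 x).free := by
  have hl : 0 ≤ α * ((N : ℝ) + 1) := by positivity
  rw [sph_free_step hf N hα x]
  have hid : Integrable (fun k : ℕ => (k : ℝ)) (poiLaw α) := by simpa using integrable_poiLaw_pow α 1
  have h := integral_mono (μ := poiLaw α) (hid.mul_const B).neg
    ((sph_integrable_free hf N hl x α).sub (integrable_const (sphSys hf N (α * ((N : ℝ) + 1)) 0 x).free))
    fun k => (abs_le.1 (sph_abs_free_sub_le hf N hl x k)).1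
  simp only [Pi.neg_apply, Pi.sub_apply] at h
  rw [integral_neg, integral_mul_const, poiLaw_id hα] at h
  exact h

section Conv

variable {A : Arr} {Ns : ℕ → ℕ} {Ps : ℕ → ℕ} {xs : ∀ j, Fin (Ps j) → ℝ} {α : ℝ}

lemma sph_conv_count (hf : Pot f B) (hs : Smf f)
    (h : Conv (fun j => sphSys hf (Ns j) (α * ((Ns j : ℝ) + 1)) 0 (xs j)) A) (k : ℕ) :
    Conv (fun j => sphSys hf (Ns j) (α * ((Ns j : ℝ) + 1)) k (xs j)) A := by
  induction k with
  | zero => exact h
  | succ k ih =>
    intro n Φ hΦ hb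
    have h1 := (ih.tilt (weight_expW hf hs) (measurable_expW hf) (Real.exp_pos (-B)) (expW_mem hf))
      n Φ hΦ hb
    refine h1.congr fun j => ?_
    exact sphSys_tilt_expect hf (Ns j) (α * ((Ns j : ℝ) + 1)) k (xs j) Φ hΦ.measurable hb

lemma sph_conv_next (hf : Pot f B) (hs : Smf f) (hα : 0 ≤ α)
    (h : Conv (fun j => sphSys hf (Ns j) (α * ((Ns j : ℝ) + 1)) 0 (xs j)) A) :
    Conv (fun j => sphSys hf (Ns j) (α * ((Ns j : ℝ) + 2)) 0 (xs j)) A := by
  intro n Φ hΦ hb
  obtain ⟨C, hC⟩ := hb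
  have := A.prob n
  have e : ∀ j, (sphSys hf (Ns j) (α * ((Ns j : ℝ) + 2)) 0 (xs j)).expect Φ =
      ∫ k, (sphSys hf (Ns j) (α * ((Ns j : ℝ) + 1)) k (xs j)).expect Φ ∂poiLaw α := fun j => by
    rw [show α * ((Ns j : ℝ) + 2) = α * ((Ns j : ℝ) + 1) + α by ring]
    exact sphSys_expect_add hf (Ns j) (by positivity) hα (xs j) Φ hΦ.measurable ⟨C, hC⟩
  simp only [e]
  have key := tendsto_integral_of_dominated_convergence (μ := poiLaw α) (fun _ => C)
    (F := fun j k => (sphSys hf (Ns j) (α * ((Ns j : ℝ) + 1)) k (xs j)).expect Φ)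
    (f := fun _ => ∫ R, Φ R ∂A.law n)
    (fun j => (measurable_of_countable _).aestronglyMeasurable) (integrable_const C)
    (fun j => Eventually.of_forall fun k => ?_)
    (Eventually.of_forall fun k => sph_conv_count hf hs h k n Φ hΦ ⟨C, hC⟩)
  · simpa using key
  · set T := sphSys hf (Ns j) (α * ((Ns j : ℝ) + 1)) k (xs j)
    rw [T.expect_eq hΦ.measurable (fun x => hC _)]
    exact (norm_integral_le_of_norm_le_const (C := C)
      (Eventually.of_forall fun R => by rw [Real.norm_eq_abs]; exact hC R)).trans_eq (by simp)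

/-- The gain of the extra patterns tends to `α` times the value of one pattern. -/
lemma sph_tendsto_gain (hf : Pot f B) (hs : Smf f) (hα : 0 ≤ α)
    (h : Conv (fun j => sphSys hf (Ns j) (α * ((Ns j : ℝ) + 1)) 0 (xs j)) A) :
    Tendsto (fun j => (sphSys hf (Ns j) (α * ((Ns j : ℝ) + 2)) 0 (xs j)).free -
        (sphSys hf (Ns j) (α * ((Ns j : ℝ) + 1)) 0 (xs j)).free)
      atTop (𝓝 (α * logArr A (Real.exp B) (expW f))) := by
  have hk : ∀ k : ℕ, Tendsto (fun j => (sphSys hf (Ns j) (α * ((Ns j : ℝ) + 1)) k (xs j)).free -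
      (sphSys hf (Ns j) (α * ((Ns j : ℝ) + 1)) 0 (xs j)).free) atTop
      (𝓝 ((k : ℝ) * logArr A (Real.exp B) (expW f))) := by
    intro k
    induction k with
    | zero => simp
    | succ k ih =>
      have h1 := ((sph_conv_count hf hs h k).logGain (weight_expW hf hs)).add ih
      rw [show logArr A (Real.exp B) (expW f) + (k : ℝ) * logArr A (Real.exp B) (expW f) =
        ((k + 1 : ℕ) : ℝ) * logArr A (Real.exp B) (expW f) by push_cast; ring] at h1
      refine h1.congr fun j => ?_
      rw [sphSys_logGain hf (Ns j) (by positivity) k (xs j)]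
      ring
  simp only [fun j => sph_free_step hf (Ns j) hα (xs j)]
  have hid : Integrable (fun k : ℕ => (k : ℝ)) (poiLaw α) := by simpa using integrable_poiLaw_pow α 1
  have key := tendsto_integral_of_dominated_convergence (μ := poiLaw α) (fun k : ℕ => (k : ℝ) * B)
    (F := fun j k => (sphSys hf (Ns j) (α * ((Ns j : ℝ) + 1)) k (xs j)).free -
      (sphSys hf (Ns j) (α * ((Ns j : ℝ) + 1)) 0 (xs j)).free)
    (f := fun k : ℕ => (k : ℝ) * logArr A (Real.exp B) (expW f))
    (fun j => (measurable_of_countable _).aestronglyMeasurable) (hid.mul_const B)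
    (fun j => Eventually.of_forall fun k => (Real.norm_eq_abs _).trans_le
      (sph_abs_free_sub_le hf (Ns j) (by positivity) (xs j) k))
    (Eventually.of_forall hk)
  rwa [integral_mul_const, poiLaw_id hα] at key

end Conv

end Vale.Agent.P157.Low
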