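import Vale.Agent.P157.Low.SphLaw

/-!
The coordinate split off the sphere is close to a standard Gaussian.
-/

namespace Vale.Agent.P157.Low

open MeasureTheory ProbabilityTheory
open scoped RealInnerProductSpace

lemma sCoord_sub_le (N : ℕ) (p : ℝ × ℝ) :
    |sCoord N p - p.2| ≤
      (p.2 ^ 2 + 8 * (p.1 ^ 2 + p.2 ^ 2 - ((N : ℝ) + 2)) ^ 2 / ((N : ℝ) + 2)) /
        Real.sqrt ((N : ℝ) + 2) := by
  obtain ⟨r, t⟩ := p
  set n : ℝ := (N : ℝ) + 2 with hn
  have hn2 : 2 ≤ n := by simp [hn]
  set w := Real.sqrt n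
  have hw2 : w ^ 2 = n := Real.sq_sqrt (by linarith)
  have hw : 0 < w := Real.sqrt_pos.2 (by linarith)
  set a := r ^ 2 + t ^ 2 - n with ha
  have hrhs : 0 ≤ (t ^ 2 + 8 * a ^ 2 / n) / w := by positivity
  rcases eq_or_ne (r ^ 2 + t ^ 2) 0 with h0 | h0
  · have : t = 0 := by nlinarith [sq_nonneg r, sq_nonneg t]
    subst this
    simpa [sCoord] using hrhs
  set R := Real.sqrt (r ^ 2 + t ^ 2)
  have hR2 : R ^ 2 = r ^ 2 + t ^ 2 := Real.sq_sqrt (by positivity)
  have hR : 0 < R := Real.sqrt_pos.2 (lt_of_le_of_ne (by positivity) (Ne.symm h0))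
  have htR : |t| ≤ R := Real.abs_le_sqrt (by nlinarith [sq_nonneg r])
  have hs : sCoord N (r, t) = t * w / R := rfl
  rw [hs, le_div_iff₀ hw, add_div' _ _ _ (by linarith : n ≠ 0), le_div_iff₀ (by linarith : (0 : ℝ) < n)]
  have ht2 : |t| ^ 2 = t ^ 2 := sq_abs t
  have ha2 : |a| ^ 2 = a ^ 2 := sq_abs a
  rcases le_or_gt (n / 2) (R ^ 2) with h | h
  · have hwR : |w - R| * (w + R) = |a| := by
      rw [← abs_of_pos (add_pos hw hR), ← abs_mul, ha, abs_sub_comm (r ^ 2 + t ^ 2) n]
      congr 1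
      rw [← hw2, ← hR2]; ring
    have hlow : n / 2 ≤ R * (w + R) := by nlinarith [mul_pos hR hw]
    have h1 : |t * w / R - t| * n ≤ 2 * |t| * |a| := by
      have e : |t * w / R - t| = |t| * |w - R| / R := by
        rw [show t * w / R - t = t * (w - R) / R by field_simp, abs_div, abs_mul, abs_of_pos hR]
      rw [e]
      calc |t| * |w - R| / R * n ≤ |t| * |w - R| / R * (2 * (R * (w + R))) :=
            mul_le_mul_of_nonneg_left (by linarith) (by positivity)
        _ = 2 * |t| * (|w - R| * (w + R)) := by field_simp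
        _ = 2 * |t| * |a| := by rw [hwR]
    calc |t * w / R - t| * w * n = |t * w / R - t| * n * w := by ring
      _ ≤ 2 * |t| * |a| * w := mul_le_mul_of_nonneg_right h1 hw.le
      _ ≤ t ^ 2 * n + 8 * a ^ 2 := by
        nlinarith [sq_nonneg (|t| * w - |a|), sq_nonneg |a|]
  · have h1 : |t * w / R - t| ≤ 2 * w := by
      have e1 : |t * w / R| ≤ w := by
        rw [abs_div, abs_mul, abs_of_pos hw, abs_of_pos hR, div_le_iff₀ hR]
        nlinarith [mul_le_mul_of_nonneg_left htR hw.le]
      have e2 : |t| ≤ w := by nlinarith [abs_nonneg t, mul_self_le_mul_self (abs_nonneg t) htR]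
      linarith [abs_sub (t * w / R) t]
    calc |t * w / R - t| * w * n ≤ 2 * w * w * n := by gcongr
      _ = 2 * n ^ 2 := by rw [← hw2]; ring
      _ ≤ _ := by
        have h5 : n / 2 ≤ -a := by rw [ha, ← hR2]; linarith
        nlinarith [mul_self_le_mul_self (by linarith : (0 : ℝ) ≤ n / 2) h5,
          mul_nonneg (sq_nonneg t) (by linarith : (0 : ℝ) ≤ n)]

/-- The squared length of a Gaussian vector deviates from its mean by `O (√n)`. -/
lemma integral_sq_dev (n : ℕ) :
    Integrable (fun x : Fin n → ℝ => (∑ i, x i ^ 2 - (n : ℝ)) ^ 2)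
        (Measure.pi fun _ : Fin n => gaussianReal 0 1) ∧
      ∫ x, (∑ i, x i ^ 2 - (n : ℝ)) ^ 2 ∂Measure.pi (fun _ : Fin n => gaussianReal 0 1) =
        (n : ℝ) * shellC := by
  set γ := gaussianReal 0 1
  set π1 := Measure.pi fun _ : Fin n => γ
  set Y : Fin n → (Fin n → ℝ) → ℝ := fun i x => x i ^ 2
  have hL : MemLp (fun x : ℝ => x ^ 2) 2 γ := by
    rw [memLp_two_iff_integrable_sq (by fun_prop)]
    have h := (IsGaussian.memLp_id γ 4 (by simp)).integrable_norm_pow'
    refine h.congr (Filter.Eventually.of_forall fun x => ?_)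
    simp only [id, Real.norm_eq_abs, pow_abs]
    rw [abs_of_nonneg (by positivity : 0 ≤ x ^ 4)]
    ring
  have hmp := fun i => measurePreserving_eval (fun _ : Fin n => γ) i
  have hY : ∀ i, MemLp (Y i) 2 π1 := fun i => hL.comp_measurePreserving (hmp i)
  have hvar : ∀ i, variance (Y i) π1 = shellC := fun i => by
    have h := (variance_map (μ := π1) (Y := Function.eval i) (X := fun x : ℝ => x ^ 2)
      (by fun_prop) (measurable_pi_apply i).aemeasurable)
    rw [(hmp i).map_eq] at h
    exact h.symm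
  have hmean : ∀ i, ∫ x, Y i x ∂π1 = 1 := fun i => by
    have h := integral_map (μ := π1) (measurable_pi_apply i).aemeasurable
      (f := fun x : ℝ => x ^ 2) (by fun_prop)
    rw [(hmp i).map_eq] at h
    show ∫ x, x i ^ 2 ∂π1 = 1
    rw [← h]
    have hv := variance_id_gaussianReal (μ := 0) (v := 1)
    rw [variance_of_integral_eq_zero aemeasurable_id integral_id_gaussianReal] at hv
    simpa using hv
  have hind := iIndepFun_pi (μ := fun _ : Fin n => γ) (X := fun _ (x : ℝ) => x ^ 2)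
    fun _ => by fun_prop
  have hV : variance (∑ i, Y i) π1 = n * shellC := by
    rw [IndepFun.variance_sum (fun i _ => hY i) fun i _ j _ hij => hind.indepFun hij]
    simp [hvar]
  have hE : ∫ x, (∑ i, Y i) x ∂π1 = n := by
    simp only [Finset.sum_apply]
    rw [integral_finsetSum _ fun i _ => (hY i).integrable one_le_two]
    simp [hmean]
  have hm : MemLp (∑ i, Y i) 2 π1 := memLp_finsetSum' Finset.univ fun i _ => hY i
  refine ⟨?_, ?_⟩
  · have := (hm.sub (memLp_const (n : ℝ))).integrable_sq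
    simpa [Y, Finset.sum_apply] using this
  · rw [← hV, variance_eq_integral hm.aestronglyMeasurable.aemeasurable, hE]
    simp [Y, Finset.sum_apply]

/-- The deviation of the squared length, one coordinate singled out. -/
lemma integral_dev_split (N : ℕ) :
    Integrable (fun p : ℝ × ℝ => (p.1 ^ 2 + p.2 ^ 2 - ((N : ℝ) + 2)) ^ 2)
        ((normLaw N).prod (gaussianReal 0 1)) ∧
      ∫ p, (p.1 ^ 2 + p.2 ^ 2 - ((N : ℝ) + 2)) ^ 2 ∂(normLaw N).prod (gaussianReal 0 1) =
        ((N : ℝ) + 2) * shellC := by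
  set γ := gaussianReal 0 1
  set μ := stdGaussian (EuclideanSpace ℝ (Fin (N + 1)))
  obtain ⟨hi, he⟩ := integral_sq_dev (N + 2)
  have ht : Measurable (WithLp.toLp 2 : (Fin (N + 2) → ℝ) → EuclideanSpace ℝ (Fin (N + 2))) :=
    WithLp.measurable_toLp 2 _
  have hF : Measurable fun v : EuclideanSpace ℝ (Fin (N + 2)) => (‖v‖ ^ 2 - ((N : ℝ) + 2)) ^ 2 := by
    fun_prop
  have hcast : ((N + 2 : ℕ) : ℝ) = (N : ℝ) + 2 := by push_cast; ring
  have e1 : ∀ x : Fin (N + 2) → ℝ,
      (‖(WithLp.toLp 2 x : EuclideanSpace ℝ (Fin (N + 2)))‖ ^ 2 - ((N : ℝ) + 2)) ^ 2 =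
        (∑ i, x i ^ 2 - ((N + 2 : ℕ) : ℝ)) ^ 2 := fun x => by
    rw [EuclideanSpace.real_norm_sq_eq, hcast]
  have hiv : Integrable (fun v : EuclideanSpace ℝ (Fin (N + 2)) =>
      (‖v‖ ^ 2 - ((N : ℝ) + 2)) ^ 2) (stdGaussian (EuclideanSpace ℝ (Fin (N + 2)))) := by
    rw [← map_pi_eq_stdGaussian, integrable_map_measure hF.aestronglyMeasurable ht.aemeasurable]
    exact hi.congr (Filter.Eventually.of_forall fun x => (e1 x).symm)
  have hev : ∫ v, (‖v‖ ^ 2 - ((N : ℝ) + 2)) ^ 2 ∂stdGaussian (EuclideanSpace ℝ (Fin (N + 2))) =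
      ((N : ℝ) + 2) * shellC := by
    rw [← map_pi_eq_stdGaussian, integral_map ht.aemeasurable hF.aestronglyMeasurable,
      integral_congr_ae (Filter.Eventually.of_forall e1), he, hcast]
  rw [← map_snocVec] at hiv hev
  rw [integrable_map_measure hF.aestronglyMeasurable measurable_snocVec.aemeasurable] at hiv
  rw [integral_map measurable_snocVec.aemeasurable hF.aestronglyMeasurable] at hev
  simp only [Function.comp_def, norm_snocVec_sq] at hiv hev
  have hG : Measurable fun p : ℝ × ℝ => (p.1 ^ 2 + p.2 ^ 2 - ((N : ℝ) + 2)) ^ 2 := by fun_prop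
  have hmap : (μ.prod γ).map (Prod.map (‖·‖) id) = (normLaw N).prod γ := by
    rw [← Measure.map_prod_map _ _ measurable_norm measurable_id, Measure.map_id]; rfl
  rw [← hmap, integrable_map_measure hG.aestronglyMeasurable
    (measurable_norm.prodMap measurable_id).aemeasurable,
    integral_map (measurable_norm.prodMap measurable_id).aemeasurable hG.aestronglyMeasurable]
  exact ⟨hiv, hev⟩

lemma gaussian_sq :
    Integrable (fun t : ℝ => t ^ 2) (gaussianReal 0 1) ∧ ∫ t, t ^ 2 ∂gaussianReal 0 1 = 1 := by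
  refine ⟨(IsGaussian.memLp_id (gaussianReal 0 1) 2 (by simp)).integrable_sq, ?_⟩
  have hv := variance_id_gaussianReal (μ := 0) (v := 1)
  rw [variance_of_integral_eq_zero aemeasurable_id integral_id_gaussianReal] at hv
  simpa using hv

/-- The split coordinate is `O (1 / √N)` away from the Gaussian one. -/
theorem integral_sCoord_sub (N : ℕ) :
    Integrable (fun p => |sCoord N p - p.2|) ((normLaw N).prod (gaussianReal 0 1)) ∧
      ∫ p, |sCoord N p - p.2| ∂(normLaw N).prod (gaussianReal 0 1) ≤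
        (1 + 8 * shellC) / Real.sqrt ((N : ℝ) + 2) := by
  obtain ⟨hd, hde⟩ := integral_dev_split N
  have ht : Integrable (fun p : ℝ × ℝ => p.2 ^ 2) ((normLaw N).prod (gaussianReal 0 1)) :=
    gaussian_sq.1.comp_snd _
  have ht1 : ∫ p, p.2 ^ 2 ∂(normLaw N).prod (gaussianReal 0 1) = 1 := by
    rw [integral_fun_snd (fun t : ℝ => t ^ 2)]
    simp [gaussian_sq.2]
  have hb : Integrable (fun p : ℝ × ℝ => (p.2 ^ 2 +
      8 * (p.1 ^ 2 + p.2 ^ 2 - ((N : ℝ) + 2)) ^ 2 / ((N : ℝ) + 2)) / Real.sqrt ((N : ℝ) + 2))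
      ((normLaw N).prod (gaussianReal 0 1)) := (ht.add ((hd.const_mul 8).div_const _)).div_const _
  have hi : Integrable (fun p => |sCoord N p - p.2|) ((normLaw N).prod (gaussianReal 0 1)) := by
    refine hb.mono' (((measurable_sCoord N).sub measurable_snd).abs).aestronglyMeasurable
      (Filter.Eventually.of_forall fun p => ?_)
    rw [Real.norm_eq_abs, abs_abs]
    exact sCoord_sub_le N p
  refine ⟨hi, (integral_mono hi hb (sCoord_sub_le N)).trans (le_of_eq ?_)⟩
  rw [integral_div, integral_add ht ((hd.const_mul 8).div_const _), integral_div, integral_const_mul,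
    hde, ht1]
  have : (0 : ℝ) < (N : ℝ) + 2 := by positivity
  field_simp

/-- Averages of Lipschitz functions over the split coordinate are close to Gaussian averages. -/
theorem sLaw_approx (N : ℕ) {φ : ℝ → ℝ} {K C : ℝ} (hK : 0 ≤ K)
    (hφ : ∀ a b, |φ a - φ b| ≤ K * |a - b|) (hC : ∀ a, |φ a| ≤ C) :
    |∫ s, φ s ∂sLaw N - ∫ t, φ t ∂gaussianReal 0 1| ≤
      K * ((1 + 8 * shellC) / Real.sqrt ((N : ℝ) + 2)) := by
  have hm : Measurable φ :=
    (LipschitzWith.of_dist_le_mul (K := K.toNNReal) fun a b => by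
      rw [Real.coe_toNNReal _ hK, Real.dist_eq, Real.dist_eq]; exact hφ a b).continuous.measurable
  have h1 : Integrable (fun p => φ (sCoord N p)) ((normLaw N).prod (gaussianReal 0 1)) :=
    (integrable_const C).mono' (hm.comp (measurable_sCoord N)).aestronglyMeasurable
      (Filter.Eventually.of_forall fun p => hC _)
  have h2 : Integrable (fun p : ℝ × ℝ => φ p.2) ((normLaw N).prod (gaussianReal 0 1)) :=
    (integrable_const C).mono' (hm.comp measurable_snd).aestronglyMeasurable
      (Filter.Eventually.of_forall fun p => hC _)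
  obtain ⟨hi, hle⟩ := integral_sCoord_sub N
  have e : ∫ t, φ t ∂gaussianReal 0 1 = ∫ p, φ p.2 ∂(normLaw N).prod (gaussianReal 0 1) := by
    rw [integral_fun_snd φ]; simp
  rw [sLaw, integral_map (measurable_sCoord N).aemeasurable hm.aestronglyMeasurable, e,
    ← integral_sub h1 h2]
  refine (abs_integral_le_integral_abs).trans ?_
  refine ((integral_mono (h1.sub h2).abs (hi.const_mul K) fun p => hφ _ _)).trans ?_
  rw [integral_const_mul]
  exact mul_le_mul_of_nonneg_left hle hK

end Vale.Agent.P157.Low
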