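import Vale.Agent.P157.Low.SpinPatterns
import Vale.Agent.P157.Low.DriftValues
import Vale.Agent.P157.Low.Stein
import Vale.Agent.P157.Low.SmCalc

/-!
Averages at one added pattern for an arbitrary system, and integration by parts in that pattern.
-/

namespace Vale.Agent.P157.Low

open MeasureTheory ProbabilityTheory Filter
open scoped RealInnerProductSpace Topology

namespace Sys

variable (S : Sys) {n : ℕ}

/-- An integrable function of disorder and replicas has integrable Gibbs averages. -/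
lemma integrable_inner {Θ : S.Ω → (Fin n → S.X) → ℝ} (hI : Integrable (Function.uncurry Θ) (S.repLaw n)) :
    Integrable (fun ω => ∫ r, Θ ω r ∂Measure.pi fun _ : Fin n => gibbs S.ref (S.w ω)) S.law := by
  have hpos := fun ω => (S.wt ω).integral_pos (μ := S.ref)
  rw [repLaw, integrable_withDensity_iff (S.measurable_density n).ennreal_ofReal
    (Eventually.of_forall fun p => ENNReal.ofReal_lt_top)] at hI
  refine hI.integral_prod_left.congr (Eventually.of_forall fun ω => ?_)
  simp only [Function.uncurry]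
  rw [integral_pi_gibbs_rep (S.wt ω), ← integral_div]
  refine integral_congr_ae (Eventually.of_forall fun x => ?_)
  simp only
  rw [ENNReal.toReal_ofReal (Finset.prod_nonneg fun l _ => div_nonneg ((S.wt ω).pos _).le (hpos ω).le)]
  simp only [Finset.prod_div_distrib, Finset.prod_const, Finset.card_univ, Fintype.card_fin]
  ring

lemma avgRep_add {F G : S.Ω → (Fin n → S.X) → ℝ} (hF : Integrable (Function.uncurry F) (S.repLaw n))
    (hG : Integrable (Function.uncurry G) (S.repLaw n)) :
    S.avgRep n (fun ω r => F ω r + G ω r) = S.avgRep n F + S.avgRep n G := by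
  have h : Integrable (Function.uncurry fun ω r => F ω r + G ω r) (S.repLaw n) := hF.add hG
  rw [S.avgRep_eq_of_integrable hF, S.avgRep_eq_of_integrable hG, S.avgRep_eq_of_integrable h]
  exact integral_add hF hG

lemma avgRep_sub {F G : S.Ω → (Fin n → S.X) → ℝ} (hF : Integrable (Function.uncurry F) (S.repLaw n))
    (hG : Integrable (Function.uncurry G) (S.repLaw n)) :
    S.avgRep n (fun ω r => F ω r - G ω r) = S.avgRep n F - S.avgRep n G := by
  have h : Integrable (Function.uncurry fun ω r => F ω r - G ω r) (S.repLaw n) := hF.sub hG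
  rw [S.avgRep_eq_of_integrable hF, S.avgRep_eq_of_integrable hG, S.avgRep_eq_of_integrable h]
  exact integral_sub hF hG

lemma abs_avgRep_le_mul {F G : S.Ω → (Fin n → S.X) → ℝ} (hF : Integrable (Function.uncurry F) (S.repLaw n))
    (hG : Integrable (Function.uncurry G) (S.repLaw n)) {a : ℝ} (h : ∀ ω r, |F ω r| ≤ a * G ω r) :
    |S.avgRep n F| ≤ a * S.avgRep n G := by
  rw [S.avgRep_eq_of_integrable hF, S.avgRep_eq_of_integrable hG, ← integral_const_mul, ← Real.norm_eq_abs]
  exact norm_integral_le_of_norm_le (hG.const_mul a)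
    (Eventually.of_forall fun p => (Real.norm_eq_abs _).trans_le (h p.1 p.2))

end Sys

variable {f : ℝ → ℝ} {B : ℝ} (hf : Pot f B) (S : Sys)

lemma abs_inner_unit_le (g : S.E) (x : S.X) : |⟪g, S.v x⟫| ≤ ‖g‖ := by
  simpa [S.unit] using abs_real_inner_le_norm g (S.v x)

lemma measurable_tilt_field {n : ℕ} (l : Fin n) :
    Measurable fun q : (S.Ω × S.E) × (Fin n → S.X) => ⟪q.1.2, S.v (q.2 l)⟫ :=
  (measurable_snd.comp measurable_fst).inner (S.measV.comp ((measurable_pi_apply l).comp measurable_snd))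

/-- Functions of the added pattern and the replicas with quadratic growth are integrable. -/
lemma integrable_tiltF {n : ℕ} {Θ : S.Ω × S.E → (Fin n → S.X) → ℝ} (hm : Measurable (Function.uncurry Θ))
    {C : ℝ} (hb : ∀ p r, |Θ p r| ≤ C * (1 + ‖p.2‖) ^ 2) :
    Integrable (Function.uncurry Θ) ((S.tiltF hf).repLaw n) := by
  have hd : Integrable (fun g : S.E => C * (1 + ‖g‖) ^ 2) (stdGaussian S.E) := by
    have h := (((integrable_const (1 : ℝ)).add ((integrable_norm_pow (E := S.E) 1).const_mul 2)).add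
      (integrable_norm_pow (E := S.E) 2)).const_mul C
    refine h.congr (Eventually.of_forall fun g => ?_)
    simp only [Pi.add_apply]
    ring
  exact (S.tiltF hf).integrable_repLaw_of_le (hd.comp_snd S.law) hm hb

/-- The second moment of the field at the added pattern. -/
lemma tiltF_sq_le :
    (S.tiltF hf).avgRep 1 (fun (p : S.Ω × S.E) (r : Fin 1 → S.X) => ⟪p.2, S.v (r 0)⟫ ^ 2) ≤
      Real.exp (2 * B) := by
  have hI := integrable_tiltF hf S (n := 1) (Θ := fun p r => ⟪p.2, S.v (r 0)⟫ ^ 2) (C := 1)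
    ((measurable_tilt_field S (0 : Fin 1)).pow_const 2) fun p r => by
      rw [abs_pow, one_mul]
      exact pow_le_pow_left₀ (abs_nonneg _)
        ((abs_inner_unit_le S _ _).trans (by linarith [norm_nonneg p.2])) 2
  have hi := (S.tiltF hf).integrable_inner hI
  show ∫ p, (∫ r : Fin 1 → S.X, ⟪p.2, S.v (r 0)⟫ ^ 2
    ∂Measure.pi fun _ : Fin 1 => gibbs S.ref (fun y => S.w p.1 y * expW f ⟪p.2, S.v y⟫))
      ∂S.law.prod (stdGaussian S.E) ≤ _
  refine (integral_prod _ hi).trans_le ?_
  refine (le_abs_self _).trans ((Real.norm_eq_abs _).symm.trans_le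
    ((norm_integral_le_of_norm_le_const (C := Real.exp (2 * B))
      (Eventually.of_forall fun ω => ?_)).trans (by simp)))
  have := isProbabilityMeasure_gibbs (μ := S.ref) (S.wt ω)
  set ν := gibbs S.ref (S.w ω)
  have hsq : ∀ g : S.E, Integrable (fun y => ⟪g, S.v y⟫ ^ 2) ν := fun g =>
    Integrable.of_bound ((measurable_const.inner S.measV).pow_const 2).aestronglyMeasurable (‖g‖ ^ 2)
      (Eventually.of_forall fun y => by
        rw [Real.norm_eq_abs, abs_pow]
        exact pow_le_pow_left₀ (abs_nonneg _) (abs_inner_unit_le S g y) 2)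
  have hjoint : Integrable (Function.uncurry fun (g : S.E) (y : S.X) => ⟪g, S.v y⟫ ^ 2)
      ((stdGaussian S.E).prod ν) :=
    ((integrable_norm_pow (E := S.E) 2).comp_fst ν).mono'
      ((measurable_fst.inner (S.measV.comp measurable_snd)).pow_const 2).aestronglyMeasurable
      (Eventually.of_forall fun q => by
        simp only [Function.uncurry, Real.norm_eq_abs, abs_pow]
        exact pow_le_pow_left₀ (abs_nonneg _) (abs_inner_unit_le S q.1 q.2) 2)
  have hval : ∫ g, ∫ y, ⟪g, S.v y⟫ ^ 2 ∂ν ∂stdGaussian S.E = 1 := by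
    rw [integral_integral_swap hjoint]
    simp [integral_inner_sq, S.unit]
  have hwu : ∀ g : S.E, Wt fun y => expW f ⟪g, S.v y⟫ := fun g =>
    Wt.exp (hf.meas.comp (measurable_const.inner S.measV)) (β := B) fun y => hf.bound _
  have h1 : ∀ g, (∫ r : Fin 1 → S.X, ⟪g, S.v (r 0)⟫ ^ 2
      ∂Measure.pi fun _ : Fin 1 => gibbs S.ref (fun y => S.w ω y * expW f ⟪g, S.v y⟫)) ≤
      Real.exp (2 * B) * ∫ y, ⟪g, S.v y⟫ ^ 2 ∂ν := fun g => by
    rw [integral_pi_gibbs_mul (S.wt ω) (hwu g)]
    have hmp := measurePreserving_funUnique ν (Fin 1)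
    have e : ∀ h : S.X → ℝ, ∫ r : Fin 1 → S.X, h (r 0) ∂(Measure.pi fun _ => ν) = ∫ y, h y ∂ν := fun h =>
      (hmp.integral_comp (MeasurableEquiv.funUnique (Fin 1) S.X).measurableEmbedding h)
    simp only [Fin.prod_univ_one, pow_one]
    rw [e fun y => expW f ⟪g, S.v y⟫ * ⟪g, S.v y⟫ ^ 2]
    have hlo : Real.exp (-B) ≤ ∫ y, expW f ⟪g, S.v y⟫ ∂ν := by
      refine le_trans (le_of_eq (by simp)) (integral_mono (integrable_const (Real.exp (-B)))
        ((hwu g).integrable (μ := ν)) fun y => (expW_mem hf _).1)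
    have hup : ∫ y, expW f ⟪g, S.v y⟫ * ⟪g, S.v y⟫ ^ 2 ∂ν ≤ Real.exp B * ∫ y, ⟪g, S.v y⟫ ^ 2 ∂ν := by
      rw [← integral_const_mul]
      exact integral_mono_of_nonneg (Eventually.of_forall fun y => mul_nonneg (Real.exp_pos _).le (sq_nonneg _))
        ((hsq g).const_mul _) (Eventually.of_forall fun y =>
          mul_le_mul_of_nonneg_right (expW_mem hf _).2 (sq_nonneg _))
    refine (div_le_div₀ (mul_nonneg (Real.exp_pos _).le (integral_nonneg fun y => sq_nonneg _)) hup
      (Real.exp_pos _) hlo).trans (le_of_eq ?_)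
    rw [show 2 * B = B - -B by ring, Real.exp_sub]
    ring
  have h0 : ∀ g, 0 ≤ ∫ r : Fin 1 → S.X, ⟪g, S.v (r 0)⟫ ^ 2
      ∂Measure.pi fun _ : Fin 1 => gibbs S.ref (fun y => S.w ω y * expW f ⟪g, S.v y⟫) :=
    fun g => integral_nonneg fun r => sq_nonneg _
  rw [Real.norm_eq_abs]
  refine (abs_of_nonneg (integral_nonneg h0)).trans_le ?_
  refine (integral_mono_of_nonneg (Eventually.of_forall h0) (hjoint.integral_prod_left.const_mul _)
    (Eventually.of_forall h1)).trans_eq ?_
  exact (integral_const_mul _ _).trans (by simp only [Function.uncurry]; rw [hval, mul_one])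

/-- Integration by parts in the added pattern. -/
theorem tiltF_stein {F : ℝ → ℝ} (hF : BdD 1 F) (hd : BdD 1 f) :
    (S.tiltF hf).avgRep 1 (fun (p : S.Ω × S.E) (r : Fin 1 → S.X) =>
        ⟪p.2, S.v (r 0)⟫ * F ⟪p.2, S.v (r 0)⟫) =
      (S.tiltF hf).avgRep 1 (fun (p : S.Ω × S.E) (r : Fin 1 → S.X) =>
        deriv F ⟪p.2, S.v (r 0)⟫ + F ⟪p.2, S.v (r 0)⟫ * deriv f ⟪p.2, S.v (r 0)⟫) -
      (S.tiltF hf).avgRep 2 (fun (p : S.Ω × S.E) (r : Fin 2 → S.X) =>
        ⟪S.v (r 0), S.v (r 1)⟫ * (F ⟪p.2, S.v (r 0)⟫ * deriv f ⟪p.2, S.v (r 1)⟫)) := by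
  obtain ⟨hFd, ⟨a, ha⟩, hF'c, a', ha'⟩ := hF
  obtain ⟨hfd, -, hf'c, b, hb⟩ := hd
  have hF'm : Measurable (deriv F) := hF'c.measurable
  have hf'm : Measurable (deriv f) := hf'c.measurable
  have ha0 : 0 ≤ a := (abs_nonneg _).trans (ha 0)
  have hb0 : 0 ≤ b := (abs_nonneg _).trans (hb 0)
  have ha'0 : 0 ≤ a' := (abs_nonneg _).trans (ha' 0)
  have hone : ∀ g : S.E, (1 : ℝ) ≤ (1 + ‖g‖) ^ 2 := fun g => by nlinarith [norm_nonneg g]
  have hin : ∀ σ τ, |⟪S.v σ, S.v τ⟫| ≤ 1 := fun σ τ => by
    simpa [S.unit] using abs_real_inner_le_norm (S.v σ) (S.v τ)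
  have hFfb : ∀ y z, |F y * deriv f z| ≤ a * b := fun y z => by
    rw [abs_mul]; exact mul_le_mul (ha _) (hb _) (abs_nonneg _) ha0
  have hvm2 : Measurable fun q : (S.Ω × S.E) × (Fin 2 → S.X) => ⟪S.v (q.2 0), S.v (q.2 1)⟫ :=
    (S.measV.comp ((measurable_pi_apply 0).comp measurable_snd)).inner
      (S.measV.comp ((measurable_pi_apply 1).comp measurable_snd))
  have I1 := integrable_tiltF hf S (n := 1) (Θ := fun p r => ⟪p.2, S.v (r 0)⟫ * F ⟪p.2, S.v (r 0)⟫) (C := a)
    ((measurable_tilt_field S (0 : Fin 1)).mul (hFd.continuous.measurable.comp (measurable_tilt_field S (0 : Fin 1))))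
    fun p r => by
      rw [abs_mul, mul_comm a]
      refine mul_le_mul ((abs_inner_unit_le S _ _).trans ?_) (ha _) (abs_nonneg _) (by positivity)
      nlinarith [norm_nonneg p.2]
  have I2 := integrable_tiltF hf S (n := 1) (Θ := fun p r =>
      deriv F ⟪p.2, S.v (r 0)⟫ + F ⟪p.2, S.v (r 0)⟫ * deriv f ⟪p.2, S.v (r 0)⟫) (C := a' + a * b)
    ((hF'm.comp (measurable_tilt_field S (0 : Fin 1))).add ((hFd.continuous.measurable.comp
      (measurable_tilt_field S (0 : Fin 1))).mul (hf'm.comp (measurable_tilt_field S (0 : Fin 1)))))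
    fun p r => (abs_add_le _ _).trans ((add_le_add (ha' _) (hFfb _ _)).trans
      (le_mul_of_one_le_right (by positivity) (hone _)))
  have I3 := integrable_tiltF hf S (n := 2) (Θ := fun p r =>
      ⟪S.v (r 0), S.v (r 1)⟫ * (F ⟪p.2, S.v (r 0)⟫ * deriv f ⟪p.2, S.v (r 1)⟫)) (C := a * b)
    (hvm2.mul ((hFd.continuous.measurable.comp (measurable_tilt_field S (0 : Fin 2))).mul
      (hf'm.comp (measurable_tilt_field S (1 : Fin 2)))))
    fun p r => by
      rw [abs_mul]
      exact ((mul_le_mul (hin _ _) (hFfb _ _) (abs_nonneg _) zero_le_one).trans_eq (one_mul _)).trans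
        (le_mul_of_one_le_right (by positivity) (hone _))
  set wg : S.Ω × S.E → S.X → ℝ := fun p y => S.w p.1 y * expW f ⟪p.2, S.v y⟫
  set J1 : S.Ω × S.E → ℝ := fun p => ∫ r : Fin 1 → S.X, ⟪p.2, S.v (r 0)⟫ * F ⟪p.2, S.v (r 0)⟫
    ∂Measure.pi fun _ => gibbs S.ref (wg p)
  set J2 : S.Ω × S.E → ℝ := fun p => ∫ r : Fin 1 → S.X,
    deriv F ⟪p.2, S.v (r 0)⟫ + F ⟪p.2, S.v (r 0)⟫ * deriv f ⟪p.2, S.v (r 0)⟫
    ∂Measure.pi fun _ => gibbs S.ref (wg p)
  set J3 : S.Ω × S.E → ℝ := fun p => ∫ r : Fin 2 → S.X,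
    ⟪S.v (r 0), S.v (r 1)⟫ * (F ⟪p.2, S.v (r 0)⟫ * deriv f ⟪p.2, S.v (r 1)⟫)
    ∂Measure.pi fun _ => gibbs S.ref (wg p)
  have i1 : Integrable J1 (S.law.prod (stdGaussian S.E)) := (S.tiltF hf).integrable_inner I1
  have i2 : Integrable J2 (S.law.prod (stdGaussian S.E)) := (S.tiltF hf).integrable_inner I2
  have i3 : Integrable J3 (S.law.prod (stdGaussian S.E)) := (S.tiltF hf).integrable_inner I3
  show ∫ p, J1 p ∂S.law.prod (stdGaussian S.E) =
    (∫ p, J2 p ∂S.law.prod (stdGaussian S.E)) - ∫ p, J3 p ∂S.law.prod (stdGaussian S.E)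
  rw [integral_prod _ i1, integral_prod _ i2, integral_prod _ i3,
    ← integral_sub i2.integral_prod_left i3.integral_prod_left]
  refine integral_congr_ae ?_
  filter_upwards [i2.prod_right_ae, i3.prod_right_ae] with ω j2 j3
  rw [← integral_sub j2 j3]
  have := isProbabilityMeasure_gibbs (μ := S.ref) (S.wt ω)
  set ν := gibbs S.ref (S.w ω)
  set e : S.E → S.X → ℝ := fun g τ => expW f ⟪g, S.v τ⟫ with he
  have hfl : Measurable fun q : S.E × S.X => ⟪q.1, S.v q.2⟫ :=
    measurable_fst.inner (S.measV.comp measurable_snd)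
  have hwu : ∀ g, Wt (e g) := fun g =>
    Wt.exp (hf.meas.comp (measurable_const.inner S.measV)) (β := B) fun y => hf.bound _
  set EB := Real.exp (-B)
  have hEB : 0 < EB := Real.exp_pos _
  set Z : S.E → ℝ := fun g => ∫ τ, e g τ ∂ν
  set U : S.E → S.X → ℝ := fun g σ => ∫ τ, e g τ * (deriv f ⟪g, S.v τ⟫ * ⟪S.v σ, S.v τ⟫) ∂ν
  have hem : Measurable (Function.uncurry e) := (hf.meas.comp hfl).exp
  have hZlo : ∀ g, EB ≤ Z g := fun g =>
    le_trans (le_of_eq (by simp)) (integral_mono (integrable_const EB) ((hwu g).integrable (μ := ν))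
      fun y => (expW_mem hf _).1)
  have hZ : ∀ g, 0 < Z g := fun g => hEB.trans_le (hZlo g)
  have hUb : ∀ g σ, |U g σ| ≤ Real.exp B * b := fun g σ => by
    rw [← Real.norm_eq_abs]
    refine (norm_integral_le_of_norm_le_const (C := Real.exp B * b) (Eventually.of_forall fun τ => ?_)).trans
      (by simp)
    simp only [he, Real.norm_eq_abs, abs_mul, expW, Real.abs_exp]
    refine mul_le_mul (expW_mem hf _).2 ((mul_le_mul (hb _) (hin _ _) (abs_nonneg _) hb0).trans_eq (mul_one b))
      (by positivity) (Real.exp_pos _).le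
  have hUm : Measurable (Function.uncurry U) := by
    have hm : Measurable (Function.uncurry fun (q : S.E × S.X) (τ : S.X) =>
        e q.1 τ * (deriv f ⟪q.1, S.v τ⟫ * ⟪S.v q.2, S.v τ⟫)) := by
      have hg : Measurable fun w : (S.E × S.X) × S.X => (w.1.1, w.2) :=
        (measurable_fst.comp measurable_fst).prodMk measurable_snd
      exact (hem.comp hg).mul ((hf'm.comp (hfl.comp hg)).mul
        ((S.measV.comp (measurable_snd.comp measurable_fst)).inner (S.measV.comp measurable_snd)))
    exact (hm.stronglyMeasurable.integral_prod_right').measurable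
  have hZm : Measurable Z := (hem.stronglyMeasurable.integral_prod_right').measurable
  set G : S.X → S.E → ℝ := fun σ g => e g σ * F ⟪g, S.v σ⟫ / Z g with hG
  set G' : S.X → S.E → ℝ := fun σ g =>
    e g σ * (deriv F ⟪g, S.v σ⟫ + F ⟪g, S.v σ⟫ * deriv f ⟪g, S.v σ⟫) / Z g -
      e g σ * F ⟪g, S.v σ⟫ * U g σ / Z g ^ 2 with hG'
  set C := Real.exp B * a / EB + Real.exp B * (a' + a * b) / EB +
    Real.exp B * a * (Real.exp B * b) / EB ^ 2 with hC
  have hef : ∀ g σ, |e g σ * F ⟪g, S.v σ⟫| ≤ Real.exp B * a := fun g σ => by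
    simp only [he, abs_mul, expW, Real.abs_exp]
    exact mul_le_mul (expW_mem hf _).2 (ha _) (abs_nonneg _) (Real.exp_pos _).le
  have hGb : ∀ σ g, |G σ g| ≤ C := fun σ g => by
    have hpos : 0 ≤ Real.exp B * (a' + a * b) / EB + Real.exp B * a * (Real.exp B * b) / EB ^ 2 := by
      positivity
    simp only [hG, abs_div, abs_of_pos (hZ g)]
    refine (div_le_div₀ (by positivity) (hef g σ) hEB (hZlo g)).trans ?_
    linarith
  have hG'b : ∀ σ g, |G' σ g| ≤ C := fun σ g => by
    simp only [hG']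
    refine (abs_sub _ _).trans ?_
    rw [abs_div, abs_div, abs_of_pos (hZ g), abs_of_pos (pow_pos (hZ g) 2)]
    have h1 : |e g σ * (deriv F ⟪g, S.v σ⟫ + F ⟪g, S.v σ⟫ * deriv f ⟪g, S.v σ⟫)| / Z g ≤
        Real.exp B * (a' + a * b) / EB := by
      refine div_le_div₀ (by positivity) ?_ hEB (hZlo g)
      simp only [he, abs_mul, expW, Real.abs_exp]
      exact mul_le_mul (expW_mem hf _).2 ((abs_add_le _ _).trans (add_le_add (ha' _) (hFfb _ _)))
        (abs_nonneg _) (Real.exp_pos _).le
    have h2 : |e g σ * F ⟪g, S.v σ⟫ * U g σ| / Z g ^ 2 ≤ Real.exp B * a * (Real.exp B * b) / EB ^ 2 := by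
      refine div_le_div₀ (by positivity) ?_ (by positivity) (pow_le_pow_left₀ hEB.le (hZlo g) 2)
      rw [abs_mul]
      exact mul_le_mul (hef g σ) (hUb g σ) (abs_nonneg _) (by positivity)
    have : 0 ≤ Real.exp B * a / EB := by positivity
    linarith
  have hsw : Measurable fun q : S.E × S.X => (q.2, q.1) := measurable_swap
  have hGm : Measurable (Function.uncurry fun (g : S.E) σ => G σ g) :=
    (hem.mul (hFd.continuous.measurable.comp hfl)).div (hZm.comp measurable_fst)
  have hG'm : Measurable (Function.uncurry fun (g : S.E) σ => G' σ g) :=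
    ((hem.mul ((hF'm.comp hfl).add ((hFd.continuous.measurable.comp hfl).mul (hf'm.comp hfl)))).div
      (hZm.comp measurable_fst)).sub
    (((hem.mul (hFd.continuous.measurable.comp hfl)).mul hUm).div ((hZm.comp measurable_fst).pow_const 2))
  have hderiv : ∀ σ g, HasDerivAt (fun t : ℝ => G σ (g + t • S.v σ)) (G' σ g) 0 := fun σ g => by
    have hl : ∀ τ t, HasDerivAt (fun t : ℝ => ⟪g + t • S.v σ, S.v τ⟫) ⟪S.v σ, S.v τ⟫ t := fun τ t => by
      simp only [inner_add_left, real_inner_smul_left]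
      simpa using ((hasDerivAt_id' t).mul_const ⟪S.v σ, S.v τ⟫).const_add ⟪g, S.v τ⟫
    have he' : ∀ τ t, HasDerivAt (fun t : ℝ => e (g + t • S.v σ) τ)
        (e (g + t • S.v σ) τ * (deriv f ⟪g + t • S.v σ, S.v τ⟫ * ⟪S.v σ, S.v τ⟫)) t := fun τ t => by
      have := (HasDerivAt.comp t (h₂ := f) (hfd _).hasDerivAt (hl τ t)).exp
      simpa [he, expW, Function.comp_def] using this
    have hZ' : HasDerivAt (fun t : ℝ => Z (g + t • S.v σ)) (U g σ) 0 := by
      have h := (hasDerivAt_integral_of_dominated_loc_of_deriv_le (μ := ν)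
        (F := fun t τ => e (g + t • S.v σ) τ)
        (F' := fun t τ => e (g + t • S.v σ) τ * (deriv f ⟪g + t • S.v σ, S.v τ⟫ * ⟪S.v σ, S.v τ⟫))
        (x₀ := (0 : ℝ)) (bound := fun _ => Real.exp B * b) univ_mem
        (Eventually.of_forall fun t => (hwu _).meas.aestronglyMeasurable) (hwu _).integrable
        (((hwu _).meas.mul ((hf'm.comp (measurable_const.inner S.measV)).mul
          (measurable_const.inner S.measV))).aestronglyMeasurable)
        (Eventually.of_forall fun τ t _ => ?_) (integrable_const _)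
        (Eventually.of_forall fun τ t _ => he' τ t)).2
      · simpa [U] using h
      · simp only [he, Real.norm_eq_abs, abs_mul, expW, Real.abs_exp]
        exact mul_le_mul (expW_mem hf _).2 ((mul_le_mul (hb _) (hin _ _) (abs_nonneg _) hb0).trans_eq
          (mul_one b)) (by positivity) (Real.exp_pos _).le
    have hvv : ⟪S.v σ, S.v σ⟫ = (1 : ℝ) := by rw [real_inner_self_eq_norm_sq, S.unit, one_pow]
    have hFt : HasDerivAt (fun t : ℝ => F ⟪g + t • S.v σ, S.v σ⟫) (deriv F ⟪g, S.v σ⟫) 0 := by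
      have := HasDerivAt.comp (0 : ℝ) (h₂ := F) (hFd _).hasDerivAt (hl σ 0)
      simpa [Function.comp_def, S.unit] using this
    refine (((he' σ 0).fun_mul hFt).fun_div hZ' (by simpa using (hZ g).ne')).congr_deriv ?_
    simp only [hG', zero_smul, add_zero, hvv, mul_one]
    have := (hZ g).ne'
    field_simp
    ring
  have key : ∀ σ, ∫ g, ⟪g, S.v σ⟫ * G σ g ∂stdGaussian S.E = ∫ g, G' σ g ∂stdGaussian S.E := fun σ =>
    stein_unit (S.unit σ) (hGm.comp (measurable_id.prodMk measurable_const))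
      (hG'm.comp (measurable_id.prodMk measurable_const)) (hderiv σ) (hGb σ) (hG'b σ)
  have e1 : ∀ h : S.X → ℝ, ∫ r : Fin 1 → S.X, h (r 0) ∂(Measure.pi fun _ => ν) = ∫ y, h y ∂ν := fun h =>
    (measurePreserving_funUnique ν (Fin 1)).integral_comp
      (MeasurableEquiv.funUnique (Fin 1) S.X).measurableEmbedding h
  have hL : ∀ g, J1 (ω, g) = ∫ σ, ⟪g, S.v σ⟫ * G σ g ∂ν := fun g => by
    simp only [J1, wg]
    rw [integral_pi_gibbs_mul (S.wt ω) (hwu g)]
    simp only [Fin.prod_univ_one, pow_one]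
    rw [e1 fun y => e g y * (⟪g, S.v y⟫ * F ⟪g, S.v y⟫), ← integral_div]
    refine integral_congr_ae (Eventually.of_forall fun σ => ?_)
    simp only [hG]
    ring
  have hR : ∀ g, J2 (ω, g) - J3 (ω, g) = ∫ σ, G' σ g ∂ν := fun g => by
    simp only [J2, J3, wg]
    rw [integral_pi_gibbs_mul (S.wt ω) (hwu g), integral_pi_gibbs_mul (S.wt ω) (hwu g)]
    simp only [Fin.prod_univ_one, Fin.prod_univ_two, pow_one]
    rw [e1 fun y => e g y * (deriv F ⟪g, S.v y⟫ + F ⟪g, S.v y⟫ * deriv f ⟪g, S.v y⟫)]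
    set h2 : S.X → S.X → ℝ := fun σ τ =>
      e g σ * e g τ * (⟪S.v σ, S.v τ⟫ * (F ⟪g, S.v σ⟫ * deriv f ⟪g, S.v τ⟫))
    have hh : Integrable (Function.uncurry h2) (ν.prod ν) := by
      have hp : ∀ {β : Type} [MeasurableSpace β] {u : β → S.X}, Measurable u →
          Measurable fun q => ⟪g, S.v (u q)⟫ := fun hu => measurable_const.inner (S.measV.comp hu)
      refine Integrable.of_bound (Measurable.aestronglyMeasurable ?_) (Real.exp B * Real.exp B * (a * b))
        (Eventually.of_forall fun q => ?_)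
      · exact (((hwu g).meas.comp measurable_fst).mul ((hwu g).meas.comp measurable_snd)).mul
          (((S.measV.comp measurable_fst).inner (S.measV.comp measurable_snd)).mul
            ((hFd.continuous.measurable.comp (hp measurable_fst)).mul (hf'm.comp (hp measurable_snd))))
      · simp only [h2, Function.uncurry, he, Real.norm_eq_abs, abs_mul, expW, Real.abs_exp]
        refine mul_le_mul (mul_le_mul (expW_mem hf _).2 (expW_mem hf _).2 (Real.exp_pos _).le
          (Real.exp_pos _).le) ?_ (by positivity) (by positivity)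
        rw [← abs_mul (F _)]
        exact (mul_le_mul (hin _ _) (hFfb _ _) (abs_nonneg _) zero_le_one).trans_eq (one_mul _)
    have e2 : ∫ r : Fin 2 → S.X, e g (r 0) * e g (r 1) * (⟪S.v (r 0), S.v (r 1)⟫ *
        (F ⟪g, S.v (r 0)⟫ * deriv f ⟪g, S.v (r 1)⟫)) ∂(Measure.pi fun _ => ν) = ∫ σ, ∫ τ, h2 σ τ ∂ν ∂ν := by
      refine Eq.trans ?_ (integral_prod (Function.uncurry h2) hh)
      exact (measurePreserving_finTwoArrow ν).integral_comp
        MeasurableEquiv.finTwoArrow.measurableEmbedding (Function.uncurry h2)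
    rw [e2, ← integral_div, ← integral_div, ← integral_sub]
    · refine integral_congr_ae (Eventually.of_forall fun σ => ?_)
      simp only [hG', U, h2, Z]
      rw [← integral_const_mul]
      congr 2
      exact integral_congr_ae (Eventually.of_forall fun τ => by ring)
    · refine (Integrable.of_bound (Measurable.aestronglyMeasurable ?_) (Real.exp B * (a' + a * b))
        (Eventually.of_forall fun σ => ?_)).div_const _
      · have hp : Measurable fun σ => ⟪g, S.v σ⟫ := measurable_const.inner S.measV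
        exact (hwu g).meas.mul ((hF'm.comp hp).add ((hFd.continuous.measurable.comp hp).mul (hf'm.comp hp)))
      · simp only [he, Real.norm_eq_abs, abs_mul, expW, Real.abs_exp]
        exact mul_le_mul (expW_mem hf _).2 ((abs_add_le _ _).trans (add_le_add (ha' _) (hFfb _ _)))
          (abs_nonneg _) (Real.exp_pos _).le
    · exact hh.integral_prod_left.div_const _
  have hGp : Integrable (Function.uncurry fun (g : S.E) σ => ⟪g, S.v σ⟫ * G σ g) ((stdGaussian S.E).prod ν) :=
    (((integrable_norm_pow (E := S.E) 1).mul_const C).comp_fst ν).mono'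
      (hfl.mul hGm).aestronglyMeasurable (Eventually.of_forall fun q => by
        simp only [Function.uncurry, Real.norm_eq_abs, abs_mul, pow_one]
        exact mul_le_mul (abs_inner_unit_le S q.1 q.2) (hGb _ _) (abs_nonneg _) (norm_nonneg _))
  have hG'p : Integrable (Function.uncurry fun (g : S.E) σ => G' σ g) ((stdGaussian S.E).prod ν) :=
    Integrable.of_bound hG'm.aestronglyMeasurable C
      (Eventually.of_forall fun q => (Real.norm_eq_abs _).trans_le (hG'b _ _))
  simp only [hL, hR]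
  rw [integral_integral_swap hGp, integral_integral_swap hG'p]
  exact integral_congr_ae (Eventually.of_forall key)

end Vale.Agent.P157.Low
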