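import Vale.Agent.P157.Low.SphCasc

/-!
The weight of one spin of the sphere, truncated, and the lower bound of its Gaussian smoothing.
-/

namespace Vale.Agent.P157.Low

open MeasureTheory ProbabilityTheory

/-- The truncated weight of the new coordinate: `a` is the coefficient of half its square. -/
noncomputable def sphG (a T L x : ℝ) : ℝ :=
  ∫ t, (Set.Icc (-T) T).indicator
    (fun t => Real.exp (a * t ^ 2 / 2) * Real.cosh (t * (L * Real.tanh (x / L)))) t ∂gaussianReal 0 1

lemma abs_mul_tanh_le {L : ℝ} (hL : 0 < L) (x : ℝ) : |L * Real.tanh (x / L)| ≤ L := by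
  rw [abs_mul, abs_of_pos hL]
  exact mul_le_of_le_one_right hL.le (Real.abs_tanh_lt_one _).le

lemma lip_tanh : RSB.Lip 1 Real.tanh := by
  have hd : ∀ y, HasDerivAt Real.tanh (1 - Real.tanh y ^ 2) y := fun y => by
    have hc := (Real.cosh_pos y).ne'
    have h := (Real.hasDerivAt_sinh y).div (Real.hasDerivAt_cosh y) hc
    rw [show Real.tanh = fun x => Real.sinh x / Real.cosh x from funext Real.tanh_eq_sinh_div_cosh]
    refine h.congr_deriv ?_
    field_simp
  refine lip_of_hasDerivAt hd fun y => ?_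
  have h1 := Real.abs_tanh_lt_one y
  have h2 := sq_abs (Real.tanh y)
  rw [abs_le]
  constructor <;> nlinarith [abs_nonneg (Real.tanh y)]

lemma abs_squash_sub_le {L : ℝ} (hL : 0 < L) (x y : ℝ) :
    |L * Real.tanh ((x + y) / L) - L * Real.tanh (x / L)| ≤ |y| := by
  have h := lip_tanh.lip (x / L) (y / L)
  rw [← add_div, one_mul, Real.norm_eq_abs, abs_div, abs_of_pos hL, le_div_iff₀ hL] at h
  rw [← mul_sub, abs_mul, abs_of_pos hL]
  linarith

lemma abs_squash_le {L : ℝ} (hL : 0 < L) (x : ℝ) : |L * Real.tanh (x / L)| ≤ |x| := by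
  simpa using abs_squash_sub_le hL 0 x

lemma integrable_trunc {g : ℝ → ℝ} (hg : Continuous g) (T : ℝ) :
    Integrable ((Set.Icc (-T) T).indicator g) (gaussianReal 0 1) :=
  (integrable_indicator_iff measurableSet_Icc).2 (hg.continuousOn.integrableOn_compact isCompact_Icc)

/-- The convexity gap between two arguments of a hyperbolic cosine. -/
lemma cosh_sub_le {u v : ℝ} (h : |v| ≤ |u|) :
    Real.cosh u - Real.cosh v ≤ (|u| - |v|) * Real.exp |u| := by
  have e1 : Real.exp |u| - Real.exp |v| ≤ (|u| - |v|) * Real.exp |u| := by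
    have h' := mul_le_mul_of_nonneg_left (Real.add_one_le_exp (|v| - |u|)) (Real.exp_pos |u|).le
    rw [← Real.exp_add, add_sub_cancel] at h'
    linarith
  have e2 : Real.exp (-|u|) ≤ Real.exp (-|v|) := Real.exp_le_exp.2 (by linarith)
  have e3 : 0 ≤ (|u| - |v|) * Real.exp |u| := mul_nonneg (by linarith) (Real.exp_pos _).le
  rw [← Real.cosh_abs u, ← Real.cosh_abs v, Real.cosh_eq, Real.cosh_eq]
  linarith

lemma squash_gap {L : ℝ} (hL : 0 < L) (x : ℝ) : |x| - |L * Real.tanh (x / L)| ≤ x ^ 2 / L := by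
  have hlow : ∀ t : ℝ, 0 ≤ t → t - t ^ 2 ≤ Real.tanh t := fun t ht => by
    have h1 : t - t ^ 2 ≤ t / (1 + t) := by
      rw [le_div_iff₀ (by linarith)]; nlinarith [pow_nonneg ht 3]
    refine h1.trans ?_
    have h2 := Real.add_one_le_exp (2 * t)
    rw [Real.tanh_eq, div_le_div_iff₀ (by linarith) (add_pos (Real.exp_pos _) (Real.exp_pos _))]
    have h3 : Real.exp t = Real.exp (2 * t) * Real.exp (-t) := by rw [← Real.exp_add]; ring_nf
    nlinarith [mul_le_mul_of_nonneg_right h2 (Real.exp_pos (-t)).le]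
  have h := mul_le_mul_of_nonneg_left (hlow (|x| / L) (by positivity)) hL.le
  have e : |L * Real.tanh (x / L)| = |L * Real.tanh (|x| / L)| := by
    rcases abs_cases x with ⟨h, _⟩ | ⟨h, _⟩ <;> rw [h]
    rw [neg_div, Real.tanh_neg, mul_neg, abs_neg]
  rw [e]
  rw [show L * (|x| / L - (|x| / L) ^ 2) = |x| - |x| ^ 2 / L by field_simp, sq_abs] at h
  linarith [le_abs_self (L * Real.tanh (|x| / L))]

/-- The loss of the squashing on `|t| ≤ T`. -/
lemma cosh_squash_ge {L T t : ℝ} (hL : 0 < L) (hT : 0 ≤ T) (ht : |t| ≤ T) (x : ℝ) :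
    Real.cosh (t * x) - 4 * T / L * Real.cosh ((T + 1) * x) ≤
      Real.cosh (t * (L * Real.tanh (x / L))) := by
  have h := cosh_sub_le (u := t * x) (v := t * (L * Real.tanh (x / L))) (by
    rw [abs_mul t, abs_mul t]; exact mul_le_mul_of_nonneg_left (abs_squash_le hL x) (abs_nonneg t))
  rw [abs_mul t, abs_mul t, ← mul_sub] at h
  have h2 : |t| * (|x| - |L * Real.tanh (x / L)|) ≤ T * (x ^ 2 / L) :=
    mul_le_mul ht (squash_gap hL x) (sub_nonneg.2 (abs_squash_le hL x)) hT
  have h3 : Real.exp (|t| * |x|) ≤ Real.exp (T * |x|) :=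
    Real.exp_le_exp.2 (mul_le_mul_of_nonneg_right ht (abs_nonneg x))
  have h4 : x ^ 2 * Real.exp (T * |x|) ≤ 4 * Real.cosh ((T + 1) * x) := by
    have h5 := Real.quadratic_le_exp_of_nonneg (abs_nonneg x)
    have h6 : x ^ 2 * Real.exp (T * |x|) ≤ 2 * Real.exp |x| * Real.exp (T * |x|) :=
      mul_le_mul_of_nonneg_right (by nlinarith [sq_abs x, abs_nonneg x]) (Real.exp_pos _).le
    rw [mul_assoc, ← Real.exp_add] at h6
    rw [← Real.cosh_abs ((T + 1) * x), abs_mul, abs_of_nonneg (by linarith : 0 ≤ T + 1), Real.cosh_eq,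
      show (T + 1) * |x| = |x| + T * |x| by ring]
    linarith [Real.exp_pos (-(|x| + T * |x|))]
  have h7 := mul_le_mul h2 h3 (Real.exp_pos _).le (mul_nonneg hT (div_nonneg (sq_nonneg x) hL.le))
  have h8 := mul_le_mul_of_nonneg_left h4 (div_nonneg hT hL.le)
  have e : T * (x ^ 2 / L) * Real.exp (T * |x|) = T / L * (x ^ 2 * Real.exp (T * |x|)) := by ring
  have e' : T / L * (4 * Real.cosh ((T + 1) * x)) = 4 * T / L * Real.cosh ((T + 1) * x) := by ring
  linarith

lemma cosh_add_le (u v : ℝ) : Real.cosh (u + v) ≤ Real.exp |v| * Real.cosh u := by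
  have h1 : Real.exp (u + v) ≤ Real.exp |v| * Real.exp u := by
    rw [← Real.exp_add]; exact Real.exp_le_exp.2 (by linarith [le_abs_self v])
  have h2 : Real.exp (-(u + v)) ≤ Real.exp |v| * Real.exp (-u) := by
    rw [← Real.exp_add]; exact Real.exp_le_exp.2 (by linarith [neg_le_abs v])
  rw [Real.cosh_eq, Real.cosh_eq]
  linarith

lemma continuous_sphInt (a L x : ℝ) :
    Continuous fun t : ℝ => Real.exp (a * t ^ 2 / 2) * Real.cosh (t * (L * Real.tanh (x / L))) := by
  fun_prop

/-- The truncated weight is bounded below uniformly. -/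
lemma sphG_ge {A a T L : ℝ} (ha : |a| ≤ A) (hT : 1 ≤ T) (x : ℝ) :
    Real.exp (-A / 2) * (gaussianReal 0 1).real (Set.Icc (-1) 1) ≤ sphG a T L x := by
  have h := integral_mono ((integrable_const (μ := gaussianReal 0 1) (Real.exp (-A / 2))).indicator
    (measurableSet_Icc (a := -(1 : ℝ)) (b := 1))) (integrable_trunc (continuous_sphInt a L x) T) fun t => ?_
  · rw [integral_indicator measurableSet_Icc, setIntegral_const, smul_eq_mul, mul_comm] at h
    exact h
  · by_cases ht : t ∈ Set.Icc (-1 : ℝ) 1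
    · have ht' : t ∈ Set.Icc (-T) T := ⟨by linarith [ht.1], by linarith [ht.2]⟩
      rw [Set.indicator_of_mem ht, Set.indicator_of_mem ht']
      refine le_trans (Real.exp_le_exp.2 ?_) (le_mul_of_one_le_right (Real.exp_pos _).le (Real.one_le_cosh _))
      have h2 : t ^ 2 ≤ 1 := by nlinarith [ht.1, ht.2]
      nlinarith [neg_abs_le a, sq_nonneg t, abs_nonneg a]
    · rw [Set.indicator_of_notMem ht]
      exact Set.indicator_nonneg (fun t _ => mul_nonneg (Real.exp_pos _).le (Real.cosh_pos _).le) t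

lemma icc_real_pos : 0 < (gaussianReal 0 1).real (Set.Icc (-1 : ℝ) 1) := by
  refine ENNReal.toReal_pos (fun h => ?_) (measure_ne_top _ _)
  have h' := gaussianReal_absolutelyContinuous' 0 (one_ne_zero (α := NNReal)) h
  rw [Real.volume_Icc, ENNReal.ofReal_eq_zero] at h'
  norm_num at h'

lemma sphG_pos (a : ℝ) {T : ℝ} (hT : 1 ≤ T) (L x : ℝ) : 0 < sphG a T L x :=
  (mul_pos (Real.exp_pos _) icc_real_pos).trans_le (sphG_ge le_rfl hT x)

/-- The logarithm of the truncated weight is Lipschitz. -/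
lemma lip_logSphG (a : ℝ) {T L : ℝ} (hT : 1 ≤ T) (hL : 0 < L) :
    RSB.Lip T fun x => Real.log (sphG a T L x) := by
  have hsq := abs_squash_sub_le hL
  have hone : ∀ x y, Real.log (sphG a T L (x + y)) ≤ T * |y| + Real.log (sphG a T L x) := fun x y => by
    have h : sphG a T L (x + y) ≤ Real.exp (T * |y|) * sphG a T L x := by
      rw [sphG, sphG, ← integral_const_mul]
      refine integral_mono (integrable_trunc (continuous_sphInt a L (x + y)) T)
        ((integrable_trunc (continuous_sphInt a L x) T).const_mul _) fun t => ?_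
      by_cases ht : t ∈ Set.Icc (-T) T
      · rw [Set.indicator_of_mem ht, Set.indicator_of_mem ht]
        have h2 := cosh_add_le (t * (L * Real.tanh (x / L)))
          (t * (L * Real.tanh ((x + y) / L) - L * Real.tanh (x / L)))
        rw [← mul_add, add_sub_cancel] at h2
        have h3 : |t * (L * Real.tanh ((x + y) / L) - L * Real.tanh (x / L))| ≤ T * |y| := by
          rw [abs_mul]
          exact mul_le_mul (abs_le.2 ht) (hsq x y) (abs_nonneg _) (by linarith)
        have h4 := h2.trans (mul_le_mul_of_nonneg_right (Real.exp_le_exp.2 h3) (Real.cosh_pos _).le)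
        have h5 := mul_le_mul_of_nonneg_left h4 (Real.exp_pos (a * t ^ 2 / 2)).le
        linarith
      · simp [Set.indicator_of_notMem ht]
    have := Real.log_le_log (sphG_pos a hT L _) h
    rwa [Real.log_mul (Real.exp_pos _).ne' (sphG_pos a hT L x).ne', Real.log_exp] at this
  have hb : ∀ x y, |Real.log (sphG a T L (x + y)) - Real.log (sphG a T L x)| ≤ T * |y| := fun x y => by
    have h2 := hone (x + y) (-y)
    rw [add_neg_cancel_right, abs_neg] at h2
    exact abs_le.2 ⟨by linarith, by linarith [hone x y]⟩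
  have hl : LipschitzWith (Real.toNNReal T) fun x => Real.log (sphG a T L x) := by
    refine LipschitzWith.of_dist_le_mul fun x y => ?_
    rw [Real.dist_eq, Real.dist_eq, Real.coe_toNNReal _ (by linarith)]
    have := hb y (x - y)
    rwa [add_sub_cancel] at this
  exact ⟨hl.continuous.measurable, by linarith, fun x y => by simpa [Real.norm_eq_abs] using hb x y⟩

lemma lip_logHeat_sphG (a : ℝ) {T L : ℝ} (hT : 1 ≤ T) (hL : 0 < L) (s : ℝ) :
    RSB.Lip T fun y => Real.log (heat (sphG a T L) s y) := by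
  have e : ∀ x, Real.exp (Real.log (sphG a T L x)) = sphG a T L x := fun x => Real.exp_log (sphG_pos a hT L x)
  simpa [RSB.lexp, heat, e] using lip_logHeat (lip_logSphG a hT hL) s

/-- The smoothed truncated weight, without squashing. -/
lemma heat_sphG_ge {A a T L τ τm : ℝ} (ha : |a| ≤ A) (hT : 1 ≤ T) (hL : 0 < L) (hτ : 0 ≤ τ) (hτm : τ ≤ τm)
    (y : ℝ) :
    (∫ t, (Set.Icc (-T) T).indicator (fun t => Real.exp ((a + τ) * t ^ 2 / 2) * Real.cosh (t * y)) t
        ∂gaussianReal 0 1) -
      4 * T / L * Real.exp (A * T ^ 2 / 2) * Real.exp ((T + 1) ^ 2 * τm / 2) * Real.cosh ((T + 1) * y) ≤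
        heat (sphG a T L) τ y := by
  set k := Real.sqrt τ with hk
  set M := Real.exp (A * T ^ 2 / 2) with hM
  have hT0 : 0 ≤ T := by linarith
  have hA : 0 ≤ A := (abs_nonneg a).trans ha
  have hexp : ∀ t ∈ Set.Icc (-T) T, Real.exp (a * t ^ 2 / 2) ≤ M := fun t ht => Real.exp_le_exp.2 (by
    have h2 : t ^ 2 ≤ T ^ 2 := by nlinarith [ht.1, ht.2]
    nlinarith [le_abs_self a, sq_nonneg t, mul_le_mul ha h2 (sq_nonneg t) hA])
  set G0 : ℝ → ℝ → ℝ := fun ξ t =>
    (Set.Icc (-T) T).indicator (fun t => Real.exp (a * t ^ 2 / 2) * Real.cosh (t * (y + k * ξ))) t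
  have hic : Integrable (fun ξ => Real.cosh ((T + 1) * (y + k * ξ))) (gaussianReal 0 1) := by
    have h := (gauss_quad_cosh (a := 0) (k := k) (by norm_num) (T + 1) y).1
    simpa using h
  have hG0m : Measurable (Function.uncurry G0) := by
    have e : Function.uncurry G0 = (Prod.snd ⁻¹' Set.Icc (-T) T).indicator
        fun p : ℝ × ℝ => Real.exp (a * p.2 ^ 2 / 2) * Real.cosh (p.2 * (y + k * p.1)) := by
      funext p
      by_cases hp : p.2 ∈ Set.Icc (-T) T
      · rw [Function.uncurry, Set.indicator_of_mem (show p ∈ Prod.snd ⁻¹' Set.Icc (-T) T from hp)]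
        exact Set.indicator_of_mem hp _
      · rw [Function.uncurry, Set.indicator_of_notMem (show p ∉ Prod.snd ⁻¹' Set.Icc (-T) T from hp)]
        exact Set.indicator_of_notMem hp _
    rw [e]
    exact Measurable.indicator (Continuous.measurable (by fun_prop)) (measurable_snd measurableSet_Icc)
  have hG0b : ∀ ξ t, |G0 ξ t| ≤ M * Real.cosh ((T + 1) * (y + k * ξ)) := fun ξ t => by
    by_cases ht : t ∈ Set.Icc (-T) T
    · simp only [G0, Set.indicator_of_mem ht, abs_mul, Real.abs_exp, abs_of_pos (Real.cosh_pos _)]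
      refine mul_le_mul (hexp t ht) (Real.cosh_le_cosh.2 ?_) (Real.cosh_pos _).le (Real.exp_pos _).le
      rw [abs_mul, abs_mul, abs_of_nonneg (by linarith : 0 ≤ T + 1)]
      exact mul_le_mul_of_nonneg_right ((abs_le.2 ht).trans (by linarith)) (abs_nonneg _)
    · simp only [G0, Set.indicator_of_notMem ht, abs_zero]
      exact mul_nonneg (Real.exp_pos _).le (Real.cosh_pos _).le
  have hG0i : Integrable (Function.uncurry G0) ((gaussianReal 0 1).prod (gaussianReal 0 1)) :=
    Integrable.mono' ((hic.const_mul M).comp_fst (gaussianReal 0 1)) hG0m.aestronglyMeasurable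
      (Filter.Eventually.of_forall fun p => (Real.norm_eq_abs _).le.trans (hG0b p.1 p.2))
  have hinner : Integrable (fun ξ => sphG a T L (y + k * ξ)) (gaussianReal 0 1) := by
    have := (lip_logSphG a hT hL).wgt (shift_sigd (fun _ : Unit => τ) ()) y 1
    simpa [Real.exp_log (sphG_pos a hT L _), sigd, ← hk] using this.int
  have hpt : ∀ ξ, (∫ t, G0 ξ t ∂gaussianReal 0 1) - 4 * T / L * M * Real.cosh ((T + 1) * (y + k * ξ)) ≤
      sphG a T L (y + k * ξ) := fun ξ => by
    have hiG : Integrable (G0 ξ) (gaussianReal 0 1) := integrable_trunc (by fun_prop) T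
    refine le_trans (le_of_eq ?_) (integral_mono
      (hiG.sub (integrable_const (4 * T / L * M * Real.cosh ((T + 1) * (y + k * ξ)))))
      (integrable_trunc (continuous_sphInt a L (y + k * ξ)) T) fun t => ?_)
    · rw [integral_sub' hiG (integrable_const _)]
      simp
    · by_cases ht : t ∈ Set.Icc (-T) T
      · simp only [Pi.sub_apply, G0, Set.indicator_of_mem ht]
        have h := cosh_squash_ge hL hT0 (abs_le.2 ht) (y + k * ξ)
        have h' := mul_le_mul_of_nonneg_left h (Real.exp_pos (a * t ^ 2 / 2)).le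
        have h'' : Real.exp (a * t ^ 2 / 2) * (4 * T / L * Real.cosh ((T + 1) * (y + k * ξ))) ≤
            M * (4 * T / L * Real.cosh ((T + 1) * (y + k * ξ))) :=
          mul_le_mul_of_nonneg_right (hexp t ht)
            (mul_nonneg (div_nonneg (by linarith) hL.le) (Real.cosh_pos _).le)
        linarith
      · simp only [Pi.sub_apply, G0, Set.indicator_of_notMem ht]
        have : 0 ≤ 4 * T / L * M * Real.cosh ((T + 1) * (y + k * ξ)) := by positivity
        linarith
  have hi1 : Integrable (fun ξ => ∫ t, G0 ξ t ∂gaussianReal 0 1) (gaussianReal 0 1) :=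
    hG0i.integral_prod_left
  have hl := integral_mono (hi1.sub (hic.const_mul (4 * T / L * M))) hinner hpt
  simp only [Pi.sub_apply] at hl
  rw [integral_sub hi1 (hic.const_mul _), integral_const_mul, integral_integral_swap hG0i,
    hk, integral_cosh_gauss (T + 1) y hτ] at hl
  have hswap : ∀ t, ∫ ξ, G0 ξ t ∂gaussianReal 0 1 = (Set.Icc (-T) T).indicator
      (fun t => Real.exp ((a + τ) * t ^ 2 / 2) * Real.cosh (t * y)) t := fun t => by
    by_cases ht : t ∈ Set.Icc (-T) T
    · simp only [G0, Set.indicator_of_mem ht]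
      rw [integral_const_mul, hk, integral_cosh_gauss t y hτ, ← mul_assoc, ← Real.exp_add]
      ring_nf
    · simp [G0, Set.indicator_of_notMem ht]
  simp only [hswap] at hl
  refine le_trans ?_ hl
  have he : Real.exp ((T + 1) ^ 2 * τ / 2) ≤ Real.exp ((T + 1) ^ 2 * τm / 2) :=
    Real.exp_le_exp.2 (by nlinarith [mul_le_mul_of_nonneg_left hτm (sq_nonneg (T + 1))])
  have h5 : 4 * T / L * M * (Real.exp ((T + 1) ^ 2 * τ / 2) * Real.cosh ((T + 1) * y)) ≤
      4 * T / L * M * (Real.exp ((T + 1) ^ 2 * τm / 2) * Real.cosh ((T + 1) * y)) :=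
    mul_le_mul_of_nonneg_left (mul_le_mul_of_nonneg_right he (Real.cosh_pos _).le) (by positivity)
  linarith

/-- The Gaussian average of a truncated quadratic exponential against a cosine. -/
lemma trunc_quad_ge {Z T : ℝ} (hZ : 0 < Z) (y : ℝ) :
    Real.exp (y ^ 2 / (2 * Z)) / Real.sqrt Z *
        (1 - 2 * Real.exp (-T) * Real.exp (1 / (2 * Z)) * Real.cosh (y / Z)) ≤
      ∫ t, (Set.Icc (-T) T).indicator (fun t => Real.exp ((1 - Z) * t ^ 2 / 2) * Real.cosh (t * y)) t
        ∂gaussianReal 0 1 := by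
  have hlt : 2 * ((1 - Z) / 2) * (1 : ℝ) ^ 2 < 1 := by linarith
  set w : ℝ → ℝ := fun t => Real.exp ((1 - Z) * t ^ 2 / 2)
  have key : ∀ κ : ℝ, Integrable (fun t => w t * Real.cosh (t * κ)) (gaussianReal 0 1) ∧
      ∫ t, w t * Real.cosh (t * κ) ∂gaussianReal 0 1 = Real.exp (κ ^ 2 / (2 * Z)) / Real.sqrt Z := fun κ => by
    obtain ⟨hi, he⟩ := gauss_quad_cosh hlt κ 0
    have eD : 1 - 2 * ((1 - Z) / 2) * (1 : ℝ) ^ 2 = Z := by ring
    rw [eD] at he
    have e : ∀ t, Real.exp ((1 - Z) / 2 * (0 + 1 * t) ^ 2) * Real.cosh (κ * (0 + 1 * t)) =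
        w t * Real.cosh (t * κ) := fun t => by simp only [w]; ring_nf
    simp only [e] at hi he
    refine ⟨hi, he.trans ?_⟩
    simp [div_eq_mul_inv]
  obtain ⟨iy, ey⟩ := key y
  obtain ⟨ip, ep⟩ := key (y + 1)
  obtain ⟨im, em⟩ := key (y - 1)
  set c := Real.exp (-T)
  have hpt : ∀ t, w t * Real.cosh (t * y) -
      (c * (w t * Real.cosh (t * (y + 1))) + c * (w t * Real.cosh (t * (y - 1)))) ≤
      (Set.Icc (-T) T).indicator (fun t => w t * Real.cosh (t * y)) t := fun t => by
    have e : c * (w t * Real.cosh (t * (y + 1))) + c * (w t * Real.cosh (t * (y - 1))) =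
        2 * c * Real.cosh t * (w t * Real.cosh (t * y)) := by
      rw [mul_add t y 1, mul_sub t y 1, mul_one, Real.cosh_add, Real.cosh_sub]; ring
    rw [e]
    have h0 : 0 ≤ w t * Real.cosh (t * y) := mul_nonneg (Real.exp_pos _).le (Real.cosh_pos _).le
    by_cases ht : t ∈ Set.Icc (-T) T
    · rw [Set.indicator_of_mem ht]
      have : 0 ≤ 2 * c * Real.cosh t * (w t * Real.cosh (t * y)) :=
        mul_nonneg (mul_nonneg (mul_nonneg two_pos.le (Real.exp_pos _).le) (Real.cosh_pos _).le) h0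
      linarith
    · rw [Set.indicator_of_notMem ht]
      have hT : T < |t| := by
        by_contra h
        exact ht (abs_le.1 (not_lt.1 h))
      have h1 : 1 ≤ 2 * c * Real.cosh t := by
        rw [← Real.cosh_abs, Real.cosh_eq]
        have h2 : 1 ≤ c * Real.exp |t| := by
          rw [← Real.exp_add]; exact Real.one_le_exp (by linarith)
        nlinarith [mul_pos (Real.exp_pos (-T)) (Real.exp_pos (-|t|))]
      linarith [le_mul_of_one_le_left h0 h1]
  have hi : Integrable (fun t => (Set.Icc (-T) T).indicator (fun t => w t * Real.cosh (t * y)) t)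
      (gaussianReal 0 1) := integrable_trunc (by simp only [w]; fun_prop) T
  have hl := integral_mono (iy.sub ((ip.const_mul c).add (im.const_mul c))) hi hpt
  simp only [Pi.sub_apply, Pi.add_apply] at hl
  have e1 := integral_sub iy ((ip.const_mul c).add (im.const_mul c))
  simp only [Pi.add_apply] at e1
  rw [e1, integral_add (ip.const_mul c) (im.const_mul c), integral_const_mul, integral_const_mul, ey, ep, em]
    at hl
  refine le_trans (le_of_eq ?_) hl
  rw [show (y + 1) ^ 2 / (2 * Z) = y ^ 2 / (2 * Z) + 1 / (2 * Z) + y / Z by field_simp; ring,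
    show (y - 1) ^ 2 / (2 * Z) = y ^ 2 / (2 * Z) + 1 / (2 * Z) + -(y / Z) by field_simp; ring,
    Real.cosh_eq]
  simp only [Real.exp_add]
  ring

/-- A logarithm from below, given a multiplicative and an additive loss and a floor. -/
lemma log_ge_of_loss {g0 h Q p E W : ℝ} (hg : 0 < g0) (hlow : g0 ≤ h) (hQ : 0 < Q) (hp : 0 ≤ p) (hE : 0 ≤ E)
    (hW : 1 ≤ W) (hQg : Real.log Q - Real.log g0 ≤ W) (hmain : Q * (1 - p) - E ≤ h) :
    Real.log Q - 2 * p * W - E / g0 ≤ Real.log h := by
  have hh0 : 0 < h := hg.trans_le hlow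
  have hE' : 0 ≤ E / g0 := div_nonneg hE hg.le
  rcases le_or_gt p (1 / 2) with hp2 | hp2
  · set u := Q * (1 - p) with hu
    have hu0 : 0 < u := mul_pos hQ (by linarith)
    have hl1 : Real.log Q - 2 * p ≤ Real.log u := by
      rw [hu, Real.log_mul hQ.ne' (by linarith)]
      have := Real.log_le_sub_one_of_pos (inv_pos.2 (show (0 : ℝ) < 1 - p by linarith))
      rw [Real.log_inv] at this
      have h3 : (1 - p)⁻¹ - 1 ≤ 2 * p := by
        rw [inv_eq_one_div, div_sub_one (by linarith), div_le_iff₀ (by linarith)]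
        nlinarith
      linarith
    have hl2 : Real.log u ≤ Real.log h + E / g0 := by
      rcases le_or_gt u h with huh | huh
      · linarith [Real.log_le_log hu0 huh]
      · have := Real.log_le_sub_one_of_pos (div_pos hu0 hh0)
        rw [Real.log_div hu0.ne' hh0.ne', div_sub_one hh0.ne'] at this
        have h4 : (u - h) / h ≤ E / g0 := div_le_div₀ hE (by linarith) hg hlow
        linarith
    have := mul_le_mul_of_nonneg_left hW (by linarith : 0 ≤ 2 * p)
    linarith
  · have h5 : W ≤ 2 * p * W := le_mul_of_one_le_left (by linarith) (by linarith)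
    linarith [Real.log_le_log hg hlow]

/-- The smoothed truncated weight is above a Gaussian, up to hyperbolic errors. -/
theorem exists_top_ge {δ Zm τm : ℝ} (hδ : 0 < δ) :
    ∃ C κ A, 0 ≤ C ∧ ∀ T L Z τ, 1 ≤ T → 0 < L → δ ≤ Z → Z ≤ Zm → 0 ≤ τ → τ ≤ τm →
      |1 - τ - Z| ≤ A ∧ ∀ y,
        y ^ 2 / (2 * Z) - Real.log Z / 2 -
            (C * Real.exp (-T) * Real.cosh (κ * y) +
              C * (4 * T / L * Real.exp (A * T ^ 2 / 2) * Real.exp ((T + 1) ^ 2 * τm / 2)) *
                Real.cosh ((T + 1) * y)) ≤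
          Real.log (heat (sphG (1 - τ - Z) T L) τ y) := by
  set A := 1 + |τm| + |Zm| with hA
  set g0 := Real.exp (-A / 2) * (gaussianReal 0 1).real (Set.Icc (-1) 1)
  have hg00 : 0 < g0 := mul_pos (Real.exp_pos _) icc_real_pos
  set C0 := 1 + 2 / δ + |Real.log δ| + |Real.log g0| with hC0
  set C1 := 4 * C0 * Real.exp (1 / (2 * δ)) with hC1
  have hC00 : 1 ≤ C0 := by
    have := abs_nonneg (Real.log δ)
    have := abs_nonneg (Real.log g0)
    have := div_nonneg (zero_le_two (α := ℝ)) hδ.le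
    linarith
  refine ⟨C1 + 1 / g0, 1 / δ + 1, A, by positivity, fun T L Z τ hT hL hZ hZm hτ hτm => ?_⟩
  have hZ0 : 0 < Z := hδ.trans_le hZ
  have ha : |1 - τ - Z| ≤ A := by
    have := le_abs_self τm
    have := le_abs_self Zm
    rw [abs_le, hA]; constructor <;> linarith
  refine ⟨ha, fun y => ?_⟩
  have hmain := (sub_le_sub_right (trunc_quad_ge (T := T) hZ0 y) _).trans
    (le_of_eq_of_le (by rw [show 1 - τ - Z + τ = 1 - Z by ring]) (heat_sphG_ge ha hT hL hτ hτm y))
  have hlow : g0 ≤ heat (sphG (1 - τ - Z) T L) τ y := by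
    have hi : Integrable (fun ξ => sphG (1 - τ - Z) T L (y + Real.sqrt τ * ξ)) (gaussianReal 0 1) := by
      have := (lip_logSphG (1 - τ - Z) hT hL).wgt (shift_sigd (fun _ : Unit => τ) ()) y 1
      simpa [Real.exp_log (sphG_pos (1 - τ - Z) hT L _), sigd] using this.int
    refine le_trans (le_of_eq ?_) (integral_mono (integrable_const g0) hi fun ξ => sphG_ge ha hT _)
    simp
  set E := 4 * T / L * Real.exp (A * T ^ 2 / 2) * Real.exp ((T + 1) ^ 2 * τm / 2) with hE
  have hE0 : 0 ≤ E := by positivity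
  set Q := Real.exp (y ^ 2 / (2 * Z)) / Real.sqrt Z with hQ
  set p := 2 * Real.exp (-T) * Real.exp (1 / (2 * Z)) * Real.cosh (y / Z) with hp
  have hp0 : 0 ≤ p := mul_nonneg (by positivity) (Real.cosh_pos _).le
  have hlQ : Real.log Q = y ^ 2 / (2 * Z) - Real.log Z / 2 := by
    rw [hQ, Real.log_div (Real.exp_pos _).ne' (Real.sqrt_pos.2 hZ0).ne', Real.log_exp, Real.log_sqrt hZ0.le]
  have hy : y ^ 2 ≤ 4 * Real.cosh y := by
    have h1 := Real.quadratic_le_exp_of_nonneg (abs_nonneg y)
    rw [← Real.cosh_abs, Real.cosh_eq]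
    linarith [sq_abs y, Real.exp_pos (-|y|), abs_nonneg y]
  have hQg : Real.log Q - Real.log g0 ≤ C0 * Real.cosh y := by
    have h1 : y ^ 2 / (2 * Z) ≤ 2 / δ * Real.cosh y := by
      refine (div_le_div₀ (by linarith [Real.cosh_pos y]) hy (by linarith) (by linarith : 2 * δ ≤ 2 * Z)).trans
        (le_of_eq ?_)
      ring
    have h2 : -Real.log Z ≤ |Real.log δ| := by
      linarith [Real.log_le_log hδ hZ, neg_abs_le (Real.log δ)]
    have hc := Real.one_le_cosh y
    have h3 := le_mul_of_one_le_right (abs_nonneg (Real.log δ)) hc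
    have h4 := le_mul_of_one_le_right (abs_nonneg (Real.log g0)) hc
    have h5 := neg_abs_le (Real.log g0)
    have h6 := abs_nonneg (Real.log δ)
    rw [hlQ, hC0, add_mul, add_mul, add_mul, one_mul]
    linarith
  have hcore := log_ge_of_loss hg00 hlow (div_pos (Real.exp_pos _) (Real.sqrt_pos.2 hZ0)) hp0
    (mul_nonneg hE0 (Real.cosh_pos ((T + 1) * y)).le)
    (one_le_mul_of_one_le_of_one_le hC00 (Real.one_le_cosh y)) hQg hmain
  rw [← hQ, hlQ] at hcore
  have hpc : 2 * p * (C0 * Real.cosh y) ≤ C1 * Real.exp (-T) * Real.cosh ((1 / δ + 1) * y) := by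
    have h1 : Real.exp (1 / (2 * Z)) ≤ Real.exp (1 / (2 * δ)) :=
      Real.exp_le_exp.2 (one_div_le_one_div_of_le (by linarith) (by linarith))
    have h2 : Real.cosh (y / Z) * Real.cosh y ≤ Real.cosh ((1 / δ + 1) * y) := by
      have h3 : Real.cosh (y / Z) ≤ Real.cosh (|y| / δ) := Real.cosh_le_cosh.2 (by
        rw [abs_div, abs_div, abs_abs, abs_of_pos hZ0, abs_of_pos hδ]
        exact div_le_div_of_nonneg_left (abs_nonneg y) hδ hZ)
      refine (mul_le_mul_of_nonneg_right h3 (Real.cosh_pos y).le).trans ?_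
      rw [← Real.cosh_abs y, ← Real.cosh_abs ((1 / δ + 1) * y), abs_mul,
        abs_of_pos (by positivity : 0 < 1 / δ + 1),
        show (1 / δ + 1) * |y| = |y| / δ + |y| by ring, Real.cosh_add]
      exact le_add_of_nonneg_right (mul_nonneg (Real.sinh_nonneg_iff.2 (by positivity))
        (Real.sinh_nonneg_iff.2 (abs_nonneg y)))
    calc 2 * p * (C0 * Real.cosh y)
        = 4 * C0 * Real.exp (-T) * (Real.exp (1 / (2 * Z)) * (Real.cosh (y / Z) * Real.cosh y)) := by
          rw [hp]; ring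
      _ ≤ 4 * C0 * Real.exp (-T) * (Real.exp (1 / (2 * δ)) * Real.cosh ((1 / δ + 1) * y)) :=
          mul_le_mul_of_nonneg_left (mul_le_mul h1 h2 (mul_pos (Real.cosh_pos _) (Real.cosh_pos _)).le
            (Real.exp_pos _).le) (by positivity)
      _ = _ := by rw [hC1]; ring
  have hC10 : 0 ≤ C1 := by positivity
  have hx := mul_nonneg hC10 (mul_nonneg hE0 (Real.cosh_pos ((T + 1) * y)).le)
  have hy2 := mul_nonneg (one_div_pos.2 hg00).le
    (mul_nonneg (Real.exp_pos (-T)).le (Real.cosh_pos ((1 / δ + 1) * y)).le)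
  rw [add_mul C1, add_mul (C1 * Real.exp (-T)), add_mul C1, add_mul (C1 * E)]
  rw [div_eq_mul_one_div _ g0] at hcore
  linarith

end Vale.Agent.P157.Low
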