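import Vale.Agent.P157.Low.SphSys
import Vale.Agent.P157.Low.Gain
import Vale.Agent.P157.Low.TiltLimit
import Vale.Agent.P157.Low.SphTop

/-!
The truncated spin function on the sphere and its values in a discretisation.
-/

namespace Vale.Agent.P157.Low

open MeasureTheory ProbabilityTheory

variable {A : Arr} {K : ℕ}

/-- The spin value of a discretisation for a general weight. -/
noncomputable def Discr.spinValG (D : Discr A K) (f : ℝ → ℝ) (α : ℝ) (G : ℝ → ℝ) : ℝ :=
  potUp D.C.cdf (incr fun j => α * D.rval f j)
    (fun y => Real.log (heat G (α * (D.rdiag f - D.rval f (Fin.last D.r))) y)) (D.r + 1) 0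

end Vale.Agent.P157.Low
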