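import Vale.Agent.P157.Low.SphStep
import Vale.Agent.P157.Low.SphSumLe
import Vale.Agent.P157.Low.SphCavityGain
import Vale.Agent.P157.Low.SphGain

/-!
Adding one coordinate: the gain is at least the spin term, up to a small error.
-/

namespace Vale.Agent.P157.Low

open MeasureTheory ProbabilityTheory Filter
open scoped RealInnerProductSpace Topology

variable {f : ℝ → ℝ} {B : ℝ} {N P : ℕ}

/-- The expected log-average of a weight at the field of the new coordinate. -/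
noncomputable def sSpinTerm (hf : Pot f B) (α : ℝ) (N : ℕ) {P : ℕ} (x : Fin P → ℝ) (G : ℝ → ℝ) : ℝ :=
  let S := sphSys hf N (α * ((N : ℝ) + 2)) 0 x
  ∫ ω, ∫ h, Real.log (∫ r, G (Real.sqrt (1 / ((N : ℝ) + 2)) *
      ∑ a ∈ Finset.range (sphCnt (k := 0) (x := x) ω), h a * deriv f (sphPat ω a r))
        ∂gibbs S.ref (S.w ω)) ∂fieldLaw ∂S.law

lemma sSpinTerm_disLaw (hf : Pot f B) (α : ℝ) (x : Fin P → ℝ) (G : ℝ → ℝ) :
    sSpinTerm hf α N x G =
      ∫ ω, ∫ h, sGainInt f x G ω h ∂fieldLaw ∂disLaw (α * ((N : ℝ) + 2)) N P := rfl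

lemma free_sphSys_eq (hf : Pot f B) (lam : ℝ) (x : Fin P → ℝ) :
    (sphSys hf N lam 0 x).free =
      ∫ ω, logI (sphereMeasure (N + 1)) (sphCw f N x ω.1.1 ω.1.2 ω.2) ∂disLaw lam N P := rfl

lemma sphRep_one {w : Sph (N + 1) → ℝ} (hw : Wt w) {F : Sph (N + 1) → ℝ} (hF : Measurable F) :
    sphRep (n := 1) w (fun r => F (r 0)) = ∫ θ, F θ ∂gibbs (sphereMeasure (N + 1)) w := by
  have := isProbabilityMeasure_gibbs (μ := sphereMeasure (N + 1)) hw
  exact integral_comp_eval (μ := fun _ : Fin 1 => gibbs (sphereMeasure (N + 1)) w) (i := 0)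
    hF.aestronglyMeasurable

lemma measurable_sDev (f : ℝ → ℝ) (d : ℝ) (M : ℕ) :
    Measurable fun q : (ℕ → Sp (N + 1)) × Sph (N + 1) => sDev f d M q.1 q.2 :=
  (((Finset.measurable_sum (Finset.range M) fun a _ =>
    (show Measurable (drv f) by unfold drv; fun_prop).comp (measurable_sFld_prod a)).const_mul _).sub_const d).pow_const 2

lemma measurable_sDev_fix (f : ℝ → ℝ) (d : ℝ) (M : ℕ) (g : ℕ → Sp (N + 1)) : Measurable (sDev f d M g) :=
  Measurable.comp (g := fun q : (ℕ → Sp (N + 1)) × Sph (N + 1) => sDev f d M q.1 q.2)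
    (f := fun θ => (g, θ)) (measurable_sDev f d M) (measurable_const.prodMk measurable_id)

lemma avgRep_sDev (hf : Pot f B) (lam : ℝ) (x : Fin P → ℝ) (d : ℝ) :
    (sphSys hf N lam 0 x).avgRep 1 (fun ω r => ((1 / ((N : ℝ) + 2)) *
      (∑ a ∈ Finset.range (sphCnt ω),
        (deriv (deriv f) (sphPat ω a (r 0)) - sphPat ω a (r 0) * deriv f (sphPat ω a (r 0)))) - d) ^ 2) =
    ∫ ω, (∫ θ, sDev f d ω.1.1 ω.1.2 θ ∂gibbs (sphereMeasure (N + 1))
      (sphCw f N x ω.1.1 ω.1.2 ω.2)) ∂disLaw lam N P :=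
  (sphSys_avgRep hf lam 0 x _).trans (integral_congr_ae (Eventually.of_forall fun ω =>
    sphRep_one (wt_sphCw hf x ω.1.1 ω.1.2 ω.2) (measurable_sDev_fix f d ω.1.1 ω.1.2)))

lemma measurable_gibbsInt (hf : Pot f B) (x : Fin P → ℝ)
    {F : ℕ → (ℕ → Sp (N + 1)) → Sph (N + 1) → ℝ}
    (hF : ∀ M, Measurable fun q : (ℕ → Sp (N + 1)) × Sph (N + 1) => F M q.1 q.2) :
    Measurable fun ω : Dis N P =>
      ∫ θ, F ω.1.1 ω.1.2 θ ∂gibbs (sphereMeasure (N + 1)) (sphCw f N x ω.1.1 ω.1.2 ω.2) := by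
  have hFj : Measurable fun p : Dis N P × Sph (N + 1) => F p.1.1.1 p.1.1.2 p.2 :=
    Measurable.comp (g := fun q : ℕ × ((ℕ → Sp (N + 1)) × Sph (N + 1)) => F q.1 q.2.1 q.2.2)
      (f := fun p : Dis N P × Sph (N + 1) => (p.1.1.1, (p.1.1.2, p.2)))
      (measurable_from_prod_countable_right fun M => hF M)
      ((measurable_fst.comp (measurable_fst.comp measurable_fst)).prodMk
        ((measurable_snd.comp (measurable_fst.comp measurable_fst)).prodMk measurable_snd))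
  simp only [fun ω : Dis N P => integral_gibbs (μ := sphereMeasure (N + 1))
    (wt_sphCw hf x ω.1.1 ω.1.2 ω.2) (F ω.1.1 ω.1.2)]
  exact (((measurable_sphCw_dis hf x).mul hFj).stronglyMeasurable.integral_prod_right'
      (ν := sphereMeasure (N + 1))).measurable.div
    ((measurable_sphCw_dis hf x).stronglyMeasurable.integral_prod_right'
      (ν := sphereMeasure (N + 1))).measurable

/-- The squared deviation is integrable. -/
lemma integrable_sDev (hf : Pot f B) {D : ℝ}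
    (hD : ∀ x, |deriv f x| ≤ D ∧ |deriv (deriv f) x| ≤ D) {lam : ℝ} (hl : 0 ≤ lam)
    (x : Fin P → ℝ) (d : ℝ) :
    Integrable (fun ω : Dis N P => ∫ θ, sDev f d ω.1.1 ω.1.2 θ
      ∂gibbs (sphereMeasure (N + 1)) (sphCw f N x ω.1.1 ω.1.2 ω.2)) (disLaw lam N P) := by
  set ε := 1 / ((N : ℝ) + 2)
  have hD0 : 0 ≤ D := (abs_nonneg _).trans (hD 0).1
  have h2 := integrable_gauss_pow 2 (by decide)
  have mdrv : Measurable (drv f) := by unfold drv; fun_prop
  have hb : ∀ z, drv f z ^ 2 ≤ 2 * D ^ 2 + 2 * D ^ 2 * z ^ 2 := fun z => by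
    have a1 : deriv (deriv f) z ^ 2 ≤ D ^ 2 := sq_le_sq' (abs_le.1 (hD z).2).1 (abs_le.1 (hD z).2).2
    have a2 : deriv f z ^ 2 ≤ D ^ 2 := sq_le_sq' (abs_le.1 (hD z).1).1 (abs_le.1 (hD z).1).2
    have a3 := mul_le_mul_of_nonneg_left a2 (sq_nonneg z)
    simp only [drv]
    nlinarith [sq_nonneg (deriv (deriv f) z + z * deriv f z)]
  have hpsi : Integrable (fun z => drv f z ^ 2) (gaussianReal 0 1) :=
    ((integrable_const (2 * D ^ 2)).add (h2.const_mul (2 * D ^ 2))).mono'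
      (mdrv.pow_const 2).aestronglyMeasurable
      (Eventually.of_forall fun z => by
        rw [Real.norm_eq_abs, abs_of_nonneg (sq_nonneg _)]; exact hb z)
  obtain ⟨iφ, -⟩ := sphSys_sum_le hf N hl x 1 (ψ := fun z => drv f z ^ 2)
    (mdrv.pow_const 2) (fun z => sq_nonneg _) hpsi
  set F : ℕ → (ℕ → Sp (N + 1)) → Sph (N + 1) → ℝ :=
    fun M g θ => (M : ℝ) * ∑ a ∈ Finset.range M, drv f (sFld g a θ) ^ 2
  have mF : ∀ M, Measurable fun q : (ℕ → Sp (N + 1)) × Sph (N + 1) => F M q.1 q.2 := fun M =>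
    (Finset.measurable_sum (Finset.range M) fun a _ =>
      (mdrv.comp (measurable_sFld_prod a)).pow_const 2).const_mul _
  have mFf : ∀ M g, Measurable (F M g) := fun M g =>
    (Finset.measurable_sum (Finset.range M) fun a _ =>
      (mdrv.comp (measurable_sFld g a)).pow_const 2).const_mul _
  have iφ' : Integrable (fun ω : Dis N P => ∫ θ, F ω.1.1 ω.1.2 θ
      ∂gibbs (sphereMeasure (N + 1)) (sphCw f N x ω.1.1 ω.1.2 ω.2)) (disLaw lam N P) := by
    refine iφ.congr (Eventually.of_forall fun ω =>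
      Eq.trans ?_ (sphRep_one (wt_sphCw hf x ω.1.1 ω.1.2 ω.2) (mFf ω.1.1 ω.1.2)))
    simp only [pow_one]
    rfl
  refine ((iφ'.const_mul (2 * ε ^ 2)).add (integrable_const (2 * d ^ 2))).mono'
    (measurable_gibbsInt hf x fun M => measurable_sDev f d M).aestronglyMeasurable
    (Eventually.of_forall fun ω => ?_)
  set G := gibbs (sphereMeasure (N + 1)) (sphCw f N x ω.1.1 ω.1.2 ω.2)
  have : IsProbabilityMeasure G := isProbabilityMeasure_gibbs (wt_sphCw hf x _ _ _)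
  set bF := (ω.1.1 : ℝ) * ∑ a ∈ Finset.range ω.1.1, (2 * D ^ 2 + 2 * D ^ 2 * ‖ω.1.2 a‖ ^ 2)
  have iF : Integrable (F ω.1.1 ω.1.2) G := (integrable_const bF).mono' (mFf _ _).aestronglyMeasurable
    (Eventually.of_forall fun θ => by
      have hn : 0 ≤ F ω.1.1 ω.1.2 θ :=
        mul_nonneg (Nat.cast_nonneg _) (Finset.sum_nonneg fun a _ => sq_nonneg _)
      rw [Real.norm_eq_abs, abs_of_nonneg hn]
      refine mul_le_mul_of_nonneg_left (Finset.sum_le_sum fun a _ => (hb _).trans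
        (add_le_add le_rfl (mul_le_mul_of_nonneg_left ?_ (by positivity)))) (Nat.cast_nonneg _)
      rw [← sq_abs (sFld _ _ _)]
      exact pow_le_pow_left₀ (abs_nonneg _) (abs_sFld_le _ _ _) 2)
  have hle : ∀ θ, sDev f d ω.1.1 ω.1.2 θ ≤ 2 * ε ^ 2 * F ω.1.1 ω.1.2 θ + 2 * d ^ 2 := fun θ => by
    have hc := sq_sum_le_card_mul_sum_sq (s := Finset.range ω.1.1)
      (f := fun a => drv f (sFld ω.1.2 a θ))
    rw [Finset.card_range] at hc
    have h1 : sDev f d ω.1.1 ω.1.2 θ ≤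
        2 * ε ^ 2 * (∑ a ∈ Finset.range ω.1.1, drv f (sFld ω.1.2 a θ)) ^ 2 + 2 * d ^ 2 := by
      simp only [sDev]
      nlinarith [sq_nonneg (ε * (∑ a ∈ Finset.range ω.1.1, drv f (sFld ω.1.2 a θ)) + d)]
    exact h1.trans (add_le_add (mul_le_mul_of_nonneg_left hc (by positivity)) le_rfl)
  have ib : Integrable (fun θ => 2 * ε ^ 2 * F ω.1.1 ω.1.2 θ + 2 * d ^ 2) G :=
    (iF.const_mul _).add (integrable_const _)
  have idev : Integrable (sDev f d ω.1.1 ω.1.2) G := ib.mono'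
    (measurable_sDev_fix f d _ _).aestronglyMeasurable (Eventually.of_forall fun θ => by
      rw [Real.norm_eq_abs, sDev, abs_of_nonneg (sq_nonneg _)]; exact hle θ)
  have hm := integral_mono idev ib hle
  rw [integral_add (iF.const_mul _) (integrable_const _), integral_const_mul] at hm
  simp only [integral_const, probReal_univ, one_smul] at hm
  rw [Real.norm_eq_abs, abs_of_nonneg (integral_nonneg fun θ => by unfold sDev; exact sq_nonneg _)]
  exact hm

/-- The sixth-moment sum has mean at most a multiple of the Gaussian one. -/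
lemma integral_sSix_le (hf : Pot f B) {lam : ℝ} (hl : 0 ≤ lam) (x : Fin P → ℝ) :
    Integrable (fun ω : Dis N P => ∫ θ, sSix ω.1.1 ω.1.2 θ
      ∂gibbs (sphereMeasure (N + 1)) (sphCw f N x ω.1.1 ω.1.2 ω.2)) (disLaw lam N P) ∧
    ∫ ω, (∫ θ, sSix ω.1.1 ω.1.2 θ ∂gibbs (sphereMeasure (N + 1)) (sphCw f N x ω.1.1 ω.1.2 ω.2))
      ∂disLaw lam N P ≤ Real.exp (2 * B) * mom6 * (lam ^ 2 + lam) := by
  obtain ⟨i6, e6⟩ := sphSys_sum_le hf N hl x 1 (ψ := fun z => 1 + z ^ 6) (by fun_prop) (fun _ => by positivity)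
    ((integrable_const 1).add (integrable_gauss_pow 6 (by decide)))
  have e : ∀ ω : (sphSys hf N lam 0 x).Ω, (∫ r, ((sphCnt ω : ℝ) ^ 1 * ∑ a ∈ Finset.range (sphCnt ω),
      (fun z : ℝ => 1 + z ^ 6) (sphPat ω a (r 0)))
      ∂Measure.pi fun _ : Fin 1 => gibbs (sphSys hf N lam 0 x).ref ((sphSys hf N lam 0 x).w ω)) =
      ∫ θ, sSix ω.1.1 ω.1.2 θ ∂gibbs (sphereMeasure (N + 1)) (sphCw f N x ω.1.1 ω.1.2 ω.2) := fun ω => by
    refine Eq.trans ?_ (sphRep_one (wt_sphCw hf x ω.1.1 ω.1.2 ω.2)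
      ((Finset.measurable_sum (Finset.range ω.1.1) fun a _ =>
        ((measurable_sFld ω.1.2 a).pow_const 6).const_add 1).const_mul _))
    simp only [pow_one]
    rfl
  refine ⟨i6.congr (Eventually.of_forall e), ?_⟩
  refine ((integral_congr_ae (Eventually.of_forall fun ω => (e ω).symm)).trans_le e6).trans_eq ?_
  rw [show (1 + 1 : ℕ) = 2 from rfl, (integral_poiLaw_sq hl).2]
  rfl

lemma sphCavTop_disLaw (hf : Pot f B) {α : ℝ} (hα : 0 ≤ α) (x : Fin P → ℝ) (T' : ℝ) :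
    sphCavTop f α N x T' = ∫ ω, ∫ h, sTop f x T' ω h ∂fieldLaw ∂disLaw (α * ((N : ℝ) + 2)) N P := by
  set lam := α * ((N : ℝ) + 2) with hlam
  have hl : 0 ≤ lam := by positivity
  have hm : Measurable fun q : (ℕ × ((ℕ → Sp (N + 1)) × (ℕ → ℝ))) × PertSpace (N + 1) P =>
      (fun p : Dis N P × (ℕ → ℝ) => sTop f x T' p.1 p.2) (shuf q) :=
    Measurable.comp (g := fun p : Dis N P × (ℕ → ℝ) => sTop f x T' p.1 p.2) (f := shuf)
      (measurable_sTop (N := N) hf x T') measurable_shuf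
  have hmp := measurePreserving_shuffle (poiLaw lam) (patLaw (N + 1))
    (stdGaussian (PertSpace (N + 1) P)) fieldLaw
  have e1 : sphCavTop f α N x T' = ∫ q, (fun p : Dis N P × (ℕ → ℝ) => sTop f x T' p.1 p.2) (shuf q)
      ∂((poiLaw lam).prod ((patLaw (N + 1)).prod fieldLaw)).prod (stdGaussian (PertSpace (N + 1) P)) := rfl
  rw [e1, ← hmp.map_eq, integral_map hmp.measurable.aemeasurable hm.aestronglyMeasurable,
    ← integral_prod _ (integrable_sTop (N := N) hf hl x T')]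
  rfl

lemma integrable_logI_sphCw (hf : Pot f B) (lam : ℝ) (x : Fin P → ℝ) :
    Integrable (fun ω : Dis N P => logI (sphereMeasure (N + 1)) (sphCw f N x ω.1.1 ω.1.2 ω.2))
      (disLaw lam N P) := integrable_logI_sphSys hf N lam 0 x

/-- The expected cavity inequality, in concrete terms, with unexpanded errors. -/
lemma sph_cavity_aux (hf : Pot f B) (hs : Smf f) {α : ℝ} (hα : 0 < α) {D : ℝ}
    (hD : ∀ x, |deriv f x| ≤ D ∧ |deriv (deriv f) x| ≤ D ∧ |iteratedDeriv 3 f x| ≤ D)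
    (x : Fin P → ℝ) {T L Ma δ a d t : ℝ} (hT : 1 ≤ T) (hL : 0 < L) (ha : |a| ≤ Ma) (had : a ≤ d)
    (ht : 0 < t) (hN : (T + 1) ^ 2 ≤ (N : ℝ) + 2) (hδ : δ ≤ sphFloor Ma / 2) (hδ0 : 0 ≤ δ)
    (happ : ∀ y, sphG a T L y - δ ≤
      ∫ s, cutoff T s * (Real.exp (a * s ^ 2 / 2) * Real.cosh (s * (L * Real.tanh (y / L)))) ∂sLaw N) :
    (∫ ω, ∫ h, sGainInt f x (sphG a T L) ω h ∂fieldLaw ∂disLaw (α * ((N : ℝ) + 2)) N P) -
      2 * δ / sphFloor Ma -
      2 / sphFloor Ma * (t * ((T + 1) ^ 6 *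
        ((∫ ω, (∫ θ, sDev f d ω.1.1 ω.1.2 θ
            ∂gibbs (sphereMeasure (N + 1)) (sphCw f N x ω.1.1 ω.1.2 ω.2))
            ∂disLaw (α * ((N : ℝ) + 2)) N P) +
          1 / ((N : ℝ) + 2) * (α * (3 * (D / 2) ^ 2 * var2) +
            3 * (729 * (3 * D) ^ 2) * (α ^ 2 + α) * (Real.exp (2 * B) * mom6 + mom6)))) +
        2 * Real.exp (|Ma| * (T + 1) ^ 2) *
          Real.exp (α * (2 * (T + 1) ^ 2 * D ^ 2 * Real.exp (2 * (T + 1) ^ 2 * D ^ 2))) / (4 * t)) ≤
    sphCavTop f α N x (T + 1) - (sphSys hf N (α * ((N : ℝ) + 2)) 0 x).free := by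
  rw [sphCavTop_disLaw hf hα.le, free_sphSys_eq]
  set ε := 1 / ((N : ℝ) + 2) with hε
  set lam := α * ((N : ℝ) + 2) with hlam
  set T' := T + 1 with hT'
  set C1 := 3 * (D / 2) ^ 2 * var2
  set K := 3 * (729 * (3 * D) ^ 2)
  have hN2 : (0 : ℝ) < (N : ℝ) + 2 := by positivity
  have hε0 : 0 ≤ ε := by positivity
  have hε1 : ε ≤ 1 := by rw [hε, div_le_one hN2]; linarith [(Nat.cast_nonneg N : (0 : ℝ) ≤ N)]
  have hl : 0 ≤ lam := by positivity
  have hle : lam * ε = α := by rw [hlam, hε]; field_simp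
  set law := disLaw lam N P
  set g0 := sphFloor Ma
  have hg0 : 0 < g0 := sphFloor_pos Ma
  have hG0 : ∀ y, g0 ≤ sphG a T L y := fun y => sphG_ge (ha.trans (le_abs_self _)) hT y
  obtain ⟨g1, hG1⟩ := exists_sphG_le a hT hL
  have mG : Measurable (sphG a T L) := measurable_sphG a hT hL
  set sq1 := fun ω : Dis N P => ∫ θ, sDev f d ω.1.1 ω.1.2 θ
    ∂gibbs (sphereMeasure (N + 1)) (sphCw f N x ω.1.1 ω.1.2 ω.2)
  set six := fun ω : Dis N P => ∫ θ, sSix ω.1.1 ω.1.2 θ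
    ∂gibbs (sphereMeasure (N + 1)) (sphCw f N x ω.1.1 ω.1.2 ω.2)
  set b := 2 * T' ^ 2 * D ^ 2 * ε with hb
  set ex := fun ω : Dis N P => Real.exp (b * ω.1.1)
  set err := fun ω : Dis N P => sq1 ω + C1 * (ε ^ 2 * (ω.1.1 : ℝ)) +
    K * (ε ^ 3 * (six ω + mom6 * (ω.1.1 : ℝ) ^ 2))
  have htopi := integrable_sTop (N := N) hf hl x T'
  have hlinti : Integrable (fun p : Dis N P × (ℕ → ℝ) => sGainInt f x (sphG a T L) p.1 p.2)
      (law.prod fieldLaw) :=
    (integrable_const (|Real.log g0| + |Real.log g1|)).mono'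
      (measurable_sGainInt hf x mG).aestronglyMeasurable
      (Eventually.of_forall fun p => (Real.norm_eq_abs _).trans_le
        (abs_sGainInt_le hf x mG hg0 hG0 hG1 p.1 p.2))
  have hbot := integrable_logI_sphCw (N := N) hf lam x
  have hisq : Integrable sq1 law := integrable_sDev hf (fun y => ⟨(hD y).1, (hD y).2.1⟩) hl x d
  obtain ⟨hi6, hb6⟩ : Integrable six law ∧ ∫ ω, six ω ∂law ≤ Real.exp (2 * B) * mom6 * (lam ^ 2 + lam) :=
    integral_sSix_le hf hl x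
  obtain ⟨hiM, eM⟩ := integral_count (N := N) (P := P) (fun M : ℕ => (M : ℝ)) (integral_poiLaw_id hl).1
  obtain ⟨hiM2, eM2⟩ := integral_count (N := N) (P := P) (fun M : ℕ => (M : ℝ) ^ 2) (integral_poiLaw_sq hl).1
  obtain ⟨hie, eE⟩ : Integrable ex law ∧ ∫ ω, ex ω ∂law = _ :=
    integral_count (N := N) (P := P) (fun M : ℕ => Real.exp (b * M)) (integral_poiLaw_exp hl _).1
  rw [(integral_poiLaw_id hl).2] at eM
  rw [(integral_poiLaw_sq hl).2] at eM2
  rw [(integral_poiLaw_exp hl _).2] at eE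
  have ia : Integrable (fun ω => sq1 ω + C1 * (ε ^ 2 * (ω.1.1 : ℝ))) law :=
    hisq.add ((hiM.const_mul (ε ^ 2)).const_mul C1)
  have ib : Integrable (fun ω => K * (ε ^ 3 * (six ω + mom6 * (ω.1.1 : ℝ) ^ 2))) law :=
    ((hi6.add (hiM2.const_mul mom6)).const_mul (ε ^ 3)).const_mul K
  have hierr : Integrable err law := ia.add ib
  have herr : ∫ ω, err ω ∂law ≤ (∫ ω, sq1 ω ∂law) +
      ε * (α * C1 + K * (α ^ 2 + α) * (Real.exp (2 * B) * mom6 + mom6)) := by
    rw [integral_add ia ib, integral_add hisq ((hiM.const_mul (ε ^ 2)).const_mul C1),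
      integral_const_mul, integral_const_mul, integral_const_mul, integral_const_mul,
      integral_add hi6 (hiM2.const_mul mom6), integral_const_mul, eM, eM2, add_assoc]
    refine add_le_add le_rfl ?_
    have hK : 0 ≤ K := by positivity
    have hm0 : 0 ≤ Real.exp (2 * B) * mom6 + mom6 := by
      have := mom6_nonneg; positivity
    have k1 : ε ^ 2 * lam = ε * α := by rw [← hle]; ring
    have k2 : ε ^ 3 * (lam ^ 2 + lam) ≤ ε * (α ^ 2 + α) := by
      have : ε ^ 3 * (lam ^ 2 + lam) = ε * α ^ 2 + ε * (ε * α) := by rw [← hle]; ring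
      rw [this, mul_add]
      exact add_le_add le_rfl (mul_le_mul_of_nonneg_left (mul_le_of_le_one_left hα.le hε1) hε0)
    have k3 : ∫ ω, six ω ∂law + mom6 * (lam ^ 2 + lam) ≤
        (Real.exp (2 * B) * mom6 + mom6) * (lam ^ 2 + lam) := by linarith
    calc C1 * (ε ^ 2 * lam) + K * (ε ^ 3 * (∫ ω, six ω ∂law + mom6 * (lam ^ 2 + lam)))
        ≤ C1 * (ε * α) + K * ((Real.exp (2 * B) * mom6 + mom6) * (ε * (α ^ 2 + α))) := by
          rw [k1]
          refine add_le_add le_rfl (mul_le_mul_of_nonneg_left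
            ((mul_le_mul_of_nonneg_left k3 (pow_nonneg hε0 3)).trans ?_) hK)
          rw [mul_left_comm]
          exact mul_le_mul_of_nonneg_left k2 hm0
      _ = ε * (α * C1 + K * (α ^ 2 + α) * (Real.exp (2 * B) * mom6 + mom6)) := by ring
  have hex : ∫ ω, ex ω ∂law ≤
      Real.exp (α * (2 * T' ^ 2 * D ^ 2 * Real.exp (2 * T' ^ 2 * D ^ 2))) := by
    rw [eE]
    refine Real.exp_le_exp.2 ?_
    have hb0 : 0 ≤ b := by positivity
    have h1 : Real.exp b - 1 ≤ b * Real.exp b := by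
      have h := mul_le_mul_of_nonneg_left (Real.add_one_le_exp (-b)) (Real.exp_pos b).le
      rw [← Real.exp_add, add_neg_cancel, Real.exp_zero] at h
      linarith
    refine (mul_le_mul_of_nonneg_left (h1.trans (mul_le_mul_of_nonneg_left
      (Real.exp_le_exp.2 (mul_le_of_le_one_right (by positivity) hε1)) hb0)) hl).trans_eq ?_
    rw [hb, ← hle]
    ring
  set c := 2 * Real.exp (|Ma| * T' ^ 2)
  have il : Integrable (fun ω => (∫ h, sGainInt f x (sphG a T L) ω h ∂fieldLaw) - 2 * δ / g0) law :=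
    hlinti.integral_prod_left.sub (integrable_const _)
  have ie : Integrable (fun ω => t * (T' ^ 6 * err ω) + c * ex ω / (4 * t)) law :=
    ((hierr.const_mul _).const_mul t).add ((hie.const_mul c).div_const _)
  have hpt : ∀ ω : Dis N P, (∫ h, sGainInt f x (sphG a T L) ω h ∂fieldLaw) - 2 * δ / g0 -
      2 / g0 * (t * (T' ^ 6 * err ω) + c * ex ω / (4 * t)) ≤
      (∫ h, sTop f x T' ω h ∂fieldLaw) -
        logI (sphereMeasure (N + 1)) (sphCw f N x ω.1.1 ω.1.2 ω.2) := by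
    rintro ⟨⟨M, g⟩, J⟩
    exact sph_pointwise hf hs hD x hT hL ha had ht hN hδ hδ0 happ M g J
  have hmain := integral_mono (il.sub (ie.const_mul (2 / g0))) (htopi.integral_prod_left.sub hbot) hpt
  simp only [Pi.sub_apply] at hmain
  rw [integral_sub il (ie.const_mul _), integral_sub hlinti.integral_prod_left (integrable_const _),
    integral_sub htopi.integral_prod_left hbot, integral_const_mul,
    integral_add ((hierr.const_mul _).const_mul t) ((hie.const_mul c).div_const _)] at hmain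
  simp only [integral_div, integral_const_mul, integral_const, probReal_univ, one_smul] at hmain
  refine le_trans ?_ hmain
  have v1 := mul_le_mul_of_nonneg_left herr (by positivity : 0 ≤ 2 / g0 * (t * T' ^ 6))
  have v2 := mul_le_mul_of_nonneg_left hex (by positivity : 0 ≤ 2 / g0 * (c / (4 * t)))
  linear_combination v1 + v2

/-- The cavity step on the sphere. -/
theorem sph_cavity_step (hf : Pot f B) (hs : Smf f) {α : ℝ} (hα : 0 < α) {T L : ℝ} (hT : 1 ≤ T)
    (hL : 0 < L) (M : ℝ) :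
    ∃ C, 0 ≤ C ∧ ∀ᶠ N : ℕ in atTop, ∀ (P : ℕ) (x : Fin P → ℝ) (a d t : ℝ),
      |a| ≤ M → a ≤ d → 0 < t →
      let S := sphSys hf N (α * ((N : ℝ) + 2)) 0 x
      sSpinTerm hf α N x (sphG a T L) - C * t * (S.avgRep 1 (fun ω r =>
          ((1 / ((N : ℝ) + 2)) * (∑ b ∈ Finset.range (sphCnt ω),
            (deriv (deriv f) (sphPat ω b (r 0)) - sphPat ω b (r 0) * deriv f (sphPat ω b (r 0)))) - d) ^ 2) +
          1 / ((N : ℝ) + 2)) - C / t - C / Real.sqrt ((N : ℝ) + 2) ≤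
        sphCavTop f α N x (T + 1) - S.free := by
  obtain ⟨D, hD1, hD⟩ := hs.exists_bound
  obtain ⟨K0, hK0, happ⟩ := exists_sLaw_sphG hT hL M
  set g0 := sphFloor M with hg0e
  have hg0 : 0 < g0 := sphFloor_pos M
  set C6 := α * (3 * (D / 2) ^ 2 * var2) +
    3 * (729 * (3 * D) ^ 2) * (α ^ 2 + α) * (Real.exp (2 * B) * mom6 + mom6) with hC6e
  have hC6 : 0 ≤ C6 := by
    have := mom6_nonneg; have := var2_nonneg; positivity
  set c := 2 * Real.exp (|M| * (T + 1) ^ 2) *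
    Real.exp (α * (2 * (T + 1) ^ 2 * D ^ 2 * Real.exp (2 * (T + 1) ^ 2 * D ^ 2)))
  have hc : 0 ≤ c := by positivity
  set k := 2 / g0 * (T + 1) ^ 6
  have hk : 0 ≤ k := by positivity
  set C := k * (1 + C6) + 2 / g0 * (c / 4) + 2 * K0 / g0
  have hC : k ≤ C ∧ k * C6 ≤ C ∧ 2 / g0 * (c / 4) ≤ C ∧ 2 * K0 / g0 ≤ C := by
    have h1 : 0 ≤ 2 / g0 * (c / 4) := by positivity
    have h2 : 0 ≤ 2 * K0 / g0 := by positivity
    have h3 : 0 ≤ k * C6 := mul_nonneg hk hC6
    simp only [C, mul_add, mul_one]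
    exact ⟨by linarith, by linarith, by linarith, by linarith⟩
  refine ⟨C, hk.trans hC.1, ?_⟩
  have hev : ∀ᶠ N : ℕ in atTop, (T + 1) ^ 2 + (2 * K0 / g0) ^ 2 ≤ (N : ℝ) + 2 :=
    (tendsto_atTop_add_const_right _ 2 tendsto_natCast_atTop_atTop).eventually_ge_atTop _
  filter_upwards [hev] with N hN P x a d t ha had ht
  have hsq : 0 < Real.sqrt ((N : ℝ) + 2) := Real.sqrt_pos.2 (by positivity)
  have hδ : K0 / Real.sqrt ((N : ℝ) + 2) ≤ g0 / 2 := by
    rw [div_le_iff₀ hsq]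
    have h : 2 * K0 / g0 ≤ Real.sqrt ((N : ℝ) + 2) := Real.le_sqrt_of_sq_le (by
      nlinarith [sq_nonneg (T + 1)])
    rw [div_le_iff₀ hg0] at h
    linarith
  have h := sph_cavity_aux hf hs hα hD x hT hL ha had ht
    (by nlinarith [sq_nonneg (2 * K0 / g0)] : (T + 1) ^ 2 ≤ (N : ℝ) + 2)
    hδ (by positivity) (fun y => happ N a y ha)
  rw [← hg0e, ← hC6e] at h
  dsimp only
  rw [sSpinTerm_disLaw, avgRep_sDev]
  refine le_trans ?_ h
  set A := ∫ ω, (∫ θ, sDev f d ω.1.1 ω.1.2 θ ∂gibbs (sphereMeasure (N + 1))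
    (sphCw f N x ω.1.1 ω.1.2 ω.2)) ∂disLaw (α * ((N : ℝ) + 2)) N P
  have hA : 0 ≤ A := integral_nonneg fun ω => integral_nonneg fun θ => sq_nonneg _
  have hε : 0 ≤ 1 / ((N : ℝ) + 2) := by positivity
  have e1 : k * (t * A) + k * C6 * (t * (1 / ((N : ℝ) + 2))) ≤ C * t * (A + 1 / ((N : ℝ) + 2)) := by
    have := mul_le_mul_of_nonneg_right hC.1 (mul_nonneg ht.le hA)
    have := mul_le_mul_of_nonneg_right hC.2.1 (mul_nonneg ht.le hε)
    linear_combination mul_le_mul_of_nonneg_right hC.1 (mul_nonneg ht.le hA) +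
      mul_le_mul_of_nonneg_right hC.2.1 (mul_nonneg ht.le hε)
  have e2 : 2 / g0 * (c / 4) / t ≤ C / t := div_le_div_of_nonneg_right hC.2.2.1 ht.le
  have e3 : 2 * K0 / g0 / Real.sqrt ((N : ℝ) + 2) ≤ C / Real.sqrt ((N : ℝ) + 2) :=
    div_le_div_of_nonneg_right hC.2.2.2 hsq.le
  simp only [k, c] at e1 e2
  linear_combination e1 + e2 + e3

end Vale.Agent.P157.Low
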