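import Vale.Agent.P157.Low.SphRep
import Vale.Agent.P157.Low.CubeFacts
import Vale.Agent.P157.Low.Replica

/-!
Exact identities for the perturbed sphere systems: adding a pattern, Poisson numbers of patterns,
and sums over patterns as averages in systems with more patterns.
-/

namespace Vale.Agent.P157.Low

open MeasureTheory ProbabilityTheory Filter
open scoped RealInnerProductSpace Topology

variable {f : ℝ → ℝ} {B : ℝ}

variable {P : ℕ}

lemma sphTilt_w (hf : Pot f B) (N : ℕ) (lam : ℝ) (k : ℕ) (x : Fin P → ℝ)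
    (p : (sphSys hf N lam k x).Ω × Sp (N + 1)) (r : Sph (N + 1)) :
    (sphSys hf N lam k x).w p.1 r * expW f ⟪p.2, (r : Sp (N + 1))⟫ =
      (sphSys hf N lam (k + 1) x).w (sphAppend p) r := by
  rw [sphSys_w, sphSys_w, expW]
  exact (sphCw_succ x _ _ _ _ r).symm

/-- Replica averages of a tilted system. -/
lemma sphTilt_avgRep (hf : Pot f B) (N : ℕ) (lam : ℝ) (k : ℕ) (x : Fin P → ℝ) {n : ℕ}
    (Θ : (sphSys hf N lam (k + 1) x).Ω → (Fin n → Sph (N + 1)) → ℝ)
    (hΘ : Measurable (Function.uncurry Θ)) :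
    ((sphSys hf N lam k x).tiltF hf).avgRep n (fun p r => Θ (sphAppend p) r) =
      (sphSys hf N lam (k + 1) x).avgRep n Θ := by
  have hmp := measurePreserving_sphAppend (N := N) hf lam k x
  rw [sphSys_avgRep hf lam (k + 1) x]
  refine Eq.trans ?_ ((integral_map hmp.measurable.aemeasurable
    (f := fun ω => sphRep ((sphSys hf N lam (k + 1) x).w ω) (Θ ω)) ?_).symm.trans
      (by rw [hmp.map_eq]))
  · exact integral_congr_ae (Filter.Eventually.of_forall fun p =>
      congrArg (fun w => sphRep w (Θ (sphAppend p))) (funext fun r => sphTilt_w hf N lam k x p r))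
  · exact (measurable_sphSys_rep hf lam (k + 1) x hΘ).aestronglyMeasurable

/-- Tilting by one pattern adds one pattern. -/
theorem sphSys_tilt_expect (hf : Pot f B) (N : ℕ) (lam : ℝ) (k : ℕ) (x : Fin P → ℝ) {n : ℕ}
    (Φ : Mat n → ℝ) (hΦ : Measurable Φ) (hb : ∃ C, ∀ R, |Φ R| ≤ C) :
    ((sphSys hf N lam k x).tiltF hf).expect Φ = (sphSys hf N lam (k + 1) x).expect Φ :=
  sphTilt_avgRep hf N lam k x (fun _ r => Φ ((sphSys hf N lam (k + 1) x).gram r))
    (hΦ.comp ((Sys.measurable_gram (sphSys hf N lam (k + 1) x) n).comp measurable_snd))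

lemma abs_logI_sphCw_le (hf : Pot f B) (N : ℕ) (x : Fin P → ℝ) (M : ℕ) (g : ℕ → Sp (N + 1))
    (J : PertSpace (N + 1) P) :
    |logI (sphereMeasure (N + 1)) (sphCw f N x M g J)| ≤ M * B + strength N * (‖J‖ * ∑ q, |x q|) := by
  have e : sphCw f N x M g J = fun r : Sph (N + 1) => Real.exp ((∑ a ∈ Finset.range M, f ⟪g a, (r : Sp (N + 1))⟫) +
      strength N * ⟪J, pertVec x ((r : Sp (N + 1)))⟫) := funext fun r => (Real.exp_add _ _).symm
  rw [logI, e]
  refine abs_log_integral_exp_le ((Finset.measurable_sum (Finset.range M) fun a _ =>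
      hf.meas.comp (Measurable.inner measurable_const measurable_subtype_coe)).add
    ((measurable_const.inner ((measurable_pertVec x).comp measurable_subtype_coe)).const_mul _))
    fun r => (abs_add_le _ _).trans
    (add_le_add ((Finset.abs_sum_le_sum_abs _ _).trans
      ((Finset.sum_le_sum fun a _ => hf.bound _).trans_eq (by simp))) ?_)
  have hs : 0 ≤ strength N := Real.rpow_nonneg (by positivity) _
  rw [abs_mul, abs_of_nonneg hs]
  exact mul_le_mul_of_nonneg_left ((abs_real_inner_le_norm _ _).trans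
    (mul_le_mul_of_nonneg_left (norm_pertVec_le x _ (mem_sphere_zero_iff_norm.1 (_ : Sph (N + 1)).2))
      (norm_nonneg _))) hs

lemma measurable_logI_sphSys (hf : Pot f B) (N : ℕ) (lam : ℝ) (k : ℕ) (x : Fin P → ℝ) :
    Measurable fun ω => logI (sphSys hf N lam k x).ref ((sphSys hf N lam k x).w ω) :=
  ((sphSys hf N lam k x).measW.stronglyMeasurable.integral_prod_right'
    (ν := (sphSys hf N lam k x).ref)).measurable.log

lemma integrable_logI_sphSys (hf : Pot f B) (N : ℕ) (lam : ℝ) (k : ℕ) (x : Fin P → ℝ) :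
    Integrable (fun ω => logI (sphSys hf N lam k x).ref ((sphSys hf N lam k x).w ω))
      (sphSys hf N lam k x).law := by
  have hs : 0 ≤ strength N := Real.rpow_nonneg (by positivity) _
  have hp : Integrable (fun M : ℕ => ((M + k : ℕ) : ℝ) * B) (poiLaw lam) :=
    integrable_poisson_of_le (C := ((k : ℝ) + 1) * B) (j := 1) fun n => by
      have := mul_nonneg (Nat.cast_nonneg (α := ℝ) k) (Nat.cast_nonneg (α := ℝ) n)
      rw [abs_of_nonneg (mul_nonneg (Nat.cast_nonneg _) hf.nonneg), pow_one]
      push_cast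
      nlinarith [hf.nonneg]
  have hJ : Integrable (fun J : PertSpace (N + 1) P => strength N * (‖J‖ * ∑ q, |x q|))
      (stdGaussian (PertSpace (N + 1) P)) := by
    simpa using ((integrable_norm_pow (E := PertSpace (N + 1) P) 1).mul_const _).const_mul _
  exact (((hp.comp_fst (patLaw (N + 1))).comp_fst _).add (hJ.comp_snd _)).mono'
    (measurable_logI_sphSys hf N lam k x).aestronglyMeasurable
    (Filter.Eventually.of_forall fun ω => (Real.norm_eq_abs _).trans_le
      (abs_logI_sphCw_le hf N x _ _ _))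

/-- The gain of one pattern. -/
theorem sphSys_logGain (hf : Pot f B) (N : ℕ) {lam : ℝ} (hl : 0 ≤ lam) (k : ℕ) (x : Fin P → ℝ) :
    (sphSys hf N lam k x).logGain (expW f) =
      (sphSys hf N lam (k + 1) x).free - (sphSys hf N lam k x).free := by
  set S := sphSys hf N lam k x
  set S' := sphSys hf N lam (k + 1) x
  have hmp := measurePreserving_sphAppend (N := N) hf lam k x
  have hwp : ∀ p : S.Ω × Sp (N + 1), logI S'.ref (S'.w (sphAppend p)) = logI S.ref (S.w p.1) +
      Real.log (∫ r : Sph (N + 1), expW f ⟪p.2, (r : Sp (N + 1))⟫ ∂gibbs S.ref (S.w p.1)) := fun p => by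
    have hu : Wt fun r : Sph (N + 1) => expW f ⟪p.2, (r : Sp (N + 1))⟫ :=
      Wt.exp (hf.meas.comp (Measurable.inner measurable_const measurable_subtype_coe)) (β := B) fun r => hf.bound _
    have h := logI_mul (μ := S.ref) (S.wt p.1) hu
    rw [show S'.w (sphAppend p) = fun r : Sph (N + 1) => S.w p.1 r * expW f ⟪p.2, (r : Sp (N + 1))⟫ from
      funext fun r => (sphTilt_w hf N lam k x p r).symm]
    exact h
  have hi' : Integrable (fun p => logI S'.ref (S'.w (sphAppend p))) (S.law.prod (stdGaussian (Sp (N + 1)))) := by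
    have := integrable_logI_sphSys hf N lam (k + 1) x
    rw [← hmp.map_eq] at this
    exact this.comp_measurable hmp.measurable
  have hi : Integrable (fun p : S.Ω × Sp (N + 1) => logI S.ref (S.w p.1))
      (S.law.prod (stdGaussian (Sp (N + 1)))) := (integrable_logI_sphSys hf N lam k x).comp_fst _
  have hfree : S'.free = ∫ p, logI S'.ref (S'.w (sphAppend p)) ∂S.law.prod (stdGaussian (Sp (N + 1))) := by
    rw [Sys.free]
    conv_lhs => rw [← hmp.map_eq]
    rw [integral_map hmp.measurable.aemeasurable]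
    exact (measurable_logI_sphSys hf N lam (k + 1) x).aestronglyMeasurable
  have hd : Integrable (fun p : S.Ω × Sp (N + 1) =>
      Real.log (∫ r : Sph (N + 1), expW f ⟪p.2, (r : Sp (N + 1))⟫ ∂gibbs S.ref (S.w p.1)))
      (S.law.prod (stdGaussian (Sp (N + 1)))) :=
    (hi'.sub hi).congr (Filter.Eventually.of_forall fun p => by simp [hwp])
  rw [hfree, integral_congr_ae (Filter.Eventually.of_forall hwp), integral_add hi hd,
    integral_prod _ hi]
  simp only [integral_const, probReal_univ, one_smul]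
  rw [integral_prod _ hd]
  show S.logGain (expW f) = S.free + S.logGain (expW f) - S.free
  ring

/-- An average at fixed numbers of patterns. -/
lemma sphSys_integral_count (hf : Pot f B) (N : ℕ) {lam μ : ℝ} (hl : 0 ≤ lam) (hμ : 0 ≤ μ)
    (x : Fin P → ℝ) (H : ℕ → ℕ → (ℕ → Sp (N + 1)) → PertSpace (N + 1) P → ℝ)
    (hH : ∀ M k, H M k = H (M + k) 0)
    (hi : ∀ l k, Integrable (fun ω : (sphSys hf N l k x).Ω => H ω.1.1 k ω.1.2 ω.2) (sphSys hf N l k x).law)
    {C : ℝ} (hb : ∀ M, |∫ p, H M 0 p.1 p.2 ∂(patLaw (N + 1)).prod (stdGaussian (PertSpace (N + 1) P))| ≤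
      C * ((M : ℝ) + 1) ^ 1) :
    ∫ ω, H ω.1.1 0 ω.1.2 ω.2 ∂(sphSys hf N (lam + μ) 0 x).law =
      ∫ k, ∫ ω, H ω.1.1 k ω.1.2 ω.2 ∂(sphSys hf N lam k x).law ∂poiLaw μ := by
  set I : ℕ → ℝ := fun M => ∫ p, H M 0 p.1 p.2 ∂(patLaw (N + 1)).prod (stdGaussian (PertSpace (N + 1) P))
  have e : ∀ k, ∫ ω, H ω.1.1 k ω.1.2 ω.2 ∂(sphSys hf N lam k x).law = ∫ M, I (M + k) ∂poiLaw lam := fun k => by
    rw [integral_sphSys_law hf lam k x (hi lam k)]
    exact integral_congr_ae (Filter.Eventually.of_forall fun M => by simp only [I, hH M k])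
  simp only [e]
  rw [integral_sphSys_law hf (lam + μ) 0 x (hi (lam + μ) 0)]
  have hI : Integrable I (poissonMeasure (μ.toNNReal + lam.toNNReal)) := integrable_poisson_of_le hb
  have h := poisson_add μ.toNNReal lam.toNNReal (F := I) hI
  have ec : (μ.toNNReal + lam.toNNReal) = (lam + μ).toNNReal := by
    rw [Real.toNNReal_add hl hμ, add_comm]
  rw [ec] at h
  refine (h.symm.trans ?_)
  exact integral_congr_ae (Filter.Eventually.of_forall fun k =>
    integral_congr_ae (Filter.Eventually.of_forall fun M => by simp only [add_comm k M]))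

/-- Adding a Poisson number of patterns: averages. -/
theorem sphSys_expect_add (hf : Pot f B) (N : ℕ) {lam μ : ℝ} (hl : 0 ≤ lam) (hμ : 0 ≤ μ)
    (x : Fin P → ℝ) {n : ℕ} (Φ : Mat n → ℝ) (hΦ : Measurable Φ) (hb : ∃ C, ∀ R, |Φ R| ≤ C) :
    (sphSys hf N (lam + μ) 0 x).expect Φ =
      ∫ k, (sphSys hf N lam k x).expect Φ ∂poiLaw μ := by
  obtain ⟨C, hC⟩ := hb
  set H : ℕ → ℕ → (ℕ → Sp (N + 1)) → PertSpace (N + 1) P → ℝ := fun M k g J =>
    sphRep (sphCw f N x (M + k) g J) (fun r : Fin n → Sph (N + 1) =>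
      Φ fun a b => ⟪((r a : Sph (N + 1)) : Sp (N + 1)), ((r b : Sph (N + 1)) : Sp (N + 1))⟫)
  have hHb : ∀ M k g J, |H M k g J| ≤ C := fun M k g J => abs_sphRep_le (wt_sphCw hf x _ g J) fun r => hC _
  have hi : ∀ l k, Integrable (fun ω : (sphSys hf N l k x).Ω => H ω.1.1 k ω.1.2 ω.2)
      (sphSys hf N l k x).law := fun l k =>
    integrable_sphSys_of_le hf l k x (C := C) (j := 0)
      (measurable_sphSys_rep hf l k x
        (hΦ.comp ((Sys.measurable_gram (sphSys hf N l k x) n).comp measurable_snd)))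
      fun ω => by simpa using hHb _ _ _ _
  have hC0 : 0 ≤ C := (abs_nonneg _).trans (hC fun _ _ => 0)
  have h := sphSys_integral_count hf N hl hμ x H (fun M k => by simp only [H, Nat.add_zero]) hi
    (C := C) fun M => by
      have hle : |∫ p, H M 0 p.1 p.2 ∂(patLaw (N + 1)).prod (stdGaussian (PertSpace (N + 1) P))| ≤ C := by
        rw [← Real.norm_eq_abs]
        refine (norm_integral_le_of_norm_le_const (C := C)
          (Filter.Eventually.of_forall fun p => (Real.norm_eq_abs _).trans_le (hHb M 0 _ _))).trans ?_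
        simp
      refine hle.trans ?_
      rw [pow_one]
      nlinarith [Nat.cast_nonneg (α := ℝ) M]
  refine (sphSys_avgRep hf (lam + μ) 0 x _).trans
    (Eq.trans h (integral_congr_ae (Filter.Eventually.of_forall fun k => ?_)))
  exact (sphSys_avgRep hf lam k x _).symm

/-- Adding a Poisson number of patterns: the free energy. -/
theorem sphSys_free_add (hf : Pot f B) (N : ℕ) {lam μ : ℝ} (hl : 0 ≤ lam) (hμ : 0 ≤ μ) (x : Fin P → ℝ) :
    (sphSys hf N (lam + μ) 0 x).free = ∫ k, (sphSys hf N lam k x).free ∂poiLaw μ := by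
  set H : ℕ → ℕ → (ℕ → Sp (N + 1)) → PertSpace (N + 1) P → ℝ := fun M k g J =>
    logI (sphereMeasure (N + 1)) (sphCw f N x (M + k) g J)
  set c := strength N * ((∫ J, ‖J‖ ∂stdGaussian (PertSpace (N + 1) P)) * ∑ q, |x q|)
  have hs : 0 ≤ strength N := Real.rpow_nonneg (by positivity) _
  have h := sphSys_integral_count hf N hl hμ x H (fun M k => by simp only [H, Nat.add_zero])
    (fun l k => integrable_logI_sphSys hf N l k x) (C := B + c) fun M => by
      have hc0 : 0 ≤ c := mul_nonneg hs (mul_nonneg (integral_nonneg fun _ => norm_nonneg _)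
        (Finset.sum_nonneg fun _ _ => abs_nonneg _))
      have hJ : Integrable (fun p : (ℕ → Sp (N + 1)) × PertSpace (N + 1) P =>
          (M : ℝ) * B + strength N * (‖p.2‖ * ∑ q, |x q|))
          ((patLaw (N + 1)).prod (stdGaussian (PertSpace (N + 1) P))) :=
        (integrable_const _).add (((((by simpa using integrable_norm_pow (E := PertSpace (N + 1) P) 1 :
          Integrable (fun J => ‖J‖) (stdGaussian (PertSpace (N + 1) P)))).mul_const _).const_mul
            _).comp_snd (patLaw (N + 1)))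
      refine (Real.norm_eq_abs _).symm.trans_le ((norm_integral_le_of_norm_le hJ
        (Filter.Eventually.of_forall fun p => (Real.norm_eq_abs _).trans_le
          (by simpa [H] using abs_logI_sphCw_le hf N x M p.1 p.2))).trans ?_)
      rw [integral_add (integrable_const _) (((((by simpa using integrable_norm_pow (E := PertSpace (N + 1) P) 1 :
          Integrable (fun J => ‖J‖) (stdGaussian (PertSpace (N + 1) P)))).mul_const _).const_mul
            _).comp_snd (patLaw (N + 1))),
        integral_fun_snd (fun J : PertSpace (N + 1) P => strength N * (‖J‖ * ∑ q, |x q|)),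
        integral_const]
      simp only [probReal_univ, one_smul, smul_eq_mul, one_mul, pow_one]
      rw [integral_const_mul, integral_mul_const]
      nlinarith [hf.nonneg, mul_nonneg hc0 (Nat.cast_nonneg (α := ℝ) M)]
  exact h

/-- A sum over the patterns is an average at one more pattern. -/
theorem sphSys_palm (hf : Pot f B) (N : ℕ) {lam : ℝ} (hl : 0 ≤ lam) (x : Fin P → ℝ) {n : ℕ}
    (Θ : (Fin n → ℝ) → ℝ) (hΘ : Measurable Θ) (hΘb : ∃ C, ∀ y, |Θ y| ≤ C)
    (Φ : Mat n → ℝ) (hΦ : Measurable Φ) (hb : ∃ C, ∀ R, |Φ R| ≤ C) :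
    (sphSys hf N lam 0 x).avgRep n (fun ω r => Φ ((sphSys hf N lam 0 x).gram r) *
        ∑ a ∈ Finset.range (sphCnt ω), Θ fun l => sphPat ω a (r l)) =
      lam * ((sphSys hf N lam 0 x).tiltF hf).avgRep n (fun p (r : Fin n → Sph (N + 1)) =>
        Φ ((sphSys hf N lam 0 x).gram r) * Θ fun l => ⟪p.2, ((r l : Sph (N + 1)) : Sp (N + 1))⟫) := by
  obtain ⟨C, hC⟩ := hΘb
  obtain ⟨C', hC'⟩ := hb
  have hD0 : 0 ≤ C' * C := mul_nonneg ((abs_nonneg _).trans (hC' fun _ _ => 0))
    ((abs_nonneg _).trans (hC fun _ => 0))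
  set G := fun (g : ℕ → Sp (N + 1)) (a : ℕ) (r : Fin n → Sph (N + 1)) =>
    Φ (fun i j => ⟪((r i : Sph (N + 1)) : Sp (N + 1)), ((r j : Sph (N + 1)) : Sp (N + 1))⟫) *
      Θ (fun l => ⟪g a, ((r l : Sph (N + 1)) : Sp (N + 1))⟫) with hG
  have hGm : ∀ a, Measurable (Function.uncurry fun g : ℕ → Sp (N + 1) => G g a) := fun a =>
    (hΦ.comp (measurable_pi_lambda _ fun i => measurable_pi_lambda _ fun j =>
      Measurable.inner (measurable_subtype_coe.comp ((measurable_pi_apply i).comp measurable_snd))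
        (measurable_subtype_coe.comp ((measurable_pi_apply j).comp measurable_snd)))).mul
    (hΘ.comp (measurable_pi_lambda _ fun l =>
      Measurable.inner ((measurable_pi_apply a).comp measurable_fst)
        (measurable_subtype_coe.comp ((measurable_pi_apply l).comp measurable_snd))))
  have hGb : ∀ g a r, |G g a r| ≤ C' * C := fun g a r => by
    rw [hG, abs_mul]
    exact mul_le_mul (hC' _) (hC _) (abs_nonneg _) ((abs_nonneg _).trans (hC' fun _ _ => 0))
  set π := patLaw (N + 1)
  set γ := stdGaussian (PertSpace (N + 1) P)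
  set I : ℕ → ℝ := fun m => ∫ p, sphRep (sphCw f N x m p.1 p.2) (G p.1 (m - 1)) ∂π.prod γ
  have hint : ∀ M a, Integrable (fun p => sphRep (sphCw f N x M p.1 p.2) (G p.1 a)) (π.prod γ) :=
    fun M a => Integrable.mono' (integrable_const (C' * C))
      (measurable_sphRep_fixed hf x M (hGm a)).aestronglyMeasurable
      (Filter.Eventually.of_forall fun p => (Real.norm_eq_abs _).trans_le
        (abs_sphRep_le (wt_sphCw hf x M p.1 p.2) (hGb p.1 a)))
  have hswap : ∀ M a, a < M →
      ∫ p, sphRep (sphCw f N x M p.1 p.2) (G p.1 a) ∂π.prod γ = I M := fun M a ha => by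
    simp only [I]
    rw [integral_prod_symm _ (hint M a), integral_prod_symm _ (hint M (M - 1))]
    refine integral_congr_ae (Filter.Eventually.of_forall fun J => ?_)
    have h := integral_sphCw_perm (N := N) hf x (M := M) (Equiv.swap a (M - 1)) (fun b hb => by
      rcases eq_or_ne b a with rfl | h1
      · exact ha
      · rcases eq_or_ne b (M - 1) with rfl | h2
        · omega
        · exact absurd (Equiv.swap_apply_of_ne_of_ne h1 h2) hb) (fun g => G g (M - 1))
      (hGm (M - 1)) J
    simpa [G, Function.comp_apply, Equiv.swap_apply_right] using h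
  have hL : (sphSys hf N lam 0 x).avgRep n (fun ω r => Φ ((sphSys hf N lam 0 x).gram r) *
        ∑ a ∈ Finset.range (sphCnt ω), Θ fun l => sphPat ω a (r l)) = lam * ∫ M, I (M + 1) ∂poiLaw lam := by
    refine (sphSys_avgRep hf lam 0 x _).trans ?_
    refine (integral_sphSys_law hf lam 0 x (integrable_sphSys_of_le hf lam 0 x (C := C' * C) (j := 1)
      (measurable_sphSys_rep hf lam 0 x ?_) fun ω => ?_)).trans ?_
    · have hh : ∀ M : ℕ, Measurable (Function.uncurry fun (g : ℕ → Sp (N + 1))
          (r : Fin n → Sph (N + 1)) => Φ (fun i j => ⟪((r i : Sph (N + 1)) : Sp (N + 1)), ((r j : Sph (N + 1)) : Sp (N + 1))⟫) *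
            ∑ a ∈ Finset.range (M + 0), Θ fun l => ⟪g a, ((r l : Sph (N + 1)) : Sp (N + 1))⟫) := fun M =>
        (hΦ.comp (measurable_pi_lambda _ fun i => measurable_pi_lambda _ fun j =>
          Measurable.inner (measurable_subtype_coe.comp ((measurable_pi_apply i).comp measurable_snd))
            (measurable_subtype_coe.comp ((measurable_pi_apply j).comp measurable_snd)))).mul
        (Finset.measurable_sum (Finset.range (M + 0)) fun a _ => hΘ.comp (measurable_pi_lambda _ fun l =>
          Measurable.inner ((measurable_pi_apply a).comp measurable_fst)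
            (measurable_subtype_coe.comp ((measurable_pi_apply l).comp measurable_snd))))
      exact measurable_count hh
    · refine (abs_sphRep_le ((sphSys hf N lam 0 x).wt ω) fun r => ?_).trans
        (mul_le_mul_of_nonneg_left (by rw [pow_one]; linarith) hD0 :
          (C' * C) * (ω.1.1 : ℝ) ≤ _)
      rw [Finset.mul_sum]
      refine (Finset.abs_sum_le_sum_abs _ _).trans
        ((Finset.sum_le_sum fun a _ => hGb ω.1.2 a r).trans_eq ?_)
      simp [sphCnt]
      ring
    · have e : ∀ M : ℕ, ∫ p, sphRep (sphCw f N x (M + 0) p.1 p.2)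
          (fun r => Φ (fun i j => ⟪((r i : Sph (N + 1)) : Sp (N + 1)), ((r j : Sph (N + 1)) : Sp (N + 1))⟫) *
            ∑ a ∈ Finset.range (M + 0), Θ fun l => ⟪p.1 a, ((r l : Sph (N + 1)) : Sp (N + 1))⟫) ∂π.prod γ =
          (M : ℝ) * I M := fun M => by
        simp only [Nat.add_zero, Finset.mul_sum]
        rw [integral_congr_ae (Filter.Eventually.of_forall fun p : (ℕ → Sp (N + 1)) × PertSpace (N + 1) P =>
          sphRep_sum (h := fun a => G p.1 a) (wt_sphCw hf x M p.1 p.2) (Finset.range M)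
            (fun a => (hGm a).comp measurable_prodMk_left) fun a r => hGb p.1 a r)]
        rw [integral_finsetSum _ fun a _ => by exact hint M a]
        refine (Finset.sum_congr rfl fun a ha => hswap M a (Finset.mem_range.1 ha)).trans ?_
        simp
      refine (integral_congr_ae (Filter.Eventually.of_forall e)).trans ?_
      have h := poisson_palm lam.toNNReal I
      rwa [Real.coe_toNNReal _ hl] at h
  rw [hL]
  congr 1
  set Θ1 : (sphSys hf N lam (0 + 1) x).Ω → (Fin n → Sph (N + 1)) → ℝ :=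
    fun ω r => G ω.1.2 ω.1.1 r
  have hm1 : Measurable (Function.uncurry Θ1) :=
    measurable_count (H := fun M g r => G g M r) fun M => hGm M
  have e := sphTilt_avgRep hf N lam 0 x Θ1 hm1
  have e' : ((sphSys hf N lam 0 x).tiltF hf).avgRep n (fun p (r : Fin n → Sph (N + 1)) =>
      Φ ((sphSys hf N lam 0 x).gram r) * Θ fun l => ⟪p.2, ((r l : Sph (N + 1)) : Sp (N + 1))⟫) =
      ((sphSys hf N lam 0 x).tiltF hf).avgRep n (fun p (r : Fin n → Sph (N + 1)) => Θ1 (sphAppend p) r) := by
    refine integral_congr_ae (Filter.Eventually.of_forall fun p =>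
      integral_congr_ae (Filter.Eventually.of_forall fun r => ?_))
    simp [Θ1, G, sphAppend]
    rfl
  rw [e']
  refine Eq.trans ?_ e.symm
  refine Eq.trans ?_ (sphSys_avgRep hf lam (0 + 1) x Θ1).symm
  refine Eq.trans ?_ (integral_sphSys_law hf lam (0 + 1) x (integrable_sphSys_of_le hf lam (0 + 1) x
    (C := C' * C) (j := 0) (measurable_sphSys_rep hf lam (0 + 1) x hm1) fun ω => by
      simpa using abs_sphRep_le ((sphSys hf N lam (0 + 1) x).wt ω)
        (hGb ω.1.2 ω.1.1))).symm
  rfl

/-- Powers of the pattern count are integrable. -/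
lemma sphSys_integrable_cnt_pow (hf : Pot f B) (N : ℕ) (lam : ℝ) (k : ℕ) (x : Fin P → ℝ) (j : ℕ) :
    Integrable (fun ω : (sphSys hf N lam k x).Ω => ((sphCnt ω : ℝ) + 1) ^ j) (sphSys hf N lam k x).law :=
  integrable_sphSys_of_le hf lam k x (C := ((k : ℝ) + 1) ^ j) (j := j)
    (Measurable.comp (g := fun M : ℕ => ((M + k : ℕ) + 1 : ℝ) ^ j)
      (f := fun ω : (ℕ × (ℕ → Sp (N + 1))) × PertSpace (N + 1) P => ω.1.1)
      measurable_from_top (measurable_fst.comp measurable_fst)) fun ω => by
    rw [abs_of_nonneg (by positivity), ← mul_pow, sphCnt]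
    refine pow_le_pow_left₀ (by positivity) ?_ j
    push_cast
    nlinarith [mul_nonneg (Nat.cast_nonneg (α := ℝ) k) (Nat.cast_nonneg (α := ℝ) ω.1.1)]

end Vale.Agent.P157.Low
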