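import Vale.Agent.P157.Sphere
import Vale.Agent.P157.Shell

/-!
Splitting a uniform point of the sphere into a uniform point one dimension lower and one coordinate
that is close to a standard Gaussian.
-/

namespace Vale.Agent.P157.Low

open MeasureTheory ProbabilityTheory Metric
open scoped RealInnerProductSpace ENNReal

variable {N : ℕ}

/-- The direction of a vector, a fixed point for the zero vector. -/
noncomputable def dir (g : EuclideanSpace ℝ (Fin (N + 1))) : Sph (N + 1) :=
  ⟨if g = 0 then EuclideanSpace.single 0 1 else ‖g‖⁻¹ • g, by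
    rw [mem_sphere_zero_iff_norm]
    split_ifs with h
    · simp
    · simp [norm_smul, norm_ne_zero_iff.2 h]⟩

lemma measurable_dir : Measurable (dir (N := N)) :=
  (Measurable.ite (measurableSet_singleton (0 : EuclideanSpace ℝ (Fin (N + 1)))) measurable_const
    (measurable_norm.inv.smul measurable_id)).subtype_mk

lemma norm_smul_dir (g : EuclideanSpace ℝ (Fin (N + 1))) :
    ‖g‖ • (dir g : EuclideanSpace ℝ (Fin (N + 1))) = g := by
  rcases eq_or_ne g 0 with h | h
  · simp [h]
  · simp [dir, h, smul_smul, norm_ne_zero_iff.2 h]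

lemma dir_isometry (f : EuclideanSpace ℝ (Fin (N + 1)) ≃ₗᵢ[ℝ] EuclideanSpace ℝ (Fin (N + 1)))
    {g : EuclideanSpace ℝ (Fin (N + 1))} (h : g ≠ 0) : dir (f g) = rot f (dir g) := by
  apply Subtype.ext
  simp [dir, rot, h]

/-- The law of the length of a Gaussian vector. -/
noncomputable def normLaw (N : ℕ) : Measure ℝ :=
  (stdGaussian (EuclideanSpace ℝ (Fin (N + 1)))).map (‖·‖)

instance (N : ℕ) : IsProbabilityMeasure (normLaw N) :=
  Measure.isProbabilityMeasure_map measurable_norm.aemeasurable

lemma ae_ne_zero : ∀ᵐ g ∂stdGaussian (EuclideanSpace ℝ (Fin (N + 1))), g ≠ 0 := by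
  rw [← map_pi_eq_stdGaussian, ae_map_iff (by fun_prop)
    (show MeasurableSet {g : EuclideanSpace ℝ (Fin (N + 1)) | g ≠ 0} from
      (measurableSet_singleton 0).compl)]
  have h0 : ∀ᵐ x ∂Measure.pi (fun _ : Fin (N + 1) => gaussianReal 0 1), x 0 ≠ 0 := by
    have hmp := measurePreserving_eval (fun _ : Fin (N + 1) => gaussianReal 0 1) 0
    have : ∀ᵐ z ∂gaussianReal 0 1, z ≠ (0 : ℝ) := by
      have := nullSingletonClass_gaussianReal (μ := 0) (v := 1) one_ne_zero
      rw [ae_iff]
      simp
    exact hmp.quasiMeasurePreserving.ae this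
  filter_upwards [h0] with x hx h
  exact hx (by simpa using congrArg (fun v : EuclideanSpace ℝ (Fin (N + 1)) => v 0) h)

/-- Length and direction of a Gaussian vector are independent, the direction uniform. -/
theorem map_norm_dir (N : ℕ) :
    (stdGaussian (EuclideanSpace ℝ (Fin (N + 1)))).map (fun g => (‖g‖, dir g)) =
      (normLaw N).prod (sphereMeasure (N + 1)) := by
  have := isProbabilityMeasure_sphereMeasure (Nat.le_add_left 1 N)
  obtain ⟨Ω, mΩ, γ, R, hγ, hR, hmap⟩ := exists_random_rot (Nat.le_add_left 1 N)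
  set μ := stdGaussian (EuclideanSpace ℝ (Fin (N + 1)))
  symm
  refine Measure.prod_eq fun A B hA hB => ?_
  set φ : EuclideanSpace ℝ (Fin (N + 1)) → ℝ≥0∞ :=
    fun g => (A ×ˢ B).indicator 1 (‖g‖, dir g) with hφ
  have hφm : Measurable φ :=
    (measurable_one.indicator (hA.prod hB)).comp (measurable_norm.prodMk measurable_dir)
  rw [Measure.map_apply (measurable_norm.prodMk measurable_dir) (hA.prod hB), normLaw,
    Measure.map_apply measurable_norm hA, ← lintegral_indicator_one
      ((measurable_norm.prodMk measurable_dir) (hA.prod hB)),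
    ← lintegral_indicator_one (measurable_norm hA)]
  have hinv : ∀ ω, ∫⁻ g, φ g ∂μ =
      ∫⁻ g, (A ×ˢ B).indicator 1 (‖g‖, rot (R ω) (dir g)) ∂μ := by
    intro ω
    conv_lhs => rw [show μ = μ.map (R ω) from (stdGaussian_map (R ω)).symm]
    rw [lintegral_map hφm (R ω).continuous.measurable]
    refine lintegral_congr_ae ?_
    filter_upwards [ae_ne_zero] with g hg
    simp [hφ, dir_isometry _ hg]
  have hm2 : Measurable fun p : Ω × EuclideanSpace ℝ (Fin (N + 1)) =>
      (A ×ˢ B).indicator (1 : ℝ × Sph (N + 1) → ℝ≥0∞) (‖p.2‖, rot (R p.1) (dir p.2)) :=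
    (measurable_one.indicator (hA.prod hB)).comp ((measurable_norm.comp measurable_snd).prodMk
      (hR.comp (measurable_fst.prodMk (measurable_dir.comp measurable_snd))))
  calc ∫⁻ g, ((fun g => (‖g‖, dir g)) ⁻¹' A ×ˢ B).indicator 1 g ∂μ = ∫⁻ g, φ g ∂μ := rfl
    _ = ∫⁻ _ω, ∫⁻ g, φ g ∂μ ∂γ := by simp
    _ = ∫⁻ ω, ∫⁻ g, (A ×ˢ B).indicator 1 (‖g‖, rot (R ω) (dir g)) ∂μ ∂γ := lintegral_congr hinv
    _ = ∫⁻ g, ∫⁻ ω, (A ×ˢ B).indicator 1 (‖g‖, rot (R ω) (dir g)) ∂γ ∂μ :=
        lintegral_lintegral_swap hm2.aemeasurable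
    _ = ∫⁻ g, ((‖·‖) ⁻¹' A).indicator 1 g * sphereMeasure (N + 1) B ∂μ := by
        refine lintegral_congr fun g => ?_
        by_cases hg : ‖g‖ ∈ A
        · rw [Set.indicator_of_mem (show g ∈ (‖·‖) ⁻¹' A from hg), Pi.one_apply, one_mul]
          have hr : Measurable fun ω => rot (R ω) (dir g) :=
            hR.comp (measurable_id.prodMk measurable_const)
          rw [← hmap (dir g), Measure.map_apply hr hB, ← lintegral_indicator_one (hr hB)]
          refine lintegral_congr fun ω => ?_
          by_cases hb : rot (R ω) (dir g) ∈ B <;> simp [hg, hb]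
        · rw [Set.indicator_of_notMem (show g ∉ (‖·‖) ⁻¹' A from hg), zero_mul]
          rw [show (fun ω => (A ×ˢ B).indicator (1 : ℝ × Sph (N + 1) → ℝ≥0∞)
              (‖g‖, rot (R ω) (dir g))) = fun _ => 0 from funext fun ω => by simp [hg],
            lintegral_zero]
    _ = _ := lintegral_mul_const _ (measurable_one.indicator (measurable_norm hA))

/-- The uniform point is the direction of a Gaussian vector. -/
theorem map_dir (N : ℕ) :
    (stdGaussian (EuclideanSpace ℝ (Fin (N + 1)))).map dir = sphereMeasure (N + 1) := by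
  have := isProbabilityMeasure_sphereMeasure (Nat.le_add_left 1 N)
  have h := congrArg (Measure.map Prod.snd) (map_norm_dir N)
  rw [Measure.map_map measurable_snd (measurable_norm.prodMk measurable_dir), Measure.map_snd_prod,
    measure_univ, one_smul] at h
  exact h

/-- A vector with one more coordinate. -/
noncomputable def snocVec (g : EuclideanSpace ℝ (Fin (N + 1))) (t : ℝ) :
    EuclideanSpace ℝ (Fin (N + 2)) := WithLp.toLp 2 (Fin.snoc (WithLp.ofLp g) t)

lemma measurable_snocVec :
    Measurable fun p : EuclideanSpace ℝ (Fin (N + 1)) × ℝ => snocVec p.1 p.2 := by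
  refine (WithLp.measurable_toLp 2 _).comp (measurable_pi_lambda _ fun i => ?_)
  refine Fin.lastCases ?_ (fun j => ?_) i
  · simpa using measurable_snd
  · simp only [Fin.snoc_castSucc]
    fun_prop

lemma inner_snocVec (g v : EuclideanSpace ℝ (Fin (N + 1))) (t u : ℝ) :
    ⟪snocVec g t, snocVec v u⟫ = ⟪g, v⟫ + t * u := by
  simp only [PiLp.inner_apply, snocVec, Fin.sum_univ_castSucc, Fin.snoc_castSucc, Fin.snoc_last,
    RCLike.inner_apply, conj_trivial]
  ring

lemma norm_snocVec_sq (g : EuclideanSpace ℝ (Fin (N + 1))) (t : ℝ) :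
    ‖snocVec g t‖ ^ 2 = ‖g‖ ^ 2 + t ^ 2 := by
  rw [← real_inner_self_eq_norm_sq, ← real_inner_self_eq_norm_sq, inner_snocVec]
  ring

/-- Appending an independent Gaussian coordinate. -/
theorem map_snocVec (N : ℕ) :
    ((stdGaussian (EuclideanSpace ℝ (Fin (N + 1)))).prod (gaussianReal 0 1)).map
        (fun p => snocVec p.1 p.2) = stdGaussian (EuclideanSpace ℝ (Fin (N + 2))) := by
  set γ := gaussianReal 0 1
  set e := MeasurableEquiv.piFinSuccAbove (fun _ : Fin (N + 2) => ℝ) (Fin.last (N + 1))
  have he : MeasurePreserving e.symm (γ.prod (Measure.pi fun _ : Fin (N + 1) => γ))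
      (Measure.pi fun _ : Fin (N + 2) => γ) :=
    (measurePreserving_piFinSuccAbove (fun _ : Fin (N + 2) => γ) (Fin.last (N + 1))).symm e
  have ht : ∀ k : ℕ, Measurable (WithLp.toLp 2 : (Fin k → ℝ) → EuclideanSpace ℝ (Fin k)) :=
    fun k => WithLp.measurable_toLp 2 _
  rw [← map_pi_eq_stdGaussian, ← map_pi_eq_stdGaussian, ← he.map_eq,
    Measure.map_map (ht _) e.symm.measurable, ← Measure.prod_swap,
    Measure.map_map measurable_snocVec measurable_swap]
  conv_lhs => rw [← Measure.map_id (μ := γ), Measure.map_prod_map _ _ measurable_id (ht _),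
    Measure.map_map (measurable_snocVec.comp measurable_swap) (measurable_id.prodMap (ht _))]
  congr 1
  funext p
  simp only [Function.comp_apply, snocVec]
  congr 1
  simp [e, MeasurableEquiv.piFinSuccAbove_symm_apply, Fin.snocEquiv]

/-- The rescaled coordinate split off. -/
noncomputable def sCoord (N : ℕ) (p : ℝ × ℝ) : ℝ :=
  p.2 * Real.sqrt ((N : ℝ) + 2) / Real.sqrt (p.1 ^ 2 + p.2 ^ 2)

lemma measurable_sCoord (N : ℕ) : Measurable (sCoord N) := by unfold sCoord; fun_prop

/-- The law of the coordinate split off. -/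
noncomputable def sLaw (N : ℕ) : Measure ℝ :=
  ((normLaw N).prod (gaussianReal 0 1)).map (sCoord N)

instance (N : ℕ) : IsProbabilityMeasure (sLaw N) :=
  Measure.isProbabilityMeasure_map (measurable_sCoord N).aemeasurable

lemma sq_sCoord_le (N : ℕ) (p : ℝ × ℝ) : sCoord N p ^ 2 ≤ (N : ℝ) + 2 := by
  rw [sCoord, div_pow, mul_pow, Real.sq_sqrt (by positivity), Real.sq_sqrt (by positivity)]
  exact div_le_of_le_mul₀ (by positivity) (by positivity) (by nlinarith [sq_nonneg p.1])

lemma sLaw_ae_le (N : ℕ) : ∀ᵐ s ∂sLaw N, s ^ 2 ≤ (N : ℝ) + 2 := by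
  rw [sLaw, ae_map_iff (measurable_sCoord N).aemeasurable
    (measurableSet_le (f := fun s : ℝ => s ^ 2) (measurable_id.pow_const 2) measurable_const)]
  exact Filter.Eventually.of_forall (sq_sCoord_le N)

/-- The point made of a point one dimension lower and the split coordinate. -/
noncomputable def splitVec (θ : Sph (N + 1)) (s : ℝ) : EuclideanSpace ℝ (Fin (N + 2)) :=
  snocVec (Real.sqrt (1 - s ^ 2 / ((N : ℝ) + 2)) • (θ : EuclideanSpace ℝ (Fin (N + 1))))
    (Real.sqrt (1 / ((N : ℝ) + 2)) * s)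

lemma measurable_splitVec :
    Measurable fun p : Sph (N + 1) × ℝ => splitVec p.1 p.2 := by
  unfold splitVec
  exact measurable_snocVec.comp (Measurable.prodMk (by fun_prop) (by fun_prop))

/-- Fields at a split point. -/
lemma inner_splitVec (g : EuclideanSpace ℝ (Fin (N + 1))) (h : ℝ) (θ : Sph (N + 1)) (s : ℝ) :
    ⟪snocVec g h, splitVec θ s⟫ =
      Real.sqrt (1 - s ^ 2 / ((N : ℝ) + 2)) * ⟪g, (θ : EuclideanSpace ℝ (Fin (N + 1)))⟫ +
        Real.sqrt (1 / ((N : ℝ) + 2)) * (h * s) := by
  rw [splitVec, inner_snocVec, real_inner_smul_right]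
  ring

lemma dir_snocVec {g : EuclideanSpace ℝ (Fin (N + 1))} (hg : g ≠ 0) (t : ℝ) :
    (dir (snocVec g t) : EuclideanSpace ℝ (Fin (N + 2))) = splitVec (dir g) (sCoord N (‖g‖, t)) := by
  have hr : 0 < ‖g‖ := norm_pos_iff.2 hg
  have hR2 := norm_snocVec_sq g t
  have hR0 : 0 < ‖snocVec g t‖ := by
    have := norm_nonneg (snocVec g t)
    nlinarith [sq_nonneg t]
  have hne : snocVec g t ≠ 0 := norm_pos_iff.1 hR0
  have hsq : Real.sqrt (‖g‖ ^ 2 + t ^ 2) = ‖snocVec g t‖ := by
    rw [← hR2, Real.sqrt_sq hR0.le]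
  have hn : (0 : ℝ) < (N : ℝ) + 2 := by positivity
  have h1 : Real.sqrt (1 - sCoord N (‖g‖, t) ^ 2 / ((N : ℝ) + 2)) = ‖g‖ / ‖snocVec g t‖ := by
    rw [show 1 - sCoord N (‖g‖, t) ^ 2 / ((N : ℝ) + 2) = (‖g‖ / ‖snocVec g t‖) ^ 2 from ?_,
      Real.sqrt_sq (by positivity)]
    rw [sCoord, hsq, div_pow, mul_pow, Real.sq_sqrt hn.le]
    field_simp
    linarith
  have h2 : Real.sqrt (1 / ((N : ℝ) + 2)) * sCoord N (‖g‖, t) = t / ‖snocVec g t‖ := by
    rw [sCoord, hsq, Real.sqrt_div zero_le_one, Real.sqrt_one]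
    field_simp
  rw [splitVec, h1, h2]
  conv_lhs => simp only [dir, hne, if_false]
  ext i
  refine Fin.lastCases ?_ (fun j => ?_) i
  · simp [snocVec, div_eq_inv_mul]
  · simp [snocVec, dir, hg]
    field_simp

/-- The uniform point, split. -/
theorem map_split (N : ℕ) :
    (sphereMeasure (N + 2)).map Subtype.val =
      ((sphereMeasure (N + 1)).prod (sLaw N)).map (fun p => splitVec p.1 p.2) := by
  have := isProbabilityMeasure_sphereMeasure (Nat.le_add_left 1 N)
  set γ := gaussianReal 0 1
  set μ := stdGaussian (EuclideanSpace ℝ (Fin (N + 1)))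
  have hnd : Measurable fun g : EuclideanSpace ℝ (Fin (N + 1)) => (dir g, ‖g‖) :=
    measurable_dir.prodMk measurable_norm
  have hdn : μ.map (fun g => (dir g, ‖g‖)) = (sphereMeasure (N + 1)).prod (normLaw N) := by
    have h := congrArg (Measure.map Prod.swap) (map_norm_dir N)
    rw [Measure.map_map measurable_swap (measurable_norm.prodMk measurable_dir),
      Measure.prod_swap] at h
    exact h
  have hlhs : (sphereMeasure (N + 2)).map Subtype.val =
      (μ.prod γ).map fun p => splitVec (dir p.1) (sCoord N (‖p.1‖, p.2)) := by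
    rw [← map_dir (N + 1), Measure.map_map measurable_subtype_coe measurable_dir, ← map_snocVec N,
      Measure.map_map (measurable_subtype_coe.comp measurable_dir) measurable_snocVec]
    refine Measure.map_congr ?_
    filter_upwards [Measure.quasiMeasurePreserving_fst.ae (ae_ne_zero (N := N))] with p hp
    exact dir_snocVec hp p.2
  rw [hlhs, sLaw]
  set σ := sphereMeasure (N + 1)
  have hS := measurable_sCoord N
  have h3 : (σ.prod (((normLaw N).prod γ).map (sCoord N))).map (fun p => splitVec p.1 p.2) =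
      (σ.prod ((normLaw N).prod γ)).map fun q => splitVec q.1 (sCoord N q.2) := by
    conv_lhs => rw [← Measure.map_id (μ := σ), Measure.map_prod_map _ _ measurable_id hS,
      Measure.map_map measurable_splitVec (measurable_id.prodMap hS)]
    rfl
  have hF : Measurable fun q : Sph (N + 1) × ℝ × ℝ => splitVec q.1 (sCoord N q.2) :=
    Measurable.comp (g := fun p : Sph (N + 1) × ℝ => splitVec p.1 p.2)
      (f := fun q : Sph (N + 1) × ℝ × ℝ => (q.1, sCoord N q.2)) measurable_splitVec
      (measurable_fst.prodMk (hS.comp measurable_snd))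
  have h4 : σ.prod ((normLaw N).prod γ) =
      (μ.prod γ).map fun p => (dir p.1, ‖p.1‖, p.2) := by
    rw [← Measure.prodAssoc_prod, ← hdn]
    conv_lhs => rw [← Measure.map_id (μ := γ), Measure.map_prod_map _ _ hnd measurable_id,
      Measure.map_map MeasurableEquiv.prodAssoc.measurable (hnd.prodMap measurable_id)]
    rfl
  rw [h3, h4, Measure.map_map hF
    (show Measurable fun p : EuclideanSpace ℝ (Fin (N + 1)) × ℝ => (dir p.1, ‖p.1‖, p.2) from
      (measurable_dir.comp measurable_fst).prodMk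
        ((measurable_norm.comp measurable_fst).prodMk measurable_snd))]
  rfl

/-- Integrals over the sphere, split. -/
theorem integral_split (N : ℕ) {F : EuclideanSpace ℝ (Fin (N + 2)) → ℝ} (hF : Measurable F)
    {C : ℝ} (hC : ∀ v, |F v| ≤ C) :
    ∫ u, F (u : EuclideanSpace ℝ (Fin (N + 2))) ∂sphereMeasure (N + 2) =
      ∫ s, ∫ θ, F (splitVec θ s) ∂sphereMeasure (N + 1) ∂sLaw N := by
  have := isProbabilityMeasure_sphereMeasure (Nat.le_add_left 1 N)
  rw [← integral_map (φ := (Subtype.val : Sph (N + 2) → _)) measurable_subtype_coe.aemeasurable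
    hF.aestronglyMeasurable, map_split, integral_map measurable_splitVec.aemeasurable
      hF.aestronglyMeasurable]
  exact integral_prod_symm _ ((integrable_const C).mono'
    (hF.comp measurable_splitVec).aestronglyMeasurable
    (Filter.Eventually.of_forall fun p => hC _))

end Vale.Agent.P157.Low
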