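import Vale.Agent.P157.Low.SphGain
import Vale.Agent.P157.Low.SphCoord
import Vale.Agent.P157.Low.Expansion

/-!
The pointwise lower bound for adding a coordinate with a small second-order remainder.
-/

namespace Vale.Agent.P157.Low

open MeasureTheory ProbabilityTheory
open scoped RealInnerProductSpace

/-- The split coordinate is symmetric. -/
lemma map_neg_sLaw (N : ℕ) : (sLaw N).map Neg.neg = sLaw N := by
  have h : MeasurePreserving (Prod.map id Neg.neg : ℝ × ℝ → ℝ × ℝ)
      ((normLaw N).prod (gaussianReal 0 1)) ((normLaw N).prod (gaussianReal 0 1)) :=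
    (MeasurePreserving.id (normLaw N)).prod ⟨measurable_neg, by simpa using gaussianReal_map_neg (μ := 0) (v := 1)⟩
  have e : (Neg.neg ∘ sCoord N) = sCoord N ∘ Prod.map id Neg.neg := funext fun p => by
    simp [sCoord, neg_div]
  rw [sLaw, Measure.map_map measurable_neg (measurable_sCoord N), e,
    ← Measure.map_map (measurable_sCoord N) h.measurable, h.map_eq]

/-- A Lipschitz cutoff, one on `[-T, T]` and zero outside `[-(T + 1), T + 1]`. -/
noncomputable def cutoff (T t : ℝ) : ℝ := max 0 (min 1 (T + 1 - |t|))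

lemma continuous_cutoff (T : ℝ) : Continuous (cutoff T) := by unfold cutoff; fun_prop

lemma cutoff_mem (T t : ℝ) : 0 ≤ cutoff T t ∧ cutoff T t ≤ 1 :=
  ⟨le_max_left _ _, max_le zero_le_one (min_le_left _ _)⟩

lemma cutoff_eq_zero {T t : ℝ} (h : T + 1 ≤ |t|) : cutoff T t = 0 :=
  max_eq_left ((min_le_right _ _).trans (by linarith))

lemma cutoff_eq_one {T t : ℝ} (h : |t| ≤ T) : cutoff T t = 1 := by
  rw [cutoff, min_eq_left (by linarith), max_eq_right zero_le_one]

lemma abs_cutoff_sub (T a b : ℝ) : |cutoff T a - cutoff T b| ≤ |a - b| := by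
  refine (abs_max_sub_max_le_max _ _ _ _).trans (max_le (by simp) ?_)
  refine (abs_min_sub_min_le_max _ _ _ _).trans (max_le (by simp) ?_)
  rw [show T + 1 - |a| - (T + 1 - |b|) = |b| - |a| by ring, abs_sub_comm a b]
  exact abs_abs_sub_abs_le_abs_sub b a

/-- Tangent line of the exponential under a weight, with the loss split by Young's inequality. -/
lemma log_tilt_ge {Z : Type} [MeasurableSpace Z] {p : Measure Z} {v u Q R : Z → ℝ} {t : ℝ}
    (hv : Integrable v p) (hv0 : ∀ z, 0 ≤ v z) (hpos : 0 < ∫ z, v z ∂p)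
    (hvu : Integrable (fun z => v z * u z) p) (hve : Integrable (fun z => v z * Real.exp (u z)) p)
    (hQ : Integrable Q p) (hR : Integrable R p)
    (hb : ∀ z, -(v z * u z) ≤ t * Q z + R z / (4 * t)) :
    0 < ∫ z, v z * Real.exp (u z) ∂p ∧
    Real.log (∫ z, v z ∂p) - (t * ∫ z, Q z ∂p + (∫ z, R z ∂p) / (4 * t)) / (∫ z, v z ∂p) ≤
      Real.log (∫ z, v z * Real.exp (u z) ∂p) := by
  set W := ∫ z, v z ∂p
  set m := (∫ z, v z * u z ∂p) / W
  have h1 : W * Real.exp m ≤ ∫ z, v z * Real.exp (u z) ∂p := by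
    have hi : Integrable (fun z => Real.exp m * ((1 - m) * v z + v z * u z)) p :=
      ((hv.const_mul (1 - m)).add hvu).const_mul _
    refine le_trans (le_of_eq ?_) (integral_mono hi hve fun z => ?_)
    · have hm : ∫ z, v z * u z ∂p = m * W := by
        simp only [m]
        rw [div_mul_cancel₀ _ hpos.ne']
      rw [integral_const_mul, integral_add (hv.const_mul (1 - m)) hvu, integral_const_mul, hm]
      ring
    · have h := mul_le_mul_of_nonneg_left
        (mul_le_mul_of_nonneg_left (Real.add_one_le_exp (u z - m)) (Real.exp_pos m).le) (hv0 z)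
      rw [← Real.exp_add, add_sub_cancel] at h
      linarith
  refine ⟨(mul_pos hpos (Real.exp_pos m)).trans_le h1, ?_⟩
  have h2 := Real.log_le_log (mul_pos hpos (Real.exp_pos m)) h1
  rw [Real.log_mul hpos.ne' (Real.exp_pos m).ne', Real.log_exp] at h2
  have h3 : -m ≤ (t * ∫ z, Q z ∂p + (∫ z, R z ∂p) / (4 * t)) / W := by
    rw [← neg_div]
    refine div_le_div_of_nonneg_right ?_ hpos.le
    rw [← integral_neg, ← integral_const_mul, ← integral_div,
      ← integral_add (hQ.const_mul t) (hR.div_const _)]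
    exact integral_mono hvu.neg ((hQ.const_mul t).add (hR.div_const _)) hb
  linarith

/-- The average over the split coordinate is near the Gaussian weight. -/
lemma exists_sLaw_sphG {T L : ℝ} (hT : 1 ≤ T) (hL : 0 < L) (M : ℝ) :
    ∃ K, 0 ≤ K ∧ ∀ (N : ℕ) (a y : ℝ), |a| ≤ M → sphG a T L y - K / Real.sqrt ((N : ℝ) + 2) ≤
      ∫ s, cutoff T s * (Real.exp (a * s ^ 2 / 2) * Real.cosh (s * (L * Real.tanh (y / L)))) ∂sLaw N := by
  set T' := T + 1
  set E := Real.exp (|M| * T' ^ 2) * Real.cosh (T' * L)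
  set K0 := E + (|M| * T' + L) * E with hK0
  have hE : 0 < E := mul_pos (Real.exp_pos _) (Real.cosh_pos _)
  have hT' : 0 ≤ T' := by simp only [T']; linarith
  refine ⟨K0 * (1 + 8 * shellC), ?_, fun N a y ha => ?_⟩
  · have : 0 ≤ shellC := variance_nonneg _ _
    positivity
  set k := L * Real.tanh (y / L)
  have hk : |k| ≤ L := abs_mul_tanh_le hL y
  set ψ : ℝ → ℝ := fun s => Real.exp (a * s ^ 2 / 2) * Real.cosh (s * k)
  have haM : |a| ≤ |M| := ha.trans (le_abs_self M)
  have hψb : ∀ s, |s| ≤ T' → |ψ s| ≤ E := fun s hs => by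
    simp only [ψ, abs_mul, Real.abs_exp, abs_of_pos (Real.cosh_pos _)]
    refine mul_le_mul (Real.exp_le_exp.2 ?_) ?_ (Real.cosh_pos _).le (Real.exp_pos _).le
    · have h1 : s ^ 2 ≤ T' ^ 2 := by
        rw [← sq_abs s]; exact pow_le_pow_left₀ (abs_nonneg s) hs 2
      have h2 : |a * s ^ 2 / 2| ≤ |M| * T' ^ 2 := by
        rw [abs_div, abs_mul, abs_two, abs_of_nonneg (sq_nonneg s)]
        nlinarith [mul_le_mul haM h1 (sq_nonneg s) (abs_nonneg M), mul_nonneg (abs_nonneg a) (sq_nonneg s)]
      exact (le_abs_self _).trans h2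
    · rw [Real.cosh_le_cosh, abs_mul s, abs_mul T', abs_of_nonneg hT', abs_of_pos hL]
      exact mul_le_mul hs hk (abs_nonneg _) hT'
  have hψd : ∀ s, HasDerivAt ψ (Real.exp (a * s ^ 2 / 2) *
      (a * s * Real.cosh (s * k) + k * Real.sinh (s * k))) s := fun s => by
    have h1 : HasDerivAt (fun s => Real.exp (a * s ^ 2 / 2)) (Real.exp (a * s ^ 2 / 2) * (a * s)) s := by
      refine ((((hasDerivAt_id s).pow 2).const_mul a).div_const 2).exp.congr_deriv ?_
      simp; ring
    have h2 : HasDerivAt (fun s => Real.cosh (s * k)) (Real.sinh (s * k) * k) s := by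
      refine ((hasDerivAt_id s).mul_const k).cosh.congr_deriv ?_
      simp
    exact (h1.mul h2).congr_deriv (by ring)
  have hlip : ∀ u v, |u| ≤ T' → |v| ≤ T' → |ψ u - ψ v| ≤ (|M| * T' + L) * E * |u - v| := fun u v hu hv => by
    have h := Convex.norm_image_sub_le_of_norm_hasDerivWithin_le (f := ψ) (s := Set.Icc (-T') T')
      (C := (|M| * T' + L) * E) (fun z _ => (hψd z).hasDerivWithinAt) (fun z hz => ?_) (convex_Icc _ _)
      (abs_le.1 hv) (abs_le.1 hu)
    · simpa [Real.norm_eq_abs] using h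
    · have hz' : |z| ≤ T' := abs_le.2 hz
      have hs : |Real.sinh (z * k)| ≤ Real.cosh (z * k) := by
        rw [Real.abs_sinh, ← Real.cosh_abs]; exact (Real.sinh_lt_cosh _).le
      rw [Real.norm_eq_abs, abs_mul, Real.abs_exp]
      have h1 : |a * z * Real.cosh (z * k) + k * Real.sinh (z * k)| ≤
          (|M| * T' + L) * Real.cosh (z * k) := by
        refine (abs_add_le _ _).trans ?_
        rw [abs_mul, abs_mul a, abs_mul k, abs_of_pos (Real.cosh_pos _), add_mul]
        exact add_le_add (mul_le_mul_of_nonneg_right (mul_le_mul haM hz' (abs_nonneg _) (abs_nonneg _))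
          (Real.cosh_pos _).le) (mul_le_mul hk hs (abs_nonneg _) hL.le)
      refine (mul_le_mul_of_nonneg_left h1 (Real.exp_pos _).le).trans ?_
      have h2 := hψb z hz'
      rw [abs_of_pos (mul_pos (Real.exp_pos _) (Real.cosh_pos _))] at h2
      rw [mul_left_comm]
      exact mul_le_mul_of_nonneg_left h2 (add_nonneg (mul_nonneg (abs_nonneg M) hT') hL.le)
  set φ : ℝ → ℝ := fun s => cutoff T s * ψ s
  have hφb : ∀ s, |φ s| ≤ E := fun s => by
    by_cases hs : |s| ≤ T'
    · rw [abs_mul, abs_of_nonneg (cutoff_mem T s).1]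
      exact (mul_le_of_le_one_left (abs_nonneg _) (cutoff_mem T s).2).trans (hψb s hs)
    · simp [φ, cutoff_eq_zero (not_le.1 hs).le, hE.le]
  have hφl : ∀ u v, |φ u - φ v| ≤ K0 * |u - v| := fun u v => by
    rw [hK0, add_mul]
    have h0 : 0 ≤ (|M| * T' + L) * E * |u - v| :=
      mul_nonneg (mul_nonneg (add_nonneg (mul_nonneg (abs_nonneg M) hT') hL.le) hE.le) (abs_nonneg _)
    have hE' : 0 ≤ E * |u - v| := mul_nonneg hE.le (abs_nonneg _)
    have key : ∀ u v, |u| ≤ T' → T' < |v| → |φ u - φ v| ≤ E * |u - v| := fun u v hu hv => by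
      have hcv := cutoff_eq_zero (T := T) hv.le
      simp only [φ, hcv, zero_mul, sub_zero, abs_mul]
      have hc := abs_cutoff_sub T u v
      rw [hcv, sub_zero] at hc
      exact (mul_le_mul hc (hψb u hu) (abs_nonneg _) (abs_nonneg _)).trans_eq (mul_comm _ _)
    rcases le_or_gt |u| T' with hu | hu <;> rcases le_or_gt |v| T' with hv | hv
    · have e : φ u - φ v = (cutoff T u - cutoff T v) * ψ u + cutoff T v * (ψ u - ψ v) := by
        simp only [φ]; ring
      rw [e]
      refine (abs_add_le _ _).trans (add_le_add ?_ ?_)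
      · rw [abs_mul]
        exact (mul_le_mul (abs_cutoff_sub T u v) (hψb u hu) (abs_nonneg _) (abs_nonneg _)).trans_eq (mul_comm _ _)
      · rw [abs_mul, abs_of_nonneg (cutoff_mem T v).1]
        exact (mul_le_of_le_one_left (abs_nonneg _) (cutoff_mem T v).2).trans (hlip u v hu hv)
    · linarith [key u v hu hv]
    · rw [abs_sub_comm (φ u), abs_sub_comm u] at *
      linarith [key v u hv hu]
    · simp only [φ, cutoff_eq_zero (T := T) hu.le, cutoff_eq_zero (T := T) hv.le, zero_mul, sub_zero, abs_zero]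
      linarith
  have h := (abs_le.1 (sLaw_approx N (K := K0) (by positivity) hφl hφb)).1
  have hG : sphG a T L y ≤ ∫ t, φ t ∂gaussianReal 0 1 := by
    refine integral_mono (integrable_trunc (continuous_sphInt a L y) T)
      ((integrable_const E).mono' ((continuous_cutoff T).mul
        (continuous_sphInt a L y)).aestronglyMeasurable (Filter.Eventually.of_forall fun t =>
          (Real.norm_eq_abs _).trans_le (hφb t))) fun t => ?_
    by_cases ht : t ∈ Set.Icc (-T) T
    · rw [Set.indicator_of_mem ht]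
      simp only [φ, cutoff_eq_one (abs_le.2 ht), one_mul, ψ, k, le_refl]
    · rw [Set.indicator_of_notMem ht]
      exact mul_nonneg (cutoff_mem T t).1 (mul_pos (Real.exp_pos _) (Real.cosh_pos _)).le
  rw [mul_div_assoc]
  linarith

/-- Adding a coordinate whose exponent is a field plus a remainder near `d s ^ 2 / 2`. -/
theorem sph_point {X : Type} [MeasurableSpace X] {μ : Measure X} [IsProbabilityMeasure μ] {w : X → ℝ}
    (hw : Wt w) {N : ℕ} {T L M δ g0 a d t : ℝ} (hT : 1 ≤ T) (hL : 0 < L) (ha : |a| ≤ M) (had : a ≤ d)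
    (ht : 0 < t) (hg : 0 < g0) (hG0 : ∀ y, g0 ≤ sphG a T L y) (hδ : δ ≤ g0 / 2) (hδ0 : 0 ≤ δ)
    (happ : ∀ y, sphG a T L y - δ ≤
      ∫ s, cutoff T s * (Real.exp (a * s ^ 2 / 2) * Real.cosh (s * (L * Real.tanh (y / L)))) ∂sLaw N)
    {ξ : X → ℝ} (hξ : Measurable ξ) {bξ : ℝ} (hξb : ∀ x, |ξ x| ≤ bξ)
    {Δ : X → ℝ → ℝ} (hΔ : Measurable fun p : X × ℝ => Δ p.1 p.2) {bΔ : ℝ} (hΔb : ∀ x s, |Δ x s| ≤ bΔ)
    {U : X → ℝ} (hU : Integrable U (gibbs μ w))
    (hU2 : ∀ x s, |s| ≤ T + 1 → (Δ x s - s * ξ x - s ^ 2 * d / 2) ^ 2 ≤ (T + 1) ^ 6 * U x) :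
    Real.log (∫ x, sphG a T L (ξ x) ∂gibbs μ w) - 2 * δ / g0 -
        2 / g0 * (t * ((T + 1) ^ 6 * ∫ x, U x ∂gibbs μ w) +
          2 * Real.exp (|M| * (T + 1) ^ 2) * (∫ x, Real.cosh (2 * (T + 1) * ξ x) ∂gibbs μ w) / (4 * t)) ≤
      Real.log (∫ s in Set.Icc (-(T + 1)) (T + 1), ∫ x, w x * Real.exp (Δ x s) ∂μ ∂sLaw N) - logI μ w := by
  set T' := T + 1 with hTdef
  have hT' : 0 < T' := by linarith
  set G := gibbs μ w
  have : IsProbabilityMeasure G := isProbabilityMeasure_gibbs hw
  set σT := (sLaw N).restrict (Set.Icc (-T') T') with hσT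
  set p := G.prod σT
  have hae : ∀ᵐ z ∂p, |z.2| ≤ T' := by
    have h : ∀ᵐ s ∂σT, |s| ≤ T' := by
      filter_upwards [ae_restrict_mem measurableSet_Icc] with s hs using abs_le.2 hs
    exact (Measure.quasiMeasurePreserving_snd (μ := G) (ν := σT)).ae (p := fun s : ℝ => |s| ≤ T') h
  have hsT : ∀ s, |s| ≤ T' → s ^ 2 ≤ T' ^ 2 := fun s hs => by
    rw [← sq_abs s]; exact pow_le_pow_left₀ (abs_nonneg s) hs 2
  have haM : |a| ≤ |M| := ha.trans (le_abs_self M)
  have hexpb : ∀ c : ℝ, ∀ x s, |s| ≤ T' →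
      |c * (s * ξ x + a * s ^ 2 / 2)| ≤ |c| * (T' * bξ + |M| * T' ^ 2) := fun c x s hs => by
    rw [abs_mul]
    refine mul_le_mul_of_nonneg_left ((abs_add_le _ _).trans (add_le_add ?_ ?_)) (abs_nonneg c)
    · rw [abs_mul]
      exact mul_le_mul hs (hξb x) (abs_nonneg _) hT'.le
    · rw [abs_div, abs_mul, abs_two, abs_of_nonneg (sq_nonneg s)]
      have := mul_le_mul haM (hsT s hs) (sq_nonneg s) (abs_nonneg M)
      nlinarith [mul_nonneg (abs_nonneg a) (sq_nonneg s)]
  have hfin : IsFiniteMeasure p := inferInstance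
  have mξ : Measurable fun z : X × ℝ => z.2 * ξ z.1 + a * z.2 ^ 2 / 2 :=
    (measurable_snd.mul (hξ.comp measurable_fst)).add (((measurable_snd.pow_const 2).const_mul a).div_const 2)
  have mcut : Measurable fun z : X × ℝ => cutoff T z.2 := (continuous_cutoff T).measurable.comp measurable_snd
  set v := fun z : X × ℝ => cutoff T z.2 * Real.exp (z.2 * ξ z.1 + a * z.2 ^ 2 / 2) with hvdef
  set u := fun z : X × ℝ => Δ z.1 z.2 - z.2 * ξ z.1 - z.2 ^ 2 * d / 2 with hudef
  have hv0 : ∀ z, 0 ≤ v z := fun z => mul_nonneg (cutoff_mem _ _).1 (Real.exp_pos _).le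
  have mv : Measurable v := mcut.mul mξ.exp
  have mu : Measurable u :=
    (hΔ.sub (measurable_snd.mul (hξ.comp measurable_fst))).sub (((measurable_snd.pow_const 2).mul_const d).div_const 2)
  have hvb : ∀ z : X × ℝ, |z.2| ≤ T' → |v z| ≤ Real.exp (T' * bξ + |M| * T' ^ 2) := fun z hz => by
    rw [abs_of_nonneg (hv0 z)]
    refine (mul_le_of_le_one_left (Real.exp_pos _).le (cutoff_mem _ _).2).trans (Real.exp_le_exp.2 ?_)
    have := hexpb 1 z.1 z.2 hz
    simp only [one_mul, abs_one] at this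
    exact (le_abs_self _).trans this
  set bu := bΔ + T' * bξ + T' ^ 2 * |d|
  have hub : ∀ z : X × ℝ, |z.2| ≤ T' → |u z| ≤ bu := fun z hz => by
    refine (abs_sub _ _).trans (add_le_add ((abs_sub _ _).trans (add_le_add (hΔb _ _) ?_)) ?_)
    · rw [abs_mul]; exact mul_le_mul hz (hξb _) (abs_nonneg _) hT'.le
    · rw [abs_div, abs_mul, abs_two, abs_of_nonneg (sq_nonneg z.2)]
      have := mul_le_mul_of_nonneg_right (hsT _ hz) (abs_nonneg d)
      nlinarith [mul_nonneg (sq_nonneg z.2) (abs_nonneg d)]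
  have iv : Integrable v p :=
    (integrable_const (Real.exp (T' * bξ + |M| * T' ^ 2))).mono' mv.aestronglyMeasurable
      (hae.mono fun z hz => (Real.norm_eq_abs _).trans_le (hvb z hz))
  have ivu : Integrable (fun z => v z * u z) p := iv.mul_bdd (c := bu) mu.aestronglyMeasurable
    (hae.mono fun z hz => (Real.norm_eq_abs _).trans_le (hub z hz))
  have ive : Integrable (fun z => v z * Real.exp (u z)) p :=
    iv.mul_bdd (c := Real.exp bu) mu.exp.aestronglyMeasurable (hae.mono fun z hz => by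
      rw [Real.norm_eq_abs, Real.abs_exp, Real.exp_le_exp]; exact (le_abs_self _).trans (hub z hz))
  set Q := fun z : X × ℝ => if |z.2| ≤ T' then T' ^ 6 * U z.1 else 0 with hQdef
  set R := fun z : X × ℝ => if |z.2| ≤ T' then 2 * Real.exp (|M| * T' ^ 2) * Real.cosh (2 * T' * ξ z.1) else 0
  have iQ' : Integrable (fun z : X × ℝ => T' ^ 6 * U z.1) p := (hU.const_mul _).comp_fst σT
  have icosh : Integrable (fun x => Real.cosh (2 * T' * ξ x)) G :=
    (integrable_const (Real.cosh (2 * T' * bξ))).mono' ((hξ.const_mul _).cosh).aestronglyMeasurable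
      (Filter.Eventually.of_forall fun x => by
        rw [Real.norm_eq_abs, abs_of_pos (Real.cosh_pos _), Real.cosh_le_cosh, abs_mul (2 * T'), abs_mul (2 * T') bξ]
        exact mul_le_mul_of_nonneg_left ((hξb x).trans (le_abs_self _)) (abs_nonneg _))
  have iR' : Integrable (fun z : X × ℝ => 2 * Real.exp (|M| * T' ^ 2) * Real.cosh (2 * T' * ξ z.1)) p :=
    (icosh.const_mul _).comp_fst σT
  have eQ : Q =ᵐ[p] fun z => T' ^ 6 * U z.1 := hae.mono fun z hz => if_pos hz
  have eR : R =ᵐ[p] fun z => 2 * Real.exp (|M| * T' ^ 2) * Real.cosh (2 * T' * ξ z.1) :=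
    hae.mono fun z hz => if_pos hz
  have hb : ∀ z, -(v z * u z) ≤ t * Q z + R z / (4 * t) := fun z => by
    by_cases hz : |z.2| ≤ T'
    · simp only [Q, R, if_pos hz]
      have h1 : u z ^ 2 ≤ T' ^ 6 * U z.1 := hU2 _ _ hz
      have h2 : v z ^ 2 ≤ 2 * Real.exp (|M| * T' ^ 2) * Real.cosh (2 * T' * ξ z.1) := by
        refine (pow_le_pow_left₀ (hv0 z) (mul_le_of_le_one_left (Real.exp_pos _).le (cutoff_mem _ _).2) 2).trans ?_
        rw [← Real.exp_nat_mul, Real.cosh_eq,
          show 2 * Real.exp (|M| * T' ^ 2) *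
            ((Real.exp (2 * T' * ξ z.1) + Real.exp (-(2 * T' * ξ z.1))) / 2) =
            Real.exp (|M| * T' ^ 2) * Real.exp (2 * T' * ξ z.1) +
              Real.exp (|M| * T' ^ 2) * Real.exp (-(2 * T' * ξ z.1)) by ring, ← Real.exp_add, ← Real.exp_add]
        have h3 : a * z.2 ^ 2 ≤ |M| * T' ^ 2 :=
          (mul_le_mul_of_nonneg_right ((le_abs_self a).trans haM) (sq_nonneg _)).trans
            (mul_le_mul_of_nonneg_left (hsT _ hz) (abs_nonneg M))
        have h4 : |z.2 * ξ z.1| ≤ |T' * ξ z.1| := by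
          rw [abs_mul, abs_mul, abs_of_pos hT']; exact mul_le_mul_of_nonneg_right hz (abs_nonneg _)
        push_cast
        rcases le_abs.1 (le_refl |T' * ξ z.1|) with h | h
        · refine le_trans (Real.exp_le_exp.2 ?_) (le_add_of_nonneg_right (Real.exp_pos _).le)
          linarith [le_abs_self (z.2 * ξ z.1)]
        · refine le_trans (Real.exp_le_exp.2 ?_) (le_add_of_nonneg_left (Real.exp_pos _).le)
          linarith [le_abs_self (z.2 * ξ z.1)]
      have h5 : 0 ≤ (2 * t * u z + v z) ^ 2 / (4 * t) := by positivity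
      have h6 : (2 * t * u z + v z) ^ 2 / (4 * t) = t * u z ^ 2 + v z * u z + v z ^ 2 / (4 * t) := by
        field_simp; ring
      have := mul_le_mul_of_nonneg_left h1 ht.le
      have := div_le_div_of_nonneg_right h2 (show (0 : ℝ) ≤ 4 * t by positivity)
      linarith
    · simp only [Q, R, if_neg hz, v, cutoff_eq_zero (T := T) (not_le.1 hz).le, zero_mul]
      simp
  -- the weight
  have hrestr : ∀ (F : ℝ → ℝ), (∀ s, T' < |s| → F s = 0) → ∫ s, F s ∂σT = ∫ s, F s ∂sLaw N := fun F hF => by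
    rw [hσT]
    refine setIntegral_eq_integral_of_forall_compl_eq_zero fun s hs => hF s ?_
    by_contra h
    exact hs (abs_le.1 (not_lt.1 h))
  have hsym : ∀ F : ℝ → ℝ, Measurable F → ∫ s, F (-s) ∂sLaw N = ∫ s, F s ∂sLaw N := fun F hF => by
    conv_rhs => rw [← map_neg_sLaw N]
    rw [integral_map measurable_neg.aemeasurable hF.aestronglyMeasurable]
  have hin : ∀ x, sphG a T L (ξ x) - δ ≤ ∫ s, v (x, s) ∂σT := fun x => by
    refine (happ (ξ x)).trans ?_
    rw [hrestr _ fun s hs => by simp [v, cutoff_eq_zero (T := T) hs.le]]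
    set F := fun s => v (x, s)
    have hFb : ∀ s, |F s| ≤ Real.exp (T' * bξ + |M| * T' ^ 2) := fun s => by
      by_cases hs : |s| ≤ T'
      · exact hvb (x, s) hs
      · simp [F, v, cutoff_eq_zero (T := T) (not_le.1 hs).le, (Real.exp_pos _).le]
    have hFm : Measurable F := mv.comp (measurable_const.prodMk measurable_id)
    have iF : Integrable F (sLaw N) := (integrable_const _).mono' hFm.aestronglyMeasurable
      (Filter.Eventually.of_forall fun s => (Real.norm_eq_abs _).trans_le (hFb s))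
    have iF' : Integrable (fun s => F (-s)) (sLaw N) :=
      (integrable_const _).mono' (hFm.comp measurable_neg).aestronglyMeasurable
      (Filter.Eventually.of_forall fun s => (Real.norm_eq_abs _).trans_le (hFb (-s)))
    have e : ∫ s, F s ∂sLaw N = ∫ s, (F s + F (-s)) / 2 ∂sLaw N := by
      rw [integral_div, integral_add iF iF', hsym F hFm]; ring
    have hle : ∀ s, cutoff T s * (Real.exp (a * s ^ 2 / 2) * Real.cosh (s * (L * Real.tanh (ξ x / L)))) ≤
        (F s + F (-s)) / 2 := fun s => by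
      have hc : cutoff T (-s) = cutoff T s := by simp [cutoff]
      simp only [F, v, hc, neg_mul, neg_sq, Real.exp_add]
      rw [show (cutoff T s * (Real.exp (s * ξ x) * Real.exp (a * s ^ 2 / 2)) +
          cutoff T s * (Real.exp (-(s * ξ x)) * Real.exp (a * s ^ 2 / 2))) / 2 =
          cutoff T s * (Real.exp (a * s ^ 2 / 2) * Real.cosh (s * ξ x)) by rw [Real.cosh_eq]; ring]
      refine mul_le_mul_of_nonneg_left (mul_le_mul_of_nonneg_left ?_ (Real.exp_pos _).le) (cutoff_mem _ _).1
      rw [Real.cosh_le_cosh, abs_mul, abs_mul s]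
      exact mul_le_mul_of_nonneg_left (abs_squash_le hL _) (abs_nonneg _)
    have hi2 : Integrable (fun s => (F s + F (-s)) / 2) (sLaw N) := (iF.add iF').div_const 2
    refine (integral_mono_of_nonneg (Filter.Eventually.of_forall fun s => mul_nonneg (cutoff_mem _ _).1
      (mul_pos (Real.exp_pos _) (Real.cosh_pos _)).le) hi2 (Filter.Eventually.of_forall hle)).trans_eq e.symm
  have mG : Measurable fun x => sphG a T L (ξ x) := by
    have h := (lip_logSphG a hT hL).meas.exp.comp hξ
    simp only [Function.comp_def, Real.exp_log (sphG_pos a hT L _)] at h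
    exact h
  have hGb : ∀ x, |sphG a T L (ξ x)| ≤ Real.exp (T' * bξ + |M| * T' ^ 2) + δ := fun x => by
    rw [abs_of_nonneg (hg.le.trans (hG0 _))]
    have h := hin x
    have h' : ∫ s, v (x, s) ∂σT ≤ Real.exp (T' * bξ + |M| * T' ^ 2) := by
      refine (le_abs_self _).trans ?_
      have := norm_integral_le_of_norm_le_const (μ := σT) (f := fun s => v (x, s))
        (C := Real.exp (T' * bξ + |M| * T' ^ 2)) (by
          filter_upwards [ae_restrict_mem measurableSet_Icc] with s hs
          exact (Real.norm_eq_abs _).trans_le (hvb (x, s) (abs_le.2 hs)))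
      rw [Real.norm_eq_abs] at this
      refine this.trans (mul_le_of_le_one_right (Real.exp_pos _).le ?_)
      rw [measureReal_def]
      refine ENNReal.toReal_le_of_le_ofReal zero_le_one ?_
      rw [ENNReal.ofReal_one, hσT, Measure.restrict_apply_univ]
      exact prob_le_one
    linarith
  have iG : Integrable (fun x => sphG a T L (ξ x)) G :=
    (integrable_const _).mono' mG.aestronglyMeasurable
      (Filter.Eventually.of_forall fun x => (Real.norm_eq_abs _).trans_le (hGb x))
  set A := ∫ x, sphG a T L (ξ x) ∂G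
  have hA : g0 ≤ A := by simpa using integral_mono (μ := G) (integrable_const g0) iG fun x => hG0 _
  have hW : A - δ ≤ ∫ z, v z ∂p := by
    rw [integral_prod _ iv]
    have := integral_mono (μ := G) (iG.sub (integrable_const δ)) iv.integral_prod_left hin
    simp only [Pi.sub_apply] at this
    rw [integral_sub iG (integrable_const δ)] at this
    simpa using this
  have hWg : g0 / 2 ≤ ∫ z, v z ∂p := by linarith
  obtain ⟨hpos, hlog⟩ := log_tilt_ge (t := t) iv hv0 (by linarith) ivu ive
    (iQ'.congr eQ.symm) (iR'.congr eR.symm) hb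
  -- the two sides
  have hAδ : Real.log A - 2 * δ / g0 ≤ Real.log (∫ z, v z ∂p) := by
    have h1 : 0 < A - δ := by linarith
    have h2 := Real.log_le_sub_one_of_pos (show 0 < A / (A - δ) from div_pos (by linarith) h1)
    rw [Real.log_div (by linarith) h1.ne', div_sub_one h1.ne', sub_sub_cancel] at h2
    have h3 : δ / (A - δ) ≤ 2 * δ / g0 := by
      rw [show 2 * δ / g0 = δ / (g0 / 2) by ring]
      exact div_le_div_of_nonneg_left hδ0 (by linarith) (by linarith)
    linarith [Real.log_le_log h1 hW]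
  have hσ1 : σT.real Set.univ ≤ 1 := by
    rw [measureReal_def]
    refine ENNReal.toReal_le_of_le_ofReal zero_le_one ?_
    rw [ENNReal.ofReal_one, hσT, Measure.restrict_apply_univ]
    exact prob_le_one
  have hU0 : 0 ≤ ∫ x, U x ∂G := integral_nonneg fun x => by
    have := (sq_nonneg _).trans (hU2 x 0 (by rw [abs_zero]; linarith))
    exact nonneg_of_mul_nonneg_right (by linarith [this]) (pow_pos hT' 6)
  have hQle : ∫ z, Q z ∂p ≤ T' ^ 6 * ∫ x, U x ∂G := by
    rw [integral_congr_ae eQ, integral_fun_fst (μ := G) (ν := σT) fun x => T' ^ 6 * U x, smul_eq_mul,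
      integral_const_mul]
    exact mul_le_of_le_one_left (by positivity) hσ1
  have hRle : ∫ z, R z ∂p ≤
      2 * Real.exp (|M| * T' ^ 2) * ∫ x, Real.cosh (2 * T' * ξ x) ∂G := by
    rw [integral_congr_ae eR, integral_fun_fst (μ := G) (ν := σT)
      fun x => 2 * Real.exp (|M| * T' ^ 2) * Real.cosh (2 * T' * ξ x), smul_eq_mul, integral_const_mul]
    exact mul_le_of_le_one_left (mul_nonneg (by positivity)
      (integral_nonneg fun x => (Real.cosh_pos _).le)) hσ1
  have hC0 : 0 ≤ t * (T' ^ 6 * ∫ x, U x ∂G) +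
      2 * Real.exp (|M| * T' ^ 2) * (∫ x, Real.cosh (2 * T' * ξ x) ∂G) / (4 * t) :=
    add_nonneg (by positivity) (div_nonneg (mul_nonneg (by positivity)
      (integral_nonneg fun x => (Real.cosh_pos _).le)) (by positivity))
  have hcost : (t * ∫ z, Q z ∂p + (∫ z, R z ∂p) / (4 * t)) / (∫ z, v z ∂p) ≤
      2 / g0 * (t * (T' ^ 6 * ∫ x, U x ∂G) +
        2 * Real.exp (|M| * T' ^ 2) * (∫ x, Real.cosh (2 * T' * ξ x) ∂G) / (4 * t)) := by
    refine (div_le_div_of_nonneg_right (add_le_add (mul_le_mul_of_nonneg_left hQle ht.le)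
      (div_le_div_of_nonneg_right hRle (by positivity))) (by linarith)).trans ?_
    rw [show ∀ x : ℝ, 2 / g0 * x = x / (g0 / 2) from fun x => by ring]
    exact div_le_div_of_nonneg_left hC0 (by linarith) hWg
  -- the integral against the product
  have ieΔ : Integrable (fun z : X × ℝ => Real.exp (Δ z.1 z.2)) p :=
    (integrable_const (Real.exp bΔ)).mono' hΔ.exp.aestronglyMeasurable
      (Filter.Eventually.of_forall fun z => by
        rw [Real.norm_eq_abs, Real.abs_exp, Real.exp_le_exp]; exact (le_abs_self _).trans (hΔb _ _))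
  have htop : ∫ z, v z * Real.exp (u z) ∂p ≤
      (∫ s, ∫ x, w x * Real.exp (Δ x s) ∂μ ∂σT) / ∫ x, w x ∂μ := by
    refine (integral_mono ive ieΔ fun z => ?_).trans_eq ?_
    · simp only [v, u, mul_assoc, ← Real.exp_add]
      refine (mul_le_of_le_one_left (Real.exp_pos _).le (cutoff_mem _ _).2).trans (Real.exp_le_exp.2 ?_)
      linarith [mul_le_mul_of_nonneg_right had (sq_nonneg z.2)]
    · rw [integral_prod_symm _ ieΔ, ← integral_div]
      exact integral_congr_ae (Filter.Eventually.of_forall fun s => integral_gibbs hw fun x => Real.exp (Δ x s))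
  have hWw := hw.integral_pos (μ := μ)
  have hnum : 0 < ∫ s, ∫ x, w x * Real.exp (Δ x s) ∂μ ∂σT := by
    have := hpos.trans_le htop
    rwa [div_pos_iff_of_pos_right hWw] at this
  have hfin2 := Real.log_le_log hpos htop
  rw [Real.log_div hnum.ne' hWw.ne'] at hfin2
  show _ ≤ Real.log (∫ s, ∫ x, w x * Real.exp (Δ x s) ∂μ ∂σT) - Real.log (∫ x, w x ∂μ)
  linarith

end Vale.Agent.P157.Low
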