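import Vale.Agent.P157.Low.SphSys
import Vale.Agent.P157.Low.CubeLaw
import Vale.Agent.P157.Low.GGBase
import Vale.Agent.P157.Low.Patterns

/-!
The perturbed sphere systems pattern count by pattern count.
-/

namespace Vale.Agent.P157.Low

open MeasureTheory ProbabilityTheory
open scoped RealInnerProductSpace

instance isProbabilityMeasure_sphere_succ (N : ℕ) :
    IsProbabilityMeasure (sphereMeasure (N + 1)) :=
  isProbabilityMeasure_sphereMeasure (Nat.le_add_left 1 N)

variable {f : ℝ → ℝ} {B : ℝ} {N P : ℕ}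

/-- Replica average of `h` under the weight `w` on the sphere. -/
noncomputable def sphRep {N n : ℕ} (w : Sph (N + 1) → ℝ) (h : (Fin n → Sph (N + 1)) → ℝ) : ℝ :=
  ∫ r, h r ∂Measure.pi fun _ : Fin n => gibbs (sphereMeasure (N + 1)) w

lemma sphRep_const {n : ℕ} {w : Sph (N + 1) → ℝ} (hw : Wt w) (c : ℝ) :
    sphRep (n := n) w (fun _ => c) = c := by
  have := isProbabilityMeasure_gibbs (μ := sphereMeasure (N + 1)) hw
  simp [sphRep]

lemma abs_sphRep_le {n : ℕ} {w : Sph (N + 1) → ℝ} (hw : Wt w) {h : (Fin n → Sph (N + 1)) → ℝ}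
    {C : ℝ} (hh : ∀ r, |h r| ≤ C) : |sphRep w h| ≤ C := abs_gibbsAvg_le hw hh

lemma sphRep_const_mul {n : ℕ} (w : Sph (N + 1) → ℝ) (c : ℝ) (h : (Fin n → Sph (N + 1)) → ℝ) :
    sphRep w (fun r => c * h r) = c * sphRep w h := integral_const_mul c h

lemma sphRep_sum {n : ℕ} {w : Sph (N + 1) → ℝ} (hw : Wt w) {ι : Type} (s : Finset ι)
    {h : ι → (Fin n → Sph (N + 1)) → ℝ} (hm : ∀ a, Measurable (h a)) {C : ℝ}
    (hb : ∀ a r, |h a r| ≤ C) :
    sphRep w (fun r => ∑ a ∈ s, h a r) = ∑ a ∈ s, sphRep w (h a) := by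
  have := isProbabilityMeasure_gibbs (μ := sphereMeasure (N + 1)) hw
  exact integral_finsetSum s fun a _ => integrable_of_bdd (hm a) (hb a)

lemma measurable_sphRep {n : ℕ} {Ω : Type} [MeasurableSpace Ω] {w : Ω → Sph (N + 1) → ℝ}
    (hw : Measurable (Function.uncurry w)) (hwt : ∀ ω, Wt (w ω))
    {h : Ω → (Fin n → Sph (N + 1)) → ℝ} (hh : Measurable (Function.uncurry h)) :
    Measurable fun ω => sphRep (w ω) (h ω) := measurable_gibbsAvg hw hwt hh

/-- Weight of a point at `M` patterns. -/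
noncomputable def sphCw (f : ℝ → ℝ) (N : ℕ) {P : ℕ} (x : Fin P → ℝ) (M : ℕ) (g : ℕ → Sp (N + 1))
    (J : PertSpace (N + 1) P) (θ : Sph (N + 1)) : ℝ :=
  Real.exp (∑ a ∈ Finset.range M, f ⟪g a, (θ : Sp (N + 1))⟫) *
    Real.exp (strength N * ⟪J, pertVec x ((θ : Sp (N + 1)))⟫)

lemma measurable_sphCw_fixed (hf : Pot f B) (x : Fin P → ℝ) (M : ℕ) :
    Measurable fun p : ((ℕ → Sp (N + 1)) × PertSpace (N + 1) P) × Sph (N + 1) =>
      sphCw f N x M p.1.1 p.1.2 p.2 :=
  (Real.measurable_exp.comp (Finset.measurable_sum (Finset.range M) fun a _ =>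
      hf.meas.comp (Measurable.inner ((measurable_pi_apply a).comp (measurable_fst.comp measurable_fst))
        (measurable_subtype_coe.comp measurable_snd)))).mul
    (Real.measurable_exp.comp ((Measurable.inner (measurable_snd.comp measurable_fst)
      ((measurable_pertVec x).comp (measurable_subtype_coe.comp measurable_snd))).const_mul _))

lemma wt_sphCw (hf : Pot f B) (x : Fin P → ℝ) (M : ℕ) (g : ℕ → Sp (N + 1))
    (J : PertSpace (N + 1) P) : Wt (sphCw f N x M g J) :=
  (Wt.exp (Finset.measurable_sum (Finset.range M) fun a _ => hf.meas.comp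
      (Measurable.inner measurable_const measurable_subtype_coe)) (β := M * B) fun θ =>
    (Finset.abs_sum_le_sum_abs _ _).trans ((Finset.sum_le_sum fun a _ => hf.bound _).trans_eq (by simp))).mul
  (Wt.exp ((measurable_const.inner ((measurable_pertVec x).comp measurable_subtype_coe)).const_mul _)
    (β := |strength N| * (‖J‖ * ∑ q, |x q|)) fun θ => by
      rw [abs_mul]
      exact mul_le_mul_of_nonneg_left ((abs_real_inner_le_norm _ _).trans
        (mul_le_mul_of_nonneg_left (norm_pertVec_le x _ (mem_sphere_zero_iff_norm.1 (θ : Sph (N + 1)).2)) (norm_nonneg _)))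
        (abs_nonneg _))

lemma sphCw_succ (x : Fin P → ℝ) (M : ℕ) (g : ℕ → Sp (N + 1)) (z : Sp (N + 1))
    (J : PertSpace (N + 1) P) (θ : Sph (N + 1)) :
    sphCw f N x (M + 1) (Function.update g M z) J θ =
      sphCw f N x M g J θ * Real.exp (f ⟪z, (θ : Sp (N + 1))⟫) := by
  unfold sphCw
  rw [Finset.sum_range_succ, Function.update_self, Real.exp_add]
  have : ∑ a ∈ Finset.range M, f ⟪Function.update g M z a, (θ : Sp (N + 1))⟫ =
      ∑ a ∈ Finset.range M, f ⟪g a, (θ : Sp (N + 1))⟫ :=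
    Finset.sum_congr rfl fun a ha => by
      rw [Function.update_of_ne (Finset.mem_range.1 ha).ne]
  rw [this]
  ring

lemma sphCw_perm (x : Fin P → ℝ) {M : ℕ} (e : Equiv.Perm ℕ) (he : ∀ a, e a ≠ a → a < M)
    (g : ℕ → Sp (N + 1)) (J : PertSpace (N + 1) P) : sphCw f N x M (g ∘ e) J = sphCw f N x M g J := by
  funext θ
  unfold sphCw
  rw [show (∑ a ∈ Finset.range M, f ⟪(g ∘ e) a, (θ : Sp (N + 1))⟫) =
      ∑ a ∈ Finset.range M, f ⟪g a, (θ : Sp (N + 1))⟫ from
    e.sum_comp (Finset.range M) (fun a => f ⟪g a, (θ : Sp (N + 1))⟫) fun a ha => by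
      simpa using he a ha]

lemma sphSys_w (hf : Pot f B) (lam : ℝ) (k : ℕ) (x : Fin P → ℝ) (ω : (sphSys hf N lam k x).Ω)
    (θ : Sph (N + 1)) :
    (sphSys hf N lam k x).w ω θ = sphCw f N x (ω.1.1 + k) ω.1.2 ω.2 θ := rfl

/-- Replica averages of a perturbed system. -/
lemma sphSys_avgRep (hf : Pot f B) (lam : ℝ) (k : ℕ) (x : Fin P → ℝ) {n : ℕ}
    (Θ : (sphSys hf N lam k x).Ω → (Fin n → Sph (N + 1)) → ℝ) :
    (sphSys hf N lam k x).avgRep n Θ =
      ∫ ω, sphRep ((sphSys hf N lam k x).w ω) (Θ ω) ∂(sphSys hf N lam k x).law := rfl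

lemma measurable_sphSys_rep (hf : Pot f B) (lam : ℝ) (k : ℕ) (x : Fin P → ℝ) {n : ℕ}
    {Θ : (sphSys hf N lam k x).Ω → (Fin n → Sph (N + 1)) → ℝ}
    (hΘ : Measurable (Function.uncurry Θ)) :
    Measurable fun ω => sphRep ((sphSys hf N lam k x).w ω) (Θ ω) :=
  measurable_sphRep (sphSys hf N lam k x).measW (sphSys hf N lam k x).wt hΘ

/-- Measurability of a function of the count, the patterns and the replicas. -/
lemma measurable_count {n : ℕ} {H : ℕ → (ℕ → Sp (N + 1)) → (Fin n → Sph (N + 1)) → ℝ}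
    (hH : ∀ M, Measurable (Function.uncurry (H M))) :
    Measurable fun p : ((ℕ × (ℕ → Sp (N + 1))) × PertSpace (N + 1) P) × (Fin n → Sph (N + 1)) =>
      H p.1.1.1 p.1.1.2 p.2 :=
  Measurable.comp (g := fun q : ℕ × ((ℕ → Sp (N + 1)) × (Fin n → Sph (N + 1))) => H q.1 q.2.1 q.2.2)
    (f := fun p : ((ℕ × (ℕ → Sp (N + 1))) × PertSpace (N + 1) P) × (Fin n → Sph (N + 1)) =>
      (p.1.1.1, p.1.1.2, p.2))
    (measurable_from_prod_countable_right fun M => hH M)
    ((measurable_fst.comp (measurable_fst.comp measurable_fst)).prodMk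
      ((measurable_snd.comp (measurable_fst.comp measurable_fst)).prodMk measurable_snd))

/-- Averages at a fixed count are measurable. -/
lemma measurable_sphRep_fixed (hf : Pot f B) (x : Fin P → ℝ) (M : ℕ) {n : ℕ}
    {h : (ℕ → Sp (N + 1)) → (Fin n → Sph (N + 1)) → ℝ} (hh : Measurable (Function.uncurry h)) :
    Measurable fun p : (ℕ → Sp (N + 1)) × PertSpace (N + 1) P =>
      sphRep (sphCw f N x M p.1 p.2) (h p.1) :=
  measurable_sphRep (Ω := (ℕ → Sp (N + 1)) × PertSpace (N + 1) P)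
    (w := fun p => sphCw f N x M p.1 p.2) (h := fun p => h p.1)
    (measurable_sphCw_fixed hf x M) (fun p => wt_sphCw hf x M p.1 p.2)
    (Measurable.comp (g := Function.uncurry h)
      (f := fun q : ((ℕ → Sp (N + 1)) × PertSpace (N + 1) P) × (Fin n → Sph (N + 1)) => (q.1.1, q.2))
      hh ((measurable_fst.comp measurable_fst).prodMk measurable_snd))

/-- Integrals against the law of a perturbed system, pattern count by pattern count. -/
lemma integral_sphSys_law (hf : Pot f B) (lam : ℝ) (k : ℕ) (x : Fin P → ℝ)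
    {H : (sphSys hf N lam k x).Ω → ℝ} (hH : Integrable H (sphSys hf N lam k x).law) :
    ∫ ω, H ω ∂(sphSys hf N lam k x).law =
      ∫ M, ∫ p, H ((M, p.1), p.2) ∂(patLaw (N + 1)).prod (stdGaussian (PertSpace (N + 1) P))
        ∂poiLaw lam := by
  have hmp : MeasurePreserving (MeasurableEquiv.prodAssoc (α := ℕ) (β := ℕ → Sp (N + 1))
      (γ := PertSpace (N + 1) P)).symm
      ((poiLaw lam).prod ((patLaw (N + 1)).prod (stdGaussian (PertSpace (N + 1) P))))
      (((poiLaw lam).prod (patLaw (N + 1))).prod (stdGaussian (PertSpace (N + 1) P))) :=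
    (measurePreserving_prodAssoc _ _ _).symm _
  refine (hmp.integral_comp' H).symm.trans ?_
  rw [integral_prod]
  · rfl
  · exact (hmp.integrable_comp_emb (MeasurableEquiv.measurableEmbedding _)).2 hH

/-- Integrability against the law of a perturbed system from a polynomial bound in the count. -/
lemma integrable_sphSys_of_le (hf : Pot f B) (lam : ℝ) (k : ℕ) (x : Fin P → ℝ)
    {H : (sphSys hf N lam k x).Ω → ℝ} (hm : Measurable H) {C : ℝ} {j : ℕ}
    (h : ∀ ω : (sphSys hf N lam k x).Ω, |H ω| ≤ C * ((ω.1.1 : ℝ) + 1) ^ j) :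
    Integrable H (sphSys hf N lam k x).law := by
  have hp : Integrable (fun M : ℕ => C * ((M : ℝ) + 1) ^ j) (poiLaw lam) :=
    integrable_poisson_of_le (C := |C|) (j := j) fun n => by
      rw [abs_mul, abs_of_nonneg (a := ((n : ℝ) + 1) ^ j) (by positivity)]
  refine ((hp.comp_fst (patLaw (N + 1))).comp_fst _).mono' hm.aestronglyMeasurable
    (Filter.Eventually.of_forall fun ω => ?_)
  simpa [Real.norm_eq_abs] using h ω

/-- Moving a pattern to another position. -/
lemma integral_sphCw_perm (hf : Pot f B) (x : Fin P → ℝ) {M : ℕ} (e : Equiv.Perm ℕ)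
    (he : ∀ a, e a ≠ a → a < M) {n : ℕ}
    (h : (ℕ → Sp (N + 1)) → (Fin n → Sph (N + 1)) → ℝ) (hm : Measurable (Function.uncurry h))
    (J : PertSpace (N + 1) P) :
    ∫ g, sphRep (sphCw f N x M g J) (h (g ∘ e)) ∂patLaw (N + 1) =
      ∫ g, sphRep (sphCw f N x M g J) (h g) ∂patLaw (N + 1) := by
  have hmeas : Measurable fun g => sphRep (sphCw f N x M g J) (h g) :=
    Measurable.comp (g := fun p : (ℕ → Sp (N + 1)) × PertSpace (N + 1) P =>
        sphRep (sphCw f N x M p.1 p.2) (h p.1))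
      (f := fun g : ℕ → Sp (N + 1) => (g, J)) (measurable_sphRep_fixed hf x M hm)
      (measurable_id.prodMk measurable_const)
  conv_rhs => rw [patLaw, ← integral_comp_perm e hmeas.aestronglyMeasurable]
  rw [patLaw]
  refine integral_congr_ae (Filter.Eventually.of_forall fun g => ?_)
  simp only [sphCw_perm x e he]

/-- Appending a pattern. -/
noncomputable def sphAppend {f : ℝ → ℝ} {B : ℝ} {hf : Pot f B} {lam : ℝ} {k : ℕ} {x : Fin P → ℝ}
    (p : (sphSys hf N lam k x).Ω × Sp (N + 1)) : (sphSys hf N lam (k + 1) x).Ω :=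
  ((p.1.1.1, Function.update p.1.1.2 (p.1.1.1 + k) p.2), p.1.2)

/-- Appending an independent pattern gives the system with one more pattern. -/
lemma measurePreserving_sphAppend (hf : Pot f B) (lam : ℝ) (k : ℕ) (x : Fin P → ℝ) :
    MeasurePreserving (sphAppend (hf := hf) (N := N) (lam := lam) (k := k) (x := x))
      ((sphSys hf N lam k x).law.prod (stdGaussian (Sp (N + 1)))) (sphSys hf N lam (k + 1) x).law := by
  have h1 : MeasurePreserving
      (fun p : ℕ × ((ℕ → Sp (N + 1)) × Sp (N + 1)) => (p.1, Function.update p.2.1 (p.1 + k) p.2.2))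
      ((poiLaw lam).prod ((patLaw (N + 1)).prod (stdGaussian (Sp (N + 1)))))
      ((poiLaw lam).prod (patLaw (N + 1))) :=
    (MeasurePreserving.id (poiLaw lam)).skew_product
      (g := fun (M : ℕ) (p : (ℕ → Sp (N + 1)) × Sp (N + 1)) => Function.update p.1 (M + k) p.2)
      (measurable_from_prod_countable_right fun M => measurable_update_pattern (M + k))
      (Filter.Eventually.of_forall fun M => map_update_pattern (γ := stdGaussian (Sp (N + 1))) (M + k))
  have hsw := measurePreserving_shuffle (poiLaw lam) (patLaw (N + 1))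
    (stdGaussian (PertSpace (N + 1) P)) (stdGaussian (Sp (N + 1)))
  have : SFinite (stdGaussian (PertSpace (N + 1) P)) :=
    have := isProbabilityMeasure_stdGaussian (E := PertSpace (N + 1) P)
    inferInstance
  exact (h1.prod (MeasurePreserving.id (stdGaussian (PertSpace (N + 1) P)))).comp hsw

end Vale.Agent.P157.Low
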