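import Vale.Agent.P157.Low.TiltLimit
import Vale.Agent.P157.Low.Replica
import Vale.Agent.P157.Low.DriftValues

/-!
Values of limit arrays under tilts: extensions of the Gaussian averages, continuity of insertions
in the test function, and the square of an insertion as the value of two tilts.
-/

namespace Vale.Agent.P157.Low

open MeasureTheory ProbabilityTheory Filter
open scoped RealInnerProductSpace Topology

attribute [local instance] Arr.prob

variable {A : Arr} {c ρ : ℝ} {W : ℝ → ℝ} {n : ℕ}

lemma lcov_incr {r : ℕ} (q : Fin (r + 1) → ℝ) (B : LMat r n) (a b : Fin n) :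
    lcov (incr q) B a b = q (B a b) := sum_incr q (B a b)

lemma posSemidef_add_diag {C : Mat n} (hC : (Matrix.of C).PosSemidef) {s : ℝ} (hs : 0 ≤ s) :
    (Matrix.of fun a b => C a b + if a = b then s else 0).PosSemidef := by
  classical
  have h := hC.add (Matrix.PosSemidef.diagonal (d := fun _ : Fin n => s) fun _ => hs)
  convert h using 1
  ext a b
  simp [Matrix.diagonal_apply]

lemma lift_sub {r k : ℕ} (τ : ℝ → Fin (r + 1)) (R : Mat n) {e : Fin k → Fin n}
    (he : Function.Injective e) : sub (lift τ R) e = lift τ (sub R e) := by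
  funext a b
  simp only [sub, lift, he.eq_iff]

/-- Rounding to the levels tends to the identity on the array. -/
lemma Discr.ae_tendsto_qmat (D : ∀ K, Discr A (K + 2)) (n : ℕ) :
    ∀ᵐ R ∂A.law n, Tendsto (fun K => qmat (D K).q (lift (D K).τ R)) atTop (𝓝 R) := by
  have hall : ∀ᵐ R ∂A.law n, ∀ K (a b : Fin n), a ≠ b →
      |(D K).q ((D K).τ (R a b)) - R a b| ≤ 2 / ((K + 2 : ℕ) : ℝ) :=
    ae_all_iff.2 fun K => ae_all_iff.2 fun a => ae_all_iff.2 fun b => by
      by_cases hab : a = b
      · simp [hab]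
      · exact ((D K).close_pair hab).mono fun R hR _ => hR
  filter_upwards [hall, A.diag n] with R hR hd
  refine tendsto_pi_nhds.2 fun a => tendsto_pi_nhds.2 fun b => ?_
  by_cases hab : a = b
  · subst hab
    simp [qmat, hd a]
  · simp only [qmat, lift, if_neg hab]
    refine tendsto_sub_nhds_zero_iff.1
      (squeeze_zero_norm (fun K => (Real.norm_eq_abs _).le.trans (hR K a b hab)) ?_)
    exact (tendsto_const_div_atTop_nhds_zero_nat (2 : ℝ)).comp (tendsto_add_atTop_nat 2)

lemma heat_div (G : ℝ → ℝ) (a s y : ℝ) : heat (fun x => G x / a) s y = heat G s y / a :=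
  integral_div a _

/-- Insertions extended by constants to extra replicas. -/
def extIns (θ : Fin n → ℝ → ℝ) (k : ℕ) : Fin (n + k) → ℝ → ℝ := Fin.append θ fun _ _ => 1

lemma extIns_zero (θ : Fin n → ℝ → ℝ) : extIns θ 0 = θ := funext fun l => Fin.append_left θ _ l

lemma prod_extIns (θ : Fin n → ℝ → ℝ) {k : ℕ} (h : Fin (n + k) → ℝ) :
    ∏ a, extIns θ k a (h a) = ∏ l, θ l (h (Fin.castAdd k l)) := by
  simp [extIns, Fin.prod_univ_add]

/-- The factors of the integrand of the ratio series. -/
noncomputable def fac (c : ℝ) (W : ℝ → ℝ) (θ : Fin n → ℝ → ℝ) (k : ℕ) : Fin (n + k) → ℝ → ℝ :=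
  Fin.append (fun l y => θ l y * (W y / c)) fun _ y => 1 - W y / c

lemma ratioTerm_eq (θ : Fin n → ℝ → ℝ) {k : ℕ} (h : Fin (n + k) → ℝ) :
    ratioTerm c W θ h = ∏ a, fac c W θ k a (h a) := by
  simp [ratioTerm, fac, Fin.prod_univ_add]

/-- Continuous extensions of the averages of the terms of the ratio series. -/
lemma exists_ext_GE (hc : Continuous W) (hW : ∀ y, |1 - W y / c| ≤ ρ) {θ : Fin n → ℝ → ℝ}
    (hθ : ∀ l, Continuous (θ l)) {C : ℝ} (hθb : ∀ l y, |θ l y| ≤ C) :
    ∃ G : ∀ k, Mat (n + k) → ℝ, (∀ k, Continuous (G k)) ∧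
      (∀ k R, |G k R| ≤ (C * (1 + ρ)) ^ n * ρ ^ k) ∧
      ∀ k R, (Matrix.of R).PosSemidef → G k R = GE R (ratioTerm c W θ) := by
  choose G h1 h2 h3 using fun k => exists_GE_ext (continuous_ratioTerm (c := c) (k := k) hc hθ)
    (abs_ratioTerm_le (n := n) (k := k) hW (D := fun _ => C) hθb)
  exact ⟨G, h1, fun k R => by simpa using h2 k R, h3⟩

lemma ratioArr_eq {θ : Fin n → ℝ → ℝ} {G : ∀ k, Mat (n + k) → ℝ}
    (hG : ∀ k R, (Matrix.of R).PosSemidef → G k R = GE R (ratioTerm c W θ)) (φ : Mat n → ℝ) :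
    ratioArr A c W φ θ = ∑' k : ℕ, (negCoef n k : ℝ) *
      ∫ R, φ (sub R (Fin.castAdd k)) * G k R ∂A.law (n + k) := by
  refine tsum_congr fun k => congrArg _ (integral_congr_ae ?_)
  filter_upwards [A.ae_posSemidef (n + k)] with R hR
  rw [hG k R hR]

/-- Insertions are continuous in the test function for the mean distance. -/
lemma exists_ratioArr_lip (A : Arr) (hW : Weight c W) {θ : Fin n → ℝ → ℝ}
    (hθ : ∀ l, Continuous (θ l)) {C : ℝ} (hθb : ∀ l y, |θ l y| ≤ C) :
    ∃ L, 0 ≤ L ∧ ∀ φ φ' : Mat n → ℝ, Measurable φ → Measurable φ' → ∀ M : ℝ,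
      (∀ R, |φ R| ≤ M) → (∀ R, |φ' R| ≤ M) →
        |ratioArr A c W φ θ - ratioArr A c W φ' θ| ≤ L * ∫ R, |φ R - φ' R| ∂A.law n := by
  obtain ⟨ρ, hρ, hρW⟩ := hW.near
  have hρ0 : 0 ≤ ρ := (abs_nonneg _).trans (hρW 0)
  obtain ⟨G, hGc, hGb, hG⟩ := exists_ext_GE hW.smooth.smooth.continuous hρW hθ hθb
  set g := (C * (1 + ρ)) ^ n
  have hs : Summable fun k => |g| * ((negCoef n k : ℝ) * ρ ^ k) :=
    (summable_negCoef n hρ0 hρ |g|).congr fun k => by ring
  refine ⟨∑' k, |g| * ((negCoef n k : ℝ) * ρ ^ k), tsum_nonneg fun k => by positivity,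
    fun φ φ' hφ hφ' M hM hM' => ?_⟩
  have hsub : ∀ k, Measurable fun R : Mat (n + k) => sub R (Fin.castAdd k) := fun k => by
    unfold sub; fun_prop
  have hGb' : ∀ k R, |G k R| ≤ |g| * ρ ^ k := fun k R =>
    (hGb k R).trans (mul_le_mul_of_nonneg_right (le_abs_self g) (by positivity))
  have hM0 : 0 ≤ M := (abs_nonneg _).trans (hM fun _ _ => 0)
  have bd : ∀ ψ : Mat n → ℝ, (∀ R, |ψ R| ≤ M) → ∀ k,
      ∀ R : Mat (n + k), |ψ (sub R (Fin.castAdd k)) * G k R| ≤ M * (|g| * ρ ^ k) := fun ψ hψ k R => by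
    rw [abs_mul]
    exact mul_le_mul (hψ _) (hGb' k R) (abs_nonneg _) hM0
  have int : ∀ ψ : Mat n → ℝ, Measurable ψ → (∀ R, |ψ R| ≤ M) → ∀ k,
      Integrable (fun R => ψ (sub R (Fin.castAdd k)) * G k R) (A.law (n + k)) := fun ψ hψ hψb k =>
    Integrable.of_bound ((hψ.comp (hsub k)).mul (hGc k).measurable).aestronglyMeasurable _
      (Eventually.of_forall fun R => (Real.norm_eq_abs _).le.trans (bd ψ hψb k R))
  have sum : ∀ ψ : Mat n → ℝ, (∀ R, |ψ R| ≤ M) → Summable fun k : ℕ => (negCoef n k : ℝ) *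
      ∫ R, ψ (sub R (Fin.castAdd k)) * G k R ∂A.law (n + k) := fun ψ hψ => by
    refine Summable.of_norm_bounded (hs.mul_left M) fun k => ?_
    have h : ‖∫ R, ψ (sub R (Fin.castAdd k)) * G k R ∂A.law (n + k)‖ ≤ M * (|g| * ρ ^ k) := by
      simpa using norm_integral_le_of_norm_le_const (μ := A.law (n + k))
        (Eventually.of_forall fun R => (Real.norm_eq_abs _).le.trans (bd ψ hψ k R))
    rw [norm_mul, RCLike.norm_natCast]
    exact (mul_le_mul_of_nonneg_left h (by positivity)).trans_eq (by ring)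
  rw [ratioArr_eq hG, ratioArr_eq hG, ← (sum φ hM).tsum_sub (sum φ' hM'), ← tsum_mul_right,
    ← Real.norm_eq_abs]
  refine tsum_of_norm_bounded ((hs.mul_right _).hasSum) fun k => ?_
  rw [← mul_sub, ← integral_sub (int φ hφ hM k) (int φ' hφ' hM' k), norm_mul, RCLike.norm_natCast]
  have e : ∫ R, |φ R - φ' R| ∂A.law n =
      ∫ R, |φ (sub R (Fin.castAdd k)) - φ' (sub R (Fin.castAdd k))| ∂A.law (n + k) := by
    rw [← A.marg (Fin.castAdd k) (Fin.castAdd_injective n k),
      integral_map (hsub k).aemeasurable (by fun_prop)]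
  have h : ‖∫ R, φ (sub R (Fin.castAdd k)) * G k R - φ' (sub R (Fin.castAdd k)) * G k R
      ∂A.law (n + k)‖ ≤ (|g| * ρ ^ k) * ∫ R, |φ R - φ' R| ∂A.law n := by
    rw [e, ← integral_const_mul]
    refine norm_integral_le_of_norm_le ?_ (Eventually.of_forall fun R => ?_)
    · refine (Integrable.of_bound (C := 2 * M) (by fun_prop)
        (Eventually.of_forall fun R => ?_)).const_mul _
      rw [Real.norm_eq_abs, abs_abs]
      exact (abs_sub _ _).trans (by linarith [hM (sub R (Fin.castAdd k)), hM' (sub R (Fin.castAdd k))])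
    · rw [Real.norm_eq_abs, ← sub_mul, abs_mul, mul_comm]
      exact mul_le_mul_of_nonneg_right (hGb' k R) (abs_nonneg _)
  exact (mul_le_mul_of_nonneg_left h (by positivity)).trans_eq (by ring)

/-- The average over the levels at the variance left is the extension at the rounded matrix. -/
lemma Discr.GE_ratioTerm {K k : ℕ} (D : Discr A K) (hm : Measurable W) (hc : 0 < c)
    (hW : ∀ y, |1 - W y / c| ≤ ρ) {θ : Fin n → ℝ → ℝ} (hθ : ∀ l, Measurable (θ l))
    {C : ℝ} (hθb : ∀ l y, |θ l y| ≤ C) (hρ : ρ < 1) {G : Mat (n + k) → ℝ}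
    (hG : ∀ R, (Matrix.of R).PosSemidef → G R = GE R (ratioTerm c W θ))
    {B : LMat D.r (n + k)} (hB : D.C.P (n + k) B ≠ 0) :
    GE (lcov (incr D.q) B) (ratioTerm c (heat W D.rest)
        fun l y => heat (fun x => θ l x * W x) D.rest y / heat W D.rest y) = G (qmat D.q B) := by
  have hfm : ∀ a, Measurable (fac c W θ k a) := fun a => by
    refine Fin.addCases (fun l => ?_) (fun l => ?_) a <;>
      simp only [fac, Fin.append_left, Fin.append_right] <;> fun_prop
  have hfb : ∀ a, ∃ M, ∀ y, |fac c W θ k a y| ≤ M := fun a => by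
    refine Fin.addCases (fun l => ⟨C * (1 + ρ), fun y => ?_⟩) (fun l => ⟨ρ, fun y => ?_⟩) a <;>
      simp only [fac, Fin.append_left, Fin.append_right]
    · rw [abs_mul]
      exact mul_le_mul (hθb l y) (abs_wt_le hW y) (abs_nonneg _) ((abs_nonneg _).trans (hθb l 0))
    · exact hW y
  have e : (ratioTerm c W θ : (Fin (n + k) → ℝ) → ℝ) = fun x => ∏ a, fac c W θ k a (x a) :=
    funext (ratioTerm_eq θ)
  rw [hG _ (D.posSemidef_qmat hB), D.qmat_eq (D.C.diag _ B hB), show 1 - D.q (Fin.last D.r) = D.rest from rfl, e,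
    GE_add_diag (posSemidef_lcov D.incr_nonneg (D.C.symm _ B hB) (D.C.diag _ B hB) (D.C.ultra _ B hB))
      D.rest_nonneg _ hfm hfb]
  congr 1
  funext x
  rw [ratioTerm_eq]
  refine Finset.prod_congr rfl fun a _ => ?_
  refine Fin.addCases (fun l => ?_) (fun l => ?_) a <;>
    simp only [fac, Fin.append_left, Fin.append_right]
  · have hpos : 0 < heat W D.rest (x (Fin.castAdd k l)) :=
      pos_of_near hc hρ (fun y => by rw [← heat_res hm hW]; exact abs_heat_le hW _ _) _
    rw [show (fun y => θ l y * (W y / c)) = fun y => θ l y * W y / c from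
      funext fun y => (mul_div_assoc _ _ _).symm, heat_div]
    field_simp
  · exact (heat_res hm hW _ _).symm

/-- The limit of two tilts with one insertion each is the limit of the squared root values. -/
theorem exists_sq_limit {S : ℕ → Sys} (h : Conv S A) (D : ∀ K, Discr A (K + 2)) (hW : Weight c W)
    (hm : Measurable W) {δ B : ℝ} (hδ : 0 < δ) (hb : ∀ y, δ ≤ W y ∧ W y ≤ B)
    {θ : Fin n → ℝ → ℝ} (hθ : ∀ l, Continuous (θ l)) {C : ℝ} (hθb : ∀ l y, |θ l y| ≤ C)
    (r : ∀ K, LMat (D K).r n → ℝ) {C' : ℝ} (hr : ∀ K E, |r K E| ≤ C')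
    (hid : ∀ K k (Φ : LMat (D K).r (n + k) → ℝ),
      (D K).C.ratio (incr (D K).q) c (heat W (D K).rest) Φ
          (fun a y => heat (fun x => extIns θ k a x * W x) (D K).rest y / heat W (D K).rest y) =
        ∑ E, (D K).C.P (n + k) E * (Φ E * r K (sub E (Fin.castAdd k)))) :
    ∃ Q : ℝ,
      Tendsto (fun j => (((S j).tilt W hm hδ hb).tilt W hm hδ hb).avgRep n fun p x =>
        (∏ l, θ l ⟪p.1.2, (S j).v (x l)⟫) * ∏ l, θ l ⟪p.2, (S j).v (x l)⟫) atTop (𝓝 Q) ∧
      Tendsto (fun K => ∫ R, r K (lift (D K).τ R) ^ 2 ∂A.law n) atTop (𝓝 Q) ∧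
      Tendsto (fun K => ratioArr A c W (fun R => r K (lift (D K).τ R)) θ) atTop (𝓝 Q) := by
  obtain ⟨ρ, hρ, hρW⟩ := hW.near
  have hρ0 : 0 ≤ ρ := (abs_nonneg _).trans (hρW 0)
  obtain ⟨G, hGc, hGb, hG⟩ := exists_ext_GE hW.smooth.smooth.continuous hρW hθ hθb
  set g := |(C * (1 + ρ)) ^ n|
  have hGb' : ∀ k R, |G k R| ≤ g * ρ ^ k := fun k R =>
    (hGb k R).trans (mul_le_mul_of_nonneg_right (le_abs_self _) (by positivity))
  have hs : Summable fun k => (negCoef n k : ℝ) * ρ ^ k :=
    (summable_negCoef n hρ0 hρ 1).congr fun k => by ring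
  have hprod : ∀ (h : Fin n → ℝ), |∏ l, θ l (h l)| ≤ |C| ^ n := fun h => by
    rw [Finset.abs_prod]
    simpa using Finset.prod_le_prod (s := Finset.univ) (fun l _ => abs_nonneg _)
      fun (l : Fin n) _ => (hθb l (h l)).trans (le_abs_self C)
  have hext : ∀ k a, Continuous (extIns θ k a) ∧ ∃ M, ∀ y, |extIns θ k a y| ≤ M := fun k a => by
    refine Fin.addCases (fun l => ?_) (fun l => ?_) a <;> simp only [extIns, Fin.append_left, Fin.append_right]
    · exact ⟨hθ l, C, hθb l⟩
    · exact ⟨continuous_const, 1, fun _ => by simp⟩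
  set q : ℕ → ℝ := fun k => ratioArr A c W (G k) (extIns θ k)
  -- the terms along discretisations
  set T : ℕ → ℕ → ℝ := fun k K => ∫ R, G k (qmat (D K).q (lift (D K).τ R)) *
    r K (sub (lift (D K).τ R) (Fin.castAdd k)) ∂A.law (n + k)
  have hT : ∀ k, Tendsto (T k) atTop (𝓝 (q k)) := fun k => by
    refine (tendsto_ratio D hW (hGc k) ⟨_, hGb' k⟩ (extIns θ k) (fun a => (hext k a).1)
      fun a => (hext k a).2).congr fun K => ?_
    rw [hid K k]
    exact ((D K).law (n + k) fun E => G k (qmat (D K).q E) * r K (sub E (Fin.castAdd k))).symm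
  have hTb : ∀ k K, |T k K| ≤ g * ρ ^ k * C' := fun k K => by
    refine (Real.norm_eq_abs _).symm.le.trans ((norm_integral_le_of_norm_le_const
      (C := g * ρ ^ k * C') (Eventually.of_forall fun R => ?_)).trans_eq (by simp))
    rw [Real.norm_eq_abs, abs_mul]
    exact mul_le_mul (hGb' k _) (hr _ _) (abs_nonneg _) (by positivity)
  refine ⟨∑' k, (negCoef n k : ℝ) * q k, ?_, ?_, ?_⟩
  · -- the finite systems
    have key : ∀ j, (((S j).tilt W hm hδ hb).tilt W hm hδ hb).avgRep n (fun p x =>
        (∏ l, θ l ⟪p.1.2, (S j).v (x l)⟫) * ∏ l, θ l ⟪p.2, (S j).v (x l)⟫) =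
        ∑' k : ℕ, (negCoef n k : ℝ) * ((S j).tilt W hm hδ hb).avgRep (n + k) fun p x =>
          G k ((S j).gram x) * ∏ a, extIns θ k a ⟪p.2, (S j).v (x a)⟫ := fun j => by
      refine (Sys.tilt_series ((S j).tilt W hm hδ hb) hm hδ hb hρ hW.cpos hρW
        (Θ := fun p x => ∏ l, θ l ⟪p.2, (S j).v (x l)⟫) ?_ ⟨|C| ^ n, fun p x => hprod _⟩ θ
        (fun l => (hθ l).measurable) fun l => ⟨C, hθb l⟩).trans ?_
      · refine Finset.measurable_prod _ fun l _ => (hθ l).measurable.comp ?_
        exact (measurable_snd.comp measurable_fst).inner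
          ((S j).measV.comp ((measurable_pi_apply l).comp measurable_snd))
      · refine tsum_congr fun k => congrArg _ (congrArg _ (funext fun p => funext fun x => ?_))
        simp only [hG k _ ((S j).posSemidef_gram x), prod_extIns]
        exact mul_comm _ _
    refine (tendsto_tsum_of_dominated_convergence (hs.mul_left (g * |C| ^ n))
      (fun k => (h.insert hW hm hδ hb (hGc k) ⟨_, hGb' k⟩ (extIns θ k) (fun a => (hext k a).1)
        fun a => (hext k a).2).const_mul (negCoef n k : ℝ))
      (Eventually.of_forall fun j k => ?_)).congr fun j => (key j).symm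
    rw [norm_mul, RCLike.norm_natCast, Real.norm_eq_abs]
    refine (mul_le_mul_of_nonneg_left (abs_avgRep_le _ (C := g * ρ ^ k * |C| ^ n) fun p x => ?_)
      (by positivity)).trans_eq (by ring)
    rw [abs_mul, prod_extIns θ]
    exact mul_le_mul (hGb' k _) (hprod _) (abs_nonneg _) (by positivity)
  · -- squares of root values
    refine (tendsto_tsum_of_dominated_convergence (hs.mul_left (g * C'))
      (fun k => (hT k).const_mul (negCoef n k : ℝ)) (Eventually.of_forall fun K k => ?_)).congr
      fun K => ?_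
    · rw [norm_mul, RCLike.norm_natCast, Real.norm_eq_abs]
      exact (mul_le_mul_of_nonneg_left (hTb k K) (by positivity)).trans_eq (by ring)
    have h0 : (D K).C.ratio (incr (D K).q) c (heat W (D K).rest) (r K)
        (fun l y => heat (fun x => θ l x * W x) (D K).rest y / heat W (D K).rest y) =
        ∑ E, (D K).C.P n E * (r K E * r K E) := by
      have := hid K 0 (r K)
      rw [extIns_zero] at this
      exact this
    calc (∑' k, (negCoef n k : ℝ) * T k K)
        = (D K).C.ratio (incr (D K).q) c (heat W (D K).rest) (r K)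
          (fun l y => heat (fun x => θ l x * W x) (D K).rest y / heat W (D K).rest y) := by
          refine tsum_congr fun k => congrArg _ ?_
          refine ((D K).law (n + k) fun E => G k (qmat (D K).q E) * r K (sub E (Fin.castAdd k))).trans
            (Finset.sum_congr rfl fun E _ => ?_)
          rcases eq_or_ne ((D K).C.P (n + k) E) 0 with hE | hE
          · simp [hE]
          · rw [(D K).GE_ratioTerm hm hW.cpos hρW (fun l => (hθ l).measurable) hθb hρ (hG k) hE]
            ring
      _ = ∫ R, r K (lift (D K).τ R) ^ 2 ∂A.law n := by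
          rw [h0, (D K).law n fun E => r K E ^ 2]
          simp [sq]
  · -- insertions at rounded root values
    simp only [ratioArr_eq hG]
    refine tendsto_tsum_of_dominated_convergence (hs.mul_left (g * C'))
      (fun k => ?_) (Eventually.of_forall fun K k => ?_)
    · refine Tendsto.const_mul _ ?_
      have hml : ∀ K, Measurable fun R : Mat (n + k) => G k (qmat (D K).q (lift (D K).τ R)) := fun K =>
        (hGc k).measurable.comp ((measurable_of_finite (qmat (n := n + k) (D K).q)).comp (measurable_lift (D K).measτ))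
      have hl : Tendsto (fun K => ∫ R, |G k R - G k (qmat (D K).q (lift (D K).τ R))| ∂A.law (n + k))
          atTop (𝓝 0) := by
        have := tendsto_integral_of_dominated_convergence (μ := A.law (n + k))
          (F := fun K R => |G k R - G k (qmat (D K).q (lift (D K).τ R))|) (f := fun _ => 0)
          (fun _ => 2 * (g * ρ ^ k))
          (fun K => ((hGc k).measurable.sub (hml K)).abs.aestronglyMeasurable) (integrable_const _)
          (fun K => Eventually.of_forall fun R => by
            rw [Real.norm_eq_abs, abs_abs]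
            exact (abs_sub _ _).trans (by linarith [hGb' k R, hGb' k (qmat (D K).q (lift (D K).τ R))]))
          (by
            filter_upwards [Discr.ae_tendsto_qmat D (n + k)] with R hR
            have h2 := (tendsto_const_nhds (x := G k R)).sub (((hGc k).tendsto R).comp hR)
            simpa [Function.comp_def] using h2.abs)
        simpa using this
      have hd : Tendsto (fun K => (∫ R, r K (lift (D K).τ (sub R (Fin.castAdd k))) * G k R ∂A.law (n + k)) -
          T k K) atTop (𝓝 0) := by
        refine squeeze_zero_norm (fun K => ?_) (by simpa using hl.const_mul C')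
        have hrm : Measurable fun R : Mat (n + k) => r K (sub (lift (D K).τ R) (Fin.castAdd k)) :=
          (measurable_of_finite (fun E : LMat (D K).r (n + k) => r K (sub E (Fin.castAdd k)))).comp
            (measurable_lift (D K).measτ)
        simp only [T, ← lift_sub _ _ (Fin.castAdd_injective n k)]
        rw [← integral_sub, ← integral_const_mul]
        · refine norm_integral_le_of_norm_le ?_ (Eventually.of_forall fun R => ?_)
          · exact (Integrable.of_bound (C := 2 * (g * ρ ^ k))
              ((hGc k).measurable.sub (hml K)).abs.aestronglyMeasurable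
              (Eventually.of_forall fun R => by
                rw [Real.norm_eq_abs, abs_abs]
                exact (abs_sub _ _).trans
                  (by linarith [hGb' k R, hGb' k (qmat (D K).q (lift (D K).τ R))]))).const_mul _
          · rw [Real.norm_eq_abs, show r K (sub (lift (D K).τ R) (Fin.castAdd k)) * G k R -
              G k (qmat (D K).q (lift (D K).τ R)) * r K (sub (lift (D K).τ R) (Fin.castAdd k)) =
              r K (sub (lift (D K).τ R) (Fin.castAdd k)) *
                (G k R - G k (qmat (D K).q (lift (D K).τ R))) by ring, abs_mul]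
            exact mul_le_mul_of_nonneg_right (hr _ _) (abs_nonneg _)
        all_goals
          refine Integrable.of_bound (C := C' * (g * ρ ^ k)) ?_ (Eventually.of_forall fun R => ?_)
        · exact (hrm.mul (hGc k).measurable).aestronglyMeasurable
        · rw [Real.norm_eq_abs, abs_mul]
          exact mul_le_mul (hr _ _) (hGb' k _) (abs_nonneg _) ((abs_nonneg _).trans (hr K fun _ _ => 0))
        · exact ((hml K).mul hrm).aestronglyMeasurable
        · rw [Real.norm_eq_abs, abs_mul, mul_comm C']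
          exact mul_le_mul (hGb' k _) (hr _ _) (abs_nonneg _) (by positivity)
      simpa using hd.add (hT k)
    · rw [norm_mul, RCLike.norm_natCast]
      refine (mul_le_mul_of_nonneg_left (b := _) (c := g * ρ ^ k * C') ((norm_integral_le_of_norm_le_const (C := g * ρ ^ k * C')
        (Eventually.of_forall fun R => ?_)).trans_eq (by simp)) (by positivity)).trans_eq (by ring)
      rw [Real.norm_eq_abs, abs_mul, mul_comm (g * ρ ^ k)]
      exact mul_le_mul (hr _ _) (hGb' k _) (abs_nonneg _) ((abs_nonneg _).trans (hr K fun _ _ => 0))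

end Vale.Agent.P157.Low
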