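import Vale.Agent.P157.Low.Gain
import Vale.Agent.P157.Low.Values
import Vale.Agent.P157.Low.CavityValue

/-!
Sums over the patterns of insertions concentrate at rounded root values.
-/

namespace Vale.Agent.P157.Low

open MeasureTheory ProbabilityTheory Filter
open scoped RealInnerProductSpace Topology

attribute [local instance] Arr.prob

namespace Sys

variable (S : Sys) {n : ℕ}

lemma map_fst_repLaw (n : ℕ) : (S.repLaw n).map Prod.fst = S.law := by
  refine Measure.ext fun s hs => ?_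
  rw [Measure.map_apply measurable_fst hs, repLaw, withDensity_apply _ (measurable_fst hs),
    show (Prod.fst ⁻¹' s : Set (S.Ω × (Fin n → S.X))) = s ×ˢ Set.univ by ext; simp,
    ← Measure.prod_restrict, lintegral_prod _ (S.measurable_density n).ennreal_ofReal.aemeasurable]
  have h : ∀ ω, ∫⁻ x : Fin n → S.X, ENNReal.ofReal (∏ l, S.w ω (x l) / ∫ y, S.w ω y ∂S.ref)
      ∂((Measure.pi fun _ : Fin n => S.ref).restrict Set.univ) = 1 := fun ω => by
    have := isProbabilityMeasure_gibbs (μ := S.ref) (S.wt ω)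
    rw [← withDensity_apply _ MeasurableSet.univ, ← pi_gibbs (S.wt ω), measure_univ]
  simp only [h]
  simp

lemma integrable_repLaw_of_le {g : S.Ω → ℝ} (hg : Integrable g S.law) {Θ : S.Ω → (Fin n → S.X) → ℝ}
    (hm : Measurable (Function.uncurry Θ)) (hb : ∀ ω x, |Θ ω x| ≤ g ω) :
    Integrable (Function.uncurry Θ) (S.repLaw n) := by
  rw [← S.map_fst_repLaw n] at hg
  exact (hg.comp_measurable measurable_fst).mono' hm.aestronglyMeasurable
    (Eventually.of_forall fun p => (Real.norm_eq_abs _).le.trans (hb p.1 p.2))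

lemma avgRep_eq_of_integrable {Θ : S.Ω → (Fin n → S.X) → ℝ}
    (hI : Integrable (Function.uncurry Θ) (S.repLaw n)) :
    S.avgRep n Θ = ∫ p, Θ p.1 p.2 ∂S.repLaw n := by
  have hpos := fun ω => (S.wt ω).integral_pos (μ := S.ref)
  have hd : ∀ p : S.Ω × (Fin n → S.X), (ENNReal.ofReal (∏ l, S.w p.1 (p.2 l) /
      ∫ y, S.w p.1 y ∂S.ref)).toReal = ∏ l, S.w p.1 (p.2 l) / ∫ y, S.w p.1 y ∂S.ref := fun p =>
    ENNReal.toReal_ofReal (Finset.prod_nonneg fun l _ =>
      div_nonneg ((S.wt p.1).pos _).le (hpos p.1).le)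
  rw [repLaw, integral_withDensity_eq_integral_toReal_smul (S.measurable_density n).ennreal_ofReal
    (Eventually.of_forall fun p => ENNReal.ofReal_lt_top)]
  rw [repLaw, integrable_withDensity_iff (S.measurable_density n).ennreal_ofReal
    (Eventually.of_forall fun p => ENNReal.ofReal_lt_top)] at hI
  simp only [smul_eq_mul, hd, mul_comm, Function.uncurry_def] at hI ⊢
  rw [integral_prod _ hI, avgRep]
  refine integral_congr_ae (Eventually.of_forall fun ω => ?_)
  simp only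
  rw [integral_pi_gibbs_rep (S.wt ω), ← integral_div]
  refine integral_congr_ae (Eventually.of_forall fun x => ?_)
  simp only [Finset.prod_div_distrib, Finset.prod_const, Finset.card_univ, Fintype.card_fin]
  ring

end Sys

variable {f : ℝ → ℝ} {B : ℝ}

section Count

variable {hf : Pot f B} {N : ℕ} {lam : ℝ} {k : ℕ} {P : ℕ} {x : Fin P → ℝ}

instance : Finite (pSys hf N lam k x).X := inferInstanceAs (Finite (Fin (N + 1) → Bool))

instance : MeasurableSingletonClass (pSys hf N lam k x).X :=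
  inferInstanceAs (MeasurableSingletonClass (Fin (N + 1) → Bool))

lemma measurable_cnt : Measurable fun ω : (pSys hf N lam k x).Ω => cnt ω :=
  (measurable_from_top (f := fun M : ℕ => M + k)).comp (measurable_fst.comp measurable_fst)

lemma measurable_pat (a : ℕ) (r : Fin (N + 1) → Bool) :
    Measurable fun ω : (pSys hf N lam k x).Ω => pat ω a r :=
  ((measurable_pi_apply a).comp (measurable_snd.comp measurable_fst)).inner measurable_const

lemma integrable_cnt (j : ℕ) :
    Integrable (fun ω : (pSys hf N lam k x).Ω => ((cnt ω : ℝ) + 1) ^ j) (pSys hf N lam k x).law :=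
  ((integrable_poisson_of_le (r := lam.toNNReal) (C := ((k : ℝ) + 1) ^ j) (j := j)
    (F := fun M : ℕ => ((((M + k : ℕ) : ℝ)) + 1) ^ j) fun M => by
      rw [abs_of_nonneg (by positivity), ← mul_pow]
      refine pow_le_pow_left₀ (by positivity) ?_ _
      push_cast
      nlinarith [Nat.cast_nonneg (α := ℝ) M, Nat.cast_nonneg (α := ℝ) k]).comp_fst _).comp_fst _

end Count

/-- The normalised sum over the patterns of a product of insertions. -/
noncomputable def patSum {hf : Pot f B} {N : ℕ} {lam : ℝ} {P : ℕ} {x : Fin P → ℝ} {n : ℕ}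
    (θ : Fin n → ℝ → ℝ) (ω : (pSys hf N lam 0 x).Ω) (r : Fin n → Fin (N + 1) → Bool) : ℝ :=
  1 / ((N : ℝ) + 2) * ∑ a ∈ Finset.range (cnt ω), ∏ l, θ l (pat ω a (r l))

variable {A : Arr} {α : ℝ} {Ns Ps : ℕ → ℕ} {xs : ∀ j, Fin (Ps j) → ℝ}

namespace Sys

variable (S : Sys) {n : ℕ}

lemma avgRep_lin {F1 F2 F3 F4 : S.Ω → (Fin n → S.X) → ℝ}
    (i1 : Integrable (Function.uncurry F1) (S.repLaw n)) (i2 : Integrable (Function.uncurry F2) (S.repLaw n))
    (i3 : Integrable (Function.uncurry F3) (S.repLaw n)) (i4 : Integrable (Function.uncurry F4) (S.repLaw n))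
    (a1 a2 a3 a4 : ℝ) :
    S.avgRep n (fun ω r => a1 * F1 ω r + a2 * F2 ω r - a3 * F3 ω r + a4 * F4 ω r) =
      a1 * S.avgRep n F1 + a2 * S.avgRep n F2 - a3 * S.avgRep n F3 + a4 * S.avgRep n F4 := by
  have j1 : Integrable (fun p => a1 * F1 p.1 p.2) (S.repLaw n) := i1.const_mul a1
  have j2 : Integrable (fun p => a2 * F2 p.1 p.2) (S.repLaw n) := i2.const_mul a2
  have j3 : Integrable (fun p => a3 * F3 p.1 p.2) (S.repLaw n) := i3.const_mul a3
  have j4 : Integrable (fun p => a4 * F4 p.1 p.2) (S.repLaw n) := i4.const_mul a4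
  have j12 : Integrable (fun p => a1 * F1 p.1 p.2 + a2 * F2 p.1 p.2) (S.repLaw n) := j1.add j2
  have j123 : Integrable (fun p => a1 * F1 p.1 p.2 + a2 * F2 p.1 p.2 - a3 * F3 p.1 p.2) (S.repLaw n) :=
    j12.sub j3
  have jI : Integrable (Function.uncurry fun ω r =>
      a1 * F1 ω r + a2 * F2 ω r - a3 * F3 ω r + a4 * F4 ω r) (S.repLaw n) := j123.add j4
  rw [S.avgRep_eq_of_integrable i1, S.avgRep_eq_of_integrable i2, S.avgRep_eq_of_integrable i3,
    S.avgRep_eq_of_integrable i4, S.avgRep_eq_of_integrable jI, integral_add j123 j4,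
    integral_sub j12 j3, integral_add j1 j2]
  simp only [integral_const_mul]

/-- The square of a random sum minus a function of the overlaps, term by term. -/
lemma avgRep_sum_sq {cn : S.Ω → ℕ} (hcn : Measurable cn)
    (hint : Integrable (fun ω => ((cn ω : ℝ) + 1) ^ 2) S.law) {u : ℕ → S.Ω → (Fin n → S.X) → ℝ}
    (hum : ∀ i, Measurable (Function.uncurry (u i))) {C : ℝ} (hub : ∀ i ω r, |u i ω r| ≤ C)
    {ψ : Mat n → ℝ} (hψ : Measurable ψ) {M : ℝ} (hψb : ∀ R, |ψ R| ≤ M) (e a : ℝ) :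
    S.avgRep n (fun ω r => (e * (∑ i ∈ Finset.range (cn ω), u i ω r) - a * ψ (S.gram r)) ^ 2) =
      e ^ 2 * S.avgRep n (fun ω r =>
          (fun _ : Mat n => (1 : ℝ)) (S.gram r) * ∑ i ∈ Finset.range (cn ω), u i ω r ^ 2) +
      e ^ 2 * S.avgRep n (fun ω r => ∑ i ∈ Finset.range (cn ω),
          ∑ b ∈ (Finset.range (cn ω)).erase i, u i ω r * u b ω r) -
      2 * a * (e * S.avgRep n (fun ω r => ψ (S.gram r) * ∑ i ∈ Finset.range (cn ω), u i ω r)) +
      a ^ 2 * S.expect (fun R => ψ R ^ 2) := by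
  set F1 : S.Ω → (Fin n → S.X) → ℝ := fun ω r =>
    (fun _ : Mat n => (1 : ℝ)) (S.gram r) * ∑ i ∈ Finset.range (cn ω), u i ω r ^ 2
  set F2 : S.Ω → (Fin n → S.X) → ℝ := fun ω r =>
    ∑ i ∈ Finset.range (cn ω), ∑ b ∈ (Finset.range (cn ω)).erase i, u i ω r * u b ω r
  set F3 : S.Ω → (Fin n → S.X) → ℝ := fun ω r => ψ (S.gram r) * ∑ i ∈ Finset.range (cn ω), u i ω r
  set F4 : S.Ω → (Fin n → S.X) → ℝ := fun _ r => ψ (S.gram r) ^ 2
  have hψm : Measurable fun p : S.Ω × (Fin n → S.X) => ψ (S.gram p.2) :=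
    hψ.comp ((S.measurable_gram n).comp measurable_snd)
  have hsum : ∀ G : Finset ℕ → S.Ω × (Fin n → S.X) → ℝ, (∀ t, Measurable (G t)) →
      Measurable fun p => G (Finset.range (cn p.1)) p := fun G hG =>
    (measurable_from_prod_countable_right (f := fun q : ℕ × (S.Ω × (Fin n → S.X)) =>
      G (Finset.range q.1) q.2) fun m => hG (Finset.range m)).comp ((hcn.comp measurable_fst).prodMk measurable_id)
  have hm1 : Measurable (Function.uncurry F1) :=
    measurable_const.mul (hsum (fun t p => ∑ i ∈ t, u i p.1 p.2 ^ 2)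
      fun t => Finset.measurable_sum t fun i _ => (hum i).pow_const 2)
  have hm2 : Measurable (Function.uncurry F2) :=
    hsum (fun t p => ∑ i ∈ t, ∑ b ∈ t.erase i, u i p.1 p.2 * u b p.1 p.2)
      fun t => Finset.measurable_sum t fun i _ => Finset.measurable_sum (t.erase i)
        fun b _ => (hum i).mul (hum b)
  have hm3 : Measurable (Function.uncurry F3) :=
    hψm.mul (hsum (fun t p => ∑ i ∈ t, u i p.1 p.2) fun t => Finset.measurable_sum t fun i _ => hum i)
  have key : ∀ (x : ℝ) (m : ℕ), 0 ≤ x → x * m ≤ x * ((m : ℝ) + 1) ^ 2 ∧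
      x * ((m : ℝ) * m) ≤ x * ((m : ℝ) + 1) ^ 2 := fun x m hx =>
    ⟨mul_le_mul_of_nonneg_left (by nlinarith [Nat.cast_nonneg (α := ℝ) m]) hx,
      mul_le_mul_of_nonneg_left (by nlinarith [Nat.cast_nonneg (α := ℝ) m]) hx⟩
  have hsq : ∀ i ω r, |u i ω r ^ 2| ≤ C ^ 2 := fun i ω r => by
    rw [abs_pow]; exact pow_le_pow_left₀ (abs_nonneg _) (hub i ω r) 2
  have hC : ∀ i ω r, 0 ≤ C ∧ |u i ω r| ≤ C := fun i ω r => ⟨(abs_nonneg _).trans (hub i ω r), hub i ω r⟩
  have i1 : Integrable (Function.uncurry F1) (S.repLaw n) :=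
    S.integrable_repLaw_of_le (hint.const_mul (C ^ 2)) hm1 fun ω r => by
      simp only [F1, one_mul]
      refine (Finset.abs_sum_le_sum_abs _ _).trans ((Finset.sum_le_card_nsmul _ _ (C ^ 2)
        fun i _ => hsq i ω r).trans ?_)
      rw [Finset.card_range, nsmul_eq_mul, mul_comm]
      exact (key _ _ (sq_nonneg C)).1
  have i2 : Integrable (Function.uncurry F2) (S.repLaw n) :=
    S.integrable_repLaw_of_le (hint.const_mul (C ^ 2)) hm2 fun ω r => by
      refine (Finset.abs_sum_le_sum_abs _ _).trans ((Finset.sum_le_card_nsmul _ _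
        ((cn ω : ℝ) * C ^ 2) fun i _ => ?_).trans ?_)
      · refine (Finset.abs_sum_le_sum_abs _ _).trans ((Finset.sum_le_card_nsmul _ _ (C ^ 2)
          fun b _ => ?_).trans ?_)
        · rw [abs_mul, sq]
          exact mul_le_mul (hub i ω r) (hub b ω r) (abs_nonneg _) (hC i ω r).1
        · rw [nsmul_eq_mul]
          refine mul_le_mul_of_nonneg_right ?_ (sq_nonneg C)
          exact_mod_cast Finset.card_erase_le.trans_eq (Finset.card_range _)
      · rw [Finset.card_range, nsmul_eq_mul, ← mul_assoc, mul_comm]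
        exact (key _ _ (sq_nonneg C)).2
  have i3 : Integrable (Function.uncurry F3) (S.repLaw n) :=
    S.integrable_repLaw_of_le (hint.const_mul (M * |C|)) hm3 fun ω r => by
      simp only [F3, abs_mul]
      have hM : 0 ≤ M := (abs_nonneg _).trans (hψb (S.gram r))
      refine le_trans ?_ (key _ _ (mul_nonneg hM (abs_nonneg C))).1
      rw [mul_assoc, mul_comm (|C|)]
      refine mul_le_mul (hψb _) ?_ (abs_nonneg _) hM
      refine (Finset.abs_sum_le_sum_abs _ _).trans ((Finset.sum_le_card_nsmul _ _ (|C|)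
        fun i _ => (hub i ω r).trans (le_abs_self C)).trans_eq ?_)
      rw [Finset.card_range, nsmul_eq_mul]
  have i4 : Integrable (Function.uncurry F4) (S.repLaw n) :=
    S.integrable_repLaw (hψm.pow_const 2) (D := M ^ 2) fun _ r => by
      rw [abs_pow]; exact pow_le_pow_left₀ (abs_nonneg _) (hψb _) 2
  have expand : (fun ω r => (e * (∑ i ∈ Finset.range (cn ω), u i ω r) - a * ψ (S.gram r)) ^ 2) =
      fun ω r => e ^ 2 * F1 ω r + e ^ 2 * F2 ω r - 2 * a * (e * F3 ω r) + a ^ 2 * F4 ω r := by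
    funext ω r
    have hsq : (∑ i ∈ Finset.range (cn ω), u i ω r) ^ 2 = F1 ω r + F2 ω r := by
      simp only [F1, F2, one_mul]
      rw [sq, Finset.sum_mul_sum, ← Finset.sum_add_distrib]
      refine Finset.sum_congr rfl fun i hi => ?_
      rw [← Finset.add_sum_erase _ _ hi, sq]
    simp only [F3, F4]
    linear_combination e ^ 2 * hsq
  show _ = e ^ 2 * S.avgRep n F1 + e ^ 2 * S.avgRep n F2 - 2 * a * (e * S.avgRep n F3) +
      a ^ 2 * S.avgRep n F4
  rw [expand]
  simp only [← mul_assoc (2 * a)]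
  exact S.avgRep_lin i1 i2 i3 i4 _ _ _ _

end Sys

lemma measurable_pat_fun {hf : Pot f B} {N : ℕ} {lam : ℝ} {P : ℕ} {x : Fin P → ℝ} {n : ℕ}
    {Θ : (Fin n → ℝ) → ℝ} (hΘ : Measurable Θ) (a : ℕ) :
    Measurable (Function.uncurry fun (ω : (pSys hf N lam 0 x).Ω)
      (r : Fin n → (pSys hf N lam 0 x).X) => Θ fun l => pat ω a (r l)) :=
  measurable_from_prod_countable_left fun r =>
    hΘ.comp (measurable_pi_lambda _ fun l => measurable_pat a (r l))

/-- The mean square distance between a sum over patterns and a function of the overlaps. -/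
lemma tendsto_patSum_sq (hf : Pot f B) (hs : Smf f) (hα : 0 < α) (hN : Tendsto Ns atTop atTop)
    (h : Conv (fun j => pSys hf (Ns j) (α * ((Ns j : ℝ) + 2)) 0 (xs j)) A) {n : ℕ}
    {θ : Fin n → ℝ → ℝ} (hθ : ∀ l, Continuous (θ l)) {C : ℝ} (hθb : ∀ l y, |θ l y| ≤ C) {Q : ℝ}
    (hQ : Tendsto (fun j =>
      (((pSys hf (Ns j) (α * ((Ns j : ℝ) + 2)) 0 (xs j)).tiltF hf).tiltF hf).avgRep n fun p r =>
        (∏ l, θ l ⟪p.1.2, cubeVec (Ns j + 1) (r l)⟫) * ∏ l, θ l ⟪p.2, cubeVec (Ns j + 1) (r l)⟫)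
      atTop (𝓝 Q))
    {ψ : Mat n → ℝ} (hψ : Continuous ψ) {M : ℝ} (hψb : ∀ R, |ψ R| ≤ M) :
    Tendsto (fun j => (pSys hf (Ns j) (α * ((Ns j : ℝ) + 2)) 0 (xs j)).avgRep n fun ω r =>
        (patSum θ ω r - α * ψ ((pSys hf (Ns j) (α * ((Ns j : ℝ) + 2)) 0 (xs j)).gram r)) ^ 2)
      atTop (𝓝 (α ^ 2 * (Q - 2 * ratioArr A (Real.exp B) (expW f) ψ θ +
        ∫ R, ψ R ^ 2 ∂A.law n))) := by
  set S := fun j => pSys hf (Ns j) (α * ((Ns j : ℝ) + 2)) 0 (xs j)
  set ε := fun j => 1 / ((Ns j : ℝ) + 2)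
  set Θ : (Fin n → ℝ) → ℝ := fun y => ∏ l, θ l (y l)
  have hΘc : Continuous Θ := by fun_prop
  have hΘb : ∀ y, |Θ y| ≤ |C| ^ n := fun y => by
    simp only [Θ, Finset.abs_prod]
    simpa using Finset.prod_le_prod (s := Finset.univ) (fun l _ => abs_nonneg _)
      fun (l : Fin n) _ => (hθb l (y l)).trans (le_abs_self C)
  have hlam : ∀ j, 0 ≤ α * ((Ns j : ℝ) + 2) := fun j => by positivity
  have hεlam : ∀ j, ε j * (α * ((Ns j : ℝ) + 2)) = α := fun j => by
    simp only [ε]
    field_simp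
  -- the three parts
  set T1 := fun j => (S j).avgRep n fun ω r =>
    (fun _ : Mat n => (1 : ℝ)) ((S j).gram r) *
      ∑ a ∈ Finset.range (cnt ω), (fun y => Θ y ^ 2) fun l => pat ω a (r l)
  set T2 := fun j => (S j).avgRep n fun ω r => ∑ a ∈ Finset.range (cnt ω),
    ∑ b ∈ (Finset.range (cnt ω)).erase a, Θ (fun l => pat ω a (r l)) * Θ fun l => pat ω b (r l)
  set T3 := fun j => (S j).avgRep n fun ω r =>
    ψ ((S j).gram r) * ∑ a ∈ Finset.range (cnt ω), Θ fun l => pat ω a (r l)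
  have main : ∀ j, (S j).avgRep n (fun ω r => (patSum θ ω r - α * ψ ((S j).gram r)) ^ 2) =
      ε j ^ 2 * T1 j + ε j ^ 2 * T2 j - 2 * α * (ε j * T3 j) +
        α ^ 2 * (S j).expect (fun R => ψ R ^ 2) := fun j =>
    Sys.avgRep_sum_sq (S j) (cn := fun ω => cnt ω) measurable_cnt (integrable_cnt 2)
      (u := fun a ω r => Θ fun l => pat ω a (r l)) (fun a => measurable_pat_fun hΘc.measurable a)
      (fun a ω r => hΘb _) hψ.measurable hψb (ε j) α
  have hε0 : Tendsto ε atTop (𝓝 0) := by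
    simp only [ε, one_div]
    exact ((tendsto_natCast_atTop_atTop.comp hN).atTop_add tendsto_const_nhds).inv_tendsto_atTop
  have h1 : Tendsto (fun j => ε j ^ 2 * T1 j) atTop (𝓝 0) := by
    refine squeeze_zero_norm (fun j => ?_) (by simpa using (hε0.mul_const (α * (|C| ^ n) ^ 2)))
    simp only [T1, S]
    rw [pSys_palm hf (Ns j) (hlam j) (xs j) (fun y => Θ y ^ 2) (hΘc.pow 2).measurable
      ⟨(|C| ^ n) ^ 2, fun y => by rw [abs_pow]; exact pow_le_pow_left₀ (abs_nonneg _) (hΘb y) 2⟩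
      (fun _ => 1) measurable_const ⟨1, fun _ => by simp⟩]
    rw [show ε j ^ 2 * (α * ((Ns j : ℝ) + 2) * _) = ε j * α * _ from by rw [sq, ← mul_assoc, mul_assoc (ε j), hεlam]]
    rw [Real.norm_eq_abs, abs_mul, abs_mul, abs_of_pos hα,
      abs_of_pos (show 0 < ε j by simp only [ε]; positivity), ← mul_assoc]
    refine mul_le_mul_of_nonneg_left (abs_avgRep_le _ fun p r => ?_) (by positivity)
    rw [one_mul, abs_pow]
    exact pow_le_pow_left₀ (abs_nonneg _) (hΘb _) 2
  have h2 : Tendsto (fun j => ε j ^ 2 * T2 j) atTop (𝓝 (α ^ 2 * Q)) := by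
    refine (hQ.const_mul (α ^ 2)).congr fun j => ?_
    simp only [T2, S]
    rw [pSys_palm₂ hf (Ns j) (hlam j) (xs j) Θ Θ hΘc.measurable ⟨_, hΘb⟩ hΘc.measurable ⟨_, hΘb⟩,
      ← mul_assoc, ← mul_pow, hεlam]
  have h3 : Tendsto (fun j => ε j * T3 j) atTop (𝓝 (α * ratioArr A (Real.exp B) (expW f) ψ θ)) := by
    refine ((h.insert (weight_expW hf hs) (measurable_expW hf) (Real.exp_pos (-B)) (expW_mem hf) hψ
      ⟨M, hψb⟩ θ hθ fun l => ⟨C, hθb l⟩).const_mul α).congr fun j => ?_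
    simp only [T3, S]
    rw [pSys_palm hf (Ns j) (hlam j) (xs j) Θ hΘc.measurable ⟨_, hΘb⟩ ψ hψ.measurable ⟨M, hψb⟩,
      ← mul_assoc, hεlam]
    rfl
  have h4 := h n (fun R => ψ R ^ 2) (hψ.pow 2)
    ⟨M ^ 2, fun R => by rw [abs_pow]; exact pow_le_pow_left₀ (abs_nonneg _) (hψb _) 2⟩
  convert (((h1.add h2).sub (h3.const_mul (2 * α))).add (h4.const_mul (α ^ 2))).congr
    (fun j => (main j).symm) using 2
  ring

/-- The concentration: an error for each discretisation, controlled in the mean distance. -/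
lemma exists_patSum_bound (hf : Pot f B) (hs : Smf f) (hα : 0 < α) (hN : Tendsto Ns atTop atTop)
    (h : Conv (fun j => pSys hf (Ns j) (α * ((Ns j : ℝ) + 2)) 0 (xs j)) A) (D : ∀ K, Discr A (K + 2))
    {n : ℕ} {θ : Fin n → ℝ → ℝ} (hθ : ∀ l, Continuous (θ l)) {C : ℝ} (hθb : ∀ l y, |θ l y| ≤ C)
    (r : ∀ K, LMat (D K).r n → ℝ) {C' : ℝ} (hr : ∀ K E, |r K E| ≤ C')
    (hid : ∀ K k (Φ : LMat (D K).r (n + k) → ℝ),
      (D K).C.ratio (incr (D K).q) (Real.exp B) (heat (expW f) (D K).rest) Φ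
          (fun a y => heat (fun x => extIns θ k a x * expW f x) (D K).rest y /
            heat (expW f) (D K).rest y) =
        ∑ E, (D K).C.P (n + k) E * (Φ E * r K (sub E (Fin.castAdd k)))) :
    ∃ L, ∃ e : ℕ → ℝ, 0 ≤ L ∧ Tendsto e atTop (𝓝 0) ∧ ∀ K (ψ : Mat n → ℝ), Continuous ψ →
      (∀ R, |ψ R| ≤ C') → ∀ δ, 0 < δ → ∀ᶠ j in atTop,
        (pSys hf (Ns j) (α * ((Ns j : ℝ) + 2)) 0 (xs j)).avgRep n (fun ω x =>
          (patSum θ ω x - α * ψ ((pSys hf (Ns j) (α * ((Ns j : ℝ) + 2)) 0 (xs j)).gram x)) ^ 2) ≤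
        α ^ 2 * (L * (∫ R, |ψ R - r K (lift (D K).τ R)| ∂A.law n) + e K) + δ := by
  have hW := weight_expW hf hs
  obtain ⟨Q, hQ, hQ2, hQ3⟩ := exists_sq_limit h D hW (measurable_expW hf) (Real.exp_pos (-B))
    (expW_mem hf) hθ hθb r hr hid
  obtain ⟨L, hL0, hL⟩ := exists_ratioArr_lip A hW hθ hθb
  set φ := fun K (R : Mat n) => r K (lift (D K).τ R)
  have hC' : 0 ≤ C' := (abs_nonneg _).trans (hr 0 fun _ _ => 0)
  refine ⟨2 * L + 2 * C', fun K => |Q - 2 * ratioArr A (Real.exp B) (expW f) (φ K) θ +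
    ∫ R, φ K R ^ 2 ∂A.law n|, by positivity, ?_, fun K ψ hψ hψb δ hδ => ?_⟩
  · have := (((tendsto_const_nhds (x := Q)).sub (hQ3.const_mul 2)).add hQ2).abs
    rwa [show |Q - 2 * Q + Q| = 0 by ring_nf; simp] at this
  · filter_upwards [(tendsto_patSum_sq hf hs hα hN h hθ hθb hQ hψ hψb).eventually
      (ge_mem_nhds (lt_add_of_pos_right _ hδ))] with j hj
    refine hj.trans ((add_le_add_iff_right δ).2 (mul_le_mul_of_nonneg_left ?_ (sq_nonneg α)))
    have hφm : Measurable (φ K) := (measurable_of_finite (r K)).comp (measurable_lift (D K).measτ)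
    have hψm := hψ.measurable
    have hl := hL ψ (φ K) hψm hφm C' hψb fun R => hr K _
    have int : ∀ g : Mat n → ℝ, Measurable g → (∃ M, ∀ R, |g R| ≤ M) → Integrable g (A.law n) :=
      fun g hg ⟨M, hM⟩ => Integrable.of_bound hg.aestronglyMeasurable M
        (Eventually.of_forall fun R => (Real.norm_eq_abs _).le.trans (hM R))
    have hsq : (∫ R, ψ R ^ 2 ∂A.law n) - ∫ R, φ K R ^ 2 ∂A.law n ≤
        2 * C' * ∫ R, |ψ R - φ K R| ∂A.law n := by
      have i1 := int (fun R => ψ R ^ 2) (hψm.pow_const 2)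
        ⟨C' ^ 2, fun R => by rw [abs_pow]; exact pow_le_pow_left₀ (abs_nonneg _) (hψb R) 2⟩
      have i2 := int (fun R => φ K R ^ 2) (hφm.pow_const 2)
        ⟨C' ^ 2, fun R => by rw [abs_pow]; exact pow_le_pow_left₀ (abs_nonneg _) (hr K _) 2⟩
      rw [← integral_sub i1 i2, ← integral_const_mul]
      refine integral_mono (i1.sub i2) ((int _ (hψm.sub hφm).abs
        ⟨2 * C', fun R => by
          rw [abs_abs]; exact (abs_sub _ _).trans (by linarith [hψb R, hr K (lift (D K).τ R)])⟩).const_mul _)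
        fun R => ?_
      show ψ R ^ 2 - φ K R ^ 2 ≤ 2 * C' * |ψ R - φ K R|
      rw [show ψ R ^ 2 - φ K R ^ 2 = (ψ R + φ K R) * (ψ R - φ K R) by ring]
      refine (le_abs_self _).trans ?_
      rw [abs_mul]
      exact mul_le_mul_of_nonneg_right ((abs_add_le _ _).trans
        (by linarith [hψb R, hr K (lift (D K).τ R)])) (abs_nonneg _)
    have h1 := (abs_le.1 hl).1
    have h2 := le_abs_self (Q - 2 * ratioArr A (Real.exp B) (expW f) (φ K) θ +
      ∫ R, φ K R ^ 2 ∂A.law n)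
    nlinarith [h1, h2, hsq]

/-! The two kinds of insertions. -/

variable {K : ℕ} {Dv : ℝ}

lemma Discr.rval_mem (D : Discr A (K + 2)) (hs : Smf f) (hD : ∀ x, |deriv f x| ≤ Dv)
    (j : Fin (D.r + 1)) : 0 ≤ D.rval f j ∧ D.rval f j ≤ D.rdiag f := by
  obtain ⟨h1, h2, h3, h4⟩ := conj_props hs (D.levelParam (by omega)) hD
  exact ⟨h2.trans (h1 (Fin.zero_le j)), (h1 (Fin.le_last j)).trans h3⟩

lemma Discr.rdiag_mem (D : Discr A (K + 2)) (hs : Smf f) (hD : ∀ x, |deriv f x| ≤ Dv) :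
    0 ≤ D.rdiag f ∧ D.rdiag f ≤ Dv ^ 2 := by
  obtain ⟨h1, h2, h3, h4⟩ := conj_props hs (D.levelParam (by omega)) hD
  exact ⟨(h2.trans (h1 (Fin.zero_le _))).trans h3, h4⟩

lemma heat_expW_ne (hf : Pot f B) (hs : Smf f) (s y : ℝ) : Low.heat (expW f) s y ≠ 0 := by
  obtain ⟨δ, hδ, h⟩ := ((weight_expW hf hs).heat s).exists_lower
  exact (hδ.trans_le (h y)).ne'

lemma Discr.ratio_diag (D : Discr A (K + 2)) (hf : Pot f B) (hs : Smf f) (k : ℕ)
    (Φ : LMat D.r (1 + k) → ℝ) :
    D.C.ratio (incr D.q) (Real.exp B) (Low.heat (expW f) D.rest) Φ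
        (fun a y => Low.heat (fun x => extIns (fun _ : Fin 1 => fun z => deriv f z ^ 2) k a x * expW f x)
          D.rest y / Low.heat (expW f) D.rest y) =
      ∑ E, D.C.P (1 + k) E * (Φ E * D.rdiag f) := by
  have hd : deriv (fun x => Real.exp (f x)) = fun x => Real.exp (f x) * deriv f x :=
    funext fun x => _root_.deriv_exp (hs.bdD.1 x)
  have h := D.C.ratio_single D.incr_nonneg ((weight_expW hf hs).heat D.rest)
    (sm_quot (weight_expW hf hs) hs.bdD_deriv.sq D.rest) Φ (Fin.castAdd k 0)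
  convert h using 1
  · congr 1
    funext a
    refine Fin.addCases (fun l => ?_) (fun l => ?_) a
    · rw [Subsingleton.elim l 0, Function.update_self]
      simp only [extIns, Fin.append_left]
      rfl
    · rw [Function.update_of_ne fun e => by
        have := congrArg Fin.val e
        simp at this]
      funext y
      simp only [extIns, Fin.append_right, one_mul]
      exact div_self (heat_expW_ne hf hs _ y)
  · rw [Finset.sum_mul]
    refine Finset.sum_congr rfl fun E _ => ?_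
    have e : (fun x => deriv f x ^ 2 * expW f x) =
        fun x => deriv (fun z => Real.exp (f z)) x ^ 2 / Real.exp (f x) := funext fun x => by
      rw [hd, expW, eq_div_iff (Real.exp_pos _).ne']
      ring
    unfold quot
    rw [e, mul_assoc]
    rfl

lemma Discr.ratio_val (D : Discr A (K + 2)) (hf : Pot f B) (hs : Smf f) (k : ℕ)
    (Φ : LMat D.r (2 + k) → ℝ) :
    D.C.ratio (incr D.q) (Real.exp B) (Low.heat (expW f) D.rest) Φ
        (fun a y => Low.heat (fun x => extIns (fun _ : Fin 2 => deriv f) k a x * expW f x) D.rest y /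
          Low.heat (expW f) D.rest y) =
      ∑ E, D.C.P (2 + k) E * (Φ E * D.rval f (sub E (Fin.castAdd k) 0 1)) := by
  have hη := sm_quot (weight_expW hf hs) hs.bdD_deriv D.rest
  have hab : Fin.castAdd k (0 : Fin 2) ≠ Fin.castAdd k 1 := fun e => by
    have := congrArg Fin.val e
    simp at this
  have h := D.C.ratio_pair D.incr_nonneg ((weight_expW hf hs).heat D.rest) hη hη Φ hab
  have e : (fun x => deriv f x * expW f x) = deriv fun z => Real.exp (f z) := funext fun x => by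
    rw [_root_.deriv_exp (hs.bdD.1 x), expW, mul_comm]
  convert h using 1
  · congr 1
    funext a
    refine Fin.addCases (fun l => ?_) (fun l => ?_) a
    · rcases Fin.exists_fin_two.1 ⟨l, rfl⟩ with hl | hl <;> rw [hl]
      · rw [Function.update_of_ne hab, Function.update_self]
        simp only [extIns, Fin.append_left]
        rfl
      · rw [Function.update_self]
        simp only [extIns, Fin.append_left]
        rfl
    · rw [Function.update_of_ne, Function.update_of_ne]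
      · funext y
        simp only [extIns, Fin.append_right, one_mul]
        exact div_self (heat_expW_ne hf hs _ y)
      all_goals
        intro e
        have := congrArg Fin.val e
        simp at this
      all_goals omega
  · refine Finset.sum_congr rfl fun E _ => ?_
    unfold quot
    rw [e]
    rfl

end Vale.Agent.P157.Low
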