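import Vale.Agent.P157.Low.SphPairs
import Vale.Agent.P157.Low.SphGain
import Vale.Agent.P157.Low.SpinPatterns

/-!
Sums over the patterns of insertions on the sphere concentrate at rounded root values.
-/

namespace Vale.Agent.P157.Low

open MeasureTheory ProbabilityTheory Filter
open scoped RealInnerProductSpace Topology

attribute [local instance] Arr.prob

variable {f : ℝ → ℝ} {B : ℝ}

section Count

variable {hf : Pot f B} {N : ℕ} {lam : ℝ} {k : ℕ} {P : ℕ} {x : Fin P → ℝ}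

lemma measurable_sCnt : Measurable fun ω : (sphSys hf N lam k x).Ω => sphCnt ω :=
  (measurable_from_top (f := fun M : ℕ => M + k)).comp (measurable_fst.comp measurable_fst)

lemma integrable_sCnt (j : ℕ) :
    Integrable (fun ω : (sphSys hf N lam k x).Ω => ((sphCnt ω : ℝ) + 1) ^ j) (sphSys hf N lam k x).law :=
  ((integrable_poisson_of_le (r := lam.toNNReal) (C := ((k : ℝ) + 1) ^ j) (j := j)
    (F := fun M : ℕ => ((((M + k : ℕ) : ℝ)) + 1) ^ j) fun M => by
      rw [abs_of_nonneg (by positivity), ← mul_pow]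
      refine pow_le_pow_left₀ (by positivity) ?_ _
      push_cast
      nlinarith [Nat.cast_nonneg (α := ℝ) M, Nat.cast_nonneg (α := ℝ) k]).comp_fst _).comp_fst _

/-- Pattern overlaps at several configurations, measurable in sample and configurations. -/
lemma measurable_sPats {n : ℕ} (a : ℕ) :
    Measurable fun p : (sphSys hf N lam k x).Ω × (Fin n → Sph (N + 1)) => fun l => sphPat p.1 a (p.2 l) :=
  measurable_pi_lambda _ fun l =>
    ((measurable_pi_apply a).comp (measurable_snd.comp (measurable_fst.comp measurable_fst))).inner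
      (measurable_subtype_coe.comp ((measurable_pi_apply l).comp measurable_snd))

end Count

/-- The normalised sum over the patterns of a product of insertions. -/
noncomputable def sPatSum {hf : Pot f B} {N : ℕ} {lam : ℝ} {P : ℕ} {x : Fin P → ℝ} {n : ℕ}
    (θ : Fin n → ℝ → ℝ) (ω : (sphSys hf N lam 0 x).Ω) (r : Fin n → Sph (N + 1)) : ℝ :=
  1 / ((N : ℝ) + 2) * ∑ a ∈ Finset.range (sphCnt ω), ∏ l, θ l (sphPat ω a (r l))

variable {A : Arr} {α : ℝ} {Ns Ps : ℕ → ℕ} {xs : ∀ j, Fin (Ps j) → ℝ}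

lemma measurable_sPat_fun {hf : Pot f B} {N : ℕ} {lam : ℝ} {P : ℕ} {x : Fin P → ℝ} {n : ℕ}
    {Θ : (Fin n → ℝ) → ℝ} (hΘ : Measurable Θ) (a : ℕ) :
    Measurable (Function.uncurry fun (ω : (sphSys hf N lam 0 x).Ω)
      (r : Fin n → (sphSys hf N lam 0 x).X) => Θ fun l => sphPat ω a (r l)) :=
  hΘ.comp (measurable_sPats a)

/-- The mean square distance between a sum over patterns and a function of the overlaps. -/
lemma tendsto_sPatSum_sq (hf : Pot f B) (hs : Smf f) (hα : 0 < α) (hN : Tendsto Ns atTop atTop)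
    (h : Conv (fun j => sphSys hf (Ns j) (α * ((Ns j : ℝ) + 2)) 0 (xs j)) A) {n : ℕ}
    {θ : Fin n → ℝ → ℝ} (hθ : ∀ l, Continuous (θ l)) {C : ℝ} (hθb : ∀ l y, |θ l y| ≤ C) {Q : ℝ}
    (hQ : Tendsto (fun j =>
      (((sphSys hf (Ns j) (α * ((Ns j : ℝ) + 2)) 0 (xs j)).tiltF hf).tiltF hf).avgRep n fun p (r : Fin n → Sph (Ns j + 1)) =>
        (∏ l, θ l ⟪p.1.2, ((r l : Sph (Ns j + 1)) : Sp (Ns j + 1))⟫) * ∏ l, θ l ⟪p.2, ((r l : Sph (Ns j + 1)) : Sp (Ns j + 1))⟫)
      atTop (𝓝 Q))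
    {ψ : Mat n → ℝ} (hψ : Continuous ψ) {M : ℝ} (hψb : ∀ R, |ψ R| ≤ M) :
    Tendsto (fun j => (sphSys hf (Ns j) (α * ((Ns j : ℝ) + 2)) 0 (xs j)).avgRep n fun ω r =>
        (sPatSum θ ω r - α * ψ ((sphSys hf (Ns j) (α * ((Ns j : ℝ) + 2)) 0 (xs j)).gram r)) ^ 2)
      atTop (𝓝 (α ^ 2 * (Q - 2 * ratioArr A (Real.exp B) (expW f) ψ θ +
        ∫ R, ψ R ^ 2 ∂A.law n))) := by
  set S := fun j => sphSys hf (Ns j) (α * ((Ns j : ℝ) + 2)) 0 (xs j)
  set ε := fun j => 1 / ((Ns j : ℝ) + 2)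
  set Θ : (Fin n → ℝ) → ℝ := fun y => ∏ l, θ l (y l)
  have hΘc : Continuous Θ := by fun_prop
  have hΘb : ∀ y, |Θ y| ≤ |C| ^ n := fun y => by
    simp only [Θ, Finset.abs_prod]
    simpa using Finset.prod_le_prod (s := Finset.univ) (fun l _ => abs_nonneg _)
      fun (l : Fin n) _ => (hθb l (y l)).trans (le_abs_self C)
  have hlam : ∀ j, 0 ≤ α * ((Ns j : ℝ) + 2) := fun j => by positivity
  have hεlam : ∀ j, ε j * (α * ((Ns j : ℝ) + 2)) = α := fun j => by
    simp only [ε]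
    field_simp
  -- the three parts
  set T1 := fun j => (S j).avgRep n fun ω r =>
    (fun _ : Mat n => (1 : ℝ)) ((S j).gram r) *
      ∑ a ∈ Finset.range (sphCnt ω), (fun y => Θ y ^ 2) fun l => sphPat ω a (r l)
  set T2 := fun j => (S j).avgRep n fun ω r => ∑ a ∈ Finset.range (sphCnt ω),
    ∑ b ∈ (Finset.range (sphCnt ω)).erase a, Θ (fun l => sphPat ω a (r l)) * Θ fun l => sphPat ω b (r l)
  set T3 := fun j => (S j).avgRep n fun ω r =>
    ψ ((S j).gram r) * ∑ a ∈ Finset.range (sphCnt ω), Θ fun l => sphPat ω a (r l)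
  have main : ∀ j, (S j).avgRep n (fun ω r => (sPatSum θ ω r - α * ψ ((S j).gram r)) ^ 2) =
      ε j ^ 2 * T1 j + ε j ^ 2 * T2 j - 2 * α * (ε j * T3 j) +
        α ^ 2 * (S j).expect (fun R => ψ R ^ 2) := fun j =>
    Sys.avgRep_sum_sq (S j) (cn := fun ω => sphCnt ω) measurable_sCnt (integrable_sCnt 2)
      (u := fun a ω r => Θ fun l => sphPat ω a (r l)) (fun a => measurable_sPat_fun hΘc.measurable a)
      (fun a ω r => hΘb _) hψ.measurable hψb (ε j) α
  have hε0 : Tendsto ε atTop (𝓝 0) := by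
    simp only [ε, one_div]
    exact ((tendsto_natCast_atTop_atTop.comp hN).atTop_add tendsto_const_nhds).inv_tendsto_atTop
  have h1 : Tendsto (fun j => ε j ^ 2 * T1 j) atTop (𝓝 0) := by
    refine squeeze_zero_norm (fun j => ?_) (by simpa using (hε0.mul_const (α * (|C| ^ n) ^ 2)))
    simp only [T1, S]
    rw [sphSys_palm hf (Ns j) (hlam j) (xs j) (fun y => Θ y ^ 2) (hΘc.pow 2).measurable
      ⟨(|C| ^ n) ^ 2, fun y => by rw [abs_pow]; exact pow_le_pow_left₀ (abs_nonneg _) (hΘb y) 2⟩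
      (fun _ => 1) measurable_const ⟨1, fun _ => by simp⟩]
    rw [show ε j ^ 2 * (α * ((Ns j : ℝ) + 2) * _) = ε j * α * _ from by rw [sq, ← mul_assoc, mul_assoc (ε j), hεlam]]
    rw [Real.norm_eq_abs, abs_mul, abs_mul, abs_of_pos hα,
      abs_of_pos (show 0 < ε j by simp only [ε]; positivity), ← mul_assoc]
    refine mul_le_mul_of_nonneg_left (abs_avgRep_le _ fun p r => ?_) (by positivity)
    rw [one_mul, abs_pow]
    exact pow_le_pow_left₀ (abs_nonneg _) (hΘb _) 2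
  have h2 : Tendsto (fun j => ε j ^ 2 * T2 j) atTop (𝓝 (α ^ 2 * Q)) := by
    refine (hQ.const_mul (α ^ 2)).congr fun j => ?_
    simp only [T2, S]
    rw [sphSys_palm₂ hf (Ns j) (hlam j) (xs j) Θ Θ hΘc.measurable ⟨_, hΘb⟩ hΘc.measurable ⟨_, hΘb⟩,
      ← mul_assoc, ← mul_pow, hεlam]
  have h3 : Tendsto (fun j => ε j * T3 j) atTop (𝓝 (α * ratioArr A (Real.exp B) (expW f) ψ θ)) := by
    refine ((h.insert (weight_expW hf hs) (measurable_expW hf) (Real.exp_pos (-B)) (expW_mem hf) hψ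
      ⟨M, hψb⟩ θ hθ fun l => ⟨C, hθb l⟩).const_mul α).congr fun j => ?_
    simp only [T3, S]
    rw [sphSys_palm hf (Ns j) (hlam j) (xs j) Θ hΘc.measurable ⟨_, hΘb⟩ ψ hψ.measurable ⟨M, hψb⟩,
      ← mul_assoc, hεlam]
    rfl
  have h4 := h n (fun R => ψ R ^ 2) (hψ.pow 2)
    ⟨M ^ 2, fun R => by rw [abs_pow]; exact pow_le_pow_left₀ (abs_nonneg _) (hψb _) 2⟩
  convert (((h1.add h2).sub (h3.const_mul (2 * α))).add (h4.const_mul (α ^ 2))).congr
    (fun j => (main j).symm) using 2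
  ring

/-- The concentration: an error for each discretisation, controlled in the mean distance. -/
lemma exists_sPatSum_bound (hf : Pot f B) (hs : Smf f) (hα : 0 < α) (hN : Tendsto Ns atTop atTop)
    (h : Conv (fun j => sphSys hf (Ns j) (α * ((Ns j : ℝ) + 2)) 0 (xs j)) A) (D : ∀ K, Discr A (K + 2))
    {n : ℕ} {θ : Fin n → ℝ → ℝ} (hθ : ∀ l, Continuous (θ l)) {C : ℝ} (hθb : ∀ l y, |θ l y| ≤ C)
    (r : ∀ K, LMat (D K).r n → ℝ) {C' : ℝ} (hr : ∀ K E, |r K E| ≤ C')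
    (hid : ∀ K k (Φ : LMat (D K).r (n + k) → ℝ),
      (D K).C.ratio (incr (D K).q) (Real.exp B) (heat (expW f) (D K).rest) Φ
          (fun a y => heat (fun x => extIns θ k a x * expW f x) (D K).rest y /
            heat (expW f) (D K).rest y) =
        ∑ E, (D K).C.P (n + k) E * (Φ E * r K (sub E (Fin.castAdd k)))) :
    ∃ L, ∃ e : ℕ → ℝ, 0 ≤ L ∧ Tendsto e atTop (𝓝 0) ∧ ∀ K (ψ : Mat n → ℝ), Continuous ψ →
      (∀ R, |ψ R| ≤ C') → ∀ δ, 0 < δ → ∀ᶠ j in atTop,
        (sphSys hf (Ns j) (α * ((Ns j : ℝ) + 2)) 0 (xs j)).avgRep n (fun ω x =>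
          (sPatSum θ ω x - α * ψ ((sphSys hf (Ns j) (α * ((Ns j : ℝ) + 2)) 0 (xs j)).gram x)) ^ 2) ≤
        α ^ 2 * (L * (∫ R, |ψ R - r K (lift (D K).τ R)| ∂A.law n) + e K) + δ := by
  have hW := weight_expW hf hs
  obtain ⟨Q, hQ, hQ2, hQ3⟩ := exists_sq_limit h D hW (measurable_expW hf) (Real.exp_pos (-B))
    (expW_mem hf) hθ hθb r hr hid
  obtain ⟨L, hL0, hL⟩ := exists_ratioArr_lip A hW hθ hθb
  set φ := fun K (R : Mat n) => r K (lift (D K).τ R)
  have hC' : 0 ≤ C' := (abs_nonneg _).trans (hr 0 fun _ _ => 0)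
  refine ⟨2 * L + 2 * C', fun K => |Q - 2 * ratioArr A (Real.exp B) (expW f) (φ K) θ +
    ∫ R, φ K R ^ 2 ∂A.law n|, by positivity, ?_, fun K ψ hψ hψb δ hδ => ?_⟩
  · have := (((tendsto_const_nhds (x := Q)).sub (hQ3.const_mul 2)).add hQ2).abs
    rwa [show |Q - 2 * Q + Q| = 0 by ring_nf; simp] at this
  · filter_upwards [(tendsto_sPatSum_sq hf hs hα hN h hθ hθb hQ hψ hψb).eventually
      (ge_mem_nhds (lt_add_of_pos_right _ hδ))] with j hj
    refine hj.trans ((add_le_add_iff_right δ).2 (mul_le_mul_of_nonneg_left ?_ (sq_nonneg α)))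
    have hφm : Measurable (φ K) := (measurable_of_finite (r K)).comp (measurable_lift (D K).measτ)
    have hψm := hψ.measurable
    have hl := hL ψ (φ K) hψm hφm C' hψb fun R => hr K _
    have int : ∀ g : Mat n → ℝ, Measurable g → (∃ M, ∀ R, |g R| ≤ M) → Integrable g (A.law n) :=
      fun g hg ⟨M, hM⟩ => Integrable.of_bound hg.aestronglyMeasurable M
        (Eventually.of_forall fun R => (Real.norm_eq_abs _).le.trans (hM R))
    have hsq : (∫ R, ψ R ^ 2 ∂A.law n) - ∫ R, φ K R ^ 2 ∂A.law n ≤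
        2 * C' * ∫ R, |ψ R - φ K R| ∂A.law n := by
      have i1 := int (fun R => ψ R ^ 2) (hψm.pow_const 2)
        ⟨C' ^ 2, fun R => by rw [abs_pow]; exact pow_le_pow_left₀ (abs_nonneg _) (hψb R) 2⟩
      have i2 := int (fun R => φ K R ^ 2) (hφm.pow_const 2)
        ⟨C' ^ 2, fun R => by rw [abs_pow]; exact pow_le_pow_left₀ (abs_nonneg _) (hr K _) 2⟩
      rw [← integral_sub i1 i2, ← integral_const_mul]
      refine integral_mono (i1.sub i2) ((int _ (hψm.sub hφm).abs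
        ⟨2 * C', fun R => by
          rw [abs_abs]; exact (abs_sub _ _).trans (by linarith [hψb R, hr K (lift (D K).τ R)])⟩).const_mul _)
        fun R => ?_
      show ψ R ^ 2 - φ K R ^ 2 ≤ 2 * C' * |ψ R - φ K R|
      rw [show ψ R ^ 2 - φ K R ^ 2 = (ψ R + φ K R) * (ψ R - φ K R) by ring]
      refine (le_abs_self _).trans ?_
      rw [abs_mul]
      exact mul_le_mul_of_nonneg_right ((abs_add_le _ _).trans
        (by linarith [hψb R, hr K (lift (D K).τ R)])) (abs_nonneg _)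
    have h1 := (abs_le.1 hl).1
    have h2 := le_abs_self (Q - 2 * ratioArr A (Real.exp B) (expW f) (φ K) θ +
      ∫ R, φ K R ^ 2 ∂A.law n)
    nlinarith [h1, h2, hsq]

end Vale.Agent.P157.Low
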