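import Vale.Agent.P157.Low.SphSpinPatterns
import Vale.Agent.P157.Low.SphExpansion
import Vale.Agent.P157.Low.SpinSeries

/-!
The spin term and the spin value on the sphere as series in covariance matrices.
-/

namespace Vale.Agent.P157.Low

open MeasureTheory ProbabilityTheory Filter
open scoped RealInnerProductSpace Topology

attribute [local instance] Arr.prob

/-- The integrand of a term of the log series of a weight. -/
noncomputable def wProd (c : ℝ) (W : ℝ → ℝ) (n : ℕ) (h : Fin n → ℝ) : ℝ := ∏ l, (1 - W (h l) / c)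

/-- Continuous extensions of the averages of the terms of the log series. -/
lemma exists_ext_weight {c ρ : ℝ} {W : ℝ → ℝ} (hc : Continuous W) (hρ : ∀ y, |1 - W y / c| ≤ ρ) :
    ∃ G : ∀ n, Mat n → ℝ, (∀ n, Continuous (G n)) ∧ (∀ n R, |G n R| ≤ ρ ^ n) ∧
      ∀ n R, (Matrix.of R).PosSemidef → G n R = GE R (wProd c W n) := by
  choose G h1 h2 h3 using fun n => exists_GE_ext (Θ := wProd c W n)
    (by unfold wProd; fun_prop) (B := ρ ^ n) fun h => by
      rw [wProd, Finset.abs_prod]
      simpa using Finset.prod_le_prod (s := Finset.univ) (fun l _ => abs_nonneg _)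
        fun (l : Fin n) _ => hρ (h l)
  exact ⟨G, h1, h2, h3⟩

variable {f : ℝ → ℝ} {B : ℝ}

/-- The covariance of the field of the new coordinate. -/
noncomputable def sSpinCov {hf : Pot f B} {N : ℕ} {lam : ℝ} {P : ℕ} {x : Fin P → ℝ} {n : ℕ}
    (ω : (sphSys hf N lam 0 x).Ω) (r : Fin n → Sph (N + 1)) : Mat n :=
  fun a b => sPatSum (fun _ : Fin 2 => deriv f) ω fun i => r (![a, b] i)

lemma measurable_sPatSum {hf : Pot f B} {N : ℕ} {lam : ℝ} {P : ℕ} {x : Fin P → ℝ} {n : ℕ}
    {θ : Fin n → ℝ → ℝ} (hθ : ∀ l, Measurable (θ l)) :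
    Measurable (Function.uncurry fun (ω : (sphSys hf N lam 0 x).Ω)
      (r : Fin n → (sphSys hf N lam 0 x).X) => sPatSum θ ω r) := by
  have h : Measurable fun q : ℕ × ((sphSys hf N lam 0 x).Ω × (Fin n → Sph (N + 1))) =>
      ∑ a ∈ Finset.range q.1, ∏ l, θ l (sphPat q.2.1 a (q.2.2 l)) :=
    measurable_from_prod_countable_right fun M => Finset.measurable_sum (Finset.range M)
      fun a _ => Finset.measurable_prod _ fun l _ =>
        (hθ l).comp ((measurable_pi_apply l).comp (measurable_sPats a))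
  exact (h.comp ((measurable_sCnt.comp measurable_fst).prodMk measurable_id)).const_mul _

lemma measurable_sSpinCov {hf : Pot f B} {N : ℕ} {lam : ℝ} {P : ℕ} {x : Fin P → ℝ} {n : ℕ}
    (hd : Measurable (deriv f)) :
    Measurable (Function.uncurry fun (ω : (sphSys hf N lam 0 x).Ω)
      (r : Fin n → (sphSys hf N lam 0 x).X) => sSpinCov ω r) := by
  refine measurable_pi_lambda _ fun a => measurable_pi_lambda _ fun b => ?_
  have h2 : Measurable fun p : (sphSys hf N lam 0 x).Ω × (Fin n → (sphSys hf N lam 0 x).X) =>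
      (p.1, fun i : Fin 2 => p.2 (![a, b] i)) :=
    measurable_fst.prodMk
      (measurable_pi_lambda _ fun i => (measurable_pi_apply (![a, b] i)).comp measurable_snd)
  have h1 : Measurable (Function.uncurry fun (ω : (sphSys hf N lam 0 x).Ω)
      (r : Fin 2 → (sphSys hf N lam 0 x).X) => sPatSum (fun _ : Fin 2 => deriv f) ω r) :=
    measurable_sPatSum fun _ => hd
  have h3 := h1.comp h2
  simp only [Function.comp_def, Function.uncurry_def, sSpinCov] at h3 ⊢
  exact h3

/-- The spin term as a series. -/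
lemma sSpinTerm_eq (hf : Pot f B) (hs : Smf f) (α : ℝ) (N : ℕ) {P : ℕ} (x : Fin P → ℝ) {c ρ : ℝ}
    {W : ℝ → ℝ} (hWc : Continuous W) (hc : 0 < c) (hρ : ρ < 1) (hW : ∀ y, |1 - W y / c| ≤ ρ)
    {G : ∀ n, Mat n → ℝ} (hGc : ∀ n, Continuous (G n)) (hGb : ∀ n R, |G n R| ≤ ρ ^ n)
    (hG : ∀ n R, (Matrix.of R).PosSemidef → G n R = GE R ((wProd c W) n)) :
    let S := sphSys hf N (α * ((N : ℝ) + 2)) 0 x
    ∫ ω, ∫ h, Real.log (∫ r, W (Real.sqrt (1 / ((N : ℝ) + 2)) *
        ∑ a ∈ Finset.range (sphCnt (k := 0) (x := x) ω), h a * deriv f (sphPat ω a r))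
          ∂gibbs S.ref (S.w ω)) ∂fieldLaw ∂S.law = Real.log (c) - ∑' k : ℕ,
      (sphSys hf N (α * ((N : ℝ) + 2)) 0 x).avgRep (k + 1) (fun ω r => G (k + 1) (sSpinCov ω r)) /
        ((k : ℝ) + 1) := by
  intro S
  have key : ∀ ω : S.Ω, ∫ h, Real.log (∫ r, W (Real.sqrt (1 / ((N : ℝ) + 2)) *
      ∑ a ∈ Finset.range (sphCnt ω), h a * deriv f (sphPat ω a r)) ∂gibbs S.ref (S.w ω)) ∂fieldLaw =
      Real.log (c) - ∑' k : ℕ, (∫ r, G (k + 1) (sSpinCov ω r)
        ∂Measure.pi fun _ : Fin (k + 1) => gibbs S.ref (S.w ω)) / ((k : ℝ) + 1) := fun ω => by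
    have := isProbabilityMeasure_gibbs (μ := S.ref) (S.wt ω)
    set s := Real.sqrt (1 / ((N : ℝ) + 2))
    set u : S.X → EuclideanSpace ℝ (Fin (sphCnt ω)) := fun r =>
      WithLp.toLp 2 fun a : Fin (sphCnt ω) => s * deriv f (sphPat ω a r)
    set F : EuclideanSpace ℝ (Fin (sphCnt ω)) → ℝ := fun g =>
      Real.log (∫ r, W ⟪g, u r⟫ ∂gibbs S.ref (S.w ω))
    have hu : Measurable u := (WithLp.measurable_toLp 2 _).comp (measurable_pi_lambda _ fun a =>
      (hs.bdD_deriv.cont.measurable.comp (((measurable_pi_apply (0 : Fin 1)).comp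
        (measurable_sPats (a : ℕ))).comp ((measurable_const (a := ω)).prodMk
          (measurable_pi_lambda _ fun _ => measurable_id)))).const_mul s)
    have hF : Measurable F :=
      ((Measurable.stronglyMeasurable (f := fun p : EuclideanSpace ℝ (Fin (sphCnt ω)) × S.X =>
        W ⟪p.1, u p.2⟫) (hWc.measurable.comp
          (measurable_fst.inner (hu.comp measurable_snd)))).integral_prod_right'.measurable).log
    have e1 : ∀ h : ℕ → ℝ, Real.log (∫ r, W (s *
        ∑ a ∈ Finset.range (sphCnt ω), h a * deriv f (sphPat ω a r)) ∂gibbs S.ref (S.w ω)) =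
        F (WithLp.toLp 2 fun a : Fin (sphCnt ω) => h a) := fun h => by
      simp only [F, u, PiLp.inner_apply, RCLike.inner_apply, conj_trivial]
      congr 2
      funext r
      congr 1
      rw [Finset.mul_sum, ← Fin.sum_univ_eq_sum_range]
      exact Finset.sum_congr rfl fun a _ => by ring
    simp only [e1]
    rw [fieldLaw, ← integral_map (μ := Measure.infinitePi fun _ : ℕ => gaussianReal 0 1)
        (φ := fun h (a : Fin (sphCnt ω)) => h a) (f := fun g => F (WithLp.toLp 2 g))
        (Measurable.aemeasurable (by fun_prop)) (hF.comp (by fun_prop)).aestronglyMeasurable,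
      map_first_patterns (γ := gaussianReal 0 1),
      ← integral_map (φ := WithLp.toLp 2) (f := F) (Measurable.aemeasurable (by fun_prop))
        hF.aestronglyMeasurable, map_pi_eq_stdGaussian,
      log_series (gibbs S.ref (S.w ω)) hu hWc.measurable hρ
        hc hW, logSer]
    congr 1
    refine tsum_congr fun k => ?_
    congr 1
    refine integral_congr_ae (Eventually.of_forall fun r => ?_)
    have hQ : sSpinCov ω r = fun a b => ⟪u (r a), u (r b)⟫ := by
      funext a b
      simp only [sSpinCov, sPatSum, u, PiLp.inner_apply, RCLike.inner_apply, conj_trivial,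
        Fin.prod_univ_two, Matrix.cons_val_zero, Matrix.cons_val_one, Finset.mul_sum]
      rw [← Fin.sum_univ_eq_sum_range]
      refine Finset.sum_congr rfl fun i _ => ?_
      have hs2 : s * s = 1 / ((N : ℝ) + 2) := Real.mul_self_sqrt (by positivity)
      linear_combination -(deriv f (sphPat ω i (r a)) * deriv f (sphPat ω i (r b))) * hs2
    show _ = G (k + 1) (sSpinCov ω r)
    exact ((congrArg (G (k + 1)) hQ).trans
      (hG (k + 1) _ (Matrix.posSemidef_gram ℝ fun a => u (r a)))).symm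
  have hm : ∀ k : ℕ, Measurable (Function.uncurry fun (ω : S.Ω) (r : Fin (k + 1) → S.X) =>
      G (k + 1) (sSpinCov ω r)) := fun k =>
    (hGc _).measurable.comp (measurable_sSpinCov hs.bdD_deriv.cont.measurable)
  have hb : ∀ k (ω : S.Ω), |(∫ r, G (k + 1) (sSpinCov ω r)
      ∂Measure.pi fun _ : Fin (k + 1) => gibbs S.ref (S.w ω)) / ((k : ℝ) + 1)| ≤
      ρ ^ (k + 1) := fun k ω => by
    have := isProbabilityMeasure_gibbs (μ := S.ref) (S.wt ω)
    rw [abs_div, abs_of_pos (show (0 : ℝ) < (k : ℝ) + 1 by positivity)]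
    refine (div_le_self (abs_nonneg _) (by simp)).trans ?_
    exact (Real.norm_eq_abs _).symm.le.trans ((norm_integral_le_of_norm_le_const
      (Eventually.of_forall fun r => (Real.norm_eq_abs _).le.trans (hGb _ _))).trans_eq (by simp))
  have hmeas : ∀ k : ℕ, Measurable fun ω : S.Ω => (∫ r, G (k + 1) (sSpinCov ω r)
      ∂Measure.pi fun _ : Fin (k + 1) => gibbs S.ref (S.w ω)) / ((k : ℝ) + 1) := fun k =>
    (S.measurable_integral_pi (hm k)).div_const _
  have hsum : Summable fun k : ℕ => ρ ^ (k + 1) :=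
    (summable_nat_add_iff 1).2 (summable_geometric_of_lt_one ((abs_nonneg _).trans (hW 0)) hρ)
  have hS := hasSum_integral_of_dominated_convergence (μ := S.law)
    (F := fun k (ω : S.Ω) => (∫ r, G (k + 1) (sSpinCov ω r)
      ∂Measure.pi fun _ : Fin (k + 1) => gibbs S.ref (S.w ω)) / ((k : ℝ) + 1))
    (fun k _ => ρ ^ (k + 1)) (fun k => (hmeas k).aestronglyMeasurable)
    (fun k => Eventually.of_forall fun ω => (Real.norm_eq_abs _).le.trans (hb k ω))
    (Eventually.of_forall fun _ => hsum) (integrable_const _)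
    (Eventually.of_forall fun ω =>
      (Summable.of_norm_bounded hsum fun k => (Real.norm_eq_abs _).le.trans (hb k ω)).hasSum)
  have hint : Integrable (fun ω : S.Ω => ∑' k : ℕ, (∫ r, G (k + 1) (sSpinCov ω r)
      ∂Measure.pi fun _ : Fin (k + 1) => gibbs S.ref (S.w ω)) / ((k : ℝ) + 1)) S.law :=
    Integrable.of_bound (Measurable.tsum hmeas).aestronglyMeasurable
      (∑' k : ℕ, ρ ^ (k + 1))
      (Eventually.of_forall fun ω => tsum_of_norm_bounded hsum.hasSum fun k =>
        (Real.norm_eq_abs _).le.trans (hb k ω))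
  simp only [key]
  rw [integral_sub (integrable_const _) hint, ← hS.tsum_eq]
  simp only [integral_const, probReal_univ, smul_eq_mul, one_mul, integral_div]
  rfl

variable {A : Arr} {K : ℕ}

/-- The spin value as a series. -/
lemma Discr.spinValG_eq (D : Discr A (K + 2)) (hs : Smf f) {α : ℝ} (hα : 0 ≤ α) {c : ℝ} {W : ℝ → ℝ}
    (hW : Weight c W)
    {G : ∀ n, Mat n → ℝ} (hG : ∀ n R, (Matrix.of R).PosSemidef → G n R = GE R ((wProd c W) n)) :
    D.spinValG f α W = Real.log (c) - ∑' k : ℕ,
      (∫ R, G (k + 1) (D.spinMat f α R) ∂A.law (k + 1)) / ((k : ℝ) + 1) := by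
  obtain ⟨Dv, hD⟩ := hs.bdD_deriv.bdd
  obtain ⟨ρ, -, hρ⟩ := hW.near
  set s := α * (D.rdiag f - D.rval f (Fin.last D.r))
  have hs0 : 0 ≤ s := mul_nonneg hα (sub_nonneg.2 (D.rval_mem hs hD _).2)
  set d := incr fun j => α * D.rval f j
  have hd : ∀ j, 0 ≤ d j := Low.incr_nonneg
    (fun i j hij => mul_le_mul_of_nonneg_left ((conj_props hs (D.levelParam (by omega)) hD).1 hij) hα)
    (mul_nonneg hα (D.rval_mem hs hD 0).1)
  have hc := hW.smooth.bdD.cont.measurable
  rw [Discr.spinValG, ← D.C.logVal_eq hd (hW.heat s), Casc.logVal, logSer]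
  congr 1
  refine tsum_congr fun k => congrArg (· / _) ?_
  set M : LMat D.r (k + 1) → Mat (k + 1) := fun E a b =>
    if a = b then α * D.rdiag f else α * D.rval f (E a b)
  have e : ∀ R : Mat (k + 1), D.spinMat f α R = M (lift D.τ R) := fun R => by
    funext a b
    simp only [Discr.spinMat, M, lift]
    split_ifs <;> rfl
  simp only [e]
  rw [D.law (k + 1) fun E => G (k + 1) (M E)]
  refine Finset.sum_congr rfl fun E _ => ?_
  rcases eq_or_ne (D.C.P (k + 1) E) 0 with hE | hE
  · simp [hE]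
  congr 1
  have hps := posSemidef_lcov hd (D.C.symm _ E hE) (D.C.diag _ E hE) (D.C.ultra _ E hE)
  have hM : M E = fun a b => lcov d E a b + if a = b then s else 0 := by
    funext a b
    rw [lcov_incr]
    simp only [M, s]
    split_ifs with h
    · subst h
      rw [D.C.diag _ E hE]
      ring
    · ring
  rw [hM, hG _ _ (posSemidef_add_diag hps hs0)]
  unfold wProd
  rw [GE_add_diag hps hs0 (fun _ x => 1 - W x / c) (fun _ => (hc.div_const _).const_sub 1)
    fun _ => ⟨ρ, hρ⟩]
  simp only [heat_res hc (hρ)]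

end Vale.Agent.P157.Low
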