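import Vale.Agent.P157.Low.SphPoint
import Vale.Agent.P157.Low.SphRep

/-!
The field averages and the fixed-disorder inequality for a new coordinate.
-/

namespace Vale.Agent.P157.Low

open MeasureTheory ProbabilityTheory
open scoped RealInnerProductSpace

variable {f : ℝ → ℝ} {B : ℝ} {N P : ℕ}

/-- The field of pattern `a` at a point of the sphere. -/
noncomputable def sFld (g : ℕ → Sp (N + 1)) (a : ℕ) (θ : Sph (N + 1)) : ℝ := ⟪g a, (θ : Sp (N + 1))⟫

lemma abs_sFld_le (g : ℕ → Sp (N + 1)) (a : ℕ) (θ : Sph (N + 1)) : |sFld g a θ| ≤ ‖g a‖ := by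
  refine (abs_real_inner_le_norm _ _).trans ?_
  rw [mem_sphere_zero_iff_norm.1 θ.2, mul_one]

lemma measurable_sFld (g : ℕ → Sp (N + 1)) (a : ℕ) : Measurable (sFld g a) :=
  measurable_const.inner measurable_subtype_coe

lemma measurable_sFld_prod (a : ℕ) :
    Measurable fun q : (ℕ → Sp (N + 1)) × Sph (N + 1) => sFld q.1 a q.2 :=
  Measurable.inner ((measurable_pi_apply a).comp measurable_fst) (measurable_subtype_coe.comp measurable_snd)

/-- The exponent of the new coordinate. -/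
noncomputable def sExp (f : ℝ → ℝ) (M : ℕ) (g : ℕ → Sp (N + 1)) (h : ℕ → ℝ) (θ : Sph (N + 1)) (s : ℝ) : ℝ :=
  ∑ a ∈ Finset.range M, (f (Real.sqrt (1 - s ^ 2 / ((N : ℝ) + 2)) * sFld g a θ +
    Real.sqrt (1 / ((N : ℝ) + 2)) * (h a * s)) - f (sFld g a θ))

/-- The field of the new coordinate. -/
noncomputable def sXi (f : ℝ → ℝ) (M : ℕ) (g : ℕ → Sp (N + 1)) (h : ℕ → ℝ) (θ : Sph (N + 1)) : ℝ :=
  Real.sqrt (1 / ((N : ℝ) + 2)) * ∑ a ∈ Finset.range M, h a * deriv f (sFld g a θ)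

/-- Squared deviation of the drift sum. -/
noncomputable def sDev (f : ℝ → ℝ) (d : ℝ) (M : ℕ) (g : ℕ → Sp (N + 1)) (θ : Sph (N + 1)) : ℝ :=
  (1 / ((N : ℝ) + 2) * (∑ a ∈ Finset.range M, drv f (sFld g a θ)) - d) ^ 2

/-- The sixth-moment sum. -/
noncomputable def sSix (M : ℕ) (g : ℕ → Sp (N + 1)) (θ : Sph (N + 1)) : ℝ :=
  (M : ℝ) * ∑ a ∈ Finset.range M, (1 + sFld g a θ ^ 6)

lemma sphCw_mul_exp (f : ℝ → ℝ) (x : Fin P → ℝ) (M : ℕ) (g : ℕ → Sp (N + 1)) (h : ℕ → ℝ)
    (J : PertSpace (N + 1) P) (θ : Sph (N + 1)) (s : ℝ) :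
    sphCw f N x M g J θ * Real.exp (sExp f M g h θ s) = sphCavW f N x ((M, (g, h)), J) (θ, s) := by
  unfold sphCw sExp sphCavW sFld
  rw [Finset.sum_sub_distrib, ← Real.exp_add, ← Real.exp_add, ← Real.exp_add]
  congr 1
  ring

lemma measurable_sExp (hf : Pot f B) (M : ℕ) :
    Measurable fun q : ((ℕ → Sp (N + 1)) × (ℕ → ℝ)) × (Sph (N + 1) × ℝ) =>
      sExp f M q.1.1 q.1.2 q.2.1 q.2.2 := by
  refine Finset.measurable_sum (Finset.range M) fun a _ => ?_
  have hy : Measurable fun q : ((ℕ → Sp (N + 1)) × (ℕ → ℝ)) × (Sph (N + 1) × ℝ) => sFld q.1.1 a q.2.1 :=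
    (measurable_sFld_prod a).comp ((measurable_fst.comp measurable_fst).prodMk (measurable_fst.comp measurable_snd))
  have hh : Measurable fun q : ((ℕ → Sp (N + 1)) × (ℕ → ℝ)) × (Sph (N + 1) × ℝ) => q.1.2 a :=
    (measurable_pi_apply a).comp (measurable_snd.comp measurable_fst)
  have hs : Measurable fun q : ((ℕ → Sp (N + 1)) × (ℕ → ℝ)) × (Sph (N + 1) × ℝ) => q.2.2 :=
    measurable_snd.comp measurable_snd
  exact (hf.meas.comp (((((hs.pow_const 2).div_const _).const_sub 1).sqrt.mul hy).add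
    ((hh.mul hs).const_mul _))).sub (hf.meas.comp hy)

lemma measurable_sXi (f : ℝ → ℝ) (M : ℕ) :
    Measurable fun q : ((ℕ → Sp (N + 1)) × (ℕ → ℝ)) × Sph (N + 1) => sXi f M q.1.1 q.1.2 q.2 := by
  refine (Finset.measurable_sum (Finset.range M) fun a _ => ?_).const_mul _
  exact ((measurable_pi_apply a).comp (measurable_snd.comp measurable_fst)).mul
    ((measurable_deriv f).comp ((measurable_sFld_prod a).comp
      ((measurable_fst.comp measurable_fst).prodMk measurable_snd)))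

lemma abs_sExp_le (hf : Pot f B) (M : ℕ) (g : ℕ → Sp (N + 1)) (h : ℕ → ℝ) (θ : Sph (N + 1)) (s : ℝ) :
    |sExp f M g h θ s| ≤ 2 * (M : ℝ) * B := by
  refine (Finset.abs_sum_le_sum_abs _ _).trans ((Finset.sum_le_sum fun a _ => (abs_sub _ _).trans
    (add_le_add (hf.bound _) (hf.bound _))).trans_eq ?_)
  simp; ring

/-- The log-partition function with the new coordinate. -/
noncomputable def sTop (f : ℝ → ℝ) (x : Fin P → ℝ) (T' : ℝ) (ω : Dis N P) (h : ℕ → ℝ) : ℝ :=
  Real.log (∫ s in Set.Icc (-T') T', ∫ θ, sphCavW f N x ((ω.1.1, (ω.1.2, h)), ω.2) (θ, s)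
    ∂sphereMeasure (N + 1) ∂sLaw N)

/-- The log-average of a weight at the new field. -/
noncomputable def sGainInt (f : ℝ → ℝ) (x : Fin P → ℝ) (G : ℝ → ℝ) (ω : Dis N P) (h : ℕ → ℝ) : ℝ :=
  Real.log (∫ θ, G (sXi f ω.1.1 ω.1.2 h θ)
    ∂gibbs (sphereMeasure (N + 1)) (sphCw f N x ω.1.1 ω.1.2 ω.2))

lemma measurable_sphCw_dis (hf : Pot f B) (x : Fin P → ℝ) :
    Measurable fun p : Dis N P × Sph (N + 1) => sphCw f N x p.1.1.1 p.1.1.2 p.1.2 p.2 := by
  have h1 : Measurable fun q : ℕ × (((ℕ → Sp (N + 1)) × PertSpace (N + 1) P) × Sph (N + 1)) =>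
      sphCw f N x q.1 q.2.1.1 q.2.1.2 q.2.2 :=
    measurable_from_prod_countable_right fun M => measurable_sphCw_fixed hf x M
  have hq : Measurable fun p : Dis N P × Sph (N + 1) => (p.1.1.1, ((p.1.1.2, p.1.2), p.2)) :=
    (measurable_fst.comp (measurable_fst.comp measurable_fst)).prodMk
      (((measurable_snd.comp (measurable_fst.comp measurable_fst)).prodMk
        (measurable_snd.comp measurable_fst)).prodMk measurable_snd)
  exact Measurable.comp (g := fun q : ℕ × (((ℕ → Sp (N + 1)) × PertSpace (N + 1) P) × Sph (N + 1)) =>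
      sphCw f N x q.1 q.2.1.1 q.2.1.2 q.2.2)
    (f := fun p : Dis N P × Sph (N + 1) => (p.1.1.1, ((p.1.1.2, p.1.2), p.2))) h1 hq

lemma measurable_sExp_fix (hf : Pot f B) (M : ℕ) (g : ℕ → Sp (N + 1)) (h : ℕ → ℝ) :
    Measurable fun p : Sph (N + 1) × ℝ => sExp f M g h p.1 p.2 :=
  Measurable.comp (g := fun q : ((ℕ → Sp (N + 1)) × (ℕ → ℝ)) × (Sph (N + 1) × ℝ) =>
      sExp f M q.1.1 q.1.2 q.2.1 q.2.2)
    (f := fun p : Sph (N + 1) × ℝ => ((g, h), p)) (measurable_sExp hf M)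
    (measurable_const.prodMk measurable_id)

lemma measurable_sXi_fix (f : ℝ → ℝ) (M : ℕ) (g : ℕ → Sp (N + 1)) (h : ℕ → ℝ) :
    Measurable fun θ : Sph (N + 1) => sXi f M g h θ :=
  Measurable.comp (g := fun q : ((ℕ → Sp (N + 1)) × (ℕ → ℝ)) × Sph (N + 1) => sXi f M q.1.1 q.1.2 q.2)
    (f := fun θ : Sph (N + 1) => ((g, h), θ)) (measurable_sXi f M)
    (measurable_const.prodMk measurable_id)

lemma measurable_sTop (hf : Pot f B) (x : Fin P → ℝ) (T' : ℝ) :
    Measurable fun p : Dis N P × (ℕ → ℝ) => sTop f x T' p.1 p.2 := by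
  have hE : Measurable fun p : (Dis N P × (ℕ → ℝ)) × (Sph (N + 1) × ℝ) =>
      sExp f p.1.1.1.1 p.1.1.1.2 p.1.2 p.2.1 p.2.2 := by
    have h1 : Measurable fun q : ℕ × (((ℕ → Sp (N + 1)) × (ℕ → ℝ)) × (Sph (N + 1) × ℝ)) =>
        sExp f q.1 q.2.1.1 q.2.1.2 q.2.2.1 q.2.2.2 :=
      measurable_from_prod_countable_right fun M => measurable_sExp hf M
    have hq : Measurable fun p : (Dis N P × (ℕ → ℝ)) × (Sph (N + 1) × ℝ) =>
        (p.1.1.1.1, ((p.1.1.1.2, p.1.2), p.2)) :=
      (measurable_fst.comp (measurable_fst.comp (measurable_fst.comp measurable_fst))).prodMk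
        (((measurable_snd.comp (measurable_fst.comp (measurable_fst.comp measurable_fst))).prodMk
          (measurable_snd.comp measurable_fst)).prodMk measurable_snd)
    exact Measurable.comp (g := fun q : ℕ × (((ℕ → Sp (N + 1)) × (ℕ → ℝ)) × (Sph (N + 1) × ℝ)) =>
      sExp f q.1 q.2.1.1 q.2.1.2 q.2.2.1 q.2.2.2)
      (f := fun p : (Dis N P × (ℕ → ℝ)) × (Sph (N + 1) × ℝ) => (p.1.1.1.1, ((p.1.1.1.2, p.1.2), p.2))) h1 hq
  have hW : Measurable fun p : ((Dis N P × (ℕ → ℝ)) × ℝ) × Sph (N + 1) =>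
      sphCavW f N x ((p.1.1.1.1.1, (p.1.1.1.1.2, p.1.1.2)), p.1.1.1.2) (p.2, p.1.2) := by
    have e : (fun p : ((Dis N P × (ℕ → ℝ)) × ℝ) × Sph (N + 1) =>
        sphCavW f N x ((p.1.1.1.1.1, (p.1.1.1.1.2, p.1.1.2)), p.1.1.1.2) (p.2, p.1.2)) = fun p =>
        sphCw f N x p.1.1.1.1.1 p.1.1.1.1.2 p.1.1.1.2 p.2 *
          Real.exp (sExp f p.1.1.1.1.1 p.1.1.1.1.2 p.1.1.2 p.2 p.1.2) :=
      funext fun p => (sphCw_mul_exp f x _ _ _ _ _ _).symm
    rw [e]
    have a1 : Measurable fun p : ((Dis N P × (ℕ → ℝ)) × ℝ) × Sph (N + 1) =>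
        sphCw f N x p.1.1.1.1.1 p.1.1.1.1.2 p.1.1.1.2 p.2 :=
      Measurable.comp (g := fun q : Dis N P × Sph (N + 1) => sphCw f N x q.1.1.1 q.1.1.2 q.1.2 q.2)
        (f := fun p : ((Dis N P × (ℕ → ℝ)) × ℝ) × Sph (N + 1) => (p.1.1.1, p.2)) (measurable_sphCw_dis hf x)
        ((measurable_fst.comp (measurable_fst.comp measurable_fst)).prodMk measurable_snd)
    have a2 : Measurable fun p : ((Dis N P × (ℕ → ℝ)) × ℝ) × Sph (N + 1) =>
        sExp f p.1.1.1.1.1 p.1.1.1.1.2 p.1.1.2 p.2 p.1.2 :=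
      Measurable.comp (g := fun q : (Dis N P × (ℕ → ℝ)) × (Sph (N + 1) × ℝ) =>
          sExp f q.1.1.1.1 q.1.1.1.2 q.1.2 q.2.1 q.2.2)
        (f := fun p : ((Dis N P × (ℕ → ℝ)) × ℝ) × Sph (N + 1) => (p.1.1, (p.2, p.1.2))) hE
        ((measurable_fst.comp measurable_fst).prodMk
          (measurable_snd.prodMk (measurable_snd.comp measurable_fst)))
    exact a1.mul a2.exp
  exact ((hW.stronglyMeasurable.integral_prod_right' (ν := sphereMeasure (N + 1))).integral_prod_right'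
    (ν := (sLaw N).restrict (Set.Icc (-T') T'))).measurable.log

lemma measurable_sGainInt (hf : Pot f B) (x : Fin P → ℝ) {G : ℝ → ℝ} (hG : Measurable G) :
    Measurable fun p : Dis N P × (ℕ → ℝ) => sGainInt f x G p.1 p.2 := by
  have hX : Measurable fun p : (Dis N P × (ℕ → ℝ)) × Sph (N + 1) =>
      sXi f p.1.1.1.1 p.1.1.1.2 p.1.2 p.2 := by
    have h1 : Measurable fun q : ℕ × (((ℕ → Sp (N + 1)) × (ℕ → ℝ)) × Sph (N + 1)) =>
        sXi f q.1 q.2.1.1 q.2.1.2 q.2.2 :=
      measurable_from_prod_countable_right fun M => measurable_sXi f M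
    exact Measurable.comp (g := fun q : ℕ × (((ℕ → Sp (N + 1)) × (ℕ → ℝ)) × Sph (N + 1)) =>
      sXi f q.1 q.2.1.1 q.2.1.2 q.2.2)
      (f := fun p : (Dis N P × (ℕ → ℝ)) × Sph (N + 1) => (p.1.1.1.1, ((p.1.1.1.2, p.1.2), p.2))) h1
      ((measurable_fst.comp (measurable_fst.comp (measurable_fst.comp measurable_fst))).prodMk
        (((measurable_snd.comp (measurable_fst.comp (measurable_fst.comp measurable_fst))).prodMk
          (measurable_snd.comp measurable_fst)).prodMk measurable_snd))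
  have hw : Measurable fun p : (Dis N P × (ℕ → ℝ)) × Sph (N + 1) =>
      sphCw f N x p.1.1.1.1 p.1.1.1.2 p.1.1.2 p.2 :=
    Measurable.comp (g := fun q : Dis N P × Sph (N + 1) => sphCw f N x q.1.1.1 q.1.1.2 q.1.2 q.2)
      (f := fun p : (Dis N P × (ℕ → ℝ)) × Sph (N + 1) => (p.1.1, p.2)) (measurable_sphCw_dis hf x)
      ((measurable_fst.comp measurable_fst).prodMk measurable_snd)
  simp only [sGainInt, integral_gibbs (wt_sphCw hf x _ _ _)]
  exact ((((hw.mul (hG.comp hX)).stronglyMeasurable.integral_prod_right'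
    (ν := sphereMeasure (N + 1))).measurable).div
      ((hw.stronglyMeasurable.integral_prod_right' (ν := sphereMeasure (N + 1))).measurable)).log

lemma abs_sTop_le (hf : Pot f B) (x : Fin P → ℝ) (T' : ℝ) (ω : Dis N P) (h : ℕ → ℝ) :
    |sTop f x T' ω h| ≤ (ω.1.1 : ℝ) * B + strength N * (‖ω.2‖ * ∑ q, |x q|) +
      |Real.log ((sLaw N).real (Set.Icc (-T') T'))| := by
  set K := (ω.1.1 : ℝ) * B + strength N * (‖ω.2‖ * ∑ q, |x q|)
  have hs0 : 0 ≤ strength N := Real.rpow_nonneg (by positivity) _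
  have hK : 0 ≤ K := add_nonneg (mul_nonneg (Nat.cast_nonneg _) hf.nonneg)
    (mul_nonneg hs0 (mul_nonneg (norm_nonneg _) (Finset.sum_nonneg fun _ _ => abs_nonneg _)))
  set σT := (sLaw N).restrict (Set.Icc (-T') T')
  set H := fun s => ∫ θ, sphCavW f N x ((ω.1.1, (ω.1.2, h)), ω.2) (θ, s) ∂sphereMeasure (N + 1)
  have hb : ∀ θ s, Real.exp (-K) ≤ sphCavW f N x ((ω.1.1, (ω.1.2, h)), ω.2) (θ, s) ∧
      sphCavW f N x ((ω.1.1, (ω.1.2, h)), ω.2) (θ, s) ≤ Real.exp K := fun θ s => by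
    unfold sphCavW
    rw [← Real.exp_add, Real.exp_le_exp, Real.exp_le_exp]
    refine abs_le.1 ((abs_add_le _ _).trans (add_le_add ((Finset.abs_sum_le_sum_abs _ _).trans
      ((Finset.sum_le_sum fun a _ => hf.bound _).trans_eq (by simp))) ?_))
    rw [abs_mul, abs_of_nonneg hs0]
    exact mul_le_mul_of_nonneg_left ((abs_real_inner_le_norm _ _).trans (mul_le_mul_of_nonneg_left
      (norm_pertVec_le x _ (mem_sphere_zero_iff_norm.1 θ.2)) (norm_nonneg _))) hs0
  have hm : Measurable fun p : ℝ × Sph (N + 1) => sphCavW f N x ((ω.1.1, (ω.1.2, h)), ω.2) (p.2, p.1) := by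
    have e : (fun p : ℝ × Sph (N + 1) => sphCavW f N x ((ω.1.1, (ω.1.2, h)), ω.2) (p.2, p.1)) =
        fun p => sphCw f N x ω.1.1 ω.1.2 ω.2 p.2 * Real.exp (sExp f ω.1.1 ω.1.2 h p.2 p.1) :=
      funext fun p => (sphCw_mul_exp f x _ _ _ _ _ _).symm
    rw [e]
    exact ((wt_sphCw hf x _ _ _).meas.comp measurable_snd).mul ((Measurable.comp (g := fun q : Sph (N + 1) × ℝ => sExp f ω.1.1 ω.1.2 h q.1 q.2)
      (f := fun p : ℝ × Sph (N + 1) => (p.2, p.1)) (measurable_sExp_fix hf ω.1.1 ω.1.2 h)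
      (measurable_snd.prodMk measurable_fst)).exp)
  have iθ : ∀ s, Integrable (fun θ => sphCavW f N x ((ω.1.1, (ω.1.2, h)), ω.2) (θ, s)) (sphereMeasure (N + 1)) :=
    fun s => (integrable_const (Real.exp K)).mono'
      (hm.comp (measurable_const.prodMk measurable_id)).aestronglyMeasurable
      (Filter.Eventually.of_forall fun θ => by
        rw [Real.norm_eq_abs, abs_of_pos ((Real.exp_pos _).trans_le (hb θ s).1)]; exact (hb θ s).2)
  have hH : ∀ s, Real.exp (-K) ≤ H s ∧ H s ≤ Real.exp K := fun s => by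
    constructor
    · simpa using integral_mono (μ := sphereMeasure (N + 1)) (integrable_const _) (iθ s) fun θ => (hb θ s).1
    · simpa using integral_mono (μ := sphereMeasure (N + 1)) (iθ s) (integrable_const _) fun θ => (hb θ s).2
  have iH : Integrable H σT := (integrable_const (Real.exp K)).mono'
    (hm.stronglyMeasurable.integral_prod_right' (ν := sphereMeasure (N + 1))).measurable.aestronglyMeasurable
    (Filter.Eventually.of_forall fun s => by
      rw [Real.norm_eq_abs, abs_of_pos ((Real.exp_pos _).trans_le (hH s).1)]; exact (hH s).2)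
  set m := (sLaw N).real (Set.Icc (-T') T')
  have h1 : m * Real.exp (-K) ≤ ∫ s, H s ∂σT := by
    have := integral_mono (integrable_const _) iH fun s => (hH s).1
    simpa [σT, m] using this
  have h2 : ∫ s, H s ∂σT ≤ m * Real.exp K := by
    have := integral_mono iH (integrable_const _) fun s => (hH s).2
    simpa [σT, m] using this
  show |Real.log (∫ s, H s ∂σT)| ≤ K + |Real.log m|
  have hm' : 0 ≤ m := measureReal_nonneg
  rcases hm'.lt_or_eq with hm0 | hm0
  · have hI := (mul_pos hm0 (Real.exp_pos _)).trans_le h1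
    have l1 := Real.log_le_log (mul_pos hm0 (Real.exp_pos _)) h1
    have l2 := Real.log_le_log hI h2
    rw [Real.log_mul hm0.ne' (Real.exp_pos _).ne', Real.log_exp] at l1 l2
    rw [abs_le]
    constructor <;> linarith [neg_abs_le (Real.log m), le_abs_self (Real.log m)]
  · rw [← hm0, zero_mul] at h1 h2
    rw [le_antisymm h2 h1, Real.log_zero, abs_zero]
    positivity

lemma abs_sGainInt_le (hf : Pot f B) (x : Fin P → ℝ) {G : ℝ → ℝ} (hG : Measurable G) {g0 g1 : ℝ}
    (hg0 : 0 < g0) (h0 : ∀ y, g0 ≤ G y) (h1 : ∀ y, G y ≤ g1) (ω : Dis N P) (h : ℕ → ℝ) :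
    |sGainInt f x G ω h| ≤ |Real.log g0| + |Real.log g1| := by
  set Q := gibbs (sphereMeasure (N + 1)) (sphCw f N x ω.1.1 ω.1.2 ω.2)
  have : IsProbabilityMeasure Q := isProbabilityMeasure_gibbs (wt_sphCw hf x _ _ _)
  have hi : Integrable (fun θ => G (sXi f ω.1.1 ω.1.2 h θ)) Q :=
    (integrable_const g1).mono' (hG.comp (measurable_sXi_fix f ω.1.1 ω.1.2 h)).aestronglyMeasurable
      (Filter.Eventually.of_forall fun θ => by
        rw [Real.norm_eq_abs, abs_of_pos (hg0.trans_le (h0 _))]; exact h1 _)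
  have a1 : g0 ≤ ∫ θ, G (sXi f ω.1.1 ω.1.2 h θ) ∂Q := by
    simpa using integral_mono (μ := Q) (integrable_const g0) hi fun θ => h0 _
  have a2 : ∫ θ, G (sXi f ω.1.1 ω.1.2 h θ) ∂Q ≤ g1 := by
    simpa using integral_mono (μ := Q) hi (integrable_const g1) fun θ => h1 _
  have l1 := Real.log_le_log hg0 a1
  have l2 := Real.log_le_log (hg0.trans_le a1) a2
  unfold sGainInt
  rw [abs_le]
  constructor <;>
    linarith [neg_abs_le (Real.log g0), le_abs_self (Real.log g1), abs_nonneg (Real.log g1),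
      abs_nonneg (Real.log g0)]

lemma integrable_sTop (hf : Pot f B) {lam : ℝ} (hl : 0 ≤ lam) (x : Fin P → ℝ) (T' : ℝ) :
    Integrable (fun p : Dis N P × (ℕ → ℝ) => sTop f x T' p.1 p.2) ((disLaw lam N P).prod fieldLaw) := by
  have h1 : Integrable (fun M : ℕ => (M : ℝ) * B) (poiLaw lam) := (integral_poiLaw_id hl).1.mul_const _
  have h2 : Integrable (fun J : PertSpace (N + 1) P => strength N * (‖J‖ * ∑ q, |x q|))
      (stdGaussian (PertSpace (N + 1) P)) := by
    simpa using ((integrable_norm_pow (E := PertSpace (N + 1) P) 1).mul_const _).const_mul _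
  have hK : Integrable (fun ω : Dis N P => (ω.1.1 : ℝ) * B + strength N * (‖ω.2‖ * ∑ q, |x q|) +
      |Real.log ((sLaw N).real (Set.Icc (-T') T'))|) (disLaw lam N P) :=
    (((h1.comp_fst (patLaw (N + 1))).comp_fst _).add (h2.comp_snd _)).add (integrable_const _)
  exact (hK.comp_fst fieldLaw).mono' (measurable_sTop hf x T').aestronglyMeasurable
    (Filter.Eventually.of_forall fun p => (Real.norm_eq_abs _).trans_le (abs_sTop_le hf x T' p.1 p.2))

/-- The remainder of the exponent, squared. -/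
lemma sExp_remainder (hs : Smf f) {D : ℝ}
    (hD : ∀ x, |deriv f x| ≤ D ∧ |deriv (deriv f) x| ≤ D ∧ |iteratedDeriv 3 f x| ≤ D)
    {T' : ℝ} (hT : 1 ≤ T') (hN : T' ^ 2 ≤ (N : ℝ) + 2) (M : ℕ) (g : ℕ → Sp (N + 1)) (h : ℕ → ℝ)
    (θ : Sph (N + 1)) (d : ℝ) {s : ℝ} (hsT : |s| ≤ T') :
    (sExp f M g h θ s - s * sXi f M g h θ - s ^ 2 * d / 2) ^ 2 ≤ T' ^ 6 * (sDev f d M g θ +
      3 * (∑ a ∈ Finset.range M, (1 / ((N : ℝ) + 2) / 2 * deriv (deriv f) (sFld g a θ)) * (h a ^ 2 - 1)) ^ 2 +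
      3 * (729 * (3 * D) ^ 2) * ((1 / ((N : ℝ) + 2)) ^ 3 *
        ((M : ℝ) * ∑ a ∈ Finset.range M, (1 + sFld g a θ ^ 6 + h a ^ 6)))) := by
  set ε := 1 / ((N : ℝ) + 2) with hε
  have hN2 : (0 : ℝ) < (N : ℝ) + 2 := by positivity
  have hε0 : 0 ≤ ε := by positivity
  have hs2 : s ^ 2 ≤ T' ^ 2 := by
    rw [← sq_abs s]; exact pow_le_pow_left₀ (abs_nonneg s) hsT 2
  have h0 : 0 ≤ ε * s ^ 2 := by positivity
  have h1 : ε * s ^ 2 ≤ 1 := by
    rw [hε, div_mul_eq_mul_div, one_mul, div_le_one hN2]; linarith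
  have hr := exponent_remainder hs hD h0 h1 M (fun a => sFld g a θ) h (s ^ 2 * d) (decide (0 ≤ s))
  have hsgn : Real.sqrt (ε * s ^ 2) * (if decide (0 ≤ s) = true then (1 : ℝ) else -1) = Real.sqrt ε * s := by
    rw [Real.sqrt_mul hε0, Real.sqrt_sq_eq_abs]
    rcases le_or_gt 0 s with hs0 | hs0
    · simp [hs0, abs_of_nonneg hs0]
    · simp [not_le.2 hs0, abs_of_neg hs0]
  have eX : (if decide (0 ≤ s) = true then Real.sqrt (ε * s ^ 2) * ∑ a ∈ Finset.range M, h a * deriv f (sFld g a θ)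
      else -(Real.sqrt (ε * s ^ 2) * ∑ a ∈ Finset.range M, h a * deriv f (sFld g a θ))) = s * sXi f M g h θ := by
    rw [show s * sXi f M g h θ = (Real.sqrt ε * s) * ∑ a ∈ Finset.range M, h a * deriv f (sFld g a θ) by
      simp only [sXi, hε]; ring, ← hsgn]
    split_ifs <;> ring
  have eE : (∑ a ∈ Finset.range M, (f (Real.sqrt (1 - ε * s ^ 2) * sFld g a θ +
        Real.sqrt (ε * s ^ 2) * (h a * if decide (0 ≤ s) = true then 1 else -1)) - f (sFld g a θ))) =
      sExp f M g h θ s := by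
    refine Finset.sum_congr rfl fun a _ => ?_
    rw [show ∀ c : ℝ, Real.sqrt (ε * s ^ 2) * (h a * c) = h a * (Real.sqrt (ε * s ^ 2) * c) from fun c => by ring,
      hsgn, show s ^ 2 / ((N : ℝ) + 2) = ε * s ^ 2 by rw [hε]; ring]
    simp only [hε]
    ring_nf
  rw [eX, eE] at hr
  refine hr.trans (le_of_le_of_eq ?_ (by rw [mul_add, mul_add]))
  have hs4 : s ^ 4 ≤ T' ^ 6 := by
    rw [show s ^ 4 = (s ^ 2) ^ 2 by ring]
    refine (pow_le_pow_left₀ (sq_nonneg s) hs2 2).trans ?_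
    rw [← pow_mul]
    exact pow_le_pow_right₀ hT (by norm_num)
  have hs6 : s ^ 6 ≤ T' ^ 6 := by
    rw [show s ^ 6 = (s ^ 2) ^ 3 by ring, show T' ^ 6 = (T' ^ 2) ^ 3 by ring]
    exact pow_le_pow_left₀ (sq_nonneg s) hs2 3
  refine add_le_add (add_le_add ?_ ?_) ?_
  · rw [sDev, show (ε * s ^ 2 * (∑ a ∈ Finset.range M, (deriv (deriv f) (sFld g a θ) -
        sFld g a θ * deriv f (sFld g a θ))) - s ^ 2 * d) ^ 2 =
        s ^ 4 * (ε * (∑ a ∈ Finset.range M, drv f (sFld g a θ)) - d) ^ 2 by simp only [drv]; ring]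
    exact mul_le_mul_of_nonneg_right hs4 (sq_nonneg _)
  · have e : (∑ a ∈ Finset.range M, (ε * s ^ 2 / 2 * deriv (deriv f) (sFld g a θ)) * (h a ^ 2 - 1)) =
        s ^ 2 * ∑ a ∈ Finset.range M, (ε / 2 * deriv (deriv f) (sFld g a θ)) * (h a ^ 2 - 1) := by
      rw [Finset.mul_sum]; exact Finset.sum_congr rfl fun a _ => by ring
    rw [e, mul_pow, mul_left_comm, ← pow_mul]
    exact mul_le_mul_of_nonneg_right hs4 (by positivity)
  · rw [mul_pow ε, ← pow_mul, show ∀ K F : ℝ, K * (ε ^ 3 * s ^ (2 * 3) * F) = s ^ 6 * (K * (ε ^ 3 * F))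
      from fun K F => by ring]
    refine mul_le_mul_of_nonneg_right hs6 (mul_nonneg (by positivity) (mul_nonneg (by positivity)
      (mul_nonneg (Nat.cast_nonneg M) (Finset.sum_nonneg fun a _ => ?_))))
    positivity

/-- The field average of the remainder. -/
lemma integral_sRem_le {D : ℝ} (hD : ∀ x, |deriv (deriv f) x| ≤ D) {ε : ℝ}
    (hε : 0 ≤ ε) (c K : ℝ) (hK : 0 ≤ K) (M : ℕ) (y : ℕ → ℝ) :
    ∫ h, (c + 3 * (∑ a ∈ Finset.range M, (ε / 2 * deriv (deriv f) (y a)) * (h a ^ 2 - 1)) ^ 2 +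
      K * (ε ^ 3 * ((M : ℝ) * ∑ a ∈ Finset.range M, (1 + y a ^ 6 + h a ^ 6)))) ∂fieldLaw ≤
      c + 3 * (D / 2) ^ 2 * var2 * (ε ^ 2 * (M : ℝ)) +
        K * (ε ^ 3 * ((M : ℝ) * ∑ a ∈ Finset.range M, (1 + y a ^ 6) + mom6 * (M : ℝ) ^ 2)) := by
  obtain ⟨hq2, hq0⟩ := sq_sub_one_facts
  have h6 := integrable_gauss_pow 6 (by decide)
  obtain ⟨iz, ez⟩ := integral_sq_sum_centred (q := fun z => z ^ 2 - 1) (by fun_prop) hq2 hq0
    (fun a => ε / 2 * deriv (deriv f) (y a)) M
  have i6 : ∀ a ∈ Finset.range M, Integrable (fun h : ℕ → ℝ => 1 + y a ^ 6 + h a ^ 6) fieldLaw :=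
    fun a _ => (integrable_const _).add (integrable_field_eval (q := fun z => z ^ 6) a h6)
  have is : Integrable (fun h : ℕ → ℝ => ∑ a ∈ Finset.range M, (1 + y a ^ 6 + h a ^ 6)) fieldLaw :=
    integrable_finsetSum _ i6
  have i1 : Integrable (fun h : ℕ → ℝ => c + 3 * (∑ a ∈ Finset.range M,
      (ε / 2 * deriv (deriv f) (y a)) * (h a ^ 2 - 1)) ^ 2) fieldLaw :=
    (integrable_const _).add (iz.const_mul 3)
  have i2 := ((is.const_mul (M : ℝ)).const_mul (ε ^ 3)).const_mul K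
  rw [integral_add i1 i2, integral_add (integrable_const _) (iz.const_mul 3), integral_const_mul,
    integral_const_mul, integral_const_mul, integral_const_mul, ez, integral_finsetSum _ i6]
  simp only [integral_const, probReal_univ, one_smul]
  refine add_le_add (add_le_add le_rfl ?_) (mul_le_mul_of_nonneg_left
    (mul_le_mul_of_nonneg_left ?_ (pow_nonneg hε 3)) hK)
  · have hsum : ∑ a ∈ Finset.range M, (ε / 2 * deriv (deriv f) (y a)) ^ 2 ≤ (M : ℝ) * (ε / 2 * D) ^ 2 := by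
      refine (Finset.sum_le_sum (g := fun _ => (ε / 2 * D) ^ 2) fun a _ => ?_).trans_eq (by simp)
      rw [← sq_abs]
      refine pow_le_pow_left₀ (abs_nonneg _) ?_ 2
      rw [abs_mul, abs_of_nonneg (by linarith : 0 ≤ ε / 2)]
      exact mul_le_mul_of_nonneg_left (hD _) (by linarith)
    exact (mul_le_mul_of_nonneg_left (mul_le_mul_of_nonneg_right hsum var2_nonneg) (by norm_num)).trans_eq
      (by simp only [var2]; ring)
  · have hz : ∀ a, ∫ h : ℕ → ℝ, (1 + y a ^ 6 + h a ^ 6) ∂fieldLaw ≤ (1 + y a ^ 6) + mom6 := fun a => by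
      rw [integral_add (integrable_const _) (integrable_field_eval (q := fun z => z ^ 6) a h6),
        integral_field_eval (q := fun z => z ^ 6) a (by fun_prop), integral_const, probReal_univ, one_smul]
      refine add_le_add le_rfl ?_
      exact integral_mono h6 ((integrable_const 1).add h6) fun z => by simp
    refine (mul_le_mul_of_nonneg_left (Finset.sum_le_sum fun a _ => hz a) (Nat.cast_nonneg M)).trans_eq ?_
    simp only [Finset.sum_add_distrib, Finset.sum_const, Finset.card_range, nsmul_eq_mul]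
    ring

/-- The field average of the cosine of a multiple of the field. -/
lemma integral_cosh_sXi {D : ℝ} (hD : ∀ x, |deriv f x| ≤ D) (g : ℕ → Sp (N + 1)) (M : ℕ)
    (θ : Sph (N + 1)) (k : ℝ) :
    Integrable (fun h => Real.cosh (k * sXi f M g h θ)) fieldLaw ∧
      ∫ h, Real.cosh (k * sXi f M g h θ) ∂fieldLaw ≤
        Real.exp (k ^ 2 * D ^ 2 / 2 * (1 / ((N : ℝ) + 2)) * M) := by
  set ε := 1 / ((N : ℝ) + 2) with hε
  have hε0 : 0 ≤ ε := by positivity
  have e : ∀ h : ℕ → ℝ, k * sXi f M g h θ =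
      ∑ a ∈ Finset.range M, (k * Real.sqrt ε * deriv f (sFld g a θ)) * h a := fun h => by
    simp only [sXi, Finset.mul_sum, hε]; exact Finset.sum_congr rfl fun a _ => by ring
  simp only [e]
  obtain ⟨i, ie⟩ := integral_field_cosh M fun a => k * Real.sqrt ε * deriv f (sFld g a θ)
  refine ⟨i, ie.trans_le (Real.exp_le_exp.2 ?_)⟩
  have : ∀ a, (k * Real.sqrt ε * deriv f (sFld g a θ)) ^ 2 ≤ k ^ 2 * ε * D ^ 2 := fun a => by
    rw [mul_pow, mul_pow, Real.sq_sqrt hε0, ← sq_abs (deriv f _)]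
    exact mul_le_mul_of_nonneg_left (pow_le_pow_left₀ (abs_nonneg _) (hD _) 2) (by positivity)
  calc (∑ a ∈ Finset.range M, (k * Real.sqrt ε * deriv f (sFld g a θ)) ^ 2) / 2
      ≤ (∑ a ∈ Finset.range M, k ^ 2 * ε * D ^ 2) / 2 :=
        div_le_div_of_nonneg_right (Finset.sum_le_sum fun a _ => this a) (by norm_num)
    _ = k ^ 2 * D ^ 2 / 2 * ε * (M : ℝ) := by simp; ring

/-- The constant of the coordinate step: the reciprocal floor. -/
noncomputable def sphFloor (M : ℝ) : ℝ :=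
  Real.exp (-|M| / 2) * (gaussianReal 0 1).real (Set.Icc (-1) 1)

lemma sphFloor_pos (M : ℝ) : 0 < sphFloor M := mul_pos (Real.exp_pos _) icc_real_pos

/-- The truncated weight is bounded. -/
lemma exists_sphG_le (a : ℝ) {T L : ℝ} (hT : 1 ≤ T) (hL : 0 < L) : ∃ g1, ∀ y, sphG a T L y ≤ g1 := by
  refine ⟨Real.exp (|a| * T ^ 2) * Real.cosh (T * L), fun y => ?_⟩
  refine (integral_mono (integrable_trunc (continuous_sphInt a L y) T) (integrable_const (Real.exp (|a| * T ^ 2) * Real.cosh (T * L))) fun s => ?_).trans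
    (by simp)
  by_cases hsT : s ∈ Set.Icc (-T) T
  · rw [Set.indicator_of_mem hsT]
    have h1 : |s| ≤ T := abs_le.2 hsT
    have h2 : s ^ 2 ≤ T ^ 2 := by rw [← sq_abs s]; exact pow_le_pow_left₀ (abs_nonneg s) h1 2
    refine mul_le_mul (Real.exp_le_exp.2 ?_) ?_ (Real.cosh_pos _).le (Real.exp_pos _).le
    · nlinarith [mul_le_mul (le_abs_self a) h2 (sq_nonneg s) (abs_nonneg a), mul_nonneg (abs_nonneg a) (sq_nonneg T)]
    · rw [Real.cosh_le_cosh, abs_mul, abs_mul T, abs_of_nonneg (by linarith : 0 ≤ T), abs_of_pos hL]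
      exact mul_le_mul h1 (abs_mul_tanh_le hL y) (abs_nonneg _) (by linarith)
  · rw [Set.indicator_of_notMem hsT]
    exact (mul_pos (Real.exp_pos _) (Real.cosh_pos _)).le

lemma measurable_sphG (a : ℝ) {T L : ℝ} (hT : 1 ≤ T) (hL : 0 < L) : Measurable (sphG a T L) := by
  have h := (lip_logSphG a hT hL).meas.exp
  simp only [Real.exp_log (sphG_pos a hT L _)] at h
  exact h

/-- The cavity inequality at fixed disorder. -/
lemma sph_pointwise (hf : Pot f B) (hs : Smf f) {D : ℝ}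
    (hD : ∀ x, |deriv f x| ≤ D ∧ |deriv (deriv f) x| ≤ D ∧ |iteratedDeriv 3 f x| ≤ D)
    (x : Fin P → ℝ) {T L Ma δ a d t : ℝ} (hT : 1 ≤ T) (hL : 0 < L) (ha : |a| ≤ Ma) (had : a ≤ d)
    (ht : 0 < t) (hN : (T + 1) ^ 2 ≤ (N : ℝ) + 2) (hδ : δ ≤ sphFloor Ma / 2) (hδ0 : 0 ≤ δ)
    (happ : ∀ y, sphG a T L y - δ ≤
      ∫ s, cutoff T s * (Real.exp (a * s ^ 2 / 2) * Real.cosh (s * (L * Real.tanh (y / L)))) ∂sLaw N)
    (M : ℕ) (g : ℕ → Sp (N + 1)) (J : PertSpace (N + 1) P) :
    (∫ h, sGainInt f x (sphG a T L) ((M, g), J) h ∂fieldLaw) - 2 * δ / sphFloor Ma -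
      2 / sphFloor Ma * (t * ((T + 1) ^ 6 *
        ((∫ θ, sDev f d M g θ ∂gibbs (sphereMeasure (N + 1)) (sphCw f N x M g J)) +
          3 * (D / 2) ^ 2 * var2 * ((1 / ((N : ℝ) + 2)) ^ 2 * (M : ℝ)) +
          3 * (729 * (3 * D) ^ 2) * ((1 / ((N : ℝ) + 2)) ^ 3 *
            ((∫ θ, sSix M g θ ∂gibbs (sphereMeasure (N + 1)) (sphCw f N x M g J)) + mom6 * (M : ℝ) ^ 2)))) +
        2 * Real.exp (|Ma| * (T + 1) ^ 2) *
          Real.exp (2 * (T + 1) ^ 2 * D ^ 2 * (1 / ((N : ℝ) + 2)) * M) / (4 * t)) ≤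
    (∫ h, sTop f x (T + 1) ((M, g), J) h ∂fieldLaw) -
      logI (sphereMeasure (N + 1)) (sphCw f N x M g J) := by
  set ε := 1 / ((N : ℝ) + 2) with hε
  set K := 3 * (729 * (3 * D) ^ 2)
  set T' := T + 1 with hT'
  have hT1 : 1 ≤ T' := by linarith
  have hε0 : 0 ≤ ε := by positivity
  have hD0 : 0 ≤ D := (abs_nonneg _).trans (hD 0).1
  have hw := wt_sphCw (N := N) hf x M g J
  set w := sphCw f N x M g J
  set G := gibbs (sphereMeasure (N + 1)) w
  have : IsProbabilityMeasure G := isProbabilityMeasure_gibbs hw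
  set g0 := sphFloor Ma
  have hg0 : 0 < g0 := sphFloor_pos Ma
  have hG0 : ∀ y, g0 ≤ sphG a T L y := fun y => sphG_ge (ha.trans (le_abs_self _)) hT y
  set U := fun (h : ℕ → ℝ) θ => sDev f d M g θ +
    3 * (∑ a ∈ Finset.range M, (ε / 2 * deriv (deriv f) (sFld g a θ)) * (h a ^ 2 - 1)) ^ 2 +
    K * (ε ^ 3 * ((M : ℝ) * ∑ a ∈ Finset.range M, (1 + sFld g a θ ^ 6 + h a ^ 6)))
  -- bounds on the sphere
  have hy := fun a θ => abs_sFld_le g a θ
  have hdrv : ∀ a θ, |drv f (sFld g a θ)| ≤ D * (1 + ‖g a‖) := fun a θ => by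
    refine (abs_sub _ _).trans ?_
    rw [abs_mul, mul_add, mul_one, mul_comm D ‖g a‖]
    exact add_le_add (hD _).2.1 (mul_le_mul (hy a θ) (hD _).1 (abs_nonneg _) (norm_nonneg _))
  set b1 := (ε * ∑ a ∈ Finset.range M, D * (1 + ‖g a‖) + |d|) ^ 2
  have hdev : ∀ θ, |sDev f d M g θ| ≤ b1 := fun θ => by
    rw [sDev, abs_of_nonneg (sq_nonneg _), ← sq_abs]
    refine pow_le_pow_left₀ (abs_nonneg _) ((abs_sub _ _).trans (add_le_add ?_ le_rfl)) 2
    rw [abs_mul, abs_of_nonneg hε0]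
    exact mul_le_mul_of_nonneg_left ((Finset.abs_sum_le_sum_abs _ _).trans
      (Finset.sum_le_sum fun a _ => hdrv a θ)) hε0
  set b6 := (M : ℝ) * ∑ a ∈ Finset.range M, (1 + ‖g a‖ ^ 6)
  have hy6 : ∀ a θ, sFld g a θ ^ 6 ≤ ‖g a‖ ^ 6 := fun a θ => by
    rw [← (show Even 6 by decide).pow_abs]; exact pow_le_pow_left₀ (abs_nonneg _) (hy a θ) 6
  have hsix : ∀ θ, |sSix M g θ| ≤ b6 := fun θ => by
    rw [sSix, abs_of_nonneg (mul_nonneg (Nat.cast_nonneg M) (Finset.sum_nonneg fun a _ => by positivity))]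
    exact mul_le_mul_of_nonneg_left (Finset.sum_le_sum fun a _ => add_le_add le_rfl (hy6 a θ)) (Nat.cast_nonneg M)
  have mdrv : Measurable (drv f) := by unfold drv; fun_prop
  have mdev : Measurable (sDev f d M g) :=
    (((Finset.measurable_sum (Finset.range M) fun a _ => mdrv.comp (measurable_sFld g a)).const_mul _).sub_const d).pow_const 2
  have msix : Measurable (sSix M g) :=
    (Finset.measurable_sum (Finset.range M) fun a _ => ((measurable_sFld g a).pow_const 6).const_add 1).const_mul _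
  have idev : Integrable (sDev f d M g) G := (integrable_const b1).mono' mdev.aestronglyMeasurable
    (Filter.Eventually.of_forall fun θ => (Real.norm_eq_abs _).trans_le (hdev θ))
  have isix : Integrable (sSix M g) G := (integrable_const b6).mono' msix.aestronglyMeasurable
    (Filter.Eventually.of_forall fun θ => (Real.norm_eq_abs _).trans_le (hsix θ))
  -- joint integrability
  set bU := fun h : ℕ → ℝ => b1 + 3 * ((M : ℝ) * ∑ a ∈ Finset.range M, (ε / 2 * D) ^ 2 * (h a ^ 2 - 1) ^ 2) +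
    K * (ε ^ 3 * ((M : ℝ) * ∑ a ∈ Finset.range M, (1 + ‖g a‖ ^ 6 + h a ^ 6)))
  have hbU : ∀ h θ, |U h θ| ≤ bU h := fun h θ => by
    simp only [U, bU]
    refine (abs_add_le _ _).trans (add_le_add ((abs_add_le _ _).trans (add_le_add (hdev θ) ?_)) ?_)
    · rw [abs_of_nonneg (by positivity)]
      refine mul_le_mul_of_nonneg_left (sq_sum_le_card_mul_sum_sq.trans ?_) (by norm_num)
      rw [Finset.card_range]
      refine mul_le_mul_of_nonneg_left (Finset.sum_le_sum fun a _ => ?_) (Nat.cast_nonneg M)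
      rw [mul_pow]
      refine mul_le_mul_of_nonneg_right ?_ (sq_nonneg _)
      rw [← sq_abs, abs_mul, abs_of_nonneg (by linarith : 0 ≤ ε / 2)]
      exact pow_le_pow_left₀ (by positivity) (mul_le_mul_of_nonneg_left (hD _).2.1 (by linarith)) 2
    · rw [abs_of_nonneg (mul_nonneg (by positivity) (mul_nonneg (by positivity) (mul_nonneg (Nat.cast_nonneg M)
        (Finset.sum_nonneg fun a _ => by positivity))))]
      exact mul_le_mul_of_nonneg_left (mul_le_mul_of_nonneg_left (mul_le_mul_of_nonneg_left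
        (Finset.sum_le_sum fun a _ => add_le_add (add_le_add le_rfl (hy6 a θ)) le_rfl)
        (Nat.cast_nonneg M)) (pow_nonneg hε0 3)) (by positivity)
  have hbUi : Integrable bU fieldLaw := by
    have h6 := integrable_gauss_pow 6 (by decide)
    have h4 : Integrable (fun z : ℝ => (z ^ 2 - 1) ^ 2) (gaussianReal 0 1) := sq_sub_one_facts.1.integrable_sq
    exact ((integrable_const b1).add (((integrable_finsetSum _ fun a _ =>
      (integrable_field_eval (q := fun z => (z ^ 2 - 1) ^ 2) a h4).const_mul _).const_mul _).const_mul 3)).add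
      ((((integrable_finsetSum _ fun a _ => (integrable_const _).add
        (integrable_field_eval (q := fun z => z ^ 6) a h6)).const_mul _).const_mul _).const_mul K)
  have mU : Measurable fun p : (ℕ → ℝ) × Sph (N + 1) => U p.1 p.2 := by
    have mf : ∀ a, Measurable fun p : (ℕ → ℝ) × Sph (N + 1) => sFld g a p.2 := fun a =>
      (measurable_sFld g a).comp measurable_snd
    have mh : ∀ a : ℕ, Measurable fun p : (ℕ → ℝ) × Sph (N + 1) => p.1 a := fun a =>
      (measurable_pi_apply a).comp measurable_fst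
    exact ((mdev.comp measurable_snd).add (((Finset.measurable_sum (Finset.range M) fun a _ =>
      (((measurable_deriv _).comp (mf a)).const_mul (ε / 2)).mul (((mh a).pow_const 2).sub_const 1)).pow_const 2).const_mul 3)).add
      ((((Finset.measurable_sum (Finset.range M) fun a _ => (((mf a).pow_const 6).const_add 1).add
        ((mh a).pow_const 6)).const_mul _).const_mul _).const_mul K)
  have iU2 : Integrable (fun p : (ℕ → ℝ) × Sph (N + 1) => U p.1 p.2) (fieldLaw.prod G) :=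
    (hbUi.comp_fst G).mono' mU.aestronglyMeasurable
      (Filter.Eventually.of_forall fun p => (Real.norm_eq_abs _).trans_le (hbU p.1 p.2))
  have mX : Measurable fun p : (ℕ → ℝ) × Sph (N + 1) => sXi f M g p.1 p.2 :=
    (measurable_sXi f M).comp ((measurable_const.prodMk measurable_fst).prodMk measurable_snd)
  have hXb : ∀ h θ, |sXi f M g h θ| ≤ Real.sqrt ε * ∑ a ∈ Finset.range M, |h a| * D := fun h θ => by
    rw [sXi, abs_mul, abs_of_nonneg (Real.sqrt_nonneg _)]
    exact mul_le_mul_of_nonneg_left ((Finset.abs_sum_le_sum_abs _ _).trans (Finset.sum_le_sum fun a _ => by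
      rw [abs_mul]; exact mul_le_mul_of_nonneg_left (hD _).1 (abs_nonneg _))) (Real.sqrt_nonneg _)
  have iC2 : Integrable (fun p : (ℕ → ℝ) × Sph (N + 1) => Real.cosh (2 * T' * sXi f M g p.1 p.2))
      (fieldLaw.prod G) := by
    refine (integrable_prod_iff' (mX.const_mul _).cosh.aestronglyMeasurable).2
      ⟨Filter.Eventually.of_forall fun θ => (integral_cosh_sXi (fun y => (hD y).1) g M θ _).1, ?_⟩
    refine (integrable_const (Real.exp ((2 * T') ^ 2 * D ^ 2 / 2 * ε * M))).mono'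
      ((mX.const_mul _).cosh.norm.stronglyMeasurable.integral_prod_left' (μ := fieldLaw)).aestronglyMeasurable
      (Filter.Eventually.of_forall fun θ => ?_)
    rw [Real.norm_eq_abs, abs_of_nonneg (integral_nonneg fun _ => norm_nonneg _)]
    simp only [Real.norm_eq_abs, abs_of_pos (Real.cosh_pos _)]
    exact (integral_cosh_sXi (fun y => (hD y).1) g M θ _).2
  -- the inequality for fixed fields
  have hp : ∀ h, sGainInt f x (sphG a T L) ((M, g), J) h - 2 * δ / g0 -
      2 / g0 * (t * (T' ^ 6 * ∫ θ, U h θ ∂G) +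
        2 * Real.exp (|Ma| * T' ^ 2) * (∫ θ, Real.cosh (2 * T' * sXi f M g h θ) ∂G) / (4 * t)) ≤
      sTop f x T' ((M, g), J) h - logI (sphereMeasure (N + 1)) w := fun h => by
    refine (sph_point hw hT hL ha had ht hg0 hG0 hδ hδ0 happ
      (ξ := sXi f M g h) (measurable_sXi_fix f M g h)
      (hXb h) (Δ := fun θ s => sExp f M g h θ s)
      (measurable_sExp_fix hf M g h) (abs_sExp_le hf M g h)
      (U := U h) ((integrable_const (bU h)).mono' (mU.comp (measurable_const.prodMk measurable_id)).aestronglyMeasurable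
        (Filter.Eventually.of_forall fun θ => (Real.norm_eq_abs _).trans_le (hbU h θ)))
      fun θ s hsT => sExp_remainder hs hD hT1 hN M g h θ d hsT).trans_eq ?_
    simp only [sTop, ← sphCw_mul_exp]
    rfl
  obtain ⟨g1, hG1⟩ := exists_sphG_le a hT hL
  have mG : Measurable (sphG a T L) := measurable_sphG a hT hL
  have il : Integrable (sGainInt f x (sphG a T L) ((M, g), J)) fieldLaw :=
    (integrable_const (|Real.log g0| + |Real.log g1|)).mono'
      ((measurable_sGainInt hf x mG).comp (measurable_const.prodMk measurable_id)).aestronglyMeasurable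
      (Filter.Eventually.of_forall fun h => (Real.norm_eq_abs _).trans_le
        (abs_sGainInt_le hf x mG hg0 hG0 hG1 _ h))
  have it : Integrable (sTop f x T' ((M, g), J)) fieldLaw :=
    (integrable_const ((M : ℝ) * B + strength N * (‖J‖ * ∑ q, |x q|) +
      |Real.log ((sLaw N).real (Set.Icc (-T') T'))|)).mono'
      ((measurable_sTop hf x T').comp (measurable_const.prodMk measurable_id)).aestronglyMeasurable
      (Filter.Eventually.of_forall fun h => (Real.norm_eq_abs _).trans_le (abs_sTop_le hf x T' _ h))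
  have iUh := iU2.integral_prod_left
  have iCh := iC2.integral_prod_left
  have i1 : Integrable (fun h => sGainInt f x (sphG a T L) ((M, g), J) h - 2 * δ / g0) fieldLaw :=
    il.sub (integrable_const _)
  have iA := (iUh.const_mul (T' ^ 6)).const_mul t
  have iB := (iCh.const_mul (2 * Real.exp (|Ma| * T' ^ 2))).div_const (4 * t)
  have iAB : Integrable (fun h => t * (T' ^ 6 * ∫ θ, U h θ ∂G) +
      2 * Real.exp (|Ma| * T' ^ 2) * (∫ θ, Real.cosh (2 * T' * sXi f M g h θ) ∂G) / (4 * t)) fieldLaw :=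
    iA.add iB
  have hm := integral_mono (i1.sub (iAB.const_mul (2 / g0))) (it.sub (integrable_const _)) hp
  simp only [Pi.sub_apply] at hm
  rw [integral_sub i1 (iAB.const_mul (2 / g0)), integral_sub il (integrable_const _),
    integral_sub it (integrable_const _), integral_const_mul, integral_add iA iB] at hm
  simp only [integral_div, integral_const_mul, integral_const, probReal_univ, one_smul] at hm
  have u1 : ∫ h, ∫ θ, U h θ ∂G ∂fieldLaw ≤ (∫ θ, sDev f d M g θ ∂G) +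
      3 * (D / 2) ^ 2 * var2 * (ε ^ 2 * (M : ℝ)) +
      K * (ε ^ 3 * ((∫ θ, sSix M g θ ∂G) + mom6 * (M : ℝ) ^ 2)) := by
    rw [integral_integral_swap iU2]
    refine (integral_mono iU2.integral_prod_right ((idev.add (integrable_const _)).add
      (((isix.add (integrable_const _)).const_mul _).const_mul K)) fun θ =>
      integral_sRem_le (fun y => (hD y).2.1) hε0 (sDev f d M g θ) K (by positivity) M fun a => sFld g a θ).trans_eq ?_
    have i3 : Integrable (fun θ => sDev f d M g θ + 3 * (D / 2) ^ 2 * var2 * (ε ^ 2 * (M : ℝ))) G :=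
      idev.add (integrable_const _)
    have i4 : Integrable (fun θ => K * (ε ^ 3 * (sSix M g θ + mom6 * (M : ℝ) ^ 2))) G :=
      ((isix.add (integrable_const _)).const_mul _).const_mul K
    simp only [Pi.add_apply]
    rw [integral_add i3 i4, integral_add idev (integrable_const _)]
    simp [integral_const_mul, integral_add isix (integrable_const _)]
  have u2 : ∫ h, ∫ θ, Real.cosh (2 * T' * sXi f M g h θ) ∂G ∂fieldLaw ≤
      Real.exp (2 * T' ^ 2 * D ^ 2 * ε * M) := by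
    rw [integral_integral_swap iC2]
    refine (integral_mono iC2.integral_prod_right (integrable_const _) fun θ =>
      (integral_cosh_sXi (fun y => (hD y).1) g M θ (2 * T')).2).trans_eq ?_
    simp only [integral_const, probReal_univ, one_smul, hε]
    congr 1
    ring
  refine le_trans ?_ hm
  have v1 := mul_le_mul_of_nonneg_left u1 (by positivity : 0 ≤ 2 / g0 * (t * T' ^ 6))
  have v2 := mul_le_mul_of_nonneg_left u2
    (by positivity : 0 ≤ 2 / g0 * (2 * Real.exp (|Ma| * T' ^ 2) / (4 * t)))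
  linear_combination v1 + v2

end Vale.Agent.P157.Low
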