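import Vale.Agent.P157.Low.CubeSys
import Vale.Agent.P157.Low.SphLaw

/-!
The perturbed spherical perceptron with a Poisson number of patterns, and its cavity version with
one more coordinate, truncated.
-/

namespace Vale.Agent.P157.Low

open MeasureTheory ProbabilityTheory
open scoped RealInnerProductSpace

variable {f : ℝ → ℝ} {B : ℝ} {P : ℕ}

lemma measurable_sphSum (hf : Pot f B) (N k : ℕ) :
    Measurable fun p : (ℕ × (ℕ → Sp (N + 1))) × Sph (N + 1) =>
      ∑ a ∈ Finset.range (p.1.1 + k), f ⟪p.1.2 a, (p.2 : Sp (N + 1))⟫ := by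
  have h : Measurable fun q : ℕ × ((ℕ → Sp (N + 1)) × Sph (N + 1)) =>
      ∑ a ∈ Finset.range (q.1 + k), f ⟪q.2.1 a, (q.2.2 : Sp (N + 1))⟫ :=
    measurable_from_prod_countable_right fun M => Finset.measurable_sum (Finset.range (M + k)) fun a _ =>
      hf.meas.comp (Measurable.inner ((measurable_pi_apply a).comp measurable_fst)
        (measurable_subtype_coe.comp measurable_snd))
  have hq : Measurable fun p : (ℕ × (ℕ → Sp (N + 1))) × Sph (N + 1) => (p.1.1, (p.1.2, p.2)) :=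
    (measurable_fst.comp measurable_fst).prodMk ((measurable_snd.comp measurable_fst).prodMk measurable_snd)
  exact Measurable.comp (g := fun q : ℕ × ((ℕ → Sp (N + 1)) × Sph (N + 1)) =>
    ∑ a ∈ Finset.range (q.1 + k), f ⟪q.2.1 a, (q.2.2 : Sp (N + 1))⟫)
    (f := fun p : (ℕ × (ℕ → Sp (N + 1))) × Sph (N + 1) => (p.1.1, (p.1.2, p.2))) h hq

/-- The perceptron on the sphere in `N + 1` dimensions with `k` more than a Poisson number of
patterns. -/
noncomputable def sphBase (hf : Pot f B) (N : ℕ) (lam : ℝ) (k : ℕ) : Sys where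
  Ω := ℕ × (ℕ → Sp (N + 1))
  mΩ := inferInstance
  law := (poiLaw lam).prod (patLaw (N + 1))
  prob := inferInstance
  X := Sph (N + 1)
  mX := inferInstance
  ref := sphereMeasure (N + 1)
  probRef := isProbabilityMeasure_sphereMeasure (Nat.le_add_left 1 N)
  E := Sp (N + 1)
  normE := inferInstance
  innerE := inferInstance
  finE := inferInstance
  mE := inferInstance
  borelE := inferInstance
  v := Subtype.val
  measV := measurable_subtype_coe
  unit := fun x => mem_sphere_zero_iff_norm.1 x.2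
  w ω x := Real.exp (∑ a ∈ Finset.range (ω.1 + k), f ⟪ω.2 a, (x : Sp (N + 1))⟫)
  measW := Real.measurable_exp.comp (measurable_sphSum hf N k)
  wt ω := Wt.exp (F := fun x : Sph (N + 1) => ∑ a ∈ Finset.range (ω.1 + k), f ⟪ω.2 a, (x : Sp (N + 1))⟫)
    (Finset.measurable_sum (Finset.range (ω.1 + k)) fun a _ =>
      hf.meas.comp (Measurable.inner measurable_const measurable_subtype_coe))
    (β := (ω.1 + k : ℕ) * B) fun x =>
    (Finset.abs_sum_le_sum_abs _ _).trans ((Finset.sum_le_sum fun a _ => hf.bound _).trans_eq (by simp))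

/-- The perturbed system. -/
noncomputable def sphSys (hf : Pot f B) (N : ℕ) (lam : ℝ) (k : ℕ) (x : Fin P → ℝ) : Sys :=
  (sphBase hf N lam k).perturb (N := N + 1) (fun r : Sph (N + 1) => (r : Sp (N + 1)))
    measurable_subtype_coe (fun r => mem_sphere_zero_iff_norm.1 r.2) (strength N) x

/-- The field of pattern `a` at a configuration. -/
noncomputable def sphPat {hf : Pot f B} {N : ℕ} {lam : ℝ} {k : ℕ} {x : Fin P → ℝ}
    (ω : (sphSys hf N lam k x).Ω) (a : ℕ) (r : Sph (N + 1)) : ℝ :=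
  ⟪ω.1.2 a, (r : Sp (N + 1))⟫

/-- The number of patterns. -/
def sphCnt {hf : Pot f B} {N : ℕ} {lam : ℝ} {k : ℕ} {x : Fin P → ℝ}
    (ω : (sphSys hf N lam k x).Ω) : ℕ :=
  ω.1.1 + k

/-- Weight of a configuration with the new coordinate `z.2`: `N + 2` coordinates, perturbation on
the direction of the old ones. -/
noncomputable def sphCavW (f : ℝ → ℝ) (N : ℕ) (x : Fin P → ℝ)
    (ω : (ℕ × ((ℕ → Sp (N + 1)) × (ℕ → ℝ))) × PertSpace (N + 1) P) (z : Sph (N + 1) × ℝ) : ℝ :=
  Real.exp (∑ a ∈ Finset.range ω.1.1,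
      f (Real.sqrt (1 - z.2 ^ 2 / ((N : ℝ) + 2)) * ⟪ω.1.2.1 a, (z.1 : Sp (N + 1))⟫ +
        Real.sqrt (1 / ((N : ℝ) + 2)) * (ω.1.2.2 a * z.2))) *
    Real.exp (strength N * ⟪ω.2, pertVec x (z.1 : Sp (N + 1))⟫)

/-- Expected log-partition function with the new coordinate kept in `[-T, T]`. -/
noncomputable def sphCavTop (f : ℝ → ℝ) (α : ℝ) (N : ℕ) (x : Fin P → ℝ) (T : ℝ) : ℝ :=
  ∫ ω, Real.log (∫ s in Set.Icc (-T) T, ∫ r, sphCavW f N x ω (r, s) ∂sphereMeasure (N + 1) ∂sLaw N)
    ∂((poiLaw (α * ((N : ℝ) + 2))).prod ((patLaw (N + 1)).prod fieldLaw)).prod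
      (stdGaussian (PertSpace (N + 1) P))

/-- Gain of the new coordinate and its patterns. -/
noncomputable def sphCavDiff (hf : Pot f B) (α : ℝ) (N : ℕ) (x : Fin P → ℝ) (T : ℝ) : ℝ :=
  sphCavTop f α N x T - (sphSys hf N (α * ((N : ℝ) + 1)) 0 x).free

end Vale.Agent.P157.Low
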