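import Vale.Agent.P157.Low.Telescope

/-!
Gaussian fields over a general configuration space: splitting a field, fields whose scale varies
a little with the configuration, and averages over patterns.
-/

namespace Vale.Agent.P157.Low

open MeasureTheory ProbabilityTheory Complex
open scoped RealInnerProductSpace

section split

variable {E F G : Type} [NormedAddCommGroup E] [InnerProductSpace ℝ E] [FiniteDimensional ℝ E]
  [MeasurableSpace E] [BorelSpace E] [NormedAddCommGroup F] [InnerProductSpace ℝ F]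
  [FiniteDimensional ℝ F] [MeasurableSpace F] [BorelSpace F] [NormedAddCommGroup G]
  [InnerProductSpace ℝ G] [FiniteDimensional ℝ G] [MeasurableSpace G] [BorelSpace G]
  {a : F → E} {a' : E → F} {b : G → E} {b' : E → G}

/-- Two orthogonal parts of a Gaussian vector. -/
lemma measurePreserving_parts (ha : Measurable a) (hb : Measurable b)
    (hA : ∀ g t, ⟪a g, t⟫ = ⟪g, a' t⟫) (hB : ∀ g t, ⟪b g, t⟫ = ⟪g, b' t⟫)
    (hn : ∀ t, ‖a' t‖ ^ 2 + ‖b' t‖ ^ 2 = ‖t‖ ^ 2) :
    MeasurePreserving (fun p : F × G => a p.1 + b p.2) ((stdGaussian F).prod (stdGaussian G))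
      (stdGaussian E) := by
  have hm : Measurable fun p : F × G => a p.1 + b p.2 :=
    (ha.comp measurable_fst).add (hb.comp measurable_snd)
  refine ⟨hm, ?_⟩
  have : IsProbabilityMeasure (((stdGaussian F).prod (stdGaussian G)).map fun p => a p.1 + b p.2) :=
    Measure.isProbabilityMeasure_map hm.aemeasurable
  refine Measure.ext_of_charFun ?_
  funext t
  rw [charFun_apply, integral_map hm.aemeasurable (Continuous.aestronglyMeasurable (by fun_prop)),
    charFun_stdGaussian]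
  have e : ∀ p : F × G, cexp ((⟪a p.1 + b p.2, t⟫ : ℝ) * I) =
      cexp ((⟪p.1, a' t⟫ : ℝ) * I) * cexp ((⟪p.2, b' t⟫ : ℝ) * I) := fun p => by
    rw [← Complex.exp_add, inner_add_left, hA, hB]
    push_cast
    ring_nf
  simp only [e]
  rw [integral_prod_mul (fun g : F => cexp ((⟪g, a' t⟫ : ℝ) * I))
    (fun g : G => cexp ((⟪g, b' t⟫ : ℝ) * I)), integral_cexp_inner,
    integral_cexp_inner, ← Complex.exp_add]
  congr 1
  have : ((‖a' t‖ : ℝ) : ℂ) ^ 2 + ((‖b' t‖ : ℝ) : ℂ) ^ 2 = ((‖t‖ : ℝ) : ℂ) ^ 2 := by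
    exact_mod_cast hn t
  linear_combination -this / 2

/-- A part of a field lowers the expected log-partition function, by at most half the variance of
the other part. -/
lemma elz_parts {X : Type} [MeasurableSpace X] {μ : Measure X} [IsProbabilityMeasure μ] {w : X → ℝ}
    {U : X → E} (hw : Wt w) (hU : Measurable U) {l : ℝ} (hl : ∀ y, ‖U y‖ ≤ l)
    (ha : Measurable a) (hb : Measurable b) (ha' : Measurable a') (hb' : Measurable b')
    (hA : ∀ g t, ⟪a g, t⟫ = ⟪g, a' t⟫) (hB : ∀ g t, ⟪b g, t⟫ = ⟪g, b' t⟫)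
    (hn : ∀ t, ‖a' t‖ ^ 2 + ‖b' t‖ ^ 2 = ‖t‖ ^ 2) {m : ℝ} (hm : ∀ y, ‖b' (U y)‖ ≤ m) :
    elz μ (fun y => a' (U y)) w ≤ elz μ U w ∧
      elz μ U w ≤ elz μ (fun y => a' (U y)) w + m ^ 2 / 2 := by
  set φ : F × G → E := fun p => a p.1 + b p.2
  have hmp := measurePreserving_parts ha hb hA hB hn
  have hi := integrable_lz_one (μ := μ) hw hU hl
  have hi2 : Integrable (fun p => lz μ U w (φ p)) ((stdGaussian F).prod (stdGaussian G)) :=
    (hmp.integrable_comp hi.aestronglyMeasurable).2 hi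
  have hUa : Measurable fun y => a' (U y) := ha'.comp hU
  have hUb : Measurable fun y => b' (U y) := hb'.comp hU
  have hla : ∀ y, ‖a' (U y)‖ ≤ l := fun y => by
    refine le_trans ?_ (hl y)
    nlinarith [hn (U y), norm_nonneg (a' (U y)), norm_nonneg (U y), sq_nonneg ‖b' (U y)‖]
  have he : elz μ U w = ∫ g, elz μ (fun y => b' (U y))
      (fun y => w y * Real.exp ⟪g, a' (U y)⟫) ∂stdGaussian F := by
    have h1 : ∫ p, lz μ U w (φ p) ∂(stdGaussian F).prod (stdGaussian G) = elz μ U w := by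
      rw [elz]
      show _ = ∫ h, lz μ U w h ∂stdGaussian E
      conv_rhs => rw [← hmp.map_eq]
      exact (integral_map hmp.measurable.aemeasurable
        (by rw [hmp.map_eq]; exact hi.aestronglyMeasurable)).symm
    rw [← h1, integral_prod _ hi2]
    refine integral_congr_ae (Filter.Eventually.of_forall fun g => integral_congr_ae
      (Filter.Eventually.of_forall fun h => ?_))
    simp only [lz, φ]
    congr 1
    funext y
    rw [inner_add_left, hA, hB, Real.exp_add, mul_assoc]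
  have hwa : ∀ g, Wt fun y => w y * Real.exp ⟪g, a' (U y)⟫ := fun g =>
    hw.mul (wt_field hUa hla g)
  have hia := integrable_lz_one (μ := μ) hw hUa hla
  have hib : Integrable (fun g => elz μ (fun y => b' (U y))
      (fun y => w y * Real.exp ⟪g, a' (U y)⟫)) (stdGaussian F) := by
    refine hi2.integral_prod_left.congr (Filter.Eventually.of_forall fun g => integral_congr_ae
      (Filter.Eventually.of_forall fun h => ?_))
    simp only [lz, φ]
    congr 1
    funext y
    rw [inner_add_left, hA, hB, Real.exp_add, mul_assoc]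
  refine ⟨?_, ?_⟩
  · rw [he]
    exact integral_mono hia hib fun g => logI_le_elz (hwa g) hUb hm
  · rw [he]
    refine (integral_mono hib (hia.add (integrable_const (m ^ 2 / 2))) fun g =>
      elz_le (hwa g) hUb hm).trans ?_
    simp only [Pi.add_apply]
    rw [integral_add hia (integrable_const _)]
    simp [elz]

end split

/-- Three stacked copies. -/
noncomputable def stack3 {ι : Type} (z : Fin 3 → ι → ℝ) : EuclideanSpace ℝ (Fin 3 × ι) :=
  WithLp.toLp 2 fun k => z k.1 k.2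

variable {X : Type} [MeasurableSpace X] {μ : Measure X} [IsProbabilityMeasure μ] {w : X → ℝ}

/-- A field with a scale varying in `[κ₀, κ₀ + δ]` is nearly above the field with scale `κ₀`. -/
lemma elz_scale {ι : Type} [Fintype ι] (hw : Wt w) {V : X → EuclideanSpace ℝ ι} (hV : Measurable V)
    {l : ℝ} (hl : ∀ y, ‖V y‖ ≤ l) {κ : X → ι → ℝ} (hκ : ∀ i, Measurable fun y => κ y i) {κ0 δ : ℝ}
    (h0 : 0 ≤ κ0) (hδ : 0 < δ) (h1 : κ0 + δ ≤ 1) (hκb : ∀ y i, κ y i ∈ Set.Icc κ0 (κ0 + δ)) :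
    elz μ (fun y => WithLp.toLp 2 fun i => κ0 * V y i) w ≤
      elz μ (fun y => WithLp.toLp 2 fun i => κ y i * V y i) w + δ * l ^ 2 := by
  set t := Real.sqrt δ with ht
  have ht2 : t ^ 2 = δ := Real.sq_sqrt hδ.le
  have ht0 : 0 < t := Real.sqrt_pos.2 hδ
  set c := Real.sqrt (1 / δ - 1) with hc
  have hc2 : c ^ 2 = 1 / δ - 1 := Real.sq_sqrt (by
    rw [le_sub_iff_add_le, zero_add, le_div_iff₀ hδ]; linarith)
  set u : Fin 3 → ℝ := ![1 - δ, t, -(δ * c)] with hu
  have hu2 : ∑ k, u k ^ 2 = 1 := by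
    simp [hu, Fin.sum_univ_three, mul_pow, hc2, ht2]
    field_simp
    ring
  set L : X → EuclideanSpace ℝ (Fin 3 × ι) := fun y => stack3
    ![fun i => κ y i * V y i, fun i => t * κ0 * V y i, fun i => c * (κ y i - κ0) * V y i] with hL
  have hLm : Measurable L := by
    refine (WithLp.measurable_toLp 2 _).comp (measurable_pi_lambda _ fun k => ?_)
    have hVi : Measurable fun y => V y k.2 :=
      (measurable_pi_apply k.2).comp ((WithLp.measurable_ofLp 2 _).comp hV)
    rcases k with ⟨k, i⟩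
    fin_cases k <;> simp [stack3]
    · exact (hκ i).mul hVi
    · exact hVi.const_mul _
    · exact ((((hκ i).sub_const κ0).const_mul c)).mul hVi
  have hsum : ∀ (z : Fin 3 → ι → ℝ), ∑ k, stack3 z k ^ 2 = ∑ i, ∑ k, z k i ^ 2 := fun z => by
    rw [Fintype.sum_prod_type, Finset.sum_comm]; rfl
  have hnorm : ∀ z : EuclideanSpace ℝ (Fin 3 × ι), ‖z‖ ^ 2 = ∑ i, ∑ k, z (k, i) ^ 2 := fun z => by
    rw [EuclideanSpace.real_norm_sq_eq, Fintype.sum_prod_type, Finset.sum_comm]
  have hl2 : ∀ y, ∑ i, V y i ^ 2 ≤ l ^ 2 := fun y => by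
    rw [← EuclideanSpace.real_norm_sq_eq]; exact pow_le_pow_left₀ (norm_nonneg _) (hl y) 2
  have hl0 : 0 ≤ l ∨ IsEmpty X := by
    rcases isEmpty_or_nonempty X with h | ⟨⟨y⟩⟩
    · exact Or.inr h
    · exact Or.inl ((norm_nonneg _).trans (hl y))
  have hl0 : 0 ≤ l := hl0.resolve_right fun h => by
    have := IsProbabilityMeasure.ne_zero μ
    exact this (Measure.eq_zero_of_isEmpty μ)
  -- bound on the whole stack
  have hLl : ∀ y, ‖L y‖ ≤ (2 + c) * l := fun y => by
    have hbd : ‖L y‖ ^ 2 ≤ ((2 + c) * l) ^ 2 := by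
      rw [EuclideanSpace.real_norm_sq_eq, hL, hsum, mul_pow]
      refine le_trans ?_ (mul_le_mul_of_nonneg_left (hl2 y) (sq_nonneg _))
      rw [Finset.mul_sum]
      refine Finset.sum_le_sum fun i _ => ?_
      obtain ⟨g1, g2⟩ := hκb y i
      simp [Fin.sum_univ_three, mul_pow]
      have hc0 : 0 ≤ c := Real.sqrt_nonneg _
      have e1 : κ y i ^ 2 ≤ 1 := pow_le_one₀ (h0.trans g1) (g2.trans h1)
      have e2 : t ^ 2 * κ0 ^ 2 ≤ 1 := mul_le_one₀ (ht2.le.trans (by linarith)) (sq_nonneg _)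
        (pow_le_one₀ h0 (by linarith))
      have e3 : c ^ 2 * (κ y i - κ0) ^ 2 ≤ c ^ 2 :=
        mul_le_of_le_one_right (sq_nonneg _) (pow_le_one₀ (by linarith) (by linarith))
      nlinarith [sq_nonneg (V y i)]
    exact (pow_le_pow_iff_left₀ (norm_nonneg _) (by have := Real.sqrt_nonneg (1 / δ - 1); positivity)
      two_ne_zero).1 hbd
  -- the direction `u`
  set A : EuclideanSpace ℝ ι → EuclideanSpace ℝ (Fin 3 × ι) :=
    fun g => stack3 fun k i => u k * g i with hA
  set A' : EuclideanSpace ℝ (Fin 3 × ι) → EuclideanSpace ℝ ι :=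
    fun z => WithLp.toLp 2 fun i => ∑ k, u k * z (k, i) with hA'
  set Q : EuclideanSpace ℝ (Fin 3 × ι) → EuclideanSpace ℝ (Fin 3 × ι) :=
    fun z => stack3 fun k i => z (k, i) - u k * ∑ k', u k' * z (k', i) with hQ
  have hm1 : Measurable A ∧ Measurable A' ∧ Measurable Q := by
    refine ⟨?_, ?_, ?_⟩ <;> simp only [hA, hA', hQ, stack3] <;> fun_prop
  have hAA : ∀ g z, ⟪A g, z⟫ = ⟪g, A' z⟫ := fun g z => by
    simp [hA, hA', stack3, PiLp.inner_apply, Fintype.sum_prod_type, Finset.sum_mul]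
    rw [Finset.sum_comm]
    refine Finset.sum_congr rfl fun i _ => Finset.sum_congr rfl fun k _ => by ring
  have hQQ : ∀ g z, ⟪Q g, z⟫ = ⟪g, Q z⟫ := fun g z => by
    simp [hQ, stack3, PiLp.inner_apply, Fintype.sum_prod_type]
    rw [Finset.sum_comm]
    conv_rhs => rw [Finset.sum_comm]
    refine Finset.sum_congr rfl fun i _ => ?_
    simp [Fin.sum_univ_three]
    ring
  have hAn : ∀ z, ‖A' z‖ ^ 2 + ‖Q z‖ ^ 2 = ‖z‖ ^ 2 := fun z => by
    rw [EuclideanSpace.real_norm_sq_eq, hnorm, hnorm, ← Finset.sum_add_distrib]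
    refine Finset.sum_congr rfl fun i _ => ?_
    rw [Fin.sum_univ_three] at hu2
    simp [hA', hQ, stack3, Fin.sum_univ_three]
    linear_combination (u 0 * z (0, i) + u 1 * z (1, i) + u 2 * z (2, i)) ^ 2 * hu2
  have hQl : ∀ y, ‖Q (L y)‖ ≤ (2 + c) * l := fun y => by
    refine le_trans ?_ (hLl y)
    nlinarith [hAn (L y), norm_nonneg (Q (L y)), norm_nonneg (L y), sq_nonneg ‖A' (L y)‖]
  have hlow := (elz_parts (μ := μ) hw hLm hLl hm1.1 hm1.2.2 hm1.2.1 hm1.2.2 hAA hQQ hAn hQl).1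
  have e1 : ∀ y, A' (L y) = WithLp.toLp 2 fun i => κ0 * V y i := fun y => by
    simp only [hA']
    congr 1
    funext i
    simp [hL, stack3, hu, Fin.sum_univ_three]
    have : δ * c * (c * (κ y i - κ0)) = (1 - δ) * (κ y i - κ0) := by
      rw [show δ * c * (c * (κ y i - κ0)) = δ * c ^ 2 * (κ y i - κ0) by ring, hc2]
      field_simp
    linear_combination (κ0 * V y i) * ht2 - V y i * this
  simp only [e1] at hlow
  -- the first copy
  set B : EuclideanSpace ℝ ι → EuclideanSpace ℝ (Fin 3 × ι) :=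
    fun g => stack3 ![fun i => g i, 0, 0] with hB
  set B' : EuclideanSpace ℝ (Fin 3 × ι) → EuclideanSpace ℝ ι :=
    fun z => WithLp.toLp 2 fun i => z (0, i) with hB'
  set R : EuclideanSpace ℝ (Fin 3 × ι) → EuclideanSpace ℝ (Fin 3 × ι) :=
    fun z => stack3 ![0, fun i => z (1, i), fun i => z (2, i)] with hR
  have hm2 : Measurable B ∧ Measurable B' ∧ Measurable R := by
    refine ⟨?_, ?_, ?_⟩
    · refine (WithLp.measurable_toLp 2 _).comp (measurable_pi_lambda _ fun k => ?_)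
      rcases k with ⟨k, i⟩
      fin_cases k <;> simp <;> fun_prop
    · simp only [hB']; fun_prop
    · refine (WithLp.measurable_toLp 2 _).comp (measurable_pi_lambda _ fun k => ?_)
      rcases k with ⟨k, i⟩
      fin_cases k <;> simp <;> fun_prop
  have hBB : ∀ g z, ⟪B g, z⟫ = ⟪g, B' z⟫ := fun g z => by
    simp [hB, hB', stack3, PiLp.inner_apply, Fintype.sum_prod_type, Fin.sum_univ_three]
  have hRR : ∀ g z, ⟪R g, z⟫ = ⟪g, R z⟫ := fun g z => by
    simp [hR, stack3, PiLp.inner_apply, Fintype.sum_prod_type, Fin.sum_univ_three]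
  have hBn : ∀ z, ‖B' z‖ ^ 2 + ‖R z‖ ^ 2 = ‖z‖ ^ 2 := fun z => by
    rw [EuclideanSpace.real_norm_sq_eq, hnorm, hnorm, ← Finset.sum_add_distrib]
    refine Finset.sum_congr rfl fun i _ => ?_
    simp [hB', hR, stack3, Fin.sum_univ_three]
    ring
  have hRl : ∀ y, ‖R (L y)‖ ≤ Real.sqrt (2 * δ * l ^ 2) := fun y => by
    refine Real.le_sqrt_of_sq_le ?_
    rw [EuclideanSpace.real_norm_sq_eq, hR, hsum]
    refine le_trans ?_ (mul_le_mul_of_nonneg_left (hl2 y) (by positivity))
    rw [Finset.mul_sum]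
    refine Finset.sum_le_sum fun i _ => ?_
    obtain ⟨g1, g2⟩ := hκb y i
    simp [hL, stack3, Fin.sum_univ_three, mul_pow]
    have e2 : t ^ 2 * κ0 ^ 2 ≤ δ := by
      rw [ht2]; exact mul_le_of_le_one_right hδ.le (pow_le_one₀ h0 (by linarith))
    have e3 : c ^ 2 * (κ y i - κ0) ^ 2 ≤ δ := by
      rw [hc2]
      calc (1 / δ - 1) * (κ y i - κ0) ^ 2 ≤ (1 / δ) * δ ^ 2 := mul_le_mul (by linarith)
            (pow_le_pow_left₀ (by linarith) (by linarith) 2) (sq_nonneg _) (by positivity)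
        _ = δ := by field_simp
    nlinarith [sq_nonneg (V y i)]
  have hup := (elz_parts (μ := μ) hw hLm hLl hm2.1 hm2.2.2 hm2.2.1 hm2.2.2 hBB hRR hBn hRl).2
  have e2 : ∀ y, B' (L y) = WithLp.toLp 2 fun i => κ y i * V y i := fun y => by
    simp only [hB']
    congr 1
  simp only [e2] at hup
  rw [Real.sq_sqrt (by positivity)] at hup
  linarith

end Vale.Agent.P157.Low
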