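import Vale.Agent.P157.Low.SphTop
import Vale.Agent.P157.Low.Parisi

/-!
The cavity value of a discretisation on the sphere is at least Parisi's functional.
-/

namespace Vale.Agent.P157.Low

open MeasureTheory ProbabilityTheory

variable {r : ℕ}

lemma casc_const {ι : Type} {m d : ι → ℝ} (b : ℝ) :
    ∀ {l : List ι}, (∀ i ∈ l, m i ≠ 0) → ∀ x, RSB.casc (gaussianReal 0 1) m (sigd d) l (fun _ => b) x = b
  | [], _, _ => rfl
  | i :: l, h, x => by
    simp only [RSB.casc, casc_const b fun j hj => h j (List.mem_cons_of_mem _ hj)]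
    exact RSB.lexp_const (h i (List.mem_cons_self ..)) b

/-- The multiplier and the logarithmic terms as nested values of the levels. -/
lemma rsbMult_eq {ι : Type} {m d : ι → ℝ} : ∀ (l : List ι) (R : ℕ → ℝ),
    (∀ (t : ℕ) (ht : t < l.length), d (l[t]'ht) = R (t + 1) - R t) → ∀ (dl : ι → ℝ) (z : ℝ),
      rsbMult (l.map fun i => (m i, dl i)) R z = qmult m d l z ∧
        rsbLogs (l.map fun i => (m i, dl i)) R z = qlogs m d l z
  | [], _, _, _, _ => ⟨rfl, rfl⟩
  | i :: l, R, h, dl, z => by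
    have h0 := h 0 (by simp)
    simp only [List.getElem_cons_zero, zero_add] at h0
    obtain ⟨ih1, ih2⟩ := rsbMult_eq (m := m) l (fun j => R (j + 1))
      (fun t ht => by
        have h' := h (t + 1) (by simpa using ht)
        rwa [List.getElem_cons_succ] at h') dl z
    simp only [List.map_cons, rsbMult, rsbLogs, qmult, qlogs, ih1, ih2, h0, and_self]

lemma rsbPair_flat : ∀ l : List (ℝ × ℝ), (∀ p ∈ l, p.2 = 0) → rsbPair l 1 (fun _ => 1) = 0
  | [], _ => by simp [rsbPair]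
  | (m, d) :: l, h => by
    have hd : d = 0 := h (m, d) (List.mem_cons_self ..)
    simp only [rsbPair, hd, add_zero, mul_one, sub_self, mul_zero, zero_add]
    exact rsbPair_flat l fun p hp => h p (List.mem_cons_of_mem _ hp)

lemma LevelParam.pairing_le {m q : Fin (r + 1) → ℝ} (h : LevelParam m q) {v : Fin (r + 1) → ℝ}
    (hv : Monotone v) (h0 : 0 ≤ v 0) :
    0 ≤ ∑ j : Fin (r + 1), ((if h : (j : ℕ) + 1 ≤ r then m ⟨(j : ℕ) + 1, by omega⟩ else 1) - m j) *
        (q j * v j) ∧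
      ∑ j : Fin (r + 1), ((if h : (j : ℕ) + 1 ≤ r then m ⟨(j : ℕ) + 1, by omega⟩ else 1) - m j) *
        (q j * v j) ≤ v (Fin.last r) := by
  set w : Fin (r + 1) → ℝ := fun j =>
    (if h : (j : ℕ) + 1 ≤ r then m ⟨(j : ℕ) + 1, by omega⟩ else 1) - m j with hw
  have hle1 : ∀ j, m j ≤ 1 := fun j => by
    by_cases hj : j = 0
    · rw [hj, h.zero]; exact zero_le_one
    · exact (h.pos j hj).2
  have hw0 : ∀ j, 0 ≤ w j := fun j => by
    simp only [hw]
    split_ifs with hj
    · exact sub_nonneg.2 (h.monom (Fin.le_def.2 (Nat.le_succ (j : ℕ))))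
    · exact sub_nonneg.2 (hle1 j)
  have hsum : ∑ j, w j = 1 := by
    have e := pair_sum r m (fun _ => 1) (fun _ => (1 : ℝ))
    have f0 := rsbPair_flat (levels m fun _ : Fin (r + 1) => (1 : ℝ)) fun p hp => by
      simp only [levels, List.mem_ofFn] at hp
      obtain ⟨i, rfl⟩ := hp
      simp [incr_succ]
    rw [h.zero, f0] at e
    simpa [hw] using e
  have hv0 : ∀ j, 0 ≤ v j := fun j => h0.trans (hv (Fin.zero_le j))
  refine ⟨Finset.sum_nonneg fun j _ => mul_nonneg (hw0 j) (mul_nonneg (h.rangeq j).1 (hv0 j)), ?_⟩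
  refine (Finset.sum_le_sum fun j _ => mul_le_mul_of_nonneg_left
    ((mul_le_of_le_one_left (hv0 j) (h.rangeq j).2.le).trans (hv (Fin.le_last j))) (hw0 j)).trans (le_of_eq ?_)
  rw [← Finset.sum_mul]
  exact (congrArg (· * v (Fin.last r)) hsum).trans (one_mul _)

/-- The spin part: Gaussian quadratics through the levels. -/
lemma spin_root_ge {m v : Fin (r + 1) → ℝ} (hm0 : m 0 = 0) (hm : ∀ j, j ≠ 0 → 0 < m j)
    (hvm : Monotone v) (hv0 : 0 ≤ v 0) {M : ℝ} (hvM : v (Fin.last r) ≤ M) {g : ℝ → ℝ} {K : ℝ}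
    (hg : RSB.Lip K g) {Z c K1 K2 κ1 κ2 ρ : ℝ} (hZ : 0 < Z) (hK1 : 0 ≤ K1) (hK2 : 0 ≤ K2)
    (hpos : 0 < qmult m (incr v) (lv r) Z) (hρ : Z / qmult m (incr v) (lv r) Z ≤ ρ)
    (hle : ∀ y, y ^ 2 / (2 * Z) + c - (K1 * Real.cosh (κ1 * y) + K2 * Real.cosh (κ2 * y)) ≤ g y) :
    v 0 / (2 * qmult m (incr v) (lv r) Z) + (c + qlogs m (incr v) (lv r) Z) -
        (K1 * Real.exp (κ1 ^ 2 * ρ ^ 2 * M / 2) + K2 * Real.exp (κ2 ^ 2 * ρ ^ 2 * M / 2)) ≤
      potUp m (incr v) g (r + 1) 0 := by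
  have hne : ∀ j, j ≠ 0 → m j ≠ 0 := fun j hj => (hm j hj).ne'
  have hgood := good_lv hm (incr v)
  rw [potUp_root hne hm0, incr_zero]
  set q := qmult m (incr v) (lv r) Z
  set ρ0 := Z / q
  have hρ0 : 0 ≤ ρ0 := div_nonneg hZ.le hpos.le
  set a := Real.sqrt (v 0) with ha
  set S := ((lv r).map (incr v)).sum with hS
  have hpt := casc_quad_ge hg hZ hK1 hK2 hle hgood (fun i _ => incr_nonneg hvm hv0 i) hpos
  have iU : Integrable (fun z => RSB.casc (gaussianReal 0 1) m (sigd (incr v)) (lv r) g (a * z))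
      (gaussianReal 0 1) := by simpa using lip_integrable (hg.casc hgood) 0 a
  have iq : Integrable (fun z : ℝ => z ^ 2) (gaussianReal 0 1) := by
    simpa using (memLp_id_gaussianReal (μ := 0) (v := 1) 2).integrable_sq
  have ic : ∀ κ, Integrable (fun z => Real.cosh (κ * ρ0 * (a * z))) (gaussianReal 0 1) := fun κ => by
    simpa using (gauss_quad_cosh (a := 0) (k := a) (by norm_num) (κ * ρ0) 0).1
  have ec : ∀ κ, ∫ z, Real.cosh (κ * ρ0 * (a * z)) ∂gaussianReal 0 1 = Real.exp ((κ * ρ0) ^ 2 * v 0 / 2) :=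
    fun κ => by simpa using integral_cosh_gauss (κ * ρ0) 0 hv0
  have eq2 : ∫ z : ℝ, z ^ 2 ∂gaussianReal 0 1 = 1 := by
    have h := variance_id_gaussianReal (μ := 0) (v := 1)
    rw [variance_eq_integral measurable_id.aemeasurable] at h
    simpa using h
  set E1 := K1 * Real.exp (κ1 ^ 2 * ρ0 ^ 2 * S / 2)
  set E2 := K2 * Real.exp (κ2 ^ 2 * ρ0 ^ 2 * S / 2)
  have hmono := integral_mono (((iq.const_mul (v 0 / (2 * q))).add
      (integrable_const (c + qlogs m (incr v) (lv r) Z))).sub (((ic κ1).const_mul E1).add ((ic κ2).const_mul E2)))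
    iU fun z => by
      refine le_trans (le_of_eq ?_) (hpt (a * z))
      simp only [Pi.add_apply, Pi.sub_apply]
      rw [mul_pow, ha, Real.sq_sqrt hv0]
      ring
  simp only [Pi.add_apply, Pi.sub_apply] at hmono
  have e1 := integral_sub ((iq.const_mul (v 0 / (2 * q))).add
      (integrable_const (c + qlogs m (incr v) (lv r) Z))) (((ic κ1).const_mul E1).add ((ic κ2).const_mul E2))
  simp only [Pi.add_apply] at e1
  rw [e1, integral_add (iq.const_mul _) (integrable_const _),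
    integral_add ((ic κ1).const_mul E1) ((ic κ2).const_mul E2), integral_const_mul, integral_const_mul,
    integral_const_mul, eq2, ec, ec] at hmono
  simp only [integral_const, probReal_univ, one_smul, mul_one] at hmono
  have hb : ∀ κ Kc : ℝ, 0 ≤ Kc → Kc * Real.exp (κ ^ 2 * ρ0 ^ 2 * S / 2) * Real.exp ((κ * ρ0) ^ 2 * v 0 / 2) ≤
      Kc * Real.exp (κ ^ 2 * ρ ^ 2 * M / 2) := fun κ Kc hKc => by
    rw [mul_assoc, ← Real.exp_add]
    refine mul_le_mul_of_nonneg_left (Real.exp_le_exp.2 ?_) hKc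
    have hSv : S + v 0 = v (Fin.last r) := by rw [hS, sum_lv_incr]; ring
    have h1 : κ ^ 2 * ρ0 ^ 2 * (S + v 0) ≤ κ ^ 2 * ρ0 ^ 2 * M :=
      mul_le_mul_of_nonneg_left (hSv.trans_le hvM) (by positivity)
    have h2 : κ ^ 2 * ρ0 ^ 2 * M ≤ κ ^ 2 * ρ ^ 2 * M :=
      mul_le_mul_of_nonneg_right (mul_le_mul_of_nonneg_left (pow_le_pow_left₀ hρ0 hρ 2) (sq_nonneg _))
        ((hv0.trans (hvm (Fin.zero_le _))).trans hvM)
    rw [mul_pow]
    linarith
  linarith [hb κ1 K1 hK1, hb κ2 K2 hK2]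

/-- The cavity value on the sphere, with truncated spin weights, is above every lower bound of
Parisi's functional. -/
theorem value_ge_parisiSphere {f : ℝ → ℝ} (hf : Smf f) {B : ℝ} (hB : ∀ x, |f x| ≤ B) {α : ℝ} (hα : 0 ≤ α)
    {D : ℝ} (hD : ∀ x, |deriv f x| ≤ D) {ε : ℝ} (hε : 0 < ε) (c : ℝ) :
    ∃ T L A, 1 ≤ T ∧ 0 < L ∧ ∀ (r : ℕ) (m q : Fin (r + 1) → ℝ), LevelParam m q →
      (∀ z, 1 ≤ z → 0 < rsbMult (levels m q) (fun j => α * rsbOverlap f (q 0) (levels m q) j) z →
        c ≤ parisiSphere f α (q 0) (levels m q) z) →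
      ∃ a, |a| ≤ A ∧
        a ≤ α * ((∑ j : Fin (r + 1), ((if h : (j : ℕ) + 1 ≤ r then m ⟨(j : ℕ) + 1, by omega⟩ else 1) - m j) *
          (q j * conj f m q j)) - conjDiag f m q) ∧
        c - ε ≤ α * potUp m (incr q) (fun y => Real.log (topW f q y)) (r + 1) 0 +
          potUp m (incr fun j => α * conj f m q j)
            (fun y => Real.log (heat (sphG a T L) (α * (conjDiag f m q - conj f m q (Fin.last r))) y))
            (r + 1) 0 := by
  set M := α * D ^ 2 with hM
  have hM0 : 0 ≤ M := mul_nonneg hα (sq_nonneg D)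
  set δ := Real.exp (-2 * (|c| + α * B + 1)) with hδdef
  have hδ : 0 < δ := Real.exp_pos _
  set Zm := 1 + 2 * M + ε + δ with hZm
  obtain ⟨C, κ, A, hC, htop⟩ := exists_top_ge (δ := δ) (Zm := Zm) (τm := M) hδ
  set ρ := Zm / δ with hρ
  set T := max 1 (4 * (C * Real.exp (κ ^ 2 * ρ ^ 2 * M / 2)) / ε) with hT
  have hT1 : 1 ≤ T := le_max_left _ _
  have hTb : C * Real.exp (-T) * Real.exp (κ ^ 2 * ρ ^ 2 * M / 2) ≤ ε / 4 := by
    have h1 : Real.exp (-T) ≤ 1 / T := by
      rw [Real.exp_neg, one_div]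
      exact inv_anti₀ (by linarith) (by linarith [Real.add_one_le_exp T])
    have h2 := mul_le_mul_of_nonneg_left h1 (show 0 ≤ C * Real.exp (κ ^ 2 * ρ ^ 2 * M / 2) by positivity)
    have h3 : C * Real.exp (κ ^ 2 * ρ ^ 2 * M / 2) * (1 / T) ≤ ε / 4 := by
      rw [mul_one_div, div_le_iff₀ (by linarith)]
      have h4 := le_max_right 1 (4 * (C * Real.exp (κ ^ 2 * ρ ^ 2 * M / 2)) / ε)
      rw [← hT, div_le_iff₀ hε] at h4
      linarith
    linarith
  set X := C * (4 * T * Real.exp (A * T ^ 2 / 2) * Real.exp ((T + 1) ^ 2 * M / 2)) *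
    Real.exp ((T + 1) ^ 2 * ρ ^ 2 * M / 2) with hX
  have hX0 : 0 ≤ X := by positivity
  set L := 4 * X / ε + 1 with hL
  have hL0 : 0 < L := by positivity
  have hLb : C * (4 * T / L * Real.exp (A * T ^ 2 / 2) * Real.exp ((T + 1) ^ 2 * M / 2)) *
      Real.exp ((T + 1) ^ 2 * ρ ^ 2 * M / 2) ≤ ε / 4 := by
    rw [show C * (4 * T / L * Real.exp (A * T ^ 2 / 2) * Real.exp ((T + 1) ^ 2 * M / 2)) *
      Real.exp ((T + 1) ^ 2 * ρ ^ 2 * M / 2) = X / L by rw [hX]; ring, div_le_iff₀ hL0, hL]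
    field_simp
    linarith
  refine ⟨T, L, A, hT1, hL0, fun r m q h hc => ?_⟩
  obtain ⟨hmono, h0, hlast, hdiag⟩ := conj_props hf h hD
  obtain ⟨hs0, hs1⟩ := h.pairing_le hmono h0
  set sv := ∑ j : Fin (r + 1), ((if h : (j : ℕ) + 1 ≤ r then m ⟨(j : ℕ) + 1, by omega⟩ else 1) - m j) *
    (q j * conj f m q j) with hsv
  set R : ℕ → ℝ := rsbOverlap f (q 0) (levels m q) with hR
  have hRj : ∀ j : Fin (r + 1), conj f m q j = R j := fun j => conj_eq_overlap hf hD h j
  set v : Fin (r + 1) → ℝ := fun j => α * conj f m q j with hv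
  have hvm : Monotone v := fun a b hab => mul_le_mul_of_nonneg_left (hmono hab) hα
  have hv0 : 0 ≤ v 0 := mul_nonneg hα h0
  have hvM : v (Fin.last r) ≤ M := mul_le_mul_of_nonneg_left (hlast.trans hdiag) hα
  set τ := α * (conjDiag f m q - conj f m q (Fin.last r)) with hτ
  have hτ0 : 0 ≤ τ := mul_nonneg hα (sub_nonneg.2 hlast)
  have hτM : τ ≤ M := mul_le_mul_of_nonneg_left
    (by linarith [hmono (Fin.zero_le (Fin.last r))]) hα
  set z := 1 + α * (conj f m q (Fin.last r) - sv) with hz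
  have hz1 : 1 ≤ z := by
    have := mul_nonneg hα (sub_nonneg.2 hs1)
    linarith
  have hzM : z ≤ 1 + M := by
    have := mul_le_mul_of_nonneg_left (show conj f m q (Fin.last r) - sv ≤ D ^ 2 by linarith) hα
    linarith
  have hmp : ∀ i ∈ lv r, 0 < m i ∧ m i ≤ 1 ∧ 0 ≤ incr v i := fun i hi =>
    ⟨(h.pos i (mem_lv.1 hi)).1, (h.pos i (mem_lv.1 hi)).2, incr_nonneg hvm hv0 i⟩
  have hlow : 1 - M ≤ qmult m (incr v) (lv r) z := by
    refine le_trans ?_ (le_qmult m (incr v) (fun i hi => ⟨(hmp i hi).2.1, (hmp i hi).2.2⟩) z)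
    rw [sum_lv_incr]
    linarith
  set Δ := max ε (δ - qmult m (incr v) (lv r) z) with hΔ
  have hΔε : ε ≤ Δ := le_max_left _ _
  have hΔm : Δ ≤ ε + δ + M := max_le (by linarith) (by linarith)
  set Z := z + Δ with hZ
  set Q := qmult m (incr v) (lv r) Z with hQ
  have hQδ : δ ≤ Q := by
    rw [hQ, hZ, qmult_add]
    linarith [le_max_right ε (δ - qmult m (incr v) (lv r) z)]
  have hQ0 : 0 < Q := hδ.trans_le hQδ
  have hQZ : Q ≤ Z := qmult_le m (incr v) (fun i hi => ⟨(hmp i hi).1, (hmp i hi).2.2⟩) Z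
  have hZ0 : 0 < Z := hQ0.trans_le hQZ
  have hZle : Z ≤ Zm := by linarith
  obtain ⟨haA, htop'⟩ := htop T L Z τ hT1 hL0 (hQδ.trans hQZ) hZle hτ0 hτM
  refine ⟨1 - τ - Z, haA, ?_, ?_⟩
  · rw [hZ, hz, hτ]; linarith
  have hspin := spin_root_ge h.zero h.pos' hvm hv0 hvM (lip_logHeat_sphG (1 - τ - Z) hT1 hL0 τ) hZ0
    (K1 := C * Real.exp (-T))
    (K2 := C * (4 * T / L * Real.exp (A * T ^ 2 / 2) * Real.exp ((T + 1) ^ 2 * M / 2)))
    (κ1 := κ) (κ2 := T + 1) (c := -Real.log Z / 2) (ρ := ρ)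
    (by positivity) (by positivity) hQ0
    (div_le_div₀ (by linarith) hZle hδ hQδ)
    (fun y => by linarith [htop' y])
  have hE : potUp m (incr q) (fun y => Real.log (topW f q y)) (r + 1) 0 =
      rsbEnergy f (q 0) (levels m q) := by
    rw [potUp_root h.ne h.zero, incr_zero, rsbEnergy, h.rsbRest_eq, levels_eq, rsbPot_nil]
    exact integral_congr_ae (Filter.Eventually.of_forall fun z => (rsbPot_eq _ _).symm)
  have hP : sv = conj f m q (Fin.last r) - rsbPair (levels m q) (q 0) R := by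
    simp only [hsv, hRj]
    rw [pair_sum r m q R, h.zero, Fin.val_last]
    ring
  have e0 : α * R 0 = v 0 := by simp only [hv, hRj, Fin.val_zero]
  obtain ⟨em, el⟩ := rsbMult_eq (m := m) (d := incr v) (lv r) (fun j => α * R j) (fun t ht => by
    rw [length_lv] at ht
    simp only [lv, List.getElem_ofFn, incr_succ, hv, hRj, Fin.val_succ, Fin.val_castSucc]) (incr q) Z
  rw [← levels_eq] at em el
  have hcases : c - Δ / 2 ≤ α * rsbEnergy f (q 0) (levels m q) +
        (v 0 / (2 * Q) + (-Real.log Z / 2 + qlogs m (incr v) (lv r) Z)) := by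
    have h1 := hc Z (by linarith) (by rw [em]; exact hQ0)
    rw [parisiSphere, ← hR] at h1
    simp only at h1
    rw [em, el, e0, ← hQ] at h1
    have h2 : α * rsbPair (levels m q) (q 0) R = z - 1 := by rw [hz, hP]; ring
    rw [hZ] at h1 ⊢
    linarith
  have hgoal : c - ε / 2 ≤ α * rsbEnergy f (q 0) (levels m q) +
        (v 0 / (2 * Q) + (-Real.log Z / 2 + qlogs m (incr v) (lv r) Z)) := by
    rcases le_total (δ - qmult m (incr v) (lv r) z) ε with hcs | hcs
    · rw [hΔ, max_eq_left hcs] at hcases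
      exact hcases
    · have hQeq : Q = δ := by rw [hQ, hZ, qmult_add, hΔ, max_eq_right hcs]; ring
      have hlog := qlogs_ge m (incr v) hmp Z hQ0
      rw [← hQ, hQeq, hδdef, Real.log_exp] at hlog
      have hEn : -B ≤ rsbEnergy f (q 0) (levels m q) := by
        obtain hlip := lip_top hf hD q
        rw [← hE, potUp_root h.ne h.zero]
        have hgood := good_lv h.pos' (incr q)
        refine le_trans (le_of_eq (by simp)) (integral_mono (integrable_const (-B))
          (by simpa using lip_integrable (hlip.casc hgood) 0 (Real.sqrt (incr q 0))) fun x => ?_)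
        refine le_trans (le_of_eq (casc_const (d := incr q) (-B) (fun i hi => h.ne i (mem_lv.1 hi)) _).symm)
          (RSB.casc_mono ⟨measurable_const, hlip.nonneg, fun _ _ => by
            simpa using mul_nonneg hlip.nonneg (abs_nonneg _)⟩ hlip (fun y => ?_) hgood _)
        have hfi : Integrable (fun t => Real.exp (f (y + Real.sqrt (1 - q (Fin.last r)) * t)))
            (gaussianReal 0 1) :=
          Integrable.of_bound ((hf.smooth.continuous.measurable.comp (by fun_prop)).exp).aestronglyMeasurable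
            (Real.exp B) (Filter.Eventually.of_forall fun t => by
              rw [Real.norm_eq_abs, Real.abs_exp]; exact Real.exp_le_exp.2 ((le_abs_self _).trans (hB _)))
        have hlo : Real.exp (-B) ≤ topW f q y := by
          refine le_trans (le_of_eq (by simp)) (integral_mono (integrable_const (Real.exp (-B))) hfi fun t => ?_)
          exact Real.exp_le_exp.2 (abs_le.1 (hB _)).1
        exact (Real.le_log_iff_exp_le ((Real.exp_pos _).trans_le hlo)).2 hlo
      have h3 := mul_le_mul_of_nonneg_left hEn hα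
      have h4 : 0 ≤ v 0 / (2 * Q) := div_nonneg hv0 (by linarith)
      linarith [le_abs_self c]
  rw [hE]
  linarith

end Vale.Agent.P157.Low
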