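import Vale.Agent.P157.Low.Defs
import Vale.Agent.P157.SecondMoment

/-!
Disordered systems: a random Gibbs measure on a space with feature vectors, its replica
averages and its tilt by one Gaussian pattern.
-/

namespace Vale.Agent.P157.Low

open MeasureTheory ProbabilityTheory Filter
open scoped RealInnerProductSpace Topology

/-- A system: disorder `Ω`, reference measure on `X`, weights, and unit feature vectors. -/
structure Sys where
  Ω : Type
  mΩ : MeasurableSpace Ω
  law : Measure Ω
  prob : IsProbabilityMeasure law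
  X : Type
  mX : MeasurableSpace X
  ref : Measure X
  probRef : IsProbabilityMeasure ref
  E : Type
  normE : NormedAddCommGroup E
  innerE : InnerProductSpace ℝ E
  finE : FiniteDimensional ℝ E
  mE : MeasurableSpace E
  borelE : BorelSpace E
  v : X → E
  measV : Measurable v
  unit : ∀ x, ‖v x‖ = 1
  w : Ω → X → ℝ
  measW : Measurable (Function.uncurry w)
  wt : ∀ ω, Wt (w ω)

attribute [instance] Sys.mΩ Sys.prob Sys.mX Sys.probRef Sys.normE Sys.innerE Sys.finE Sys.mE
  Sys.borelE

namespace Sys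

/-- Gram matrix of replicas. -/
def gram (S : Sys) {n : ℕ} (x : Fin n → S.X) : Mat n := fun a b => ⟪S.v (x a), S.v (x b)⟫

/-- Disorder average of `n` replicas. -/
noncomputable def avgRep (S : Sys) (n : ℕ) (Θ : S.Ω → (Fin n → S.X) → ℝ) : ℝ :=
  ∫ ω, ∫ x, Θ ω x ∂(Measure.pi fun _ : Fin n => gibbs S.ref (S.w ω)) ∂S.law

/-- Disorder average of a function of the Gram matrix of `n` replicas. -/
noncomputable def expect (S : Sys) {n : ℕ} (Φ : Mat n → ℝ) : ℝ :=
  S.avgRep n fun _ x => Φ (S.gram x)

/-- The system tilted by one pattern with weight `W`, when `W` is measurable with values in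
`[δ, B]`, `δ > 0`. -/
noncomputable def tilt (S : Sys) (W : ℝ → ℝ) (hW : Measurable W) {δ B : ℝ} (hδ : 0 < δ)
    (hb : ∀ y, δ ≤ W y ∧ W y ≤ B) : Sys where
  Ω := S.Ω × S.E
  mΩ := inferInstance
  law := S.law.prod (stdGaussian S.E)
  prob := inferInstance
  X := S.X
  mX := S.mX
  ref := S.ref
  probRef := S.probRef
  E := S.E
  normE := S.normE
  innerE := S.innerE
  finE := S.finE
  mE := S.mE
  borelE := S.borelE
  v := S.v
  measV := S.measV
  unit := S.unit
  w p x := S.w p.1 x * W ⟪p.2, S.v x⟫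
  measW := (S.measW.comp ((measurable_fst.comp measurable_fst).prodMk measurable_snd)).mul
    (hW.comp ((measurable_snd.comp measurable_fst).inner (S.measV.comp measurable_snd)))
  wt p := (S.wt p.1).mul ⟨hW.comp (measurable_const.inner S.measV), |Real.log δ| + |Real.log B|,
    fun x => by
      obtain ⟨h1, h2⟩ := hb ⟪p.2, S.v x⟫
      refine ⟨hδ.trans_le h1, ?_⟩
      have l1 := Real.log_le_log hδ h1
      have l2 := Real.log_le_log (hδ.trans_le h1) h2
      rw [abs_le]
      constructor <;>
        linarith [neg_abs_le (Real.log δ), le_abs_self (Real.log B), abs_nonneg (Real.log B),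
          abs_nonneg (Real.log δ)]⟩

/-- Expected logarithm of the Gibbs average of `W` at a new pattern. -/
noncomputable def logGain (S : Sys) (W : ℝ → ℝ) : ℝ :=
  ∫ ω, ∫ g, Real.log (∫ x, W ⟪g, S.v x⟫ ∂gibbs S.ref (S.w ω)) ∂stdGaussian S.E ∂S.law

end Sys

/-- A sequence of systems whose overlaps converge in law to `A`. -/
def Conv (S : ℕ → Sys) (A : Arr) : Prop :=
  ∀ n (Φ : Mat n → ℝ), Continuous Φ → (∃ C, ∀ R, |Φ R| ≤ C) →
    Tendsto (fun j => (S j).expect Φ) atTop (𝓝 (∫ R, Φ R ∂A.law n))

/-- Limit value of `Φ` with insertions under a tilt by `W`, as a series. -/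
noncomputable def ratioArr (A : Arr) (c : ℝ) (W : ℝ → ℝ) {n : ℕ} (Φ : Mat n → ℝ)
    (θ : Fin n → ℝ → ℝ) : ℝ :=
  ∑' k : ℕ, (negCoef n k : ℝ) *
    ∫ R, Φ (sub R (Fin.castAdd k)) * GE R (ratioTerm c W θ) ∂A.law (n + k)

/-- Limit value of the expected log-average of `W` at a new pattern, as a series. -/
noncomputable def logArr (A : Arr) (c : ℝ) (W : ℝ → ℝ) : ℝ :=
  logSer c W fun n Θ => ∫ R, GE R Θ ∂A.law n

end Vale.Agent.P157.Low
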