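import Vale.Agent.P157.Low.GGBase
import Vale.Agent.P157.Gauss
import Vale.Agent.P157.Kernel

/-!
Expected log-partition functions in a Gaussian field: an independent part of the field raises
them by at most half its variance.
-/

namespace Vale.Agent.P157.Low

open MeasureTheory ProbabilityTheory Complex
open scoped RealInnerProductSpace

variable {E F : Type} [NormedAddCommGroup E] [InnerProductSpace ℝ E] [FiniteDimensional ℝ E]
  [MeasurableSpace E] [BorelSpace E] [NormedAddCommGroup F] [InnerProductSpace ℝ F]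
  [FiniteDimensional ℝ F] [MeasurableSpace F] [BorelSpace F]

/-- A linear map whose transpose keeps lengths keeps the standard Gaussian law. -/
lemma measurePreserving_stdGaussian {φ : E → F} (hφ : Measurable φ) (ψ : F → E)
    (h : ∀ g t, ⟪φ g, t⟫ = ⟪g, ψ t⟫) (hn : ∀ t, ‖ψ t‖ = ‖t‖) :
    MeasurePreserving φ (stdGaussian E) (stdGaussian F) := by
  refine ⟨hφ, ?_⟩
  have : IsProbabilityMeasure ((stdGaussian E).map φ) :=
    Measure.isProbabilityMeasure_map hφ.aemeasurable
  refine Measure.ext_of_charFun ?_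
  funext t
  rw [charFun_apply, integral_map hφ.aemeasurable (Continuous.aestronglyMeasurable (by fun_prop)),
    charFun_stdGaussian]
  simp only [h]
  rw [integral_cexp_inner, hn]

variable {ι : Type} [Fintype ι]

/-- A coordinatewise multiple. -/
noncomputable def cmul (a : ι → ℝ) (u : EuclideanSpace ℝ ι) : EuclideanSpace ℝ ι :=
  WithLp.toLp 2 fun i => a i * u i

omit [Fintype ι] in
lemma measurable_cmul (a : ι → ℝ) : Measurable (cmul a) := by unfold cmul; fun_prop

lemma inner_cmul (a : ι → ℝ) (g t : EuclideanSpace ℝ ι) : ⟪cmul a g, t⟫ = ⟪g, cmul a t⟫ := by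
  simp only [PiLp.inner_apply, cmul, RCLike.inner_apply, conj_trivial]
  exact Finset.sum_congr rfl fun i _ => by ring

lemma norm_cmul_sq_add {a b : ι → ℝ} (hab : ∀ i, a i ^ 2 + b i ^ 2 = 1) (t : EuclideanSpace ℝ ι) :
    ‖cmul a t‖ ^ 2 + ‖cmul b t‖ ^ 2 = ‖t‖ ^ 2 := by
  simp only [EuclideanSpace.real_norm_sq_eq, cmul, ← Finset.sum_add_distrib, mul_pow, ← add_mul, hab,
    one_mul]

/-- A Gaussian vector as a sum of two independent ones, coordinate by coordinate. -/
lemma measurePreserving_cmul_add {a b : ι → ℝ} (hab : ∀ i, a i ^ 2 + b i ^ 2 = 1) :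
    MeasurePreserving (fun p : EuclideanSpace ℝ ι × EuclideanSpace ℝ ι => cmul a p.1 + cmul b p.2)
      ((stdGaussian (EuclideanSpace ℝ ι)).prod (stdGaussian (EuclideanSpace ℝ ι)))
      (stdGaussian (EuclideanSpace ℝ ι)) := by
  have hm : Measurable fun p : EuclideanSpace ℝ ι × EuclideanSpace ℝ ι => cmul a p.1 + cmul b p.2 :=
    ((measurable_cmul a).comp measurable_fst).add ((measurable_cmul b).comp measurable_snd)
  refine ⟨hm, ?_⟩
  have : IsProbabilityMeasure (((stdGaussian (EuclideanSpace ℝ ι)).prod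
      (stdGaussian (EuclideanSpace ℝ ι))).map fun p => cmul a p.1 + cmul b p.2) :=
    Measure.isProbabilityMeasure_map hm.aemeasurable
  refine Measure.ext_of_charFun ?_
  funext t
  rw [charFun_apply, integral_map hm.aemeasurable (Continuous.aestronglyMeasurable (by fun_prop)),
    charFun_stdGaussian]
  have e : ∀ p : EuclideanSpace ℝ ι × EuclideanSpace ℝ ι,
      cexp ((⟪cmul a p.1 + cmul b p.2, t⟫ : ℝ) * I) =
        cexp ((⟪p.1, cmul a t⟫ : ℝ) * I) * cexp ((⟪p.2, cmul b t⟫ : ℝ) * I) := fun p => by
    rw [← Complex.exp_add, inner_add_left, inner_cmul, inner_cmul]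
    push_cast
    ring_nf
  simp only [e]
  rw [integral_prod_mul (fun g : EuclideanSpace ℝ ι => cexp ((⟪g, cmul a t⟫ : ℝ) * I))
    (fun g : EuclideanSpace ℝ ι => cexp ((⟪g, cmul b t⟫ : ℝ) * I)), integral_cexp_inner,
    integral_cexp_inner, ← Complex.exp_add]
  congr 1
  have : ((‖cmul a t‖ : ℝ) : ℂ) ^ 2 + ((‖cmul b t‖ : ℝ) : ℂ) ^ 2 = ((‖t‖ : ℝ) : ℂ) ^ 2 := by
    exact_mod_cast norm_cmul_sq_add hab t
  linear_combination -this / 2

variable {X : Type} [MeasurableSpace X] {μ : Measure X} [IsProbabilityMeasure μ] {w : X → ℝ}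
  {U : X → E} {l : ℝ}

/-- The expected log-partition function in a field. -/
noncomputable def elz (μ : Measure X) (U : X → E) (w : X → ℝ) : ℝ :=
  ∫ h, lz μ U w h ∂stdGaussian E

lemma integrable_lz_one (hw : Wt w) (hU : Measurable U) (hl : ∀ y, ‖U y‖ ≤ l) :
    Integrable (fun h => lz μ U w h) (stdGaussian E) := by
  simpa using (integrable_lz (μ := μ) hw hU hl 1).1

lemma lz_eq (hw : Wt w) (hU : Measurable U) (hl : ∀ y, ‖U y‖ ≤ l) (h : E) :
    lz μ U w h = logI μ w + Real.log (∫ y, Real.exp ⟪h, U y⟫ ∂gibbs μ w) :=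
  logI_mul hw (wt_field hU hl h)

/-- A field does not lower the expected log-partition function. -/
lemma logI_le_elz (hw : Wt w) (hU : Measurable U) (hl : ∀ y, ‖U y‖ ≤ l) :
    logI μ w ≤ elz μ U w := by
  have := isProbabilityMeasure_gibbs (μ := μ) hw
  have hj : Integrable (fun z : E × X => ⟪z.1, U z.2⟫) ((stdGaussian E).prod (gibbs μ w)) :=
    Integrable.mono' (((integrable_norm_pow (E := E) 1).comp_fst (gibbs μ w)).const_mul l)
      (measurable_fst.inner (hU.comp measurable_snd)).aestronglyMeasurable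
      (Filter.Eventually.of_forall fun z => by simpa using abs_inner_le_of hl z.1 z.2)
  have h0 : ∫ h, ∫ y, ⟪h, U y⟫ ∂gibbs μ w ∂stdGaussian E = 0 := by
    rw [integral_integral_swap hj]
    simp [integral_inner]
  have hm := integral_mono ((integrable_const (logI μ w)).add hj.integral_prod_left)
    (integrable_lz_one (μ := μ) hw hU hl) fun h => by
      rw [Pi.add_apply, lz_eq hw hU hl]
      exact add_le_add le_rfl (integral_le_log_integral_exp (ν := gibbs μ w) (measurable_const.inner hU)
        (abs_inner_le_of hl h))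
  simp only [Pi.add_apply] at hm
  rw [integral_add (integrable_const _) hj.integral_prod_left, h0, integral_const, probReal_univ, one_smul,
    add_zero] at hm
  exact hm

/-- A field raises the expected log-partition function by at most half its variance. -/
lemma elz_le (hw : Wt w) (hU : Measurable U) (hl : ∀ y, ‖U y‖ ≤ l) :
    elz μ U w ≤ logI μ w + l ^ 2 / 2 := by
  have := isProbabilityMeasure_gibbs (μ := μ) hw
  have hj : Integrable (fun z : E × X => Real.exp ⟪z.1, U z.2⟫) ((stdGaussian E).prod (gibbs μ w)) :=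
    Integrable.mono' ((integrable_exp_norm l).comp_fst (gibbs μ w))
      (measurable_fst.inner (hU.comp measurable_snd)).exp.aestronglyMeasurable
      (Filter.Eventually.of_forall fun z => by
        rw [Real.norm_eq_abs, Real.abs_exp, Real.exp_le_exp]
        exact (le_abs_self _).trans (abs_inner_le_of hl _ _))
  set a := Real.exp (l ^ 2 / 2) with ha
  have hZ : ∫ h, ∫ y, Real.exp ⟪h, U y⟫ ∂gibbs μ w ∂stdGaussian E ≤ a := by
    rw [integral_integral_swap hj]
    simp only [integral_exp_inner]
    refine (integral_mono_of_nonneg (Filter.Eventually.of_forall fun y => (Real.exp_pos _).le)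
      (integrable_const a) (Filter.Eventually.of_forall fun y => Real.exp_le_exp.2 ?_)).trans_eq (by simp)
    exact div_le_div_of_nonneg_right (pow_le_pow_left₀ (norm_nonneg _) (hl y) 2) two_pos.le
  have hi2 : Integrable (fun h => logI μ w + ((∫ y, Real.exp ⟪h, U y⟫ ∂gibbs μ w) / a - 1 + l ^ 2 / 2))
      (stdGaussian E) :=
    (integrable_const _).add (((hj.integral_prod_left.div_const a).sub (integrable_const 1)).add
      (integrable_const _))
  have hm := integral_mono (integrable_lz_one (μ := μ) hw hU hl) hi2 fun h => by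
    rw [lz_eq hw hU hl]
    have hZp := (wt_field hU hl h).integral_pos (μ := gibbs μ w)
    have h1 := Real.log_le_sub_one_of_pos (div_pos hZp (Real.exp_pos (l ^ 2 / 2)))
    rw [Real.log_div hZp.ne' (Real.exp_ne_zero _), Real.log_exp] at h1
    simp only [ha]
    linarith
  refine hm.trans ?_
  have hia : Integrable (fun h => (∫ y, Real.exp ⟪h, U y⟫ ∂gibbs μ w) / a) (stdGaussian E) :=
    hj.integral_prod_left.div_const a
  have hib : Integrable (fun h => (∫ y, Real.exp ⟪h, U y⟫ ∂gibbs μ w) / a - 1) (stdGaussian E) :=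
    hia.sub (integrable_const 1)
  have hic : Integrable (fun h => (∫ y, Real.exp ⟪h, U y⟫ ∂gibbs μ w) / a - 1 + l ^ 2 / 2)
      (stdGaussian E) := hib.add (integrable_const _)
  rw [integral_add (integrable_const _) hic, integral_add hib (integrable_const _),
    integral_sub hia (integrable_const _), integral_div]
  simp only [integral_const, probReal_univ, one_smul]
  have : (∫ h, ∫ y, Real.exp ⟪h, U y⟫ ∂gibbs μ w ∂stdGaussian E) / a ≤ 1 :=
    (div_le_one (Real.exp_pos _)).2 hZ
  linarith

/-- Shrinking the coordinates of the features. -/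
lemma elz_cmul {V : X → EuclideanSpace ℝ ι} (hw : Wt w) (hV : Measurable V) (hl : ∀ y, ‖V y‖ ≤ l)
    {a b : ι → ℝ} (hab : ∀ i, a i ^ 2 + b i ^ 2 = 1) {m : ℝ} (hm : ∀ y, ‖cmul b (V y)‖ ≤ m) :
    elz μ (fun y => cmul a (V y)) w ≤ elz μ V w ∧
      elz μ V w ≤ elz μ (fun y => cmul a (V y)) w + m ^ 2 / 2 := by
  set φ : EuclideanSpace ℝ ι × EuclideanSpace ℝ ι → EuclideanSpace ℝ ι :=
    fun p => cmul a p.1 + cmul b p.2
  have hmp := measurePreserving_cmul_add hab
  set γ := stdGaussian (EuclideanSpace ℝ ι)
  have hi := integrable_lz_one (μ := μ) hw hV hl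
  have hi2 : Integrable (fun p => lz μ V w (φ p)) (γ.prod γ) :=
    (hmp.integrable_comp hi.aestronglyMeasurable).2 hi
  have hVa : Measurable fun y => cmul a (V y) := (measurable_cmul a).comp hV
  have hVb : Measurable fun y => cmul b (V y) := (measurable_cmul b).comp hV
  have hla : ∀ y, ‖cmul a (V y)‖ ≤ l := fun y => by
    refine le_trans ?_ (hl y)
    nlinarith [norm_cmul_sq_add hab (V y), norm_nonneg (cmul a (V y)), norm_nonneg (V y),
      sq_nonneg ‖cmul b (V y)‖]
  have he : elz μ V w = ∫ g, elz μ (fun y => cmul b (V y))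
      (fun y => w y * Real.exp ⟪g, cmul a (V y)⟫) ∂γ := by
    have h1 : ∫ p, lz μ V w (φ p) ∂γ.prod γ = elz μ V w := by
      rw [elz]
      show _ = ∫ h, lz μ V w h ∂γ
      conv_rhs => rw [← hmp.map_eq]
      exact (integral_map hmp.measurable.aemeasurable (by rw [hmp.map_eq]; exact hi.aestronglyMeasurable)).symm
    rw [← h1, integral_prod _ hi2]
    refine integral_congr_ae (Filter.Eventually.of_forall fun g => integral_congr_ae
      (Filter.Eventually.of_forall fun h => ?_))
    simp only [lz, φ]
    congr 1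
    funext y
    rw [inner_add_left, inner_cmul, inner_cmul, Real.exp_add, mul_assoc]
  have hwa : ∀ g, Wt fun y => w y * Real.exp ⟪g, cmul a (V y)⟫ := fun g => hw.mul (wt_field hVa hla g)
  have hia := integrable_lz_one (μ := μ) hw hVa hla
  have hib : Integrable (fun g => elz μ (fun y => cmul b (V y))
      (fun y => w y * Real.exp ⟪g, cmul a (V y)⟫)) γ := by
    refine hi2.integral_prod_left.congr (Filter.Eventually.of_forall fun g => integral_congr_ae
      (Filter.Eventually.of_forall fun h => ?_))
    simp only [lz, φ]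
    congr 1
    funext y
    rw [inner_add_left, inner_cmul, inner_cmul, Real.exp_add, mul_assoc]
  refine ⟨?_, ?_⟩
  · rw [he]
    exact integral_mono hia hib fun g => logI_le_elz (hwa g) hVb hm
  · rw [he]
    refine (integral_mono hib (hia.add (integrable_const (m ^ 2 / 2))) fun g => elz_le (hwa g) hVb hm).trans ?_
    simp only [Pi.add_apply]
    rw [integral_add hia (integrable_const _)]
    simp [elz]

omit [IsProbabilityMeasure μ] [BorelSpace E] [BorelSpace F] in
/-- Moving a field along a map that keeps the Gaussian law. -/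
lemma elz_transport {φ : E → F} {ψ : F → E} (hmp : MeasurePreserving φ (stdGaussian E) (stdGaussian F))
    (h : ∀ g t, ⟪φ g, t⟫ = ⟪g, ψ t⟫) {V : X → F} (hVm : AEStronglyMeasurable
      (fun g => lz μ V w g) (stdGaussian F)) :
    elz μ (fun y => ψ (V y)) w = elz μ V w := by
  have e : elz μ V w = ∫ g, lz μ V w (φ g) ∂stdGaussian E := by
    rw [elz]
    conv_lhs => rw [← hmp.map_eq]
    exact integral_map hmp.measurable.aemeasurable (by rw [hmp.map_eq]; exact hVm)
  rw [e, elz]
  simp only [lz, h]

end Vale.Agent.P157.Low
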