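import Vale.Agent.P157.Low.Defs

/-!
Ghirlanda–Guerra arrays are nonnegative and ultrametric, and round to discrete arrays.
-/

namespace Vale.Agent.P157.Low

open MeasureTheory

variable {n : ℕ}

theorem measurable_entry (a b : Fin n) : Measurable fun R : Mat n => R a b :=
  (measurable_pi_apply b).comp (measurable_pi_apply a)

theorem measurable_subMat {k : ℕ} (e : Fin k → Fin n) :
    Measurable fun R : Mat n => sub R e :=
  measurable_pi_iff.2 fun a => measurable_pi_iff.2 fun b => measurable_entry (e a) (e b)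

theorem Arr.marg_real (A : Arr) {k : ℕ} (e : Fin k → Fin n) (he : Function.Injective e)
    {S : Set (Mat k)} (hS : MeasurableSet S) :
    (A.law n).real {R | sub R e ∈ S} = (A.law k).real S := by
  rw [← A.marg e he, measureReal_def, measureReal_def, Measure.map_apply (measurable_subMat e) hS]
  rfl

theorem Arr.ae_marg (A : Arr) {k : ℕ} (e : Fin k → Fin n) (he : Function.Injective e)
    {p : Mat k → Prop} (hp : ∀ᵐ R ∂A.law k, p R) : ∀ᵐ R ∂A.law n, p (sub R e) := by
  rw [← A.marg e he] at hp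
  exact ae_of_ae_map (measurable_subMat e).aemeasurable hp

theorem Arr.integral_marg (A : Arr) {k : ℕ} (e : Fin k → Fin n) (he : Function.Injective e)
    {g : Mat k → ℝ} (hg : Measurable g) :
    ∫ R, g (sub R e) ∂A.law n = ∫ R, g R ∂A.law k := by
  rw [← A.marg e he, integral_map (measurable_subMat e).aemeasurable hg.aestronglyMeasurable]

/-- The base event, the window condition on the replica after the base, and that replica having
overlaps below `c` with all later replicas. -/
def winEvent {k : ℕ} (E : Set (Mat k)) (J : Fin k → Set ℝ) (c : ℝ) (j : ℕ) :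
    Set (Mat (k + 1 + j)) :=
  {R | sub R (fun a : Fin k => (⟨a, by omega⟩ : Fin (k + 1 + j))) ∈ E ∧
    (∀ l : Fin k, R ⟨k, by omega⟩ ⟨l, by omega⟩ ∈ J l) ∧
    ∀ i : Fin j, R ⟨k, by omega⟩ ⟨k + 1 + i, by omega⟩ < c}

theorem measurableSet_winEvent {k : ℕ} {E : Set (Mat k)} {J : Fin k → Set ℝ} {c : ℝ}
    (hE : MeasurableSet E) (hJ : ∀ l, MeasurableSet (J l)) (j : ℕ) :
    MeasurableSet (winEvent E J c j) := by
  simp only [winEvent, Set.ofPred_and, Set.ofPred_forall]
  refine (measurable_subMat _ hE).inter (MeasurableSet.inter ?_ ?_)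
  · exact MeasurableSet.iInter fun l => measurable_entry _ _ (hJ l)
  · exact MeasurableSet.iInter fun i => measurable_entry _ _ measurableSet_Iio

theorem Arr.winEvent_succ (A : Arr) {k : ℕ} {E : Set (Mat k)} {J : Fin k → Set ℝ} {c : ℝ}
    (hE : MeasurableSet E) (hJ : ∀ l, MeasurableSet (J l)) (hJc : ∀ l, J l ⊆ Set.Iio c) (j : ℕ) :
    ((k : ℝ) + j) * (A.law (k + 1 + j)).real (winEvent E J c j) ≤
      ((k : ℝ) + 1 + j) * (A.law (k + 1 + (j + 1))).real (winEvent E J c (j + 1)) := by
  classical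
  have := A.prob (k + 1 + j)
  have := A.prob 2
  set Φ : Mat (k + 1 + j) → ℝ := (winEvent E J c j).indicator 1 with hΦ
  set ψ : ℝ → ℝ := (Set.Iio c).indicator 1 with hψ
  set l0 : Fin (k + 1 + j) := ⟨k, by omega⟩
  have hΦm : Measurable Φ := measurable_const.indicator (measurableSet_winEvent hE hJ j)
  have hψm : Measurable ψ := measurable_const.indicator measurableSet_Iio
  have hgg := A.gg (k + 1 + j) l0 Φ ψ hΦm hψm
    ⟨1, fun R => by simp only [hΦ, Set.indicator_apply]; split_ifs <;> simp⟩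
    ⟨1, fun x => by simp only [hψ, Set.indicator_apply]; split_ifs <;> simp⟩
  have hnext : ∫ R, Φ (sub R Fin.castSucc) * ψ (R l0.castSucc (Fin.last _)) ∂A.law (k + 1 + j + 1) =
      (A.law (k + 1 + (j + 1))).real (winEvent E J c (j + 1)) := by
    rw [← integral_indicator_one (measurableSet_winEvent hE hJ (j + 1))]
    refine integral_congr_ae (.of_forall fun R => ?_)
    simp only [hΦ, hψ, Set.indicator_apply, Pi.one_apply, ite_zero_mul_ite_zero, mul_one]
    refine if_congr ?_ rfl rfl
    constructor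
    · rintro ⟨⟨h1, h2, h3⟩, h4⟩
      refine ⟨h1, h2, fun i => ?_⟩
      rcases Nat.lt_succ_iff_lt_or_eq.1 i.2 with hi | hi
      · exact h3 ⟨i, hi⟩
      · rw [Set.mem_Iio] at h4
        have e : (⟨k + 1 + i, by omega⟩ : Fin (k + 1 + (j + 1))) = Fin.last (k + 1 + j) := by
          ext; simp [hi]
        exact e ▸ h4
    · rintro ⟨h1, h2, h3⟩
      exact ⟨⟨h1, h2, fun i => h3 ⟨i, by omega⟩⟩, h3 ⟨j, by omega⟩⟩
  have hmid : ∀ l' ∈ Finset.univ.erase l0,
      ∫ R, Φ R * ψ (R l0 l') ∂A.law (k + 1 + j) =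
        (A.law (k + 1 + j)).real (winEvent E J c j) := by
    intro l' hl'
    rw [← integral_indicator_one (measurableSet_winEvent hE hJ j)]
    refine integral_congr_ae (.of_forall fun R => ?_)
    simp only [hΦ, hψ, Set.indicator_apply, Pi.one_apply, ite_zero_mul_ite_zero, mul_one]
    refine if_congr ⟨fun h => h.1, fun h => ⟨h, ?_⟩⟩ rfl rfl
    obtain ⟨-, h2, h3⟩ := h
    rcases lt_or_gt_of_ne (Finset.ne_of_mem_erase hl') with hlt | hlt
    · exact hJc _ (h2 ⟨l', hlt⟩)
    · have hh : k < (l' : ℕ) := hlt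
      have := h3 ⟨(l' : ℕ) - (k + 1), by omega⟩
      have e : (⟨k + 1 + ((l' : ℕ) - (k + 1)), by omega⟩ : Fin (k + 1 + j)) = l' :=
        Fin.ext (by dsimp; omega)
      rw [Set.mem_Iio]
      exact e ▸ this
  rw [hnext, Finset.sum_congr rfl hmid, Finset.sum_const, Finset.card_erase_of_mem (Finset.mem_univ _),
    Finset.card_univ, Fintype.card_fin, nsmul_eq_mul] at hgg
  have hpos : 0 ≤ (∫ R, Φ R ∂A.law (k + 1 + j)) * ∫ R, ψ (R 0 1) ∂A.law 2 :=
    mul_nonneg (integral_nonneg fun R => Set.indicator_nonneg (fun _ _ => zero_le_one) _)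
      (integral_nonneg fun R => Set.indicator_nonneg (fun _ _ => zero_le_one) _)
  have e : ((k + 1 + j - 1 : ℕ) : ℝ) = (k : ℝ) + j := by
    rw [show k + 1 + j - 1 = k + j by omega]; push_cast; ring
  rw [e] at hgg
  push_cast at hgg
  linarith

/-- If no two replicas of a window have overlap below the upper end `c`, the window is empty. -/
theorem Arr.window_null (A : Arr) {k : ℕ} (hk : 1 ≤ k) {E : Set (Mat k)} {J : Fin k → Set ℝ}
    {c : ℝ} (hE : MeasurableSet E) (hJ : ∀ l, MeasurableSet (J l)) (hJc : ∀ l, J l ⊆ Set.Iio c)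
    (hyp : ∀ᵐ R ∂A.law (k + 2), sub R (fun a : Fin k => (⟨a, by omega⟩ : Fin (k + 2))) ∈ E →
      (∀ l : Fin k, R ⟨k, by omega⟩ ⟨l, by omega⟩ ∈ J l) →
      (∀ l : Fin k, R ⟨k + 1, by omega⟩ ⟨l, by omega⟩ ∈ J l) →
      c ≤ R ⟨k, by omega⟩ ⟨k + 1, by omega⟩) :
    (A.law (k + 1)).real (winEvent E J c 0) = 0 := by
  classical
  have := fun m => A.prob m
  set P := fun j => (A.law (k + 1 + j)).real (winEvent E J c j) with hP
  change P 0 = 0
  -- lower bound
  have low : ∀ j : ℕ, (k : ℝ) * P 0 ≤ ((k : ℝ) + j) * P j := by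
    intro j
    induction j with
    | zero => simp
    | succ j ih =>
      refine ih.trans ((A.winEvent_succ hE hJ hJc j).trans (le_of_eq ?_))
      push_cast
      ring
  -- the first hit
  have upper : ∀ N : ℕ, ∑ j ∈ Finset.range N, P j ≤ 1 := by
    intro N
    let emb : Fin k → Fin (k + N + 1) := fun a => ⟨a, by omega⟩
    let H : ℕ → Set (Mat (k + N + 1)) := fun j => {R | sub R emb ∈ E ∧
      (∀ (h : k + j < k + N + 1) (l : Fin k), R ⟨k + j, h⟩ (emb l) ∈ J l) ∧
      ∀ (i : ℕ) (h : k + i < k + N + 1), i < j → ∃ l : Fin k, R ⟨k + i, h⟩ (emb l) ∉ J l}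
    have hHm : ∀ j, MeasurableSet (H j) := by
      intro j
      simp only [H, Set.ofPred_and, Set.ofPred_forall, Set.ofPred_exists]
      refine (measurable_subMat _ hE).inter (MeasurableSet.inter ?_ ?_)
      · exact MeasurableSet.iInter fun _ => MeasurableSet.iInter fun l =>
          measurable_entry _ _ (hJ l)
      · exact MeasurableSet.iInter fun i => MeasurableSet.iInter fun _ =>
          MeasurableSet.iInter fun _ => MeasurableSet.iUnion fun l =>
            (measurable_entry _ _ (hJ l)).compl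
    have hdis : (↑(Finset.range N) : Set ℕ).PairwiseDisjoint H := by
      intro a ha b hb hab
      simp only [Finset.coe_range, Set.mem_Iio] at ha hb
      refine Set.disjoint_left.2 fun R hRa hRb => ?_
      rcases lt_or_gt_of_ne hab with h | h
      · obtain ⟨l, hl⟩ := hRb.2.2 a (by omega) h
        exact hl (hRa.2.1 (by omega) l)
      · obtain ⟨l, hl⟩ := hRa.2.2 b (by omega) h
        exact hl (hRb.2.1 (by omega) l)
    have hle : ∀ j ∈ Finset.range N, P j ≤ (A.law (k + N + 1)).real (H j) := by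
      intro j hj
      rw [Finset.mem_range] at hj
      -- replica `k` goes to `k + j`, the later ones are shifted down
      let e : Fin (k + 1 + j) → Fin (k + N + 1) := fun a =>
        if (a : ℕ) < k then ⟨a, by omega⟩ else if (a : ℕ) = k then ⟨k + j, by omega⟩
        else ⟨(a : ℕ) - 1, by omega⟩
      have he : Function.Injective e := by
        intro a b hab
        simp only [e] at hab
        ext
        split_ifs at hab <;> (simp only [Fin.ext_iff] at hab; omega)
      have eb : ∀ a : Fin k, e ⟨a, by omega⟩ = emb a := fun a => by simp [e, emb]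
      have ek : e ⟨k, by omega⟩ = ⟨k + j, by omega⟩ := by simp [e]
      have ei : ∀ i : Fin j, e ⟨k + 1 + i, by omega⟩ = ⟨k + i, by omega⟩ := fun i => by
        have h1 : ¬ k + 1 + (i : ℕ) < k := by omega
        have h2 : k + 1 + (i : ℕ) ≠ k := by omega
        simp only [e, h1, h2, if_false, Fin.ext_iff]
        omega
      rw [hP]
      change (A.law (k + 1 + j)).real (winEvent E J c j) ≤ _
      rw [← A.marg_real e he (measurableSet_winEvent hE hJ j)]
      refine ENNReal.toReal_mono (measure_ne_top _ _) (measure_mono_ae ?_)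
      have hall : ∀ᵐ R ∂A.law (k + N + 1), ∀ i : Fin j,
          sub R emb ∈ E → (∀ l : Fin k, R ⟨k + j, by omega⟩ (emb l) ∈ J l) →
          (∀ l : Fin k, R ⟨k + i, by omega⟩ (emb l) ∈ J l) →
          c ≤ R ⟨k + j, by omega⟩ ⟨k + i, by omega⟩ := by
        refine ae_all_iff.2 fun i => ?_
        let e2 : Fin (k + 2) → Fin (k + N + 1) := fun a =>
          if (a : ℕ) < k then ⟨a, by omega⟩ else if (a : ℕ) = k then ⟨k + j, by omega⟩
          else ⟨k + i, by omega⟩
        have he2 : Function.Injective e2 := by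
          intro a b hab
          simp only [e2] at hab
          ext
          split_ifs at hab <;> (simp only [Fin.ext_iff] at hab; omega)
        have fb : ∀ a : Fin k, e2 ⟨a, by omega⟩ = emb a := fun a => by simp [e2, emb]
        have fk : e2 ⟨k, by omega⟩ = ⟨k + j, by omega⟩ := by simp [e2]
        have fk1 : e2 ⟨k + 1, by omega⟩ = ⟨k + i, by omega⟩ := by simp [e2]
        filter_upwards [A.ae_marg e2 he2 hyp] with R hR hE' hj' hi'
        have hs : sub (sub R e2) (fun a : Fin k => (⟨a, by omega⟩ : Fin (k + 2))) = sub R emb := by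
          funext a b
          simp only [sub, fb]
        rw [hs] at hR
        simp only [sub, fb, fk, fk1] at hR
        exact hR hE' hj' hi'
      filter_upwards [hall] with R hR hmem
      obtain ⟨h1, h2, h3⟩ := hmem
      have hs : sub (sub R e) (fun a : Fin k => (⟨a, by omega⟩ : Fin (k + 1 + j))) = sub R emb := by
        funext a b
        simp only [sub, eb]
      rw [hs] at h1
      simp only [sub, eb, ek, ei] at h2 h3
      refine ⟨h1, fun _ => h2, fun i h hij => ?_⟩
      by_contra hc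
      push Not at hc
      exact absurd (hR ⟨i, hij⟩ h1 h2 hc) (not_le.2 (h3 ⟨i, hij⟩))
    refine (Finset.sum_le_sum hle).trans ?_
    rw [← measureReal_biUnion_finset hdis (fun j _ => hHm j)]
    exact measureReal_le_one
  by_contra h0
  have hpos : 0 < P 0 := lt_of_le_of_ne measureReal_nonneg (Ne.symm h0)
  have hk0 : (0 : ℝ) < k := by exact_mod_cast hk
  obtain ⟨N, hN⟩ := (Filter.tendsto_atTop.1 Real.tendsto_sum_range_one_div_nat_succ_atTop
    (2 / P 0)).exists
  have h1 : ∀ j : ℕ, P 0 * (1 / ((j : ℝ) + 1)) ≤ P j := by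
    intro j
    rcases le_or_gt (P j) 0 with hz | hz
    · have := low j
      have : (0 : ℝ) ≤ (k : ℝ) + j := by positivity
      nlinarith [mul_nonpos_of_nonneg_of_nonpos this hz, mul_pos hk0 hpos]
    · rw [mul_one_div, div_le_iff₀ (by positivity)]
      have hj : (k : ℝ) + j ≤ (k : ℝ) * ((j : ℝ) + 1) := by
        have : (1 : ℝ) ≤ k := by exact_mod_cast hk
        nlinarith [(Nat.cast_nonneg j : (0 : ℝ) ≤ j)]
      have := (low j).trans (mul_le_mul_of_nonneg_right hj hz.le)
      nlinarith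
  have h2 := (Finset.sum_le_sum fun j (_ : j ∈ Finset.range N) => h1 j).trans (upper N)
  rw [← Finset.mul_sum] at h2
  have h3 : P 0 * (2 / P 0) = 2 := by field_simp
  nlinarith [mul_le_mul_of_nonneg_left hN hpos.le]

/-- Every pair of labelled replicas has its overlap in the window of the two labels. -/
def pattern {n : ℕ} (J : Fin 3 → Fin 3 → Set ℝ) (g : Fin n → Fin 3) : Set (Mat n) :=
  {R | ∀ a b, a ≠ b → R a b ∈ J (g a) (g b)}

theorem measurableSet_pattern {J : Fin 3 → Fin 3 → Set ℝ} (hJ : ∀ s t, MeasurableSet (J s t))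
    (g : Fin n → Fin 3) : MeasurableSet (pattern J g) := by
  simp only [pattern, Set.ofPred_forall]
  exact MeasurableSet.iInter fun a => MeasurableSet.iInter fun b => MeasurableSet.iInter fun _ =>
    measurable_entry a b (hJ _ _)

theorem Arr.pattern_comp (A : Arr) {J : Fin 3 → Fin 3 → Set ℝ}
    (hJ : ∀ s t, MeasurableSet (J s t)) (e : Equiv.Perm (Fin n)) (g : Fin n → Fin 3) :
    (A.law n).real (pattern J (g ∘ e)) = (A.law n).real (pattern J g) := by
  rw [← A.marg_real e e.injective (measurableSet_pattern hJ _)]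
  congr 1
  ext R
  refine ⟨fun h a b hab => ?_, fun h a b hab => h (e a) (e b) (fun h' => hab (e.injective h'))⟩
  have := h (e.symm a) (e.symm b) (fun h' => hab (e.symm.injective h'))
  simpa [sub] using this

theorem Arr.pattern_snoc_last (A : Arr) {J : Fin 3 → Fin 3 → Set ℝ}
    (hJ : ∀ s t, MeasurableSet (J s t)) (hJs : ∀ s t, J s t = J t s) {c : ℝ} {k : ℕ} (hk : 1 ≤ k)
    (g : Fin (k + 1) → Fin 3) {u : Fin 3} (hu : g (Fin.last k) = u) (hJu : J u u = Set.Iio c)
    (hg : ∀ l : Fin k, J u (g l.castSucc) ⊆ Set.Iio c)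
    (hpos : 0 < (A.law (k + 1)).real (pattern J g)) :
    0 < (A.law (k + 2)).real (pattern J (Fin.snoc g u : Fin (k + 2) → Fin 3)) := by
  classical
  have := fun m => A.prob m
  by_contra hcon
  have hzero : (A.law (k + 2)).real (pattern J (Fin.snoc g u : Fin (k + 2) → Fin 3)) = 0 :=
    le_antisymm (not_lt.1 hcon) measureReal_nonneg
  have hae : ∀ᵐ R ∂A.law (k + 2), R ∉ pattern J (Fin.snoc g u : Fin (k + 2) → Fin 3) := by
    rw [measureReal_eq_zero_iff] at hzero
    exact measure_eq_zero_iff_ae_notMem.1 hzero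
  set E : Set (Mat k) := pattern J (fun a => g a.castSucc) with hEdef
  have hnull := A.window_null (c := c) hk (measurableSet_pattern hJ (fun a : Fin k => g a.castSucc))
    (J := fun l => J u (g l.castSucc)) (fun l => hJ _ _) hg ?_
  · refine absurd hnull (ne_of_gt (hpos.trans_le ?_))
    refine measureReal_mono fun R hR => ⟨fun a b hab => ?_, fun l => ?_, fun i => i.elim0⟩
    · exact hR a.castSucc b.castSucc (fun h => hab (Fin.castSucc_injective _ h))
    · have := hR (Fin.last k) l.castSucc (Fin.castSucc_lt_last l).ne'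
      rwa [hu] at this
  filter_upwards [hae, A.symm (k + 2)] with R hR hsymm hE hw hw'
  by_contra hlt
  refine hR fun a b hab => ?_
  -- three kinds of indices
  have key : ∀ a : Fin (k + 2), (∃ l : Fin k, a = ⟨l, by omega⟩ ∧
      (Fin.snoc g u : Fin (k + 2) → Fin 3) a = g l.castSucc) ∨
      ((a = ⟨k, by omega⟩ ∨ a = ⟨k + 1, by omega⟩) ∧
        (Fin.snoc g u : Fin (k + 2) → Fin 3) a = u) := by
    intro a
    refine Fin.lastCases ?_ (fun b => ?_) a
    · exact Or.inr ⟨Or.inr (by ext; simp), by simp⟩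
    · refine Fin.lastCases ?_ (fun l => ?_) b
      · exact Or.inr ⟨Or.inl (by ext; simp), by simp [hu]⟩
      · exact Or.inl ⟨l, by ext; simp, by simp⟩
  rcases key a with ⟨la, rfl, hga⟩ | ⟨hxa, hga⟩ <;> rcases key b with ⟨lb, rfl, hgb⟩ | ⟨hxb, hgb⟩
  · rw [hga, hgb]
    exact hE la lb (fun h => hab (by subst h; rfl))
  · rw [hga, hgb, hJs, hsymm]
    rcases hxb with rfl | rfl
    · exact hw la
    · exact hw' la
  · rw [hga, hgb]
    rcases hxa with rfl | rfl
    · exact hw lb
    · exact hw' lb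
  · rw [hga, hgb, hJu, Set.mem_Iio]
    rcases hxa with rfl | rfl <;> rcases hxb with rfl | rfl
    · exact absurd rfl hab
    · exact not_le.1 hlt
    · rw [hsymm]; exact not_le.1 hlt
    · exact absurd rfl hab

theorem Arr.pattern_snoc (A : Arr) {J : Fin 3 → Fin 3 → Set ℝ}
    (hJ : ∀ s t, MeasurableSet (J s t)) (hJs : ∀ s t, J s t = J t s) {c : ℝ} {k : ℕ} (hk : 1 ≤ k)
    (g : Fin (k + 1) → Fin 3) (i : Fin (k + 1)) (hJu : J (g i) (g i) = Set.Iio c)
    (hg : ∀ l, l ≠ i → J (g i) (g l) ⊆ Set.Iio c)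
    (hpos : 0 < (A.law (k + 1)).real (pattern J g)) :
    0 < (A.law (k + 2)).real (pattern J (Fin.snoc g (g i) : Fin (k + 2) → Fin 3)) := by
  set s : Equiv.Perm (Fin (k + 1)) := Equiv.swap i (Fin.last k) with hs
  have hslast : s (Fin.last k) = i := Equiv.swap_apply_right _ _
  have h1 := A.pattern_snoc_last hJ hJs hk (g ∘ s) (u := g i) (by simp [hslast]) hJu
    (fun l => hg _ (fun h => (Fin.castSucc_lt_last l).ne (s.injective (h.trans hslast.symm))))
    (by rwa [A.pattern_comp hJ])
  set s' : Equiv.Perm (Fin (k + 2)) := Equiv.swap i.castSucc (Fin.last k).castSucc with hs'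
  have hcomp : (Fin.snoc (g ∘ s) (g i) : Fin (k + 2) → Fin 3) = Fin.snoc g (g i) ∘ s' := by
    funext a
    refine Fin.lastCases ?_ (fun b => ?_) a
    · have : s' (Fin.last (k + 1)) = Fin.last (k + 1) :=
        Equiv.swap_apply_of_ne_of_ne (Fin.castSucc_lt_last _).ne' (Fin.castSucc_lt_last _).ne'
      simp [this]
    · have : s' b.castSucc = (s b).castSucc := by
        simp only [hs', hs, Equiv.swap_apply_def, Fin.castSucc_inj]
        split_ifs <;> rfl
      simp [this]
  rwa [hcomp, A.pattern_comp hJ] at h1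

/-- Overlaps are nonnegative. -/
theorem Arr.nonneg (A : Arr) (n : ℕ) : ∀ᵐ R ∂A.law n, ∀ a b, 0 ≤ R a b := by
  classical
  have := fun m => A.prob m
  suffices h2 : ∀ᵐ R ∂A.law 2, 0 ≤ R 0 1 by
    refine ae_all_iff.2 fun a => ae_all_iff.2 fun b => ?_
    by_cases hab : a = b
    · subst hab
      filter_upwards [A.diag n] with R hR
      rw [hR a]; exact zero_le_one
    · have he : Function.Injective ![a, b] := by
        intro u v huv
        fin_cases u <;> fin_cases v <;> simp_all [eq_comm]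
      filter_upwards [A.ae_marg ![a, b] he h2] with R hR
      simpa [sub] using hR
  suffices hq : ∀ q : ℚ, q < 0 → (A.law 2).real {R | R 0 1 < (q : ℝ)} = 0 by
    have : ∀ᵐ R ∂A.law 2, ∀ q : ℚ, q < 0 → ¬ R 0 1 < (q : ℝ) := by
      refine ae_all_iff.2 fun q => ?_
      by_cases hq0 : q < 0
      · have := hq q hq0
        rw [measureReal_eq_zero_iff, measure_eq_zero_iff_ae_notMem] at this
        filter_upwards [this] with R hR _
        exact hR
      · exact .of_forall fun R h => absurd h hq0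
    filter_upwards [this] with R hR
    by_contra hneg
    obtain ⟨r, h1, h2⟩ := exists_rat_btwn (not_le.1 hneg)
    exact hR r (by exact_mod_cast h2) h1
  intro q hq0
  by_contra hne
  set c : ℝ := (Rat.cast q : ℝ) with hc
  have hc0 : c < 0 := by rw [hc]; exact_mod_cast hq0
  let J : Fin 3 → Fin 3 → Set ℝ := fun _ _ => Set.Iio c
  have all : ∀ m : ℕ, 0 < (A.law (m + 2)).real (pattern J fun _ : Fin (m + 2) => (0 : Fin 3)) := by
    intro m
    induction m with
    | zero =>
      refine (lt_of_le_of_ne measureReal_nonneg (Ne.symm hne)).trans_le ?_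
      refine ENNReal.toReal_mono (measure_ne_top _ _) (measure_mono_ae ?_)
      filter_upwards [A.symm 2] with R hR hlt a b hab
      change R 0 1 < c at hlt
      change R a b < c
      fin_cases a <;> fin_cases b
      · exact absurd rfl hab
      · exact hlt
      · rw [hR]; exact hlt
      · exact absurd rfl hab
    | succ m ih =>
      have h := A.pattern_snoc (c := c) (J := J) (fun _ _ => measurableSet_Iio) (fun _ _ => rfl)
        (k := m + 1) (by omega) (fun _ => 0) 0 rfl (fun _ _ => subset_rfl) ih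
      convert h using 3
      funext a
      refine Fin.lastCases ?_ (fun b => ?_) a <;> simp
  obtain ⟨m, hm⟩ := exists_nat_gt (1 / -c)
  have hpos := all m
  rw [measureReal_def] at hpos
  obtain ⟨R, hR, hP, hdiag⟩ : ∃ R ∈ pattern J (fun _ : Fin (m + 2) => (0 : Fin 3)),
      0 ≤ ∑ a, ∑ b, (1 : ℝ) * 1 * R a b ∧ ∀ a, R a a = 1 := by
    by_contra hno
    push Not at hno
    refine (ENNReal.toReal_pos_iff.1 hpos).1.ne' (measure_eq_zero_iff_ae_notMem.2 ?_)
    filter_upwards [A.pos _ (fun _ => 1), A.diag _] with R h1 h2 hR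
    obtain ⟨a, ha⟩ := hno R hR h1
    exact ha (h2 a)
  have hle : ∀ a b : Fin (m + 2), (1 : ℝ) * 1 * R a b ≤ if a = b then 1 else c := by
    intro a b
    rw [one_mul, one_mul]
    split_ifs with h
    · subst h; rw [hdiag a]
    · exact (hR a b h).le
  have htot := hP.trans (Finset.sum_le_sum fun a _ => Finset.sum_le_sum fun b _ => hle a b)
  have hrow : ∀ a : Fin (m + 2), ∑ b, (if a = b then (1 : ℝ) else c) = 1 + ((m : ℝ) + 1) * c := by
    intro a
    rw [Finset.sum_ite, Finset.filter_eq, if_pos (Finset.mem_univ _), Finset.sum_singleton,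
      Finset.filter_ne, Finset.sum_const, Finset.card_erase_of_mem (Finset.mem_univ _)]
    simp
  simp only [hrow, Finset.sum_const, Finset.card_univ, Fintype.card_fin, nsmul_eq_mul] at htot
  rw [div_lt_iff₀ (by linarith)] at hm
  have : (0 : ℝ) < ((m + 2 : ℕ) : ℝ) := by positivity
  nlinarith

/-- A positive pattern can be extended by copies of one of its labelled points. -/
theorem Arr.pattern_grow (A : Arr) {J : Fin 3 → Fin 3 → Set ℝ}
    (hJ : ∀ s t, MeasurableSet (J s t)) (hJs : ∀ s t, J s t = J t s) {c : ℝ} {s : Fin 3}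
    (hJd : J s s = Set.Iio c) (hJlt : ∀ t, J s t ⊆ Set.Iio c) :
    ∀ (M n : ℕ) (g : Fin n → Fin 3), 2 ≤ n → (∃ i, g i = s) →
      0 < (A.law n).real (pattern J g) → ∃ (n' : ℕ) (g' : Fin n' → Fin 3), 2 ≤ n' ∧
        (∀ t, (Finset.univ.filter fun a => g' a = t).card =
          (Finset.univ.filter fun a => g a = t).card + if t = s then M else 0) ∧
        0 < (A.law n').real (pattern J g') := by
  intro M
  induction M with
  | zero => exact fun n g hn _ hpos => ⟨n, g, hn, fun t => by simp, hpos⟩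
  | succ M ih =>
    intro n g hn hi hpos
    obtain ⟨i, rfl⟩ := hi
    obtain ⟨k, rfl⟩ : ∃ k, n = k + 1 := ⟨n - 1, by omega⟩
    have h := A.pattern_snoc hJ hJs (c := c) (by omega) g i hJd (fun l _ => hJlt _) hpos
    obtain ⟨n', g', h1, h2, h3⟩ := ih (k + 2) (Fin.snoc g (g i)) (by omega)
      ⟨Fin.last _, by simp⟩ h
    refine ⟨n', g', h1, fun t => ?_, h3⟩
    rw [h2 t, Finset.card_filter, Finset.card_filter, Fin.sum_univ_castSucc]
    simp only [Fin.snoc_castSucc, Fin.snoc_last, eq_comm (a := g i) (b := t)]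
    split_ifs <;> omega

/-- The windows of a triangle with short side below `x` and long sides in `[y, c)`, `[c - η, c)`. -/
def triJ (x y c η : ℝ) (s t : Fin 3) : Set ℝ :=
  if s = t then (if s = 0 then Set.univ else Set.Iio c)
  else if s.1 + t.1 = 1 then Set.Iio x
  else if s.1 + t.1 = 2 then Set.Ico y c
  else Set.Ico (c - η) c

theorem measurableSet_triJ (x y c η : ℝ) (s t : Fin 3) : MeasurableSet (triJ x y c η s t) := by
  simp only [triJ]
  split_ifs <;> first
    | exact MeasurableSet.univ | exact measurableSet_Iio | exact measurableSet_Ico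

theorem triJ_symm (x y c η : ℝ) (s t : Fin 3) : triJ x y c η s t = triJ x y c η t s := by
  fin_cases s <;> fin_cases t <;> simp [triJ]

theorem triJ_subset {x y c η : ℝ} (hxc : x ≤ c) {s : Fin 3} (hs : s ≠ 0) (t : Fin 3) :
    triJ x y c η s t ⊆ Set.Iio c := by
  simp only [triJ, hs, if_false]
  split_ifs
  · exact subset_rfl
  · exact Set.Iio_subset_Iio hxc
  · exact Set.Ico_subset_Iio_self
  · exact Set.Ico_subset_Iio_self

/-- The quadratic form at a point, minus the barycentre of one cluster, plus that of the other. -/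
theorem pattern_sq_le {x y c η s L : ℝ} {n2 M : ℕ} {g2 : Fin n2 → Fin 3} {R : Mat n2}
    (hL : L = (M : ℝ) + 1) (hs0 : 0 < s) (hR : R ∈ pattern (triJ x y c η) g2)
    (hdiag : ∀ a, R a a = 1) (hbd : ∀ a b, |R a b| ≤ 1)
    (hcard : ∀ t, (Finset.univ.filter fun a => g2 a = t).card = if t = 0 then 1 else M + 1)
    (hP : 0 ≤ ∑ a, ∑ b, ![s, 1 / L, -(1 / L)] (g2 a) * ![s, 1 / L, -(1 / L)] (g2 b) * R a b) :
    -1 ≤ c ∧ 0 ≤ s * s - 2 * (s * (y - x)) + 2 * η + 2 * (1 - c) / L := by
  set w : Fin 3 → ℝ := ![s, 1 / L, -(1 / L)] with hw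
  let T : Fin 3 → Fin 3 → ℝ := fun u v =>
    if u = v then (if u = 0 then s * s else 1 / L * (1 / L) * c)
    else if u.1 + v.1 = 1 then s * (1 / L) * x
    else if u.1 + v.1 = 2 then -(s * (1 / L) * y)
    else -(1 / L * (1 / L) * (c - η))
  have hLpos : (0 : ℝ) < L := by rw [hL]; positivity
  have hcm : -1 ≤ c := by
    obtain ⟨a, ha⟩ : ∃ a, g2 a = 0 := by
      have h' : (Finset.univ.filter fun a => g2 a = 0).card ≠ 0 := by rw [hcard 0]; simp
      obtain ⟨i, hi⟩ := Finset.card_ne_zero.1 h'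
      exact ⟨i, (Finset.mem_filter.1 hi).2⟩
    obtain ⟨b, hb⟩ : ∃ b, g2 b = 2 := by
      have h' : (Finset.univ.filter fun a => g2 a = 2).card ≠ 0 := by rw [hcard 2]; simp
      obtain ⟨i, hi⟩ := Finset.card_ne_zero.1 h'
      exact ⟨i, (Finset.mem_filter.1 hi).2⟩
    have h := hR a b (fun h => by rw [h, hb] at ha; exact absurd ha (by decide))
    rw [ha, hb] at h
    simp [triJ] at h
    linarith [(abs_le.1 (hbd a b)).1, h.2]
  have hle : ∀ a b, w (g2 a) * w (g2 b) * R a b ≤
      T (g2 a) (g2 b) + if a = b then (if g2 a = 0 then 0 else 1 / L * (1 / L) * (1 - c)) else 0 := by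
    intro a b
    by_cases hab : a = b
    · subst hab
      rw [if_pos rfl, hdiag a]
      generalize g2 a = u
      fin_cases u <;> simp [w, T] <;> ring_nf <;> rfl
    · rw [if_neg hab, add_zero]
      have h := hR a b hab
      have hb := (abs_le.1 (hbd a b))
      have hpp : 0 ≤ L⁻¹ * L⁻¹ := by positivity
      have hps : 0 ≤ s * L⁻¹ := by positivity
      generalize R a b = r at h hb ⊢
      generalize g2 a = u at h ⊢
      generalize g2 b = v at h ⊢
      fin_cases u <;> fin_cases v <;> simp [triJ, w, T] at h ⊢ <;> (try obtain ⟨h, h'⟩ := h) <;>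
        nlinarith
  have htot := hP.trans (Finset.sum_le_sum fun a _ => Finset.sum_le_sum fun b _ => hle a b)
  have hfib : ∀ F : Fin 3 → ℝ, ∑ a : Fin n2, F (g2 a) = F 0 + L * F 1 + L * F 2 := by
    intro F
    rw [← Finset.sum_fiberwise Finset.univ g2 (fun a => F (g2 a))]
    rw [Fin.sum_univ_three]
    have hF : ∀ t : Fin 3, ∑ a ∈ Finset.univ.filter (fun a => g2 a = t), F (g2 a) =
        ((Finset.univ.filter fun a => g2 a = t).card : ℝ) * F t := by
      intro t
      rw [Finset.sum_congr rfl (fun a ha => by rw [(Finset.mem_filter.1 ha).2]), Finset.sum_const,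
        nsmul_eq_mul]
    rw [hF, hF, hF, hcard, hcard, hcard]
    simp [hL]
  simp only [Finset.sum_add_distrib, Finset.sum_ite_eq, Finset.mem_univ, if_true] at htot
  rw [hfib (fun u => if u = 0 then 0 else 1 / L * (1 / L) * (1 - c))] at htot
  simp only [fun u => hfib (fun v => T u v)] at htot
  rw [hfib (fun u => T u 0 + L * T u 1 + L * T u 2)] at htot
  refine ⟨hcm, htot.trans (le_of_eq ?_)⟩
  simp only [T, Fin.reduceEq, if_true, if_false, Fin.val_zero, Fin.val_one, Fin.val_two]
  norm_num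
  field_simp
  ring

/-- No triangle has two long sides and one short one. -/
theorem Arr.triangle_null (A : Arr) {x y c : ℝ} (hxy : x < y) (hyc : y < c) :
    (A.law 3).real {R | R 0 1 < x ∧ y ≤ R 0 2 ∧ R 0 2 < c ∧
      c - (y - x) ^ 2 / 4 ≤ R 1 2 ∧ R 1 2 < c} = 0 := by
  classical
  have := fun m => A.prob m
  by_contra hne
  set η : ℝ := (y - x) ^ 2 / 4 with hη
  set J := triJ x y c η with hJdef
  have hxc : x ≤ c := (hxy.trans hyc).le
  have hbase : 0 < (A.law 3).real (pattern J (id : Fin 3 → Fin 3)) := by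
    refine (lt_of_le_of_ne measureReal_nonneg (Ne.symm hne)).trans_le ?_
    refine ENNReal.toReal_mono (measure_ne_top _ _) (measure_mono_ae ?_)
    filter_upwards [A.symm 3] with R hR hmem a b hab
    obtain ⟨h01, h02, h02', h12, h12'⟩ := hmem
    fin_cases a <;> fin_cases b <;> simp [J, triJ, hR 1 0, hR 2 0, hR 2 1, *] at hab ⊢ <;> linarith
  obtain ⟨M, hM⟩ := exists_nat_gt (8 / (y - x) ^ 2)
  obtain ⟨n1, g1, hn1, hc1, hp1⟩ := A.pattern_grow (measurableSet_triJ x y c η) (triJ_symm x y c η) (c := c) (s := 1) (by simp [triJ]) (triJ_subset hxc (by decide)) M 3 id (by norm_num) ⟨1, rfl⟩ hbase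
  obtain ⟨i2, hi2⟩ : ∃ i, g1 i = 2 := by
    have h := hc1 2
    rw [if_neg (by decide), add_zero] at h
    have h' : (Finset.univ.filter fun a => g1 a = 2).card ≠ 0 := by rw [h]; decide
    obtain ⟨i, hi⟩ := Finset.card_ne_zero.1 h'
    exact ⟨i, (Finset.mem_filter.1 hi).2⟩
  obtain ⟨n2, g2, hn2, hc2, hp2⟩ := A.pattern_grow (measurableSet_triJ x y c η) (triJ_symm x y c η) (c := c) (s := 2) (by simp [triJ]) (triJ_subset hxc (by decide)) M n1 g1 hn1 ⟨i2, hi2⟩ hp1
  have hcard : ∀ t, (Finset.univ.filter fun a => g2 a = t).card = if t = 0 then 1 else M + 1 := by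
    intro t
    rw [hc2 t, hc1 t]
    fin_cases t <;> simp [Finset.filter_eq'] <;> omega
  set s : ℝ := y - x with hsdef
  set L : ℝ := (M : ℝ) + 1 with hL
  obtain ⟨R, hR, hP, hdiag, hbd⟩ : ∃ R ∈ pattern J g2,
      0 ≤ ∑ a, ∑ b, ![s, 1 / L, -(1 / L)] (g2 a) * ![s, 1 / L, -(1 / L)] (g2 b) * R a b ∧
        (∀ a, R a a = 1) ∧ ∀ a b, |R a b| ≤ 1 := by
    by_contra hno
    push Not at hno
    rw [measureReal_def] at hp2
    refine (ENNReal.toReal_pos_iff.1 hp2).1.ne' (measure_eq_zero_iff_ae_notMem.2 ?_)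
    filter_upwards [A.pos _ (fun a => ![s, 1 / L, -(1 / L)] (g2 a)), A.diag _, A.bdd _] with R h1 h2 h3 hR
    obtain ⟨a, b, hab⟩ := hno R hR h1 h2
    exact absurd (h3 a b) (not_le.2 hab)
  have hs0 : 0 < s := by rw [hsdef]; linarith
  obtain ⟨hcm, hmain⟩ := pattern_sq_le hL hs0 hR hdiag hbd hcard hP
  have hLpos : (0 : ℝ) < L := by rw [hL]; positivity
  have hM' : 8 / s ^ 2 < L := by rw [hL]; linarith
  rw [div_lt_iff₀ (by positivity)] at hM'
  have h4 : 2 * (1 - c) / L < s ^ 2 / 2 := by
    rw [div_lt_iff₀ hLpos]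
    nlinarith
  rw [hη] at hmain
  nlinarith

/-- Overlaps are ultrametric. -/
theorem Arr.ultra (A : Arr) (n : ℕ) :
    ∀ᵐ R ∂A.law n, ∀ a b c, min (R a b) (R b c) ≤ R a c := by
  classical
  have := fun m => A.prob m
  -- oriented form
  have h3 : ∀ᵐ R ∂A.law 3, R 0 2 ≤ R 1 2 → R 0 2 ≤ R 0 1 := by
    have hnull : ∀ᵐ R ∂A.law 3, ∀ x y c : ℚ, x < y → y < c →
        ¬ (R 0 1 < (x : ℝ) ∧ (y : ℝ) ≤ R 0 2 ∧ R 0 2 < (c : ℝ) ∧
          (c : ℝ) - ((y : ℝ) - x) ^ 2 / 4 ≤ R 1 2 ∧ R 1 2 < (c : ℝ)) := by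
      refine ae_all_iff.2 fun x => ae_all_iff.2 fun y => ae_all_iff.2 fun c => ?_
      by_cases hxy : x < y ∧ y < c
      · have := A.triangle_null (x := x) (y := y) (c := c) (by exact_mod_cast hxy.1)
          (by exact_mod_cast hxy.2)
        rw [measureReal_eq_zero_iff, measure_eq_zero_iff_ae_notMem] at this
        filter_upwards [this] with R hR _ _
        exact hR
      · exact .of_forall fun R h h' => absurd ⟨h, h'⟩ hxy
    filter_upwards [hnull] with R hR hle
    by_contra hlt
    push Not at hlt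
    obtain ⟨x, hx1, hx2⟩ := exists_rat_btwn hlt
    obtain ⟨y, hy1, hy2⟩ := exists_rat_btwn hx2
    have hxy : (0 : ℝ) < ((y : ℝ) - x) ^ 2 / 4 := by
      have : (0 : ℝ) < (y : ℝ) - x := sub_pos.2 hy1
      positivity
    obtain ⟨c, hc1, hc2⟩ := exists_rat_btwn
      (show R 1 2 < R 1 2 + ((y : ℝ) - x) ^ 2 / 4 by linarith)
    exact hR x y c (by exact_mod_cast hy1)
      (by exact_mod_cast (show (y : ℝ) < c by linarith))
      ⟨hx1, hy2.le, by linarith, by linarith, hc1⟩
  refine ae_all_iff.2 fun a => ae_all_iff.2 fun b => ae_all_iff.2 fun c => ?_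
  by_cases hne : a ≠ b ∧ b ≠ c ∧ a ≠ c
  · obtain ⟨hab, hbc, hac⟩ := hne
    have e1 : Function.Injective ![a, c, b] := by
      intro u v huv
      fin_cases u <;> fin_cases v <;> simp_all [eq_comm]
    have e2 : Function.Injective ![c, a, b] := by
      intro u v huv
      fin_cases u <;> fin_cases v <;> simp_all [eq_comm]
    filter_upwards [A.ae_marg _ e1 h3, A.ae_marg _ e2 h3, A.symm n] with R h1 h2 hs
    simp [sub] at h1 h2
    rcases le_total (R a b) (R b c) with h | h
    · rw [min_eq_left h]; rw [hs c b] at h1; exact h1 h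
    · rw [min_eq_right h]
      rw [hs c b, hs c a] at h2
      exact h2 h
  · filter_upwards [A.diag n, A.bdd n] with R hd hb
    by_cases hab : a = b
    · subst hab; exact min_le_right _ _
    by_cases hbc : b = c
    · subst hbc; exact min_le_left _ _
    have hac : a = c := by
      by_contra hac
      exact hne ⟨hab, hbc, hac⟩
    subst hac
    rw [hd a]
    exact (min_le_left _ _).trans (abs_le.1 (hb a b)).2

/-- A discretisation at scale `1/K`. -/
structure Discr (A : Arr) (K : ℕ) where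
  r : ℕ
  C : Casc r
  q : Fin (r + 1) → ℝ
  τ : ℝ → Fin (r + 1)
  measτ : Measurable τ
  monoq : Monotone q
  rangeq : ∀ j, 0 ≤ q j ∧ q j ≤ 1 - 1 / (K : ℝ)
  cdfpos : ∀ j, j ≠ 0 → 0 < C.cdf j
  law : ∀ n (Ψ : LMat r n → ℝ), ∫ R, Ψ (lift τ R) ∂A.law n = ∑ B, C.P n B * Ψ B
  close : ∀ᵐ R ∂A.law 2, |q (τ (R 0 1)) - R 0 1| ≤ 2 / (K : ℝ)

theorem measurable_lift {r : ℕ} {τ : ℝ → Fin (r + 1)} (hτ : Measurable τ) :
    Measurable fun R : Mat n => lift τ R := by
  refine measurable_pi_iff.2 fun a => measurable_pi_iff.2 fun b => ?_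
  simp only [lift]
  split_ifs
  · exact measurable_const
  · exact hτ.comp (measurable_entry a b)

theorem sub_lift {r k : ℕ} (τ : ℝ → Fin (r + 1)) (R : Mat n) {e : Fin k → Fin n}
    (he : Function.Injective e) : sub (lift τ R) e = lift τ (sub R e) := by
  funext a b
  simp [sub, lift, he.eq_iff]

/-- Probabilities of the level matrices. -/
noncomputable def Arr.lev (A : Arr) {r : ℕ} (τ : ℝ → Fin (r + 1)) (n : ℕ) (B : LMat r n) : ℝ :=
  (A.law n).real ((fun R => lift τ R) ⁻¹' {B})

theorem Arr.sum_lev (A : Arr) {r : ℕ} {τ : ℝ → Fin (r + 1)} (hτ : Measurable τ) (n : ℕ)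
    (Ψ : LMat r n → ℝ) : ∫ R, Ψ (lift τ R) ∂A.law n = ∑ B, A.lev τ n B * Ψ B := by
  have := A.prob n
  rw [← integral_map (measurable_lift hτ).aemeasurable
    (measurable_of_finite Ψ).aestronglyMeasurable, integral_fintype Integrable.of_finite]
  refine Finset.sum_congr rfl fun B _ => ?_
  rw [smul_eq_mul, map_measureReal_apply (measurable_lift hτ) (measurableSet_singleton B)]
  rfl

theorem Arr.exists_of_lev (A : Arr) {r : ℕ} {τ : ℝ → Fin (r + 1)} {B : LMat r n}
    (hB : A.lev τ n B ≠ 0) {p : Mat n → Prop} (hp : ∀ᵐ R ∂A.law n, p R) :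
    ∃ R, p R ∧ lift τ R = B := by
  have := A.prob n
  by_contra hno
  push Not at hno
  refine hB ?_
  rw [Arr.lev, measureReal_eq_zero_iff, measure_eq_zero_iff_ae_notMem]
  filter_upwards [hp] with R hR h
  exact hno R hR h

/-- The levels of a limit array seen through a monotone step function form a discrete array. -/
noncomputable def Arr.toCasc (A : Arr) {r : ℕ} (τ : ℝ → Fin (r + 1)) (hτ : Measurable τ)
    (hmono : Monotone τ) : Casc r where
  P := A.lev τ
  nonneg n B := measureReal_nonneg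
  total n := by
    have := A.prob n
    have h := A.sum_lev hτ n (fun _ => 1)
    simpa using h.symm
  marg {k n} e he Φ := by
    rw [← A.sum_lev hτ n (fun B => Φ (sub B e)), ← A.sum_lev hτ k Φ]
    simp only [sub_lift τ _ he]
    exact A.integral_marg e he ((measurable_of_finite Φ).comp (measurable_lift hτ))
  symm n B hB a b := by
    obtain ⟨R, hR, rfl⟩ := A.exists_of_lev hB (A.symm n)
    simp only [lift, eq_comm (a := b) (b := a), hR a b]
  diag n B hB a := by
    obtain ⟨R, -, rfl⟩ := A.exists_of_lev hB (A.symm n)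
    simp [lift]
  ultra n B hB a b c := by
    obtain ⟨R, hR, rfl⟩ := A.exists_of_lev hB (A.ultra n)
    by_cases hac : a = c
    · simp [lift, hac, Fin.le_last]
    by_cases hab : a = b
    · subst hab; exact min_le_right _ _
    by_cases hbc : b = c
    · subst hbc; exact min_le_left _ _
    simp only [lift, if_neg hac, if_neg hab, if_neg hbc, ← hmono.map_min]
    exact hmono (hR a b c)
  gg n l Φ ψ := by
    rw [← A.sum_lev hτ (n + 1) (fun B => Φ (sub B Fin.castSucc) * ψ (B l.castSucc (Fin.last n))),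
      ← A.sum_lev hτ n Φ, ← A.sum_lev hτ 2 (fun B => ψ (B 0 1)),
      Finset.sum_congr rfl fun l' _ => (A.sum_lev hτ n (fun B => Φ B * ψ (B l l'))).symm]
    have h := A.gg n l (fun R => Φ (lift τ R)) (fun x => ψ (τ x))
      ((measurable_of_finite Φ).comp (measurable_lift hτ)) ((measurable_of_finite ψ).comp hτ)
      ⟨∑ B, |Φ B|, fun R => Finset.single_le_sum (fun B _ => abs_nonneg (Φ B)) (Finset.mem_univ _)⟩
      ⟨∑ j, |ψ j|, fun x => Finset.single_le_sum (fun j _ => abs_nonneg (ψ j)) (Finset.mem_univ _)⟩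
    simp only [sub_lift τ _ (Fin.castSucc_injective n)]
    have e1 : ∀ R : Mat (n + 1), lift τ R l.castSucc (Fin.last n) = τ (R l.castSucc (Fin.last n)) :=
      fun R => if_neg (Fin.castSucc_lt_last l).ne
    have e2 : ∀ R : Mat 2, lift τ R 0 1 = τ (R 0 1) := fun R => if_neg (by decide)
    have e3 : ∀ l' ∈ Finset.univ.erase l, ∀ R : Mat n, lift τ R l l' = τ (R l l') :=
      fun l' hl' R => if_neg (Finset.ne_of_mem_erase hl').symm
    simp only [e1, e2]
    rw [h]
    congr 1
    refine Finset.sum_congr rfl fun l' hl' => ?_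
    simp only [e3 l' hl']

/-- The grid level of an overlap. -/
noncomputable def gridLev (K : ℕ) (x : ℝ) : ℕ := min (K - 1) ⌊x * (K : ℝ)⌋₊

/-- Every limit array has discretisations at every scale. -/
theorem Arr.exists_discr (A : Arr) {K : ℕ} (hK : 2 ≤ K) : Nonempty (Discr A K) := by
  classical
  have := fun m => A.prob m
  have hKpos : (0 : ℝ) < K := by exact_mod_cast (show 0 < K by omega)
  have hgm : Measurable (gridLev K) :=
    measurable_const.min (Nat.measurable_floor.comp (measurable_id.mul_const _))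
  have hgmono : Monotone (gridLev K) := fun x y hxy =>
    min_le_min le_rfl (Nat.floor_mono (mul_le_mul_of_nonneg_right hxy hKpos.le))
  have hglt : ∀ x, gridLev K x ≤ K - 1 := fun x => min_le_left _ _
  have hex : ∃ k, (A.law 2).real {R | gridLev K (R 0 1) = k} ≠ 0 := by
    by_contra hno
    push Not at hno
    have h0 : ∀ᵐ R ∂A.law 2, False := by
      have : ∀ᵐ R ∂A.law 2, ∀ k : ℕ, gridLev K (R 0 1) ≠ k := by
        refine ae_all_iff.2 fun k => ?_
        have := hno k
        rw [measureReal_eq_zero_iff, measure_eq_zero_iff_ae_notMem] at this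
        exact this
      filter_upwards [this] with R hR
      exact hR _ rfl
    obtain ⟨R, hR⟩ := h0.exists
    exact hR
  set k0 := Nat.find hex with hk0
  have hk0spec := Nat.find_spec hex
  have hk0lt : k0 ≤ K - 1 := by
    by_contra h
    refine hk0spec ?_
    have : {R : Mat 2 | gridLev K (R 0 1) = k0} = ∅ := by
      ext R
      simp only [Set.mem_ofPred_eq, Set.mem_empty_iff_false, iff_false]
      intro hR
      have := hglt (R 0 1)
      omega
    rw [this]
    simp
  have hlow : ∀ᵐ R ∂A.law 2, k0 ≤ gridLev K (R 0 1) := by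
    have : ∀ᵐ R ∂A.law 2, ∀ k : ℕ, k < k0 → gridLev K (R 0 1) ≠ k := by
      refine ae_all_iff.2 fun k => ?_
      by_cases hk : k < k0
      · have := not_not.1 (Nat.find_min hex hk)
        rw [measureReal_eq_zero_iff, measure_eq_zero_iff_ae_notMem] at this
        filter_upwards [this] with R hR _
        exact hR
      · exact .of_forall fun R h => absurd h hk
    filter_upwards [this] with R hR
    by_contra h
    exact hR _ (not_le.1 h) rfl
  let τ : ℝ → Fin (K - 1 - k0 + 1) := fun x =>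
    ⟨gridLev K x - k0, by have := hglt x; omega⟩
  have hτ : Measurable τ := by
    refine measurable_to_countable' fun j => ?_
    have : τ ⁻¹' {j} = gridLev K ⁻¹' {k | k - k0 = (j : ℕ)} := by
      ext x
      simp [τ, Fin.ext_iff]
    rw [this]
    exact hgm (Set.to_countable _).measurableSet
  have hmono : Monotone τ := fun x y hxy => Nat.sub_le_sub_right (hgmono hxy) k0
  refine ⟨{
    r := K - 1 - k0
    C := A.toCasc τ hτ hmono
    q := fun j => ((k0 : ℝ) + (j : ℕ)) / K
    τ := τ
    measτ := hτ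
    monoq := fun i j hij => by
      have : ((i : ℕ) : ℝ) ≤ (j : ℕ) := Nat.cast_le.2 hij
      exact div_le_div_of_nonneg_right (by linarith) hKpos.le
    rangeq := fun j => ⟨by positivity, ?_⟩
    cdfpos := fun j hj => ?_
    law := fun n Ψ => A.sum_lev hτ n Ψ
    close := ?_ }⟩
  · rw [le_sub_iff_add_le, ← add_div, div_le_one hKpos]
    have : k0 + (j : ℕ) + 1 ≤ K := by omega
    exact_mod_cast this
  · have hj' : 0 < (j : ℕ) := Nat.pos_of_ne_zero fun h => hj (Fin.ext h)
    have h := A.sum_lev hτ 2 (fun B : LMat (K - 1 - k0) 2 => if B 0 1 < j then (1 : ℝ) else 0)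
    change 0 < ∑ B, A.lev τ 2 B * (if B 0 1 < j then (1 : ℝ) else 0)
    rw [← h]
    refine lt_of_lt_of_le (lt_of_le_of_ne measureReal_nonneg (Ne.symm hk0spec)) ?_
    have hm : MeasurableSet {R : Mat 2 | gridLev K (R 0 1) = k0} :=
      hgm.comp (measurable_entry 0 1) (measurableSet_singleton k0)
    rw [← integral_indicator_one hm]
    have hΨ : Measurable fun B : LMat (K - 1 - k0) 2 => if B 0 1 < j then (1 : ℝ) else 0 :=
      measurable_of_finite _
    refine integral_mono ((integrable_const 1).indicator hm) ?_ fun R => ?_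
    · refine Integrable.of_bound (hΨ.comp (measurable_lift hτ)).aestronglyMeasurable 1
        (.of_forall fun R => ?_)
      split_ifs <;> simp
    · simp only [Set.indicator_apply, Pi.one_apply, Set.mem_ofPred_eq]
      split_ifs with h1 h2 h3
      · exact le_rfl
      · refine absurd ?_ h2
        simp only [lift, τ, if_neg (show (0 : Fin 2) ≠ 1 by decide)]
        rw [Fin.lt_def]
        dsimp only
        omega
      · exact zero_le_one
      · exact le_rfl
  · filter_upwards [hlow, A.nonneg 2, A.bdd 2] with R hk hnn hb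
    set x := R 0 1 with hx
    have hx0 : 0 ≤ x := hnn 0 1
    have hx1 : x ≤ 1 := (abs_le.1 (hb 0 1)).2
    have hq : ((k0 : ℝ) + ((τ x : Fin (K - 1 - k0 + 1)) : ℕ)) / (K : ℝ) = (gridLev K x : ℝ) / K := by
      congr 1
      simp only [τ]
      exact_mod_cast Nat.add_sub_cancel' hk
    change |((k0 : ℝ) + ((τ x : Fin (K - 1 - k0 + 1)) : ℕ)) / K - x| ≤ 2 / K
    rw [hq]
    have hf := Nat.floor_le (mul_nonneg hx0 hKpos.le)
    have hf' := Nat.lt_floor_add_one (x * (K : ℝ))
    have hfl : (⌊x * (K : ℝ)⌋₊ : ℝ) ≤ K := hf.trans (by nlinarith)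
    have hg1 : (gridLev K x : ℝ) ≤ x * K := le_trans (by exact_mod_cast min_le_right _ _) hf
    have hg2 : x * K ≤ (gridLev K x : ℝ) + 2 := by
      rcases le_total ⌊x * (K : ℝ)⌋₊ (K - 1) with h | h
      · rw [gridLev, min_eq_right h]; linarith
      · rw [gridLev, min_eq_left h, Nat.cast_sub (by omega)]
        push_cast
        nlinarith
    rw [abs_le, neg_le_sub_iff_le_add, sub_le_iff_le_add]
    constructor
    · rw [← add_div, le_div_iff₀ hKpos]; exact hg2
    · rw [div_le_iff₀ hKpos, add_mul, div_mul_cancel₀ _ hKpos.ne']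
      linarith

end Vale.Agent.P157.Low
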