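import Vale.Agent.P157.Low.TiltLimitSeries
import Vale.Agent.P157.Low.Ultra

/-!
Limit arrays: positive semidefiniteness, and the convergence of their discretisations.
-/

namespace Vale.Agent.P157.Low

open MeasureTheory ProbabilityTheory Filter
open scoped RealInnerProductSpace Topology

variable {A : Arr} {n : ℕ}

lemma posSemidef_of_form {R : Mat n} (hs : ∀ a b, R a b = R b a)
    (hp : ∀ c : Fin n → ℝ, 0 ≤ ∑ a, ∑ b, c a * c b * R a b) : (Matrix.of R).PosSemidef := by
  refine Matrix.PosSemidef.of_dotProduct_mulVec_nonneg ?_ fun x => ?_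
  · ext a b
    simp [hs a b]
  · refine (hp x).trans_eq ?_
    simp only [dotProduct, Matrix.mulVec, Matrix.of_apply, star_trivial, Finset.mul_sum]
    exact Finset.sum_congr rfl fun a _ => Finset.sum_congr rfl fun b _ => by ring

lemma Arr.ae_posSemidef (A : Arr) (n : ℕ) : ∀ᵐ R ∂A.law n, (Matrix.of R).PosSemidef := by
  obtain ⟨u, hu⟩ := TopologicalSpace.exists_dense_seq (Fin n → ℝ)
  have hall : ∀ᵐ R ∂A.law n, ∀ i, 0 ≤ ∑ a, ∑ b, u i a * u i b * R a b :=
    ae_all_iff.2 fun i => A.pos n (u i)
  filter_upwards [hall, A.symm n] with R hR hs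
  refine posSemidef_of_form hs fun c => ?_
  exact hu.induction_on (p := fun c => 0 ≤ ∑ a, ∑ b, c a * c b * R a b) c
    (isClosed_le continuous_const (by fun_prop)) hR

lemma Sys.posSemidef_gram (T : Sys) (x : Fin n → T.X) : (Matrix.of (T.gram x)).PosSemidef := by
  refine posSemidef_of_form (fun a b => real_inner_comm _ _) fun c => ?_
  have h : ∑ a, ∑ b, c a * c b * T.gram x a b =
      ⟪∑ a, c a • T.v (x a), ∑ b, c b • T.v (x b)⟫ := by
    simp only [sum_inner, inner_sum, real_inner_smul_left, real_inner_smul_right, Sys.gram]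
    refine Finset.sum_congr rfl fun a _ => Finset.sum_congr rfl fun b _ => ?_
    rw [real_inner_comm (T.v (x a)) (T.v (x b))]
    ring
  rw [h]
  exact real_inner_self_nonneg

/-- Overlaps of a fixed pair lie within the error of their levels. -/
lemma Discr.close_pair {K : ℕ} (D : Discr A K) {a b : Fin n} (hab : a ≠ b) :
    ∀ᵐ R ∂A.law n, |D.q (D.τ (R a b)) - R a b| ≤ 2 / (K : ℝ) := by
  have he : Function.Injective (![a, b] : Fin 2 → Fin n) := by
    intro i j hij
    fin_cases i <;> fin_cases j <;> simp_all [eq_comm]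
  have h := D.close
  rw [← A.marg _ he] at h
  have hm : Measurable fun R : Mat n => sub R ![a, b] := by unfold sub; fun_prop
  simpa [sub] using ae_of_ae_map hm.aemeasurable h

lemma qmat_sub {r k : ℕ} (q : Fin (r + 1) → ℝ) (B : LMat r n) {e : Fin k → Fin n}
    (he : Function.Injective e) : qmat q (sub B e) = sub (qmat q B) e := by
  funext a b
  simp [qmat, sub, he.eq_iff]

/-- Continuous functions of the discretised array converge to those of the array. -/
lemma tendsto_discr (D : ∀ K, Discr A (K + 2)) {H : Mat n → ℝ} (hH : Continuous H) {C : ℝ}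
    (hb : ∀ R, |H R| ≤ C) :
    Tendsto (fun K => ∑ B, (D K).C.P n B * H (qmat (D K).q B)) atTop (𝓝 (∫ R, H R ∂A.law n)) := by
  have := A.prob n
  simp only [← (D _).law n]
  refine tendsto_integral_of_dominated_convergence (fun _ => C) (fun K => ?_) (integrable_const C)
    (fun K => Eventually.of_forall fun R => by rw [Real.norm_eq_abs]; exact hb _) ?_
  · exact ((measurable_of_countable fun B => H (qmat (D K).q B)).comp
      (measurable_lift (D K).measτ)).aestronglyMeasurable
  · have hall : ∀ᵐ R ∂A.law n, ∀ (K : ℕ) (a b : Fin n), a ≠ b →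
        |(D K).q ((D K).τ (R a b)) - R a b| ≤ 2 / ((K + 2 : ℕ) : ℝ) := by
      refine ae_all_iff.2 fun K => ae_all_iff.2 fun a => ae_all_iff.2 fun b => ?_
      by_cases h : a = b
      · exact Eventually.of_forall fun R hne => absurd h hne
      · exact ((D K).close_pair h).mono fun R hR _ => hR
    filter_upwards [hall, A.diag n] with R hR hd
    refine (hH.tendsto R).comp (tendsto_pi_nhds.2 fun a => tendsto_pi_nhds.2 fun b => ?_)
    by_cases h : a = b
    · subst h
      simp [qmat, hd a]
    · simp only [qmat, lift, if_neg h]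
      refine tendsto_iff_norm_sub_tendsto_zero.2 (squeeze_zero (fun K => norm_nonneg _)
        (fun K => (Real.norm_eq_abs _).trans_le (hR K a b h)) ?_)
      exact (tendsto_const_div_atTop_nhds_zero_nat (2 : ℝ)).comp (tendsto_add_atTop_nat 2)

lemma sum_incr {r : ℕ} (q : Fin (r + 1) → ℝ) (j : Fin (r + 1)) :
    ∑ i, (if i ≤ j then incr q i else 0) = q j := by
  induction j using Fin.induction with
  | zero =>
    rw [Finset.sum_eq_single (0 : Fin (r + 1))]
    · simp [incr]
    · intro i _ hi
      rw [if_neg]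
      intro h
      exact hi (Fin.le_zero_iff.1 h)
    · simp
  | succ j ih =>
    have h : ∀ i, (if i ≤ j.succ then incr q i else 0) =
        (if i ≤ j.castSucc then incr q i else 0) + if i = j.succ then incr q j.succ else 0 := by
      intro i
      by_cases hi : i = j.succ
      · subst hi
        simp [Fin.castSucc_lt_succ.not_ge]
      · by_cases hle : i ≤ j.castSucc
        · simp [hi, hle, hle.trans Fin.castSucc_lt_succ.le]
        · have : ¬i ≤ j.succ := fun hh => hle (Fin.le_castSucc_iff.2 (lt_of_le_of_ne hh hi))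
          simp [hi, hle, this]
    simp only [h, Finset.sum_add_distrib, ih, Finset.sum_ite_eq', Finset.mem_univ, if_true]
    have hs : incr q j.succ = q j.succ - q j.castSucc := by
      simp only [incr, Fin.val_succ, Nat.succ_ne_zero, dite_false, Nat.add_sub_cancel]
      rfl
    rw [hs]
    ring

namespace Discr

variable {K : ℕ} (D : Discr A K)

lemma incr_nonneg (j : Fin (D.r + 1)) : 0 ≤ incr D.q j := by
  rw [incr]
  split_ifs with h
  · rw [sub_zero]; exact (D.rangeq j).1
  · exact sub_nonneg.2 (D.monoq (Fin.le_def.2 (Nat.sub_le _ _)))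

/-- Noise on the diagonal turns level covariances into matrices of values. -/
lemma qmat_eq {B : LMat D.r n} (hd : ∀ a, B a a = Fin.last D.r) :
    qmat D.q B = fun a b => lcov (incr D.q) B a b + if a = b then 1 - D.q (Fin.last D.r) else 0 := by
  funext a b
  simp only [lcov, sum_incr, qmat]
  split_ifs with h
  · subst h
    rw [hd a]
    ring
  · rw [add_zero]

lemma rest_nonneg' : 0 ≤ 1 - D.q (Fin.last D.r) := by
  have h := (D.rangeq (Fin.last D.r)).2
  have : (0 : ℝ) ≤ 1 / (K : ℝ) := by positivity
  linarith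

lemma posSemidef_qmat {B : LMat D.r n} (h : D.C.P n B ≠ 0) :
    (Matrix.of (qmat D.q B)).PosSemidef := by
  have hl := posSemidef_lcov D.incr_nonneg (D.C.symm n B h) (D.C.diag n B h) (D.C.ultra n B h)
  have hd : (Matrix.diagonal fun _ : Fin n => 1 - D.q (Fin.last D.r)).PosSemidef :=
    Matrix.PosSemidef.diagonal fun _ => D.rest_nonneg'
  convert hl.add hd using 1
  ext a b
  rw [D.qmat_eq (D.C.diag n B h)]
  simp [Matrix.diagonal]

/-- A Gaussian average of a product at the values equals one at the levels with smoothed factors. -/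
lemma sum_GE_qmat (F : Fin n → ℝ → ℝ) (hF : ∀ l, Measurable (F l))
    (hb : ∀ l, ∃ C, ∀ y, |F l y| ≤ C) {G : Mat n → ℝ}
    (hG : ∀ M, (Matrix.of M).PosSemidef → G M = GE M fun x => ∏ l, F l (x l))
    (Φ : LMat D.r n → ℝ) :
    ∑ B, D.C.P n B * (Φ B * GE (lcov (incr D.q) B) fun x => ∏ l, heat (F l) (1 - D.q (Fin.last D.r)) (x l)) =
      ∑ B, D.C.P n B * (Φ B * G (qmat D.q B)) := by
  refine Finset.sum_congr rfl fun B _ => ?_
  rcases eq_or_ne (D.C.P n B) 0 with h | h
  · rw [h, zero_mul, zero_mul]
  · rw [hG _ (D.posSemidef_qmat h), D.qmat_eq (D.C.diag n B h),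
      GE_add_diag (posSemidef_lcov D.incr_nonneg (D.C.symm n B h) (D.C.diag n B h) (D.C.ultra n B h))
        D.rest_nonneg' F hF hb]

end Discr

end Vale.Agent.P157.Low
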