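import Vale.Agent.P157.Low.Replica
import Vale.Agent.P157.Low.Gauss2

/-!
Elementary series: logarithm and negative powers of one minus an average, and the bounds that
allow termwise integration.
-/

namespace Vale.Agent.P157.Low

open MeasureTheory ProbabilityTheory Filter
open scoped RealInnerProductSpace Topology

/-- Termwise integration of a uniformly dominated series. -/
lemma hasSum_integral_bdd {α : Type} [MeasurableSpace α] {μ : Measure α} [IsProbabilityMeasure μ]
    {F : ℕ → α → ℝ} {f : α → ℝ} {b : ℕ → ℝ} (hm : ∀ k, Measurable (F k)) (hb : ∀ k a, |F k a| ≤ b k)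
    (hs : Summable b) (h : ∀ a, HasSum (fun k => F k a) (f a)) :
    HasSum (fun k => ∫ a, F k a ∂μ) (∫ a, f a ∂μ) :=
  hasSum_integral_of_dominated_convergence (fun k _ => b k) (fun k => (hm k).aestronglyMeasurable)
    (fun k => Eventually.of_forall (hb k)) (Eventually.of_forall fun _ => hs) (integrable_const _)
    (Eventually.of_forall h)

lemma abs_GE_le {n : ℕ} (C : Mat n) {Θ : (Fin n → ℝ) → ℝ} {B : ℝ} (hb : ∀ x, |Θ x| ≤ B) :
    |GE C Θ| ≤ B := by
  have := norm_integral_le_of_norm_le_const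
    (μ := multivariateGaussian (0 : EuclideanSpace ℝ (Fin n)) (Matrix.of C))
    (f := fun x => Θ (WithLp.ofLp x)) (C := B) (Eventually.of_forall fun x => by
      rw [Real.norm_eq_abs]; exact hb _)
  simpa [GE, Real.norm_eq_abs] using this

/-- The negative binomial series. -/
lemma hasSum_negCoef_q (n : ℕ) {m : ℝ} (hm : |m| < 1) :
    HasSum (fun k => (negCoef n k : ℝ) * m ^ k) ((1 - m) ^ n)⁻¹ := by
  cases n with
  | zero =>
    convert hasSum_ite_eq (0 : ℕ) (1 : ℝ) using 1
    · funext k
      simp only [negCoef]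
      split_ifs with hk <;> simp [hk]
    all_goals simp
  | succ n =>
    have h := hasSum_choose_mul_geometric_of_norm_lt_one n (r := m) (by rwa [Real.norm_eq_abs])
    rw [one_div] at h
    refine h.congr_fun fun k => ?_
    show ((((n + k).choose k : ℕ) : ℝ)) * m ^ k = _
    rw [(Nat.choose_symm_add (a := n) (b := k)).symm, Nat.add_comm]

lemma summable_negCoef (n : ℕ) {ρ : ℝ} (h0 : 0 ≤ ρ) (h1 : ρ < 1) (D : ℝ) :
    Summable fun k => (negCoef n k : ℝ) * (D * ρ ^ k) := by
  simpa only [mul_left_comm D] using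
    (hasSum_negCoef_q n (m := ρ) (by rwa [abs_of_nonneg h0])).summable.mul_left D

lemma summable_pow_div {ρ : ℝ} (h0 : 0 ≤ ρ) (h1 : ρ < 1) :
    Summable fun k : ℕ => ρ ^ (k + 1) / ((k : ℝ) + 1) :=
  (Real.hasSum_pow_div_log_of_abs_lt_one (by rwa [abs_of_nonneg h0])).summable

section Bounds

variable {c ρ : ℝ} {W : ℝ → ℝ}

lemma abs_prod_res_le {k : ℕ} (hW : ∀ y, |1 - W y / c| ≤ ρ) (h : Fin k → ℝ) :
    |∏ l, (1 - W (h l) / c)| ≤ ρ ^ k := by
  rw [Finset.abs_prod]
  exact (Finset.prod_le_prod (fun l _ => abs_nonneg _) fun l _ => hW (h l)).trans_eq (by simp)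

lemma abs_wt_le (hW : ∀ y, |1 - W y / c| ≤ ρ) (y : ℝ) : |W y / c| ≤ 1 + ρ := by
  have := abs_le.1 (hW y)
  rw [abs_le]
  constructor <;> linarith

lemma pos_of_near (hc : 0 < c) (hρ : ρ < 1) (hW : ∀ y, |1 - W y / c| ≤ ρ) (y : ℝ) : 0 < W y := by
  have h := (abs_le.1 (hW y)).2
  have : 0 < W y / c := by linarith
  exact (div_pos_iff_of_pos_right hc).1 this

lemma abs_ratioTerm_le {n k : ℕ} (hW : ∀ y, |1 - W y / c| ≤ ρ) {θ : Fin n → ℝ → ℝ} {D : Fin n → ℝ}
    (hθ : ∀ l y, |θ l y| ≤ D l) (h : Fin (n + k) → ℝ) :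
    |ratioTerm c W θ h| ≤ (∏ l, D l * (1 + ρ)) * ρ ^ k := by
  rw [ratioTerm, abs_mul, Finset.abs_prod]
  refine mul_le_mul (Finset.prod_le_prod (fun l _ => abs_nonneg _) fun l _ => ?_)
    (abs_prod_res_le hW _) (abs_nonneg _) (Finset.prod_nonneg fun l _ => ?_)
  · rw [abs_mul]
    exact mul_le_mul (hθ l _) (abs_wt_le hW _) (abs_nonneg _) ((abs_nonneg _).trans (hθ l 0))
  · exact mul_nonneg ((abs_nonneg _).trans (hθ l 0)) ((abs_nonneg _).trans (abs_wt_le hW 0))

lemma continuous_ratioTerm {n k : ℕ} (hW : Continuous W) {θ : Fin n → ℝ → ℝ}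
    (hθ : ∀ l, Continuous (θ l)) : Continuous (ratioTerm (n := n) (k := k) c W θ) := by
  unfold ratioTerm
  fun_prop

lemma measurable_ratioTerm {n k : ℕ} (hW : Measurable W) {θ : Fin n → ℝ → ℝ}
    (hθ : ∀ l, Measurable (θ l)) : Measurable (ratioTerm (n := n) (k := k) c W θ) := by
  unfold ratioTerm
  fun_prop

end Bounds

/-- Replica averages are measurable in parameters. -/
lemma Sys.measurable_inner (T : Sys) {P : Type} [MeasurableSpace P] {π : P → T.Ω} (hπ : Measurable π)
    {m : ℕ} {F : P → (Fin m → T.X) → ℝ} (hF : Measurable (Function.uncurry F)) :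
    Measurable fun p => ∫ x, F p x ∂Measure.pi fun _ : Fin m => gibbs T.ref (T.w (π p)) := by
  simp only [fun p => integral_pi_gibbs_rep (μ := T.ref) (T.wt (π p)) (F p)]
  refine Measurable.div ?_ ((T.measurable_mass.comp hπ).pow_const m)
  refine (StronglyMeasurable.integral_prod_right'
    (f := fun q : P × (Fin m → T.X) => (∏ l, T.w (π q.1) (q.2 l)) * F q.1 q.2) ?_).measurable
  exact ((Finset.measurable_prod _ fun l _ => T.measW.comp
    ((hπ.comp measurable_fst).prodMk ((measurable_pi_apply l).comp measurable_snd))).mul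
      hF).stronglyMeasurable

section Series

variable {c : ℝ} {W : ℝ → ℝ}

/-- The series of an expected log-average at a Gaussian field with arbitrary features. -/
theorem log_series {X E : Type} [MeasurableSpace X] [NormedAddCommGroup E] [InnerProductSpace ℝ E]
    [FiniteDimensional ℝ E] [MeasurableSpace E] [BorelSpace E] (G : Measure X) [IsProbabilityMeasure G]
    {u : X → E} (hu : Measurable u) (hm : Measurable W) {ρ : ℝ} (hρ : ρ < 1) (hc : 0 < c)
    (hW : ∀ y, |1 - W y / c| ≤ ρ) :
    ∫ g, Real.log (∫ x, W ⟪g, u x⟫ ∂G) ∂stdGaussian E =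
      logSer c W fun n Θ => ∫ x, GE (fun a b => ⟪u (x a), u (x b)⟫) Θ
        ∂Measure.pi fun _ : Fin n => G := by
  have hρ0 : 0 ≤ ρ := (abs_nonneg _).trans (hW 0)
  have hjoint : ∀ k, Measurable fun p : E × (Fin k → X) => ∏ l, (1 - W ⟪p.1, u (p.2 l)⟫ / c) := fun k => by
    fun_prop
  set F : ℕ → E → ℝ := fun k g =>
    (∫ x, ∏ l, (1 - W ⟪g, u (x l)⟫ / c) ∂Measure.pi fun _ : Fin (k + 1) => G) / ((k : ℝ) + 1) with hF
  have hFm : ∀ k, Measurable (F k) := fun k =>
    ((hjoint (k + 1)).stronglyMeasurable.integral_prod_right').measurable.div_const _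
  have hFb : ∀ k g, |F k g| ≤ ρ ^ (k + 1) / ((k : ℝ) + 1) := fun k g => by
    have hk : (0 : ℝ) < (k : ℝ) + 1 := by positivity
    simp only [hF]
    rw [abs_div, abs_of_pos hk]
    refine div_le_div_of_nonneg_right ?_ hk.le
    have := norm_integral_le_of_norm_le_const (μ := Measure.pi fun _ : Fin (k + 1) => G)
      (f := fun x => ∏ l, (1 - W ⟪g, u (x l)⟫ / c)) (C := ρ ^ (k + 1))
      (Eventually.of_forall fun x => by rw [Real.norm_eq_abs]; exact abs_prod_res_le hW _)
    simpa [Real.norm_eq_abs] using this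
  have hY : ∀ g : E, Integrable (fun x => W ⟪g, u x⟫ / c) G := fun g =>
    Integrable.of_bound ((hm.comp (measurable_const.inner hu)).div_const c).aestronglyMeasurable (1 + ρ)
      (Eventually.of_forall fun x => by rw [Real.norm_eq_abs]; exact abs_wt_le hW _)
  have hsum : ∀ g, HasSum (fun k => F k g) (Real.log c - Real.log (∫ x, W ⟪g, u x⟫ ∂G)) := fun g => by
    set m := ∫ x, (1 - W ⟪g, u x⟫ / c) ∂G with hm'
    have hmb : |m| ≤ ρ := by
      have := norm_integral_le_of_norm_le_const (μ := G) (f := fun x => 1 - W ⟪g, u x⟫ / c) (C := ρ)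
        (Eventually.of_forall fun x => by rw [Real.norm_eq_abs]; exact hW _)
      simpa [Real.norm_eq_abs] using this
    have hI : ∫ x, W ⟪g, u x⟫ ∂G = c * (1 - m) := by
      rw [hm', integral_sub (integrable_const _) (hY g), integral_const, integral_div, probReal_univ,
        one_smul]
      field_simp
      ring
    have h := Real.hasSum_pow_div_log_of_abs_lt_one (hmb.trans_lt hρ)
    convert h using 1
    · funext k
      simp only [hF]
      rw [integral_fintype_prod_eq_pow (fun x => 1 - W ⟪g, u x⟫ / c), Fintype.card_fin]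
    · rw [hI, Real.log_mul hc.ne' (by linarith [(abs_le.1 hmb).2])]
      ring
  have htot := hasSum_integral_bdd (μ := stdGaussian E) hFm hFb (summable_pow_div hρ0 hρ) hsum
  have hlogm : Integrable (fun g => Real.log (∫ x, W ⟪g, u x⟫ ∂G)) (stdGaussian E) := by
    have hm2 : Measurable fun g => ∫ x, W ⟪g, u x⟫ ∂G :=
      ((hm.comp (measurable_fst.inner (hu.comp measurable_snd))).stronglyMeasurable.integral_prod_right'
        (f := fun p : E × X => W ⟪p.1, u p.2⟫)).measurable
    refine Integrable.of_bound hm2.log.aestronglyMeasurable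
      (|Real.log c| + ∑' k : ℕ, ρ ^ (k + 1) / ((k : ℝ) + 1)) (Eventually.of_forall fun g => ?_)
    have hb := tsum_of_norm_bounded (summable_pow_div hρ0 hρ).hasSum
      (fun k => by rw [Real.norm_eq_abs]; exact hFb k g)
    rw [(hsum g).tsum_eq, Real.norm_eq_abs] at hb
    rw [Real.norm_eq_abs]
    obtain ⟨hb1, hb2⟩ := abs_le.1 hb
    exact abs_le.2 ⟨by linarith [neg_abs_le (Real.log c)], by linarith [le_abs_self (Real.log c)]⟩
  have hterm : ∀ k, ∫ g, F k g ∂stdGaussian E = (∫ x, GE (fun a b => ⟪u (x a), u (x b)⟫)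
      (fun h => ∏ l, (1 - W (h l) / c)) ∂Measure.pi fun _ : Fin (k + 1) => G) / ((k : ℝ) + 1) := by
    intro k
    simp only [hF]
    rw [integral_div]
    congr 1
    rw [integral_integral_swap (f := fun g (x : Fin (k + 1) → X) => ∏ l, (1 - W ⟪g, u (x l)⟫ / c))]
    · exact integral_congr_ae (Eventually.of_forall fun x =>
        integral_inner_eq_GE (fun l => u (x l))
          (Θ := fun h : Fin (k + 1) → ℝ => ∏ l, (1 - W (h l) / c)) (by fun_prop))
    · exact Integrable.of_bound (hjoint _).aestronglyMeasurable (ρ ^ (k + 1))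
        (Eventually.of_forall fun p => by rw [Real.norm_eq_abs]; exact abs_prod_res_le hW _)
  rw [integral_sub (integrable_const _) hlogm, integral_const, probReal_univ, one_smul] at htot
  simp only [logSer]
  rw [← tsum_congr hterm, htot.tsum_eq]
  ring

/-- The series of replica averages with insertions in a tilted system. -/
theorem Sys.tilt_series (T : Sys) {δ B : ℝ} (hm : Measurable W) (hδ : 0 < δ)
    (hb : ∀ y, δ ≤ W y ∧ W y ≤ B) {ρ : ℝ} (hρ : ρ < 1) (hc : 0 < c) (hW : ∀ y, |1 - W y / c| ≤ ρ)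
    {n : ℕ} {Θ : T.Ω → (Fin n → T.X) → ℝ} (hΘm : Measurable (Function.uncurry Θ))
    (hΘb : ∃ D, ∀ ω x, |Θ ω x| ≤ D) (θ : Fin n → ℝ → ℝ) (hθm : ∀ l, Measurable (θ l))
    (hθb : ∀ l, ∃ D, ∀ y, |θ l y| ≤ D) :
    (T.tilt W hm hδ hb).avgRep n (fun p x => Θ p.1 x * ∏ l, θ l ⟪p.2, T.v (x l)⟫) =
      ∑' k : ℕ, (negCoef n k : ℝ) * T.avgRep (n + k) fun ω x =>
        Θ ω (fun a => x (Fin.castAdd k a)) * GE (T.gram x) (ratioTerm c W θ) := by
  obtain ⟨D0, hD0⟩ := hΘb
  choose D hD using hθb
  have hρ0 : 0 ≤ ρ := (abs_nonneg _).trans (hW 0)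
  have hv := T.measV
  set M := |D0| * ∏ l, D l * (1 + ρ) with hM
  -- the integrand of the `k`-th term
  set Z : ∀ k, T.Ω × T.E → (Fin (n + k) → T.X) → ℝ := fun k p x =>
    Θ p.1 (fun a => x (Fin.castAdd k a)) * ratioTerm c W θ fun l => ⟪p.2, T.v (x l)⟫ with hZ
  have hfield : ∀ k, Measurable fun q : (T.Ω × T.E) × (Fin (n + k) → T.X) =>
      fun l => ⟪q.1.2, T.v (q.2 l)⟫ := fun k => measurable_pi_lambda _ fun l =>
    (measurable_snd.comp measurable_fst).inner
      (T.measV.comp ((measurable_pi_apply l).comp measurable_snd))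
  have hZm : ∀ k, Measurable (Function.uncurry (Z k)) := fun k =>
    (hΘm.comp ((measurable_fst.comp measurable_fst).prodMk (measurable_pi_lambda _ fun a =>
      (measurable_pi_apply (Fin.castAdd k a)).comp measurable_snd))).mul
      ((measurable_ratioTerm hm hθm).comp (hfield k))
  have hZb : ∀ k p x, |Z k p x| ≤ M * ρ ^ k := fun k p x => by
    simp only [hZ, hM]
    rw [abs_mul, mul_assoc]
    exact mul_le_mul ((hD0 _ _).trans (le_abs_self _)) (abs_ratioTerm_le hW hD _) (abs_nonneg _)
      (abs_nonneg _)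
  set F : ℕ → T.Ω × T.E → ℝ := fun k p =>
    (negCoef n k : ℝ) * ∫ x, Z k p x ∂Measure.pi fun _ : Fin (n + k) => gibbs T.ref (T.w p.1) with hF
  have hFm : ∀ k, Measurable (F k) := fun k => (T.measurable_inner measurable_fst (hZm k)).const_mul _
  have hFb : ∀ k p, |F k p| ≤ (negCoef n k : ℝ) * (M * ρ ^ k) := fun k p => by
    have := isProbabilityMeasure_gibbs (μ := T.ref) (T.wt p.1)
    simp only [hF]
    rw [abs_mul, Nat.abs_cast]
    refine mul_le_mul_of_nonneg_left ?_ (Nat.cast_nonneg' _)
    have := norm_integral_le_of_norm_le_const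
      (μ := Measure.pi fun _ : Fin (n + k) => gibbs T.ref (T.w p.1)) (f := Z k p) (C := M * ρ ^ k)
      (Eventually.of_forall fun x => by rw [Real.norm_eq_abs]; exact hZb k p x)
    simpa [Real.norm_eq_abs] using this
  have hpt : ∀ p : T.Ω × T.E, HasSum (fun k => F k p)
      (∫ x, Θ p.1 x * ∏ l, θ l ⟪p.2, T.v (x l)⟫
        ∂Measure.pi fun _ : Fin n => gibbs T.ref fun a => T.w p.1 a * W ⟪p.2, T.v a⟫) := by
    intro p
    have := isProbabilityMeasure_gibbs (μ := T.ref) (T.wt p.1)
    set G := gibbs T.ref (T.w p.1)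
    have hu : Wt fun a => W ⟪p.2, T.v a⟫ :=
      ⟨hm.comp (measurable_const.inner T.measV), |Real.log δ| + |Real.log B|, fun a => by
        obtain ⟨h1, h2⟩ := hb ⟪p.2, T.v a⟫
        refine ⟨hδ.trans_le h1, ?_⟩
        have l1 := Real.log_le_log hδ h1
        have l2 := Real.log_le_log (hδ.trans_le h1) h2
        rw [abs_le]
        constructor <;>
          linarith [neg_abs_le (Real.log δ), le_abs_self (Real.log B), abs_nonneg (Real.log B),
            abs_nonneg (Real.log δ)]⟩
    set m := ∫ a, (1 - W ⟪p.2, T.v a⟫ / c) ∂G with hm'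
    have hmb : |m| ≤ ρ := by
      have := norm_integral_le_of_norm_le_const (μ := G) (f := fun a => 1 - W ⟪p.2, T.v a⟫ / c) (C := ρ)
        (Eventually.of_forall fun x => by rw [Real.norm_eq_abs]; exact hW _)
      simpa [Real.norm_eq_abs] using this
    have hI : ∫ a, W ⟪p.2, T.v a⟫ ∂G = c * (1 - m) := by
      rw [hm', integral_sub (integrable_const _) (hu.integrable.div_const c), integral_const,
        integral_div, probReal_univ, one_smul]
      field_simp
      ring
    set J := ∫ x, Θ p.1 x * ∏ l, θ l ⟪p.2, T.v (x l)⟫ * (W ⟪p.2, T.v (x l)⟫ / c)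
      ∂Measure.pi fun _ : Fin n => G with hJ
    have hval : (∫ x, Θ p.1 x * ∏ l, θ l ⟪p.2, T.v (x l)⟫
        ∂Measure.pi fun _ : Fin n => gibbs T.ref fun a => T.w p.1 a * W ⟪p.2, T.v a⟫) =
        J * ((1 - m) ^ n)⁻¹ := by
      rw [integral_pi_gibbs_mul (T.wt p.1) hu, hI, mul_pow, hJ, ← div_eq_mul_inv,
        ← div_div]
      congr 1
      rw [← integral_div]
      refine integral_congr_ae (Eventually.of_forall fun x => ?_)
      simp only [Finset.prod_mul_distrib, Finset.prod_div_distrib, Finset.prod_const, Finset.card_univ,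
        Fintype.card_fin]
      ring
    rw [hval]
    refine ((hasSum_negCoef_q n (hmb.trans_lt hρ)).mul_left J).congr_fun fun k => ?_
    simp only [hF, hZ, ratioTerm]
    rw [show m ^ k = ∫ y, ∏ l, (1 - W ⟪p.2, T.v (y l)⟫ / c) ∂Measure.pi fun _ : Fin k => G by
      rw [integral_fintype_prod_eq_pow (fun a => 1 - W ⟪p.2, T.v a⟫ / c), Fintype.card_fin],
      mul_left_comm J, hJ, ← integral_prod_mul, ← map_pi_split G n k, integral_map]
    · congr 1
      refine integral_congr_ae (Eventually.of_forall fun x => ?_)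
      simp only
      ring
    · exact (Measurable.prodMk (measurable_pi_lambda _ fun l => measurable_pi_apply _)
        (measurable_pi_lambda _ fun l => measurable_pi_apply _)).aemeasurable
    · refine Measurable.aestronglyMeasurable ?_
      refine Measurable.mul ?_ ?_
      · exact (hΘm.comp (measurable_const.prodMk measurable_fst)).mul (by fun_prop)
      · fun_prop
  have htot := hasSum_integral_bdd (μ := T.law.prod (stdGaussian T.E)) hFm hFb
    (summable_negCoef n hρ0 hρ M) hpt
  refine htot.tsum_eq.symm.trans (tsum_congr fun k => ?_)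
  simp only [hF]
  rw [integral_const_mul]
  congr 1
  rw [integral_prod]
  · refine integral_congr_ae (Eventually.of_forall fun ω => ?_)
    have := isProbabilityMeasure_gibbs (μ := T.ref) (T.wt ω)
    simp only
    rw [integral_integral_swap]
    · refine integral_congr_ae (Eventually.of_forall fun x => ?_)
      simp only [hZ]
      rw [integral_const_mul, integral_inner_eq_GE (fun l => T.v (x l)) (measurable_ratioTerm hm hθm)]
      rfl
    · exact Integrable.of_bound
        ((hZm k).comp ((measurable_const.prodMk measurable_fst).prodMk measurable_snd)).aestronglyMeasurable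
        (M * ρ ^ k) (Eventually.of_forall fun q => by rw [Real.norm_eq_abs]; exact hZb k _ _)
  · refine Integrable.of_bound (T.measurable_inner measurable_fst (hZm k)).aestronglyMeasurable
      (M * ρ ^ k) (Eventually.of_forall fun p => ?_)
    have := isProbabilityMeasure_gibbs (μ := T.ref) (T.wt p.1)
    exact (norm_integral_le_of_norm_le_const (C := M * ρ ^ k) (Eventually.of_forall fun x => by
      rw [Real.norm_eq_abs]; exact hZb k p x)).trans_eq (by simp)

end Series

end Vale.Agent.P157.Low
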